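import Crest.Prelude.Def_ArtinGroup

/-! The equation lemmas of `artinAltWord` are realised once, here. -/

set_option autoImplicit false

namespace Crest.Agent.R175

open Crest.GroupTheory

theorem anchor_eq_def : type_of% @artinAltWord.eq_def := @artinAltWord.eq_def
theorem anchor_eq_1 : type_of% @artinAltWord.eq_1 := @artinAltWord.eq_1
theorem anchor_eq_2 : type_of% @artinAltWord.eq_2 := @artinAltWord.eq_2

end Crest.Agent.R175
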