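import Crest.Agent.R175.CDefs

/-! Row 175, S0264: internal amalgamated products of two subgroups. -/

set_option autoImplicit false

namespace Crest.Agent.R175.Cat

variable {A : Type} [Group A]

/-- `St G₀ G₁ E i c`: `c` is an alternating product of letters outside `E`, the first letter lying
in `G₀` (`i = false`) or `G₁` (`i = true`) -/
inductive St (G₀ G₁ E : Subgroup A) : Bool → A → Prop
  | one (i : Bool) (g : A) : g ∈ (bif i then G₁ else G₀) → g ∉ E → St G₀ G₁ E i g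
  | cons (i : Bool) (g c : A) : g ∈ (bif i then G₁ else G₀) → g ∉ E → St G₀ G₁ E (!i) c →
      St G₀ G₁ E i (g * c)

/-- `G₀ ⊔ G₁` is the amalgamated product of `G₀` and `G₁` over `E` -/
structure IsAmalg (G₀ G₁ E : Subgroup A) : Prop where
  le₀ : E ≤ G₀
  le₁ : E ≤ G₁
  nf : ∀ i c, St G₀ G₁ E i c → c ∉ E

/-- `g E` is the first edge of the path from the vertex `G₀` to the vertex `c G₀` -/
def First (G₀ G₁ E : Subgroup A) (c g : A) : Prop := g ∈ G₀ ∧ St G₀ G₁ E true (g⁻¹ * c)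

variable {G₀ G₁ E : Subgroup A}

/-! Part 1 -/

theorem St.symm {i : Bool} {c : A} (h : St G₀ G₁ E i c) : St G₁ G₀ E (!i) c := by
  induction h with
  | one i g h1 h2 => exact St.one _ g (by cases i <;> exact h1) h2
  | cons i g c h1 h2 _ ih => exact St.cons _ g c (by cases i <;> exact h1) h2 ih

theorem IsAmalg.symm (h : IsAmalg G₀ G₁ E) : IsAmalg G₁ G₀ E :=
  ⟨h.le₁, h.le₀, fun _ c hc => h.nf _ c hc.symm⟩

theorem St.mem {i : Bool} {c : A} (h : St G₀ G₁ E i c) : c ∈ G₀ ⊔ G₁ := by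
  have key : ∀ (i : Bool) (g : A), g ∈ (bif i then G₁ else G₀) → g ∈ G₀ ⊔ G₁ := by
    intro i g hg
    cases i
    · exact Subgroup.mem_sup_left hg
    · exact Subgroup.mem_sup_right hg
  induction h with
  | one i g h1 _ => exact key i g h1
  | cons i g c h1 _ _ ih => exact mul_mem (key i g h1) ih

theorem IsAmalg.am1_le (h : IsAmalg G₀ G₁ E) (i : Bool) : E ≤ (bif i then G₁ else G₀) := by
  cases i
  · exact h.le₀
  · exact h.le₁

theorem St.am1_glue {i : Bool} {c : A} (hc : St G₀ G₁ E i c) :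
    ∀ d, St G₀ G₁ E (!i) d → ∃ j, St G₀ G₁ E j (c⁻¹ * d) := by
  induction hc with
  | one i g h1 h2 =>
    exact fun d hd => ⟨i, St.cons i _ d (inv_mem h1) (fun h => h2 (inv_mem_iff.1 h)) hd⟩
  | cons i g c h1 h2 _ ih =>
    intro d hd
    rw [mul_inv_rev, mul_assoc]
    refine ih _ ?_
    rw [Bool.not_not]
    exact St.cons i _ d (inv_mem h1) (fun h => h2 (inv_mem_iff.1 h)) hd

theorem IsAmalg.am1_right (h : IsAmalg G₀ G₁ E) {i : Bool} {c g : A} (hc : St G₀ G₁ E i c)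
    (hg : g ∈ G₀ ∨ g ∈ G₁) :
    St G₀ G₁ E i (c * g) ∨ (c ∈ (bif i then G₁ else G₀) ∧ c * g ∈ E) := by
  induction hc with
  | one i a h1 h2 =>
    by_cases h3 : g ∈ (bif i then G₁ else G₀)
    · by_cases he : a * g ∈ E
      · exact Or.inr ⟨h1, he⟩
      · exact Or.inl (St.one i _ (mul_mem h1 h3) he)
    · refine Or.inl (St.cons i a g h1 h2 (St.one _ g ?_ fun he => h3 (h.am1_le i he)))
      cases i
      · exact hg.resolve_left h3
      · exact hg.resolve_right h3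
  | cons i a c h1 h2 _ ih =>
    rw [mul_assoc]
    rcases ih with ih | ih
    · exact Or.inl (St.cons i a _ h1 h2 ih)
    · exact Or.inl (St.one i _ (mul_mem h1 (h.am1_le i ih.2))
        fun he => h2 ((mul_mem_cancel_right ih.2).1 he))

theorem IsAmalg.left (h : IsAmalg G₀ G₁ E) {i : Bool} {c e : A} (hc : St G₀ G₁ E i c) (he : e ∈ E) :
    St G₀ G₁ E i (e * c) := by
  cases hc with
  | one _ _ h1 h2 =>
    exact St.one _ _ (mul_mem (h.am1_le i he) h1) fun h3 => h2 ((mul_mem_cancel_left he).1 h3)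
  | cons _ g c h1 h2 h3 =>
    rw [← mul_assoc]
    exact St.cons _ _ _ (mul_mem (h.am1_le i he) h1)
      (fun h3 => h2 ((mul_mem_cancel_left he).1 h3)) h3

/-- induction on the first word: `c⁻¹ * d` is again an alternating product, so it is not `1` -/
theorem IsAmalg.disj (h : IsAmalg G₀ G₁ E) {c : A} (h0 : St G₀ G₁ E false c)
    (h1 : St G₀ G₁ E true c) : False := by
  obtain ⟨j, hj⟩ := h0.am1_glue c h1
  rw [inv_mul_cancel] at hj
  exact h.nf j 1 hj (one_mem E)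

theorem IsAmalg.inter (h : IsAmalg G₀ G₁ E) {g : A} (h0 : g ∈ G₀) (h1 : g ∈ G₁) : g ∈ E := by
  by_contra hg
  exact h.disj (St.one false g h0 hg) (St.one true g h1 hg)

theorem IsAmalg.cover (h : IsAmalg G₀ G₁ E) {c : A} (hc : c ∈ G₀ ⊔ G₁) :
    c ∈ E ∨ St G₀ G₁ E false c ∨ St G₀ G₁ E true c := by
  have step : ∀ x g : A, g ∈ G₀ ∨ g ∈ G₁ →
      (x ∈ E ∨ St G₀ G₁ E false x ∨ St G₀ G₁ E true x) →
      (x * g ∈ E ∨ St G₀ G₁ E false (x * g) ∨ St G₀ G₁ E true (x * g)) := by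
    intro x g hg hx
    by_cases he : x * g ∈ E
    · exact Or.inl he
    rcases hx with hx | hx | hx
    · rcases hg with hg | hg
      · exact Or.inr (Or.inl (St.one false _ (mul_mem (h.le₀ hx) hg) he))
      · exact Or.inr (Or.inr (St.one true _ (mul_mem (h.le₁ hx) hg) he))
    · exact Or.inr (Or.inl ((h.am1_right hx hg).resolve_right fun h' => he h'.2))
    · exact Or.inr (Or.inr ((h.am1_right hx hg).resolve_right fun h' => he h'.2))
  rw [Subgroup.sup_eq_closure] at hc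
  induction hc using Subgroup.closure_induction_right with
  | one => exact Or.inl (one_mem E)
  | mul_right x _ y hy ih => exact step x y hy ih
  | mul_inv_cancel x _ y hy ih =>
    exact step x y⁻¹ (hy.imp (fun h => inv_mem (show y ∈ G₀ from h))
      fun h => inv_mem (show y ∈ G₁ from h)) ih

theorem IsAmalg.right (h : IsAmalg G₀ G₁ E) {i : Bool} {c g : A} (hc : St G₀ G₁ E i c)
    (hg : g ∈ G₀ ∨ g ∈ G₁) :
    St G₀ G₁ E i (c * g) ∨ (c ∈ (bif i then G₁ else G₀) ∧ c * g ∈ E) :=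
  h.am1_right hc hg

theorem IsAmalg.first_exists (h : IsAmalg G₀ G₁ E) {c : A} (hc : c ∈ G₀ ⊔ G₁) (h0 : c ∉ G₀) :
    ∃ g, First G₀ G₁ E c g := by
  rcases h.cover hc with h1 | h1 | h1
  · exact absurd (h.le₀ h1) h0
  · cases h1 with
    | one _ _ h2 _ => exact absurd h2 h0
    | cons _ g c h2 _ h4 => exact ⟨g, h2, by rwa [inv_mul_cancel_left]⟩
  · exact ⟨1, one_mem _, by rwa [inv_one, one_mul]⟩

theorem IsAmalg.first_unique (h : IsAmalg G₀ G₁ E) {c g g' : A} (h1 : First G₀ G₁ E c g)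
    (h2 : First G₀ G₁ E c g') : g⁻¹ * g' ∈ E := by
  by_contra he
  have := St.cons false _ _ (mul_mem (inv_mem h1.1) h2.1) he h2.2
  rw [mul_assoc, mul_inv_cancel_left] at this
  exact h.disj this h1.2

theorem IsAmalg.first_not_mem (h : IsAmalg G₀ G₁ E) {c g : A} (h1 : First G₀ G₁ E c g) :
    c ∉ G₀ :=
  fun hc => h.disj (St.one false _ (mul_mem (inv_mem h1.1) hc) (h.nf _ _ h1.2)) h1.2

theorem First.left {c g k : A} (h1 : First G₀ G₁ E c g) (hk : k ∈ G₀) :
    First G₀ G₁ E (k * c) (k * g) :=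
  ⟨mul_mem hk h1.1, by rw [mul_inv_rev, mul_assoc, inv_mul_cancel_left]; exact h1.2⟩

theorem IsAmalg.first_right₀ (h : IsAmalg G₀ G₁ E) {c g k : A} (h1 : First G₀ G₁ E c g)
    (hk : k ∈ G₀) : First G₀ G₁ E (c * k) g := by
  refine ⟨h1.1, ?_⟩
  rw [← mul_assoc]
  refine (h.right h1.2 (Or.inl hk)).resolve_right fun h2 => h.first_not_mem h1 ?_
  exact (mul_mem_cancel_left (inv_mem h1.1)).1 ((mul_mem_cancel_right hk).1 (h.le₀ h2.2))

theorem IsAmalg.first_right₁ (h : IsAmalg G₀ G₁ E) {c g b : A} (h1 : First G₀ G₁ E c g)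
    (hb : b ∈ G₁) (h0 : c * b ∉ G₀) : First G₀ G₁ E (c * b) g := by
  refine ⟨h1.1, ?_⟩
  rw [← mul_assoc]
  refine (h.right h1.2 (Or.inr hb)).resolve_right fun h2 => h0 ?_
  have := h.le₀ h2.2
  rw [mul_assoc] at this
  exact (mul_mem_cancel_left (inv_mem h1.1)).1 this

theorem IsAmalg.first_mul (h : IsAmalg G₀ G₁ E) {g b : A} (hg : g ∈ G₀) (hb : b ∈ G₁)
    (h0 : g * b ∉ G₀) : First G₀ G₁ E (g * b) g := by
  refine ⟨hg, ?_⟩
  rw [inv_mul_cancel_left]
  exact St.one true b hb fun he => h0 (mul_mem hg (h.le₀ he))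

/-- `z` fixes the first edge of the path from `G₀` to `a G₀` -/
theorem IsAmalg.conj (h : IsAmalg G₀ G₁ E) {z a : A} (hz : z ∈ G₀) (ha : a ∈ G₀ ⊔ G₁)
    (h0 : a ∉ G₀) (h1 : a⁻¹ * z * a ∈ G₀) : ∃ g ∈ G₀, g⁻¹ * z * g ∈ E := by
  obtain ⟨g, hg⟩ := h.first_exists ha h0
  have h2 := h.first_right₀ hg h1
  rw [show a * (a⁻¹ * z * a) = z * a by group] at h2
  exact ⟨g, hg.1, by rw [mul_assoc]; exact h.first_unique h2 (hg.left hz)⟩

/-- induction on `St`, for all words `e * c` with `e ∈ E` at once: if `e * c = g * c'` with at least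
two letters, then `z * g * c'` and `g * c' * (a⁻¹ z a)` have the same first letter modulo `E` -/
theorem IsAmalg.conjInd (h : IsAmalg G₀ G₁ E) {z : A} (hz : z ∈ E) {H : Subgroup A}
    (hH : ∀ k ∈ H, Commute k z)
    (h0 : ∀ g ∈ G₀, g⁻¹ * z * g ∈ E → ∃ k ∈ H, ∃ e ∈ E, g = k * e)
    (h1 : ∀ g ∈ G₁, g⁻¹ * z * g ∈ E → ∃ k ∈ H, ∃ e ∈ E, g = k * e)
    {a : A} (ha : a ∈ G₀ ⊔ G₁) (h2 : a⁻¹ * z * a ∈ G₀) : ∃ k ∈ H, ∃ g ∈ G₀, a = k * g := by
  have key : ∀ i c, St G₀ G₁ E i c → ∀ e ∈ E, (e * c)⁻¹ * z * (e * c) ∈ G₀ →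
      ∃ k ∈ H, ∃ g ∈ G₀, e * c = k * g := by
    intro i c hc
    induction hc with
    | one i g hg _ =>
      intro e he h3
      cases i with
      | false => exact ⟨1, H.one_mem, e * g, G₀.mul_mem (h.le₀ he) hg, (one_mul _).symm⟩
      | true =>
        have h4 : e * g ∈ G₁ := G₁.mul_mem (h.le₁ he) hg
        obtain ⟨k, hk, e', he', h5⟩ := h1 _ h4 (h.inter h3
          (G₁.mul_mem (G₁.mul_mem (G₁.inv_mem h4) (h.le₁ hz)) h4))
        exact ⟨k, hk, e', h.le₀ he', h5⟩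
    | cons i g c hg _ hc ih =>
      intro e he h3
      have h4 : ∃ k ∈ H, ∃ e' ∈ E, e * g = k * e' := by
        have e1 : (e * g)⁻¹ * (e * (g * c)) = c := by group
        have e2 : e * (g * c) * ((e * (g * c))⁻¹ * z * (e * (g * c))) = z * (e * (g * c)) := by group
        cases i with
        | false =>
          have f1 : First G₀ G₁ E (e * (g * c)) (e * g) :=
            ⟨G₀.mul_mem (h.le₀ he) hg, by rw [e1]; exact hc⟩
          have f2 := h.first_right₀ f1 h3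
          rw [e2] at f2
          exact h0 _ f1.1 (by rw [mul_assoc]; exact h.first_unique f2 (f1.left (h.le₀ hz)))
        | true =>
          have f1 : First G₁ G₀ E (e * (g * c)) (e * g) :=
            ⟨G₁.mul_mem (h.le₁ he) hg, by rw [e1]; exact hc.symm⟩
          have f3 := f1.left (h.le₁ hz)
          have f2 := h.symm.first_right₁ f1 h3 (by rw [e2]; exact h.symm.first_not_mem f3)
          rw [e2] at f2
          exact h1 _ f1.1 (by rw [mul_assoc]; exact h.symm.first_unique f2 f3)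
      obtain ⟨k, hk, e', he', h5⟩ := h4
      have h6 : e * (g * c) = k * (e' * c) := by rw [← mul_assoc, h5, mul_assoc]
      have h7 : k⁻¹ * z * k = z := by rw [mul_assoc, ← (hH k hk).eq, inv_mul_cancel_left]
      obtain ⟨k', hk', g', hg', h8⟩ := ih e' he' (by
        rw [h6, show (k * (e' * c))⁻¹ * z * (k * (e' * c)) =
          (e' * c)⁻¹ * (k⁻¹ * z * k) * (e' * c) by group, h7] at h3
        exact h3)
      exact ⟨k * k', H.mul_mem hk hk', g', hg', by rw [h6, h8, mul_assoc]⟩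
  rcases h.cover ha with h3 | h3 | h3
  · exact ⟨1, H.one_mem, a, h.le₀ h3, (one_mul _).symm⟩
  · simpa only [one_mul] using key _ _ h3 1 E.one_mem (by rwa [one_mul])
  · simpa only [one_mul] using key _ _ h3 1 E.one_mem (by rwa [one_mul])

/-- `c ↦ δ * α c * δ⁻¹` preserves `St`, so `First w g` gives `First (α w) (g * δ⁻¹)` -/
theorem IsAmalg.twist (h : IsAmalg G₀ G₁ ⊥) (α : A →* A) {δ : A} (hδ : δ ∈ G₀) (hδ1 : δ ≠ 1)
    (h0 : ∀ g ∈ G₀, α g = g) (h1 : ∀ g ∈ G₁, α g = δ⁻¹ * g * δ) {w : A} (hw : w ∈ G₀ ⊔ G₁)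
    (hα : α w = w) : w ∈ G₀ := by
  have k1 : ∀ (i : Bool) g, g ∈ (bif i then G₁ else G₀) → g ∉ (⊥ : Subgroup A) →
      δ * α g * δ⁻¹ ∈ (bif i then G₁ else G₀) ∧ δ * α g * δ⁻¹ ∉ (⊥ : Subgroup A) := by
    intro i g hg hg'
    cases i with
    | false =>
      rw [h0 g hg]
      refine ⟨G₀.mul_mem (G₀.mul_mem hδ hg) (G₀.inv_mem hδ), fun e => hg' ?_⟩
      rw [Subgroup.mem_bot] at e ⊢
      rw [show g = δ⁻¹ * (δ * g * δ⁻¹) * δ by group, e, mul_one, inv_mul_cancel]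
    | true =>
      rw [h1 g hg, show δ * (δ⁻¹ * g * δ) * δ⁻¹ = g by group]
      exact ⟨hg, hg'⟩
  have key : ∀ i c, St G₀ G₁ ⊥ i c → St G₀ G₁ ⊥ i (δ * α c * δ⁻¹) := by
    intro i c hc
    induction hc with
    | one i g hg hg' => exact St.one i _ (k1 i g hg hg').1 (k1 i g hg hg').2
    | cons i g c hg hg' _ ih =>
      rw [map_mul, show δ * (α g * α c) * δ⁻¹ = δ * α g * δ⁻¹ * (δ * α c * δ⁻¹) by group]
      exact St.cons i _ _ (k1 i g hg hg').1 (k1 i g hg hg').2 ih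
  by_contra hw0
  obtain ⟨g, hg⟩ := h.first_exists hw hw0
  have f1 : First G₀ G₁ ⊥ (w * δ⁻¹) (g * δ⁻¹) := by
    refine ⟨G₀.mul_mem hg.1 (G₀.inv_mem hδ), ?_⟩
    have := key _ _ hg.2
    rwa [map_mul, hα, h0 _ (G₀.inv_mem hg.1),
      show δ * (g⁻¹ * w) * δ⁻¹ = (g * δ⁻¹)⁻¹ * (w * δ⁻¹) by group] at this
  have f2 := h.first_right₀ f1 hδ
  rw [inv_mul_cancel_right] at f2
  have := h.first_unique hg f2
  rw [inv_mul_cancel_left, Subgroup.mem_bot, inv_eq_one] at this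
  exact hδ1 this

/-! Part 2 -/

theorem IsAmalg.map {B : Type} [Group B] (h : IsAmalg G₀ G₁ E) {f : A →* B}
    (hf : Function.Injective f) : IsAmalg (G₀.map f) (G₁.map f) (E.map f) := by
  have k1 : ∀ (i : Bool) g, g ∈ (bif i then G₁.map f else G₀.map f) → g ∉ E.map f →
      ∃ g', g' ∈ (bif i then G₁ else G₀) ∧ g' ∉ E ∧ f g' = g := by
    intro i g hg hg'
    cases i <;>
    · obtain ⟨g', h1, rfl⟩ := hg
      exact ⟨g', h1, fun e => hg' (Subgroup.mem_map_of_mem f e), rfl⟩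
  have key : ∀ i c, St (G₀.map f) (G₁.map f) (E.map f) i c → ∃ c', St G₀ G₁ E i c' ∧ f c' = c := by
    intro i c hc
    induction hc with
    | one i g hg hg' =>
      obtain ⟨g', h1, h2, rfl⟩ := k1 i g hg hg'
      exact ⟨g', St.one i _ h1 h2, rfl⟩
    | cons i g c hg hg' _ ih =>
      obtain ⟨g', h1, h2, rfl⟩ := k1 i g hg hg'
      obtain ⟨c', h3, rfl⟩ := ih
      exact ⟨g' * c', St.cons i _ _ h1 h2 h3, map_mul f _ _⟩
  refine ⟨Subgroup.map_mono h.le₀, Subgroup.map_mono h.le₁, fun i c hc he => ?_⟩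
  obtain ⟨c', h1, rfl⟩ := key i c hc
  exact h.nf i c' h1 ((Subgroup.mem_map_iff_mem hf).1 he)

open Monoid in
theorem CA3_word {H : Type} [Group H] {G : Bool → Type} [∀ b, Group (G b)] {φ : ∀ b, H →* G b}
    {i : Bool} {c : PushoutI φ}
    (h : St (PushoutI.of (φ := φ) false).range (PushoutI.of (φ := φ) true).range
      (PushoutI.base φ).range i c) :
    ∃ w : CoprodI.Word G, w.fstIdx = some i ∧ PushoutI.Reduced φ w ∧
      PushoutI.ofCoprodI w.prod = c := by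
  have key : ∀ (i : Bool) (g : PushoutI φ),
      g ∈ (bif i then (PushoutI.of (φ := φ) true).range else (PushoutI.of (φ := φ) false).range) →
      g ∉ (PushoutI.base φ).range → ∀ w : CoprodI.Word G, w.fstIdx ≠ some i →
      PushoutI.Reduced φ w → ∃ w' : CoprodI.Word G, w'.fstIdx = some i ∧ PushoutI.Reduced φ w' ∧
        PushoutI.ofCoprodI w'.prod = g * PushoutI.ofCoprodI w.prod := by
    intro i g hg hE w hw hr
    obtain ⟨k, rfl⟩ : g ∈ (PushoutI.of (φ := φ) i).range := by cases i <;> exact hg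
    have hk : k ∉ (φ i).range := by
      rintro ⟨y, rfl⟩
      exact hE ⟨y, (PushoutI.of_apply_eq_base φ i y).symm⟩
    have h1 : k ≠ 1 := by
      rintro rfl
      exact hk (one_mem _)
    refine ⟨CoprodI.Word.cons k w hw h1, CoprodI.Word.fstIdx_cons _ _ _ _, ?_, ?_⟩
    · intro l hl
      rcases List.mem_cons.1 hl with rfl | hl
      · exact hk
      · exact hr l hl
    · rw [CoprodI.Word.prod_cons, map_mul, PushoutI.ofCoprodI_of]
  induction h with
  | one i g hg hE =>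
    obtain ⟨w, h1, h2, h3⟩ := key i g hg hE CoprodI.Word.empty
      (by simp [CoprodI.Word.fstIdx, CoprodI.Word.empty]) (fun l hl => by cases hl)
    exact ⟨w, h1, h2, by rw [h3, CoprodI.Word.prod_empty, map_one, mul_one]⟩
  | cons i g c hg hE _ ih =>
    obtain ⟨w, h1, h2, rfl⟩ := ih
    exact key i g hg hE w (by rw [h1]; cases i <;> simp) h2

open Monoid in
theorem CA3_pushout {H : Type} [Group H] {G : Bool → Type} [∀ b, Group (G b)] {φ : ∀ b, H →* G b}
    (hφ : ∀ b, Function.Injective (φ b)) :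
    ∃ (P : Type) (_ : Group P) (f₀ : G false →* P) (f₁ : G true →* P), Function.Injective f₀ ∧
      Function.Injective f₁ ∧ f₀.comp (φ false) = f₁.comp (φ true) ∧
      IsAmalg f₀.range f₁.range (f₀.comp (φ false)).range ∧ f₀.range ⊔ f₁.range = ⊤ ∧
      ∀ (Q : Type) [Group Q] (g₀ : G false →* Q) (g₁ : G true →* Q),
        g₀.comp (φ false) = g₁.comp (φ true) → ∃ Θ : P →* Q, Θ.comp f₀ = g₀ ∧ Θ.comp f₁ = g₁ := by
  refine ⟨PushoutI φ, inferInstance, PushoutI.of false, PushoutI.of true,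
    PushoutI.of_injective hφ _, PushoutI.of_injective hφ _,
    by rw [PushoutI.of_comp_eq_base, PushoutI.of_comp_eq_base], ?_, ?_, ?_⟩
  · rw [PushoutI.of_comp_eq_base]
    refine ⟨?_, ?_, fun i c hc hE => ?_⟩
    · rintro _ ⟨y, rfl⟩
      exact ⟨φ false y, PushoutI.of_apply_eq_base φ _ y⟩
    · rintro _ ⟨y, rfl⟩
      exact ⟨φ true y, PushoutI.of_apply_eq_base φ _ y⟩
    · obtain ⟨w, h1, h2, rfl⟩ := CA3_word hc
      rw [h2.eq_empty_of_mem_range hφ hE] at h1
      simp [CoprodI.Word.fstIdx, CoprodI.Word.empty] at h1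
  · refine eq_top_iff.2 fun x _ => ?_
    induction x using PushoutI.induction_on with
    | of i g =>
      cases i
      · exact Subgroup.mem_sup_left ⟨g, rfl⟩
      · exact Subgroup.mem_sup_right ⟨g, rfl⟩
    | base h => exact Subgroup.mem_sup_left ⟨φ false h, PushoutI.of_apply_eq_base φ _ h⟩
    | mul x y hx hy => exact mul_mem (hx trivial) (hy trivial)
  · intro Q _ g₀ g₁ hg
    refine ⟨PushoutI.lift (fun b => Bool.rec (motive := fun b => G b →* Q) g₀ g₁ b)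
      (g₀.comp (φ false)) fun b => ?_, ?_, ?_⟩
    · cases b
      · rfl
      · exact hg.symm
    · exact MonoidHom.ext fun x => by rw [MonoidHom.comp_apply, PushoutI.lift_of]
    · exact MonoidHom.ext fun x => by rw [MonoidHom.comp_apply, PushoutI.lift_of]

/-- `Monoid.PushoutI` over `Bool`; `nf` is `Monoid.PushoutI.Reduced.eq_empty_of_mem_range` -/
theorem exists_amalg {H K₀ K₁ : Type} [Group H] [Group K₀] [Group K₁] {φ₀ : H →* K₀} {φ₁ : H →* K₁}
    (h₀ : Function.Injective φ₀) (h₁ : Function.Injective φ₁) :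
    ∃ (P : Type) (_ : Group P) (f₀ : K₀ →* P) (f₁ : K₁ →* P), Function.Injective f₀ ∧
      Function.Injective f₁ ∧ f₀.comp φ₀ = f₁.comp φ₁ ∧
      IsAmalg f₀.range f₁.range (f₀.comp φ₀).range ∧ f₀.range ⊔ f₁.range = ⊤ ∧
      ∀ (Q : Type) [Group Q] (g₀ : K₀ →* Q) (g₁ : K₁ →* Q), g₀.comp φ₀ = g₁.comp φ₁ →
        ∃ Θ : P →* Q, Θ.comp f₀ = g₀ ∧ Θ.comp f₁ = g₁ := by
  let _ : ∀ b : Bool, Group (Bool.rec (motive := fun _ => Type) K₀ K₁ b) := fun b =>
    Bool.rec (motive := fun b => Group (Bool.rec (motive := fun _ => Type) K₀ K₁ b))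
      ‹Group K₀› ‹Group K₁› b
  exact CA3_pushout (G := fun b => Bool.rec (motive := fun _ => Type) K₀ K₁ b)
    (φ := fun b => Bool.rec (motive := fun b => H →* Bool.rec (motive := fun _ => Type) K₀ K₁ b)
      φ₀ φ₁ b) fun b => by
    cases b
    · exact h₀
    · exact h₁

/-- map the word to the group of `exists_amalg` -/
theorem isAmalg_of_lift {H K₀ K₁ : Type} [Group H] [Group K₀] [Group K₁] {φ₀ : H →* K₀}
    {φ₁ : H →* K₁} (h₀ : Function.Injective φ₀) (h₁ : Function.Injective φ₁) (f₀ : K₀ →* A)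
    (f₁ : K₁ →* A) (hc : f₀.comp φ₀ = f₁.comp φ₁)
    (hU : ∀ (Q : Type) [Group Q] (g₀ : K₀ →* Q) (g₁ : K₁ →* Q), g₀.comp φ₀ = g₁.comp φ₁ →
      ∃ Θ : A →* Q, Θ.comp f₀ = g₀ ∧ Θ.comp f₁ = g₁) :
    IsAmalg f₀.range f₁.range (f₀.comp φ₀).range ∧ Function.Injective f₀ ∧
      Function.Injective f₁ := by
  obtain ⟨P, _, p₀, p₁, i₀, i₁, hp, hA, -, -⟩ := exists_amalg h₀ h₁
  obtain ⟨Θ, t₀, t₁⟩ := hU P p₀ p₁ hp
  have e₀ : ∀ k, Θ (f₀ k) = p₀ k := fun k => DFunLike.congr_fun t₀ k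
  have e₁ : ∀ k, Θ (f₁ k) = p₁ k := fun k => DFunLike.congr_fun t₁ k
  have key : ∀ (i : Bool) (g : A), g ∈ (bif i then f₁.range else f₀.range) →
      g ∉ (f₀.comp φ₀).range →
      Θ g ∈ (bif i then p₁.range else p₀.range) ∧ Θ g ∉ (p₀.comp φ₀).range := by
    intro i g hg hE
    cases i
    · obtain ⟨k, rfl⟩ := hg
      refine ⟨⟨k, (e₀ k).symm⟩, ?_⟩
      rintro ⟨y, hy⟩
      rw [e₀] at hy
      exact hE ⟨y, congrArg f₀ (i₀ hy)⟩
    · obtain ⟨k, rfl⟩ := hg
      refine ⟨⟨k, (e₁ k).symm⟩, ?_⟩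
      rintro ⟨y, hy⟩
      rw [e₁, hp] at hy
      exact hE ⟨y, by rw [hc]; exact congrArg f₁ (i₁ hy)⟩
  have hSt : ∀ i c, St f₀.range f₁.range (f₀.comp φ₀).range i c →
      St p₀.range p₁.range (p₀.comp φ₀).range i (Θ c) := by
    intro i c h
    induction h with
    | one i g hg hE => exact St.one i _ (key i g hg hE).1 (key i g hg hE).2
    | cons i g c hg hE _ ih =>
      rw [map_mul]
      exact St.cons i _ _ (key i g hg hE).1 (key i g hg hE).2 ih
  refine ⟨⟨?_, ?_, fun i c h hE => hA.nf i _ (hSt i c h) ?_⟩, fun x y h => i₀ ?_,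
    fun x y h => i₁ ?_⟩
  · rintro _ ⟨y, rfl⟩
    exact ⟨φ₀ y, rfl⟩
  · rw [hc]
    rintro _ ⟨y, rfl⟩
    exact ⟨φ₁ y, rfl⟩
  · obtain ⟨y, rfl⟩ := hE
    exact ⟨y, (e₀ _).symm⟩
  · rw [← e₀, ← e₀, h]
  · rw [← e₁, ← e₁, h]

theorem CA3_range {α : Type} (S : Set α) :
    (FreeGroup.map (Subtype.val : S → α)).range = Subgroup.closure (FreeGroup.of '' S) := by
  rw [FreeGroup.range_map, Subtype.range_coe]

/-- a free group is the free product of the two halves of its basis -/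
theorem isAmalg_free {α : Type} (S : Set α) :
    IsAmalg (Subgroup.closure (FreeGroup.of '' S)) (Subgroup.closure (FreeGroup.of '' Sᶜ))
      (⊥ : Subgroup (FreeGroup α)) ∧
    Subgroup.closure (FreeGroup.of '' S) ⊔ Subgroup.closure (FreeGroup.of '' Sᶜ) =
      (⊤ : Subgroup (FreeGroup α)) := by
  classical
  constructor
  · have h := (isAmalg_of_lift (H := PUnit) (φ₀ := (1 : PUnit →* FreeGroup S))
      (φ₁ := (1 : PUnit →* FreeGroup (Sᶜ : Set α))) (Function.injective_of_subsingleton _)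
      (Function.injective_of_subsingleton _) (FreeGroup.map Subtype.val)
      (FreeGroup.map Subtype.val) (by rw [MonoidHom.comp_one, MonoidHom.comp_one])
      fun Q _ g₀ g₁ _ => ⟨FreeGroup.lift fun a =>
        if h : a ∈ S then g₀ (FreeGroup.of ⟨a, h⟩) else g₁ (FreeGroup.of ⟨a, h⟩), ?_, ?_⟩).1
    · rwa [CA3_range, CA3_range, MonoidHom.comp_one, MonoidHom.range_one] at h
    · refine FreeGroup.ext_hom _ _ fun a => ?_
      rw [MonoidHom.comp_apply, FreeGroup.map.of, FreeGroup.lift_apply_of, dif_pos a.2]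
    · refine FreeGroup.ext_hom _ _ fun a => ?_
      rw [MonoidHom.comp_apply, FreeGroup.map.of, FreeGroup.lift_apply_of, dif_neg a.2]
  · rw [← Subgroup.closure_union, ← Set.image_union, Set.union_compl_self, Set.image_univ,
      FreeGroup.closure_range_of]

theorem anchor_CAAm : True := by
  have := @First.eq_1
  trivial

end Crest.Agent.R175.Cat
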