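import Crest.Agent.R175.CAGood
import Crest.Agent.R175.Anchor

/-! Row 175, S0264: the tree product is an Artin group. -/

set_option autoImplicit false

namespace Crest.Agent.R175.Cat

open Crest.GroupTheory

/-! Part 1 -/

/-- one step: `exists_amalg` over `Br 2` with `j.comp ε` (`exists_eps`) and `Br.exists_inc` -/
theorem exists_leaf {A : Type} [Group A] {j : VV →* A} (hj : Function.Injective j) (e : ZMod 3)
    {n : ℕ} (hn : 2 ≤ n) :
    ∃ (P : Type) (_ : Group P) (f : A →* P) (β : Br n →* P), Function.Injective f ∧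
      Leaf (f.comp j) f.range e n β ∧ f.range ⊔ β.range = ⊤ ∧
      ∀ (Q : Type) [Group Q] (g : A →* Q) (β' : Br n →* Q), β' (bt n 0) = g (j (sv e)) →
        β' (bt n 1) = g (j (sv (e + 1))) → ∃ Θ : P →* Q, Θ.comp f = g ∧ Θ.comp β = β' := by
  obtain ⟨ε, hε, hε0, hε1, hεr⟩ := exists_eps e
  obtain ⟨ι, hι, hι0, hι1⟩ := Br.exists_inc hn
  obtain ⟨P, _, f, β, hf, hβ, hc, ham, htop, hU⟩ :=
    exists_amalg (φ₀ := j.comp ε) (φ₁ := ι) (hj.comp hε) hι
  have h0 : β (bt n 0) = (f.comp j) (sv e) := by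
    have := DFunLike.congr_fun hc (bt 2 0)
    simp only [MonoidHom.comp_apply, hε0, hι0] at this ⊢
    exact this.symm
  have h1 : β (bt n 1) = (f.comp j) (sv (e + 1)) := by
    have := DFunLike.congr_fun hc (bt 2 1)
    simp only [MonoidHom.comp_apply, hε1, hι1] at this ⊢
    exact this.symm
  refine ⟨P, inferInstance, f, β, hf, ⟨hn, h0, h1, hβ, ?_⟩, htop, fun Q _ g β' a0 a1 => ?_⟩
  · have : (f.comp (j.comp ε)).range = (EE e).map (f.comp j) := by
      rw [← hεr, ← MonoidHom.comp_assoc, MonoidHom.range_comp]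
    rw [← this]
    exact ham
  · refine hU Q g β' (Br.hom_ext fun i hi => ?_)
    obtain rfl | rfl : i = 0 ∨ i = 1 := by omega
    · simp only [MonoidHom.comp_apply, hε0, hι0, a0]
    · simp only [MonoidHom.comp_apply, hε1, hι1, a1]

/-- `exists_leaf` three times, `Leaf.map` -/
theorem exists_tower {n : ZMod 3 → ℕ} (hn : ∀ e, 2 ≤ n e) :
    ∃ (P : Type) (_ : Group P) (T : Tower P n), ∀ (Q : Type) [Group Q] (j' : VV →* Q)
      (β' : ∀ e, Br (n e) →* Q),
      (∀ e, β' e (bt (n e) 0) = j' (sv e) ∧ β' e (bt (n e) 1) = j' (sv (e + 1))) →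
      ∃ Θ : P →* Q, Θ.comp T.j = j' ∧ ∀ e, Θ.comp (T.β e) = β' e := by
  obtain ⟨P₀, _, f₀, β₀, hf₀, l₀, t₀, U₀⟩ :=
    exists_leaf (j := MonoidHom.id VV) Function.injective_id 0 (hn 0)
  rw [MonoidHom.comp_id] at l₀
  obtain ⟨P₁, _, f₁, β₁, hf₁, l₁, t₁, U₁⟩ := exists_leaf (j := f₀) hf₀ 1 (hn 1)
  obtain ⟨P₂, _, f₂, β₂, hf₂, l₂, t₂, U₂⟩ :=
    exists_leaf (j := f₁.comp f₀) (hf₁.comp hf₀) 2 (hn 2)
  let β : ∀ e : ZMod 3, Br (n e) →* P₂ := fun e =>
    if h0 : e = 0 then h0 ▸ f₂.comp (f₁.comp β₀)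
    else if h1 : e = 1 then h1 ▸ f₂.comp β₁
    else (show e = 2 by revert e; decide) ▸ β₂
  have b0 : β 0 = f₂.comp (f₁.comp β₀) := by simp only [β, dif_pos]
  have b1 : β 1 = f₂.comp β₁ := by
    simp only [β, dif_neg (show (1 : ZMod 3) ≠ 0 by decide), dif_pos]
  have b2 : β 2 = β₂ := by
    simp only [β, dif_neg (show (2 : ZMod 3) ≠ 0 by decide),
      dif_neg (show (2 : ZMod 3) ≠ 1 by decide)]
  have r1 : (f₁.comp f₀).range ⊔ (f₁.comp β₀).range = f₁.range := by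
    rw [MonoidHom.range_comp, MonoidHom.range_comp, ← Subgroup.map_sup, t₀,
      ← MonoidHom.range_eq_map]
  have r1' : (f₂.comp (f₁.comp f₀)).range ⊔ (f₂.comp (f₁.comp β₀)).range = f₁.range.map f₂ := by
    rw [MonoidHom.range_comp f₂, MonoidHom.range_comp f₂, ← Subgroup.map_sup, r1]
  have r2 : (f₂.comp (f₁.comp f₀)).range ⊔ (f₂.comp (f₁.comp β₀)).range ⊔ (f₂.comp β₁).range =
      f₂.range := by
    rw [r1', MonoidHom.range_comp f₂, ← Subgroup.map_sup, t₁, ← MonoidHom.range_eq_map]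
  refine ⟨P₂, inferInstance, ⟨f₂.comp (f₁.comp f₀), β, hf₂.comp (hf₁.comp hf₀), ?_, ?_, ?_, ?_⟩,
    fun Q _ j' β' h => ?_⟩
  · rw [b0]
    have := (l₀.map hf₁).map hf₂
    rwa [← MonoidHom.range_comp, ← MonoidHom.range_comp] at this
  · rw [b0, b1, r1']
    exact l₁.map hf₂
  · rw [b0, b1, b2, r2]
    exact l₂
  · rw [b0, b1, b2, r2, t₂]
  · obtain ⟨Θ₀, a₀, c₀⟩ := U₀ Q j' (β' 0) (h 0).1 (h 0).2
    obtain ⟨Θ₁, a₁, c₁⟩ := U₁ Q Θ₀ (β' 1) (by rw [(h 1).1, ← a₀]; rfl) (by rw [(h 1).2, ← a₀]; rfl)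
    obtain ⟨Θ₂, a₂, c₂⟩ := U₂ Q Θ₁ (β' 2) (by rw [(h 2).1, ← a₀, ← a₁]; rfl)
      (by rw [(h 2).2, ← a₀, ← a₁]; rfl)
    refine ⟨Θ₂, ?_, fun e => ?_⟩
    · change Θ₂.comp (f₂.comp (f₁.comp f₀)) = j'
      rw [← MonoidHom.comp_assoc, a₂, ← MonoidHom.comp_assoc, a₁, a₀]
    · change Θ₂.comp (β e) = β' e
      obtain rfl | rfl | rfl : e = 0 ∨ e = 1 ∨ e = 2 := by revert e; decide
      · rw [b0, ← MonoidHom.comp_assoc, a₂, ← MonoidHom.comp_assoc, a₁, c₀]
      · rw [b1, ← MonoidHom.comp_assoc, a₂, c₁]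
      · rw [b2, c₂]

/-! Part 2 -/

/-- generators: `⟨e, 0⟩` are the vertices of the triangle, `⟨e, i + 1⟩` the tail of the edge `e` -/
abbrev Gen (m : ZMod 3 → ℕ) : Type := Σ e : ZMod 3, Fin (m e + 1)

/-- the chain of `m e + 2` generators of the braid group of the edge `e` -/
def ch (m : ZMod 3 → ℕ) (e : ZMod 3) : ℕ → Gen m
  | 0 => ⟨e, 0⟩
  | 1 => ⟨e + 1, 0⟩
  | i + 2 => ⟨e, Fin.ofNat _ (i + 1)⟩

def Adj (m : ZMod 3 → ℕ) (a b : Gen m) : Prop :=
  ∃ e i, i + 1 < m e + 2 ∧ (a = ch m e i ∧ b = ch m e (i + 1) ∨ b = ch m e i ∧ a = ch m e (i + 1))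

def Same (m : ZMod 3 → ℕ) (a b : Gen m) : Prop :=
  ∃ e i i', i < m e + 2 ∧ i' < m e + 2 ∧ a = ch m e i ∧ b = ch m e i'

open Classical in
noncomputable def cox (m : ZMod 3 → ℕ) : CoxeterMatrix (Gen m) where
  M := Matrix.of fun a b => if a = b then 1 else if Adj m a b then 3 else if Same m a b then 2 else 0
  isSymm := by
    ext a b
    have h1 : ∀ {a b}, Adj m a b → Adj m b a := fun ⟨e, i, h, h'⟩ => ⟨e, i, h, h'.symm⟩
    have h2 : ∀ {a b}, Same m a b → Same m b a := fun ⟨e, i, i', h, h', ha, hb⟩ =>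
      ⟨e, i', i, h', h, hb, ha⟩
    exact if_congr eq_comm rfl (if_congr ⟨h1, h1⟩ rfl (if_congr ⟨h2, h2⟩ rfl rfl))
  diagonal := by
    intro a
    exact if_pos rfl
  off_diagonal := by
    intro a b h
    rw [Matrix.of_apply, if_neg h]
    split_ifs <;> decide

theorem cox_label (m : ZMod 3 → ℕ) (a b : Gen m) (h : a ≠ b) :
    (cox m).M a b = 0 ∨ (cox m).M a b = 2 ∨ (cox m).M a b = 3 := by
  unfold cox
  simp only [Matrix.of_apply, if_neg h]
  split_ifs <;> simp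

theorem cox2_code {m : ZMod 3 → ℕ} {e : ZMod 3} {i : ℕ} (h : i < m e + 2) :
    (ch m e i).1 = (if i = 1 then e + 1 else e) ∧ (ch m e i).2.val = i - 1 := by
  rcases i with _ | _ | i
  · exact ⟨rfl, rfl⟩
  · exact ⟨rfl, rfl⟩
  · exact ⟨(if_neg (by omega)).symm, Nat.mod_eq_of_lt (by omega)⟩

theorem cox2_eq {m : ZMod 3 → ℕ} {e e' : ZMod 3} {i i' : ℕ} (h : i < m e + 2) (h' : i' < m e' + 2)
    (he : ch m e i = ch m e' i') :
    (if i = 1 then e + 1 else e) = (if i' = 1 then e' + 1 else e') ∧ i - 1 = i' - 1 := by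
  rw [← (cox2_code h).1, ← (cox2_code h).2, ← (cox2_code h').1, ← (cox2_code h').2, he]
  exact ⟨rfl, rfl⟩

theorem cox2_inj {m : ZMod 3 → ℕ} {e : ZMod 3} {i i' : ℕ} (h : i < m e + 2) (h' : i' < m e + 2)
    (he : ch m e i = ch m e i') : i = i' := by
  obtain ⟨h1, h2⟩ := cox2_eq h h' he
  have h3 : e + 1 ≠ e := (by decide : ∀ e : ZMod 3, e + 1 ≠ e) e
  split_ifs at h1
  · omega
  · exact absurd h1 h3
  · exact absurd h1.symm h3
  · omega

theorem cox2_not_adj {m : ZMod 3 → ℕ} {e : ZMod 3} {i j : ℕ} (hij : i + 1 < j) (hj : j < m e + 2) :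
    ¬ Adj m (ch m e i) (ch m e j) := by
  rintro ⟨e', k, hk, ⟨h1, h2⟩ | ⟨h1, h2⟩⟩
  · obtain ⟨a1, a2⟩ := cox2_eq hj hk h2
    rw [if_neg (by omega), if_neg (by omega)] at a1
    subst a1
    have := cox2_inj (by omega) (by omega) h1
    omega
  · obtain ⟨a1, a2⟩ := cox2_eq hj (Nat.lt_of_succ_lt hk) h1
    rw [if_neg (by omega), if_neg (by omega)] at a1
    subst a1
    have := cox2_inj (by omega) hk h2
    omega

theorem cox2_rel {S : Type} (M : CoxeterMatrix S) (a b : S) :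
    PresentedGroup.mk (artinRelators M) (artinAltWord a b (M.M a b)) =
      PresentedGroup.mk (artinRelators M) (artinAltWord b a (M.M a b)) :=
  PresentedGroup.mk_eq_mk_of_mul_inv_mem ⟨(a, b), rfl⟩

theorem cox_isBraid (m : ZMod 3 → ℕ) (e : ZMod 3) :
    IsBraid (fun i => artinGen (cox m) (ch m e i)) (m e + 2) := by
  refine ⟨fun i hi => ?_, fun i j hij hj => ?_⟩
  · have h := cox2_rel (cox m) (ch m e i) (ch m e (i + 1))
    have e3 : (cox m).M (ch m e i) (ch m e (i + 1)) = 3 :=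
      (if_neg fun h => by have := cox2_inj (by omega) hi h; omega).trans
        (if_pos ⟨e, i, hi, Or.inl ⟨rfl, rfl⟩⟩)
    rw [e3] at h
    simp only [artinAltWord, map_mul, mul_one, ← mul_assoc] at h
    exact h
  · have h := cox2_rel (cox m) (ch m e i) (ch m e j)
    have e2 : (cox m).M (ch m e i) (ch m e j) = 2 :=
      (if_neg fun h => by have := cox2_inj (by omega) hj h; omega).trans
        ((if_neg (cox2_not_adj hij hj)).trans (if_pos ⟨e, i, j, by omega, hj, rfl, rfl⟩))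
    rw [e2] at h
    simp only [artinAltWord, map_mul, mul_one] at h
    exact h

theorem cox_lift (m : ZMod 3 → ℕ) {Q : Type} [Group Q] (g : Gen m → Q)
    (h : ∀ e, IsBraid (fun i => g (ch m e i)) (m e + 2)) :
    ∃ φ : ArtinGroup (cox m) →* Q, ∀ a, φ (artinGen (cox m) a) = g a := by
  have hr : ∀ r ∈ artinRelators (cox m), FreeGroup.lift g r = 1 := by
    rintro r ⟨⟨a, b⟩, rfl⟩
    simp only [map_mul, map_inv, mul_inv_eq_one]
    unfold cox
    simp only [Matrix.of_apply]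
    split_ifs with h1 h2 h3
    · rw [h1]
    · simp only [artinAltWord, map_mul, mul_one, ← mul_assoc, FreeGroup.lift_apply_of]
      obtain ⟨e, i, hi, ⟨rfl, rfl⟩ | ⟨rfl, rfl⟩⟩ := h2
      · exact (h e).1 i hi
      · exact ((h e).1 i hi).symm
    · simp only [artinAltWord, map_mul, mul_one, FreeGroup.lift_apply_of]
      obtain ⟨e, i, j, hi, hj, rfl, rfl⟩ := h3
      have a1 : i ≠ j := fun e1 => h1 (by rw [e1])
      have a2 : j ≠ i + 1 := fun e1 => h2 ⟨e, i, e1 ▸ hj, Or.inl ⟨rfl, by rw [e1]⟩⟩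
      have a3 : i ≠ j + 1 := fun e1 => h2 ⟨e, j, e1 ▸ hi, Or.inr ⟨rfl, by rw [e1]⟩⟩
      rcases Nat.lt_or_gt_of_ne a1 with h4 | h4
      · exact (h e).2 i j (by omega) hj
      · exact ((h e).2 j i (by omega) hi).symm
    · rfl
  exact ⟨PresentedGroup.toGroup hr, fun a => PresentedGroup.toGroup.of hr⟩

theorem cox2_idx {m : ZMod 3 → ℕ} (a : Gen m) :
    ch m a.1 (if a.2.val = 0 then 0 else a.2.val + 1) = a := by
  obtain ⟨e, k, hk⟩ := a
  rcases k with _ | k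
  · rfl
  · exact congrArg (Sigma.mk e) (Fin.ext (Nat.mod_eq_of_lt hk))

/-- mutually inverse homomorphisms between the group of `exists_tower` and the Artin group -/
theorem cox_tower (m : ZMod 3 → ℕ) : Nonempty (Tower (ArtinGroup (cox m)) fun e => m e + 2) := by
  obtain ⟨P, _, T, U⟩ := exists_tower (n := fun e => m e + 2) fun e => Nat.le_add_left _ _
  obtain ⟨j', hj'⟩ := VV.exists_lift (s := fun e => artinGen (cox m) ⟨e, 0⟩)
    fun e => (cox_isBraid m e).1 0 (by omega)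
  choose β' hβ' using fun e => Br.exists_lift (cox_isBraid m e)
  obtain ⟨Θ, hΘ1, hΘ2⟩ := U _ j' β' fun e =>
    ⟨(hβ' e 0 (by omega)).trans (hj' e).symm, (hβ' e 1 (by omega)).trans (hj' (e + 1)).symm⟩
  have hL : ∀ e, T.β e (bt _ 0) = T.j (sv e) ∧ T.β e (bt _ 1) = T.j (sv (e + 1)) := by
    intro e
    fin_cases e
    exacts [⟨T.l0.h0, T.l0.h1⟩, ⟨T.l1.h0, T.l1.h1⟩, ⟨T.l2.h0, T.l2.h1⟩]
  obtain ⟨g, hg⟩ : ∃ g : Gen m → P, ∀ a, g a =
    T.β a.1 (bt (m a.1 + 2) (if a.2.val = 0 then 0 else a.2.val + 1)) := ⟨_, fun _ => rfl⟩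
  have hch : ∀ e i, i < m e + 2 → g (ch m e i) = T.β e (bt (m e + 2) i) := by
    intro e i hi
    rw [hg]
    rcases i with _ | _ | i
    · rfl
    · exact (hL (e + 1)).1.trans (hL e).2.symm
    · have h1 : (ch m e (i + 2)).2.val = i + 1 := (cox2_code hi).2
      rw [h1]
      rfl
  obtain ⟨φ, hφ⟩ := cox_lift m g fun e => by
    have h := (bt_isBraid (m e + 2)).map (T.β e)
    refine ⟨fun i hi => ?_, fun i j hij hj => ?_⟩
    · beta_reduce
      rw [hch e i (by omega), hch e (i + 1) hi]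
      exact h.1 i hi
    · beta_reduce
      rw [hch e i (by omega), hch e j hj]
      exact h.2 i j hij hj
  have e1 : Θ.comp φ = MonoidHom.id _ := by
    refine PresentedGroup.ext fun a => ?_
    change Θ (φ (artinGen (cox m) a)) = artinGen (cox m) a
    rw [hφ, hg, ← MonoidHom.comp_apply, hΘ2, hβ' _ _ (by have := a.2.2; split_ifs <;> omega),
      cox2_idx]
  have e2 : φ.comp Θ = MonoidHom.id _ := by
    have a1 : φ.comp j' = T.j := VV.hom_ext fun e => by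
      rw [MonoidHom.comp_apply, hj', hφ]
      exact (hch e 0 (by omega)).trans (hL e).1
    have a2 : ∀ e, φ.comp (β' e) = T.β e := fun e => Br.hom_ext fun i hi => by
      rw [MonoidHom.comp_apply, hβ' e i hi, hφ, hch e i hi]
    have a3 : ∀ e, (T.β e).range ≤ (φ.comp Θ).eqLocus (MonoidHom.id _) := by
      rintro e _ ⟨x, rfl⟩
      change φ ((Θ.comp (T.β e)) x) = T.β e x
      rw [hΘ2, ← a2]
      rfl
    have a4 : T.j.range ≤ (φ.comp Θ).eqLocus (MonoidHom.id _) := by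
      rintro _ ⟨x, rfl⟩
      change φ ((Θ.comp T.j) x) = T.j x
      rw [hΘ1, ← a1]
      rfl
    exact MonoidHom.ext fun x =>
      (T.top.ge.trans (sup_le (sup_le (sup_le a4 (a3 0)) (a3 1)) (a3 2))) (Subgroup.mem_top x)
  exact T.map (MonoidHom.toMulEquiv Θ φ e2 e1)

theorem exists_artin : ∃ (S : Type) (_ : Fintype S) (M : CoxeterMatrix S), Fintype.card S = 116 ∧
    (∀ s t : S, s ≠ t → M.M s t = 0 ∨ M.M s t = 2 ∨ M.M s t = 3) ∧
    Nonempty (CatData (ArtinGroup M)) := by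
  let m : ZMod 3 → ℕ := fun e => if e = 0 then 37 else 38
  obtain ⟨T⟩ := cox_tower m
  refine ⟨Gen m, inferInstance, cox m, ?_, cox_label m, T.catData fun e => ?_⟩
  · rw [Fintype.card_sigma]
    simp only [Fintype.card_fin]
    decide
  · revert e
    decide

theorem anchor_CAArt : True := by
  have := @ch.eq_1
  have := @ch.eq_2
  have := @ch.eq_3
  have := @Adj.eq_1
  have := @Same.eq_1
  have := @cox.eq_1
  trivial

end Crest.Agent.R175.Cat
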