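import Crest.Agent.R175.CDefs

/-! Row 175, S0264: the braid groups and the Artin group of the triangle, by presentations. -/

set_option autoImplicit false

namespace Crest.Agent.R175.Cat

open FreeGroup

variable {G : Type} [Group G]

/-- the subgroup generated by `t 0, …, t (k - 1)` -/
def Bk (t : ℕ → G) (k : ℕ) : Subgroup G := Subgroup.closure (t '' Set.Iio k)

def brRels (m : ℕ) : Set (FreeGroup (Fin m)) :=
  {r | ∃ i j : Fin m, (i.1 + 1 = j.1 ∧ r = of i * of j * of i * (of j * of i * of j)⁻¹) ∨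
    (i.1 + 1 < j.1 ∧ r = of i * of j * (of j * of i)⁻¹)}

/-- the braid group with `m` generators -/
def Br (m : ℕ) : Type := PresentedGroup (brRels m)

instance (m : ℕ) : Group (Br m) := inferInstanceAs (Group (PresentedGroup (brRels m)))

/-- the generators (`1` out of range) -/
def bt (m i : ℕ) : Br m := if h : i < m then PresentedGroup.of (rels := brRels m) ⟨i, h⟩ else 1

theorem cabr_bt {m i : ℕ} (h : i < m) :
    bt m i = PresentedGroup.of (rels := brRels m) ⟨i, h⟩ := dif_pos h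

theorem bt_isBraid (m : ℕ) : IsBraid (bt m) m := by
  refine ⟨fun i hi => ?_, fun i j hij hj => ?_⟩
  · rw [cabr_bt hi, cabr_bt (Nat.lt_of_succ_lt hi)]
    exact PresentedGroup.mk_eq_mk_of_mul_inv_mem (rels := brRels m)
      ⟨⟨i, Nat.lt_of_succ_lt hi⟩, ⟨i + 1, hi⟩, Or.inl ⟨rfl, rfl⟩⟩
  · have hi : i < m := (Nat.lt_of_succ_lt hij).trans hj
    rw [cabr_bt hi, cabr_bt hj]
    exact PresentedGroup.mk_eq_mk_of_mul_inv_mem (rels := brRels m)
      ⟨⟨i, hi⟩, ⟨j, hj⟩, Or.inr ⟨hij, rfl⟩⟩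

theorem Br.exists_lift {m : ℕ} {t : ℕ → G} (h : IsBraid t m) :
    ∃ φ : Br m →* G, ∀ i, i < m → φ (bt m i) = t i := by
  have hr : ∀ r ∈ brRels m, FreeGroup.lift (fun i : Fin m => t i) r = 1 := by
    rintro r ⟨i, j, ⟨h1, rfl⟩ | ⟨h1, rfl⟩⟩
    · simp only [_root_.map_mul, _root_.map_inv, lift_apply_of, mul_inv_eq_one]
      rw [← h1]
      exact h.1 i (h1 ▸ j.2)
    · simp only [_root_.map_mul, _root_.map_inv, lift_apply_of, mul_inv_eq_one]
      exact h.2 i j h1 j.2
  refine ⟨PresentedGroup.toGroup hr, fun i hi => ?_⟩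
  rw [cabr_bt hi]
  exact PresentedGroup.toGroup.of hr

theorem Br.top (m : ℕ) : Bk (bt m) m = ⊤ := by
  refine top_unique ((PresentedGroup.closure_range_of (brRels m)).ge.trans
    (Subgroup.closure_mono ?_))
  rintro _ ⟨i, rfl⟩
  exact ⟨i.1, i.2, cabr_bt i.2⟩

theorem Br.hom_ext {m : ℕ} {f g : Br m →* G} (h : ∀ i, i < m → f (bt m i) = g (bt m i)) :
    f = g := by
  refine PresentedGroup.ext (rels := brRels m) fun i => ?_
  have e := h i.1 i.2
  rwa [cabr_bt i.2] at e

theorem IsBraid.mono {t : ℕ → G} {m k : ℕ} (h : IsBraid t m) (hk : k ≤ m) : IsBraid t k := by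
  exact ⟨fun i hi => h.1 i (hi.trans_le hk), fun i j hij hj => h.2 i j hij (hj.trans_le hk)⟩

theorem IsBraid.map {G' : Type} [Group G'] {t : ℕ → G} {m : ℕ} (h : IsBraid t m) (f : G →* G') :
    IsBraid (fun i => f (t i)) m := by
  refine ⟨fun i hi => ?_, fun i j hij hj => (h.2 i j hij hj).map f⟩
  simp only [← _root_.map_mul, h.1 i hi]

/-- two elements with the braid relation -/
theorem Br.exists_lift₂ {a b : G} (h : a * b * a = b * a * b) :
    ∃ φ : Br 2 →* G, φ (bt 2 0) = a ∧ φ (bt 2 1) = b := by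
  have hb : IsBraid (fun i => if i = 0 then a else b) 2 := by
    refine ⟨fun i hi => ?_, fun i j hij hj => absurd hj (by omega)⟩
    obtain rfl : i = 0 := by omega
    exact h
  obtain ⟨φ, hφ⟩ := Br.exists_lift hb
  exact ⟨φ, hφ 0 (by norm_num), hφ 1 (by norm_num)⟩

theorem Bk_two (t : ℕ → G) : Bk t 2 = Subgroup.closure {t 0, t 1} := by
  refine congrArg Subgroup.closure (Set.Subset.antisymm ?_ ?_)
  · rintro _ ⟨i, hi, rfl⟩
    obtain rfl | rfl : i = 0 ∨ i = 1 := by
      have : i < 2 := hi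
      omega
    exacts [Or.inl rfl, Or.inr rfl]
  · rintro _ (rfl | rfl)
    exacts [⟨0, Nat.zero_lt_two, rfl⟩, ⟨1, Nat.one_lt_two, rfl⟩]

theorem Br.range₂ (φ : Br 2 →* G) :
    φ.range = Subgroup.closure {φ (bt 2 0), φ (bt 2 1)} := by
  rw [MonoidHom.range_eq_map, ← Br.top 2, Bk_two, MonoidHom.map_closure, Set.image_pair]

theorem braid_comm_cube {a b : G} (h : a * b * a = b * a * b) :
    Commute a ((a * b) ^ 3) ∧ Commute b ((a * b) ^ 3) := by
  have e1 : (a * b) ^ 3 = a * b * a * (b * a * b) := by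
    simp only [pow_succ, pow_zero, one_mul, mul_assoc]
  have e2 : a * (b * a * b) = b * a * b * b := by
    rw [← h]
    calc a * (a * b * a) = a * (b * a * b) := by rw [h]
      _ = a * b * a * b := by simp only [mul_assoc]
  have e3 : b * (b * a * b) = b * a * b * a := by
    calc b * (b * a * b) = b * (a * b * a) := by rw [h]
      _ = b * a * b * a := by simp only [mul_assoc]
  rw [e1, h]
  generalize b * a * b = d at e2 e3
  constructor
  · change a * (d * d) = d * d * a
    rw [← mul_assoc, e2, mul_assoc, e3, mul_assoc]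
  · change b * (d * d) = d * d * b
    rw [← mul_assoc, e3, mul_assoc, e2, mul_assoc]

def vRels : Set (FreeGroup (ZMod 3)) :=
  Set.range fun e : ZMod 3 => of e * of (e + 1) * of e * (of (e + 1) * of e * of (e + 1))⁻¹

/-- the Artin group of the triangle with labels `3, 3, 3` -/
def VV : Type := PresentedGroup vRels

instance : Group VV := inferInstanceAs (Group (PresentedGroup vRels))

def sv (e : ZMod 3) : VV := PresentedGroup.of (rels := vRels) e

/-- the edge groups -/
def EE (e : ZMod 3) : Subgroup VV := Subgroup.closure {sv e, sv (e + 1)}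

theorem sv_braid (e : ZMod 3) : sv e * sv (e + 1) * sv e = sv (e + 1) * sv e * sv (e + 1) := by
  exact PresentedGroup.mk_eq_mk_of_mul_inv_mem (rels := vRels) ⟨e, rfl⟩

theorem VV.exists_lift {s : ZMod 3 → G}
    (h : ∀ e, s e * s (e + 1) * s e = s (e + 1) * s e * s (e + 1)) :
    ∃ φ : VV →* G, ∀ e, φ (sv e) = s e := by
  have hr : ∀ r ∈ vRels, FreeGroup.lift s r = 1 := by
    rintro r ⟨e, rfl⟩
    simp only [_root_.map_mul, _root_.map_inv, lift_apply_of, mul_inv_eq_one]
    exact h e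
  exact ⟨PresentedGroup.toGroup hr, fun e => PresentedGroup.toGroup.of hr⟩

theorem VV.top : Subgroup.closure (Set.range sv) = ⊤ := by
  exact PresentedGroup.closure_range_of vRels

theorem VV.hom_ext {f g : VV →* G} (h : ∀ e, f (sv e) = g (sv e)) : f = g := by
  exact PresentedGroup.ext (rels := vRels) h

theorem cabr_tri {a b : G} (h : a * b * a = b * a * b) : ∃ s : ZMod 3 → G, s 0 = a ∧ s 1 = b ∧
    ∀ e, s e * s (e + 1) * s e = s (e + 1) * s e * s (e + 1) := by
  have h1 : a * b * a⁻¹ = b⁻¹ * a * b := by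
    rw [mul_inv_eq_iff_eq_mul, mul_assoc, mul_assoc, ← mul_assoc a, h]
    group
  have h2 : b * (a * b * a⁻¹) * b = a * b * a⁻¹ * b * (a * b * a⁻¹) := by
    calc b * (a * b * a⁻¹) * b = a * b * a⁻¹ * b * (b⁻¹ * a * b) := by
          nth_rewrite 1 [h1]
          group
      _ = _ := by rw [← h1]
  have h3 : a * b * a⁻¹ * a * (a * b * a⁻¹) = a * (a * b * a⁻¹) * a := by
    calc a * b * a⁻¹ * a * (a * b * a⁻¹) = a * (b * a * b) * a⁻¹ := by group
      _ = _ := by
          rw [← h]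
          group
  refine ⟨(![a, b, a * b * a⁻¹] : Fin 3 → G), rfl, rfl, fun e => ?_⟩
  fin_cases e
  exacts [h, h2, h3]

/-- retraction `sv e ↦ t 0`, `sv (e + 1) ↦ t 1`, `sv (e + 2) ↦ t 0 * t 1 * (t 0)⁻¹` -/
theorem exists_eps (e : ZMod 3) : ∃ ε : Br 2 →* VV, Function.Injective ε ∧ ε (bt 2 0) = sv e ∧
    ε (bt 2 1) = sv (e + 1) ∧ ε.range = EE e := by
  obtain ⟨ε, h0, h1⟩ := Br.exists_lift₂ (sv_braid e)
  refine ⟨ε, ?_, h0, h1, by rw [Br.range₂, h0, h1]; rfl⟩
  obtain ⟨s, s0, s1, hs⟩ := cabr_tri ((bt_isBraid 2).1 0 Nat.one_lt_two)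
  obtain ⟨φ, hφ⟩ := VV.exists_lift (s := fun x => s (x - e)) fun x => by
    rw [add_sub_right_comm]
    exact hs _
  have e1 : φ.comp ε = MonoidHom.id _ := Br.hom_ext fun i hi => by
    obtain rfl | rfl : i = 0 ∨ i = 1 := by omega
    · rw [MonoidHom.comp_apply, h0, hφ, sub_self, s0, MonoidHom.id_apply]
    · rw [MonoidHom.comp_apply, h1, hφ, add_sub_cancel_left, s1, MonoidHom.id_apply]
  exact Function.LeftInverse.injective (g := φ) (DFunLike.congr_fun e1)

theorem exists_rot : ∃ r : MulAut VV, ∀ e, r (sv e) = sv (e + 1) := by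
  obtain ⟨f, hf⟩ := VV.exists_lift (s := fun e => sv (e + 1)) fun e => sv_braid _
  obtain ⟨g, hg⟩ := VV.exists_lift (s := fun e => sv (e - 1)) fun e => by
    rw [add_sub_right_comm]
    exact sv_braid _
  refine ⟨MonoidHom.toMulEquiv f g (VV.hom_ext fun e => ?_) (VV.hom_ext fun e => ?_), hf⟩
  · rw [MonoidHom.comp_apply, hf, hg, add_sub_cancel_right, MonoidHom.id_apply]
  · rw [MonoidHom.comp_apply, hg, hf, sub_add_cancel, MonoidHom.id_apply]

theorem zz_mem (e : ZMod 3) : zz sv e ∈ EE e := by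
  have h1 : sv e ∈ EE e := Subgroup.subset_closure (Set.mem_insert _ _)
  have h2 : sv (e + 1) ∈ EE e := Subgroup.subset_closure (Set.mem_insert_of_mem _ rfl)
  exact pow_mem (mul_mem h1 h2) 3

theorem anchor_CABr : True := by
  have := @Bk.eq_1
  have := @brRels.eq_1
  have := @Br.eq_1
  have := @bt.eq_1
  have := @vRels.eq_1
  have := @VV.eq_1
  have := @sv.eq_1
  have := @EE.eq_1
  trivial

end Crest.Agent.R175.Cat
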