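import Crest.Agent.R175.CAAm
import Crest.Agent.R175.CABr

/-! Row 175, S0264: the braid group on three strands as an amalgam `⟨a, b | a² = b³⟩`. -/

set_option autoImplicit false

namespace Crest.Agent.R175.Cat

theorem b3_sq {G : Type} [Group G] {a b : G} (h : a * b * a = b * a * b) :
    (a * b * a) ^ 2 = (a * b) ^ 3 := by
  calc (a * b * a) ^ 2 = a * b * a * (b * a * b) := by rw [pow_two, ← h]
    _ = _ := by simp only [pow_succ, pow_zero, one_mul, mul_assoc]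

/-- `isAmalg_of_lift` with three copies of `Multiplicative ℤ`; if `α² = β³` then
`t 0 ↦ β⁻¹ α`, `t 1 ↦ α⁻¹ β²` satisfy the braid relation -/
theorem B3_amalg :
    IsAmalg (Subgroup.zpowers (bt 2 0 * bt 2 1 * bt 2 0)) (Subgroup.zpowers (bt 2 0 * bt 2 1))
      (Subgroup.zpowers ((bt 2 0 * bt 2 1) ^ 3)) ∧
    Subgroup.zpowers (bt 2 0 * bt 2 1 * bt 2 0) ⊔ Subgroup.zpowers (bt 2 0 * bt 2 1) = ⊤ ∧
    bt 2 0 * bt 2 1 * bt 2 0 ∉ Subgroup.zpowers ((bt 2 0 * bt 2 1) ^ 3) ∧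
    bt 2 0 * bt 2 1 ∉ Subgroup.zpowers ((bt 2 0 * bt 2 1) ^ 3) ∧
    (bt 2 0 * bt 2 1) ^ 2 ∉ Subgroup.zpowers ((bt 2 0 * bt 2 1) ^ 3) := by
  have hb : bt 2 0 * bt 2 1 * bt 2 0 = bt 2 1 * bt 2 0 * bt 2 1 := (bt_isBraid 2).1 0 Nat.one_lt_two
  have h23 := b3_sq hb
  have inj : ∀ k : ℤ, k ≠ 0 →
      Function.Injective (zpowersHom (Multiplicative ℤ) (Multiplicative.ofAdd k)) := by
    intro k hk x y h
    rw [zpowersHom_apply, zpowersHom_apply, ← ofAdd_zsmul, ← ofAdd_zsmul, smul_eq_mul,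
      smul_eq_mul] at h
    exact Multiplicative.toAdd.injective (mul_right_cancel₀ hk (Multiplicative.ofAdd.injective h))
  have val : ∀ {Q : Type} [Group Q] (g : Multiplicative ℤ →* Q) (k : ℕ),
      g.comp (zpowersHom (Multiplicative ℤ) (Multiplicative.ofAdd (k : ℤ))) =
        zpowersHom Q (g (Multiplicative.ofAdd 1) ^ k) := by
    intro Q _ g k
    refine MonoidHom.ext_mint ?_
    rw [MonoidHom.comp_apply, zpowersHom_apply, zpowersHom_apply, toAdd_ofAdd, zpow_one, zpow_one,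
      ← map_pow, ← ofAdd_nsmul, nsmul_one]
  have one : ∀ {Q : Type} [Group Q] (g : Q), zpowersHom Q g (Multiplicative.ofAdd 1) = g :=
    fun g => zpow_one g
  obtain ⟨hA, i₀, i₁⟩ := isAmalg_of_lift (inj (2 : ℕ) (by norm_num)) (inj (3 : ℕ) (by norm_num))
    (zpowersHom _ (bt 2 0 * bt 2 1 * bt 2 0)) (zpowersHom _ (bt 2 0 * bt 2 1))
    (by rw [val, val, one, one, h23]) fun Q _ g₀ g₁ hg => by
      rw [val, val] at hg
      have e := DFunLike.congr_fun hg (Multiplicative.ofAdd 1)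
      rw [one, one] at e
      generalize h0 : g₀ (Multiplicative.ofAdd 1) = α at e
      generalize h1 : g₁ (Multiplicative.ofAdd 1) = β at e
      have e1 : β⁻¹ * α * (α⁻¹ * β ^ 2) = β := by group
      have e2 : β⁻¹ * α * (α⁻¹ * β ^ 2) * (β⁻¹ * α) = α := by group
      obtain ⟨Θ, t0, t1⟩ := Br.exists_lift₂ (a := β⁻¹ * α) (b := α⁻¹ * β ^ 2) (by
        rw [e2, mul_assoc, e1, mul_assoc, ← pow_succ, ← e]
        group)
      refine ⟨Θ, MonoidHom.ext_mint ?_, MonoidHom.ext_mint ?_⟩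
      · rw [MonoidHom.comp_apply, one, map_mul, map_mul, t0, t1, e2, h0]
      · rw [MonoidHom.comp_apply, one, map_mul, t0, t1, e1, h1]
  rw [val, one, h23, Subgroup.range_zpowersHom, Subgroup.range_zpowersHom,
    Subgroup.range_zpowersHom] at hA
  have key : ∀ {g : Br 2}, Function.Injective (zpowersHom _ g) → ∀ n r : ℕ,
      g ^ r ∈ Subgroup.zpowers (g ^ n) → (n : ℤ) ∣ r := by
    rintro g hg n r ⟨k, hk⟩
    refine ⟨k, (Multiplicative.ofAdd.injective (hg ?_)).symm⟩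
    rw [zpowersHom_apply, zpowersHom_apply, toAdd_ofAdd, toAdd_ofAdd, zpow_mul, zpow_natCast,
      zpow_natCast]
    exact hk
  refine ⟨hA, ?_, fun h => ?_, fun h => ?_, fun h => ?_⟩
  · have m0 := Subgroup.mem_sup_left (T := Subgroup.zpowers (bt 2 0 * bt 2 1))
      (Subgroup.mem_zpowers (bt 2 0 * bt 2 1 * bt 2 0))
    have m1 := Subgroup.mem_sup_right (S := Subgroup.zpowers (bt 2 0 * bt 2 1 * bt 2 0))
      (Subgroup.mem_zpowers (bt 2 0 * bt 2 1))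
    have m2 := (mul_mem_cancel_left m1).1 m0
    rw [eq_top_iff, ← Br.top 2, Bk_two, Subgroup.closure_le]
    rintro _ (rfl | rfl)
    exacts [m2, (mul_mem_cancel_left m2).1 m1]
  · have := key i₀ 2 1 (by rwa [pow_one, h23])
    omega
  · have := key i₁ 3 1 (by rwa [pow_one])
    omega
  · have := key i₁ 3 2 h
    omega

theorem b3_mem {A : Type} [Group A] {G₁ E : Subgroup A} {a c : A}
    (h : IsAmalg (Subgroup.zpowers a) G₁ E) (ht : Subgroup.zpowers a ⊔ G₁ = ⊤) (ha : a ∉ E)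
    (hc : Commute c a) : c ∈ Subgroup.zpowers a := by
  by_contra h0
  obtain ⟨_, ⟨k, rfl⟩, hg⟩ := h.conj (Subgroup.mem_zpowers a) (ht ▸ Subgroup.mem_top c) h0
    (by rw [mul_assoc, ← hc.eq, inv_mul_cancel_left]; exact Subgroup.mem_zpowers a)
  refine ha ?_
  rwa [mul_assoc, (Commute.self_zpow a k).eq, inv_mul_cancel_left] at hg

/-- `IsAmalg.conj` twice, `IsAmalg.inter` -/
theorem B3_center {c : Br 2} (h0 : Commute c (bt 2 0)) (h1 : Commute c (bt 2 1)) :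
    c ∈ Subgroup.zpowers ((bt 2 0 * bt 2 1) ^ 3) := by
  obtain ⟨hA, ht, na, nb, -⟩ := B3_amalg
  exact hA.inter (b3_mem hA ht na ((h0.mul_right h1).mul_right h0))
    (b3_mem hA.symm (by rwa [sup_comm]) nb (h0.mul_right h1))

theorem b3_pow {A : Type} [Group A] {G₀ G₁ E : Subgroup A} {i : Bool} {u v : A}
    (hu : u ∈ (bif i then G₁ else G₀)) (nu : u ∉ E) (hv : v ∈ (bif !i then G₁ else G₀))
    (nv : v ∉ E) (n : ℕ) : St G₀ G₁ E i ((u * v) ^ (n + 1)) := by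
  induction n with
  | zero =>
    rw [zero_add, pow_one]
    exact St.cons i u v hu nu (St.one _ v hv nv)
  | succ n ih =>
    rw [pow_succ', mul_assoc]
    exact St.cons i u _ hu nu (St.cons _ v _ hv nv (by rwa [Bool.not_not]))

theorem b3_res {A : Type} [Group A] (a : A) {n : ℕ} (hn : 0 < n) :
    ∃ P : Set A, P.Finite ∧ ∀ c ∈ Subgroup.zpowers a,
      ∃ k ∈ Subgroup.zpowers (a ^ n), ∃ p ∈ P, c = k * p := by
  refine ⟨(fun r : ℤ => a ^ r) '' Set.Ico 0 n, (Set.finite_Ico _ _).image _, ?_⟩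
  rintro _ ⟨m, rfl⟩
  have h0 : (0 : ℤ) < n := by exact_mod_cast hn
  refine ⟨_, ⟨m / n, rfl⟩, _, ⟨m % n, ⟨Int.emod_nonneg _ h0.ne', Int.emod_lt_of_pos _ h0⟩, rfl⟩, ?_⟩
  simp only [← zpow_natCast, ← zpow_mul, ← zpow_add, Int.mul_ediv_add_emod]

theorem b3_fin {A : Type} [Group A] {G₀ G₁ E : Subgroup A} (h : IsAmalg G₀ G₁ E) (side : A → ℤ)
    (hs : ∀ c d, (St G₀ G₁ E false c ↔ St G₀ G₁ E false d) → side c = side d)
    (h0 : ∃ P : Set A, P.Finite ∧ ∀ c ∈ G₀, ∃ k ∈ E, ∃ p ∈ P, c = k * p)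
    (h1 : ∃ P : Set A, P.Finite ∧ ∀ c ∈ G₁, ∃ k ∈ E, ∃ p ∈ P, c = k * p)
    (ht : G₀ ⊔ G₁ = ⊤) (f : A) :
    ∃ P : Set A, P.Finite ∧ ∀ c, side c ≠ side (c * f) → ∃ k ∈ E, ∃ p ∈ P, c = k * p := by
  obtain ⟨P₀, f0, h0⟩ := h0
  obtain ⟨P₁, f1, h1⟩ := h1
  have gen : ∀ g, g ∈ G₀ ∨ g ∈ G₁ → ∃ P : Set A, P.Finite ∧
      ∀ c, side c ≠ side (c * g) → ∃ k ∈ E, ∃ p ∈ P, c = k * p := by
    refine fun g hg => ⟨P₀ ∪ P₁, f0.union f1, fun c hc => ?_⟩
    have : c ∈ G₀ ∨ c ∈ G₁ := by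
      rcases h.cover (ht ▸ Subgroup.mem_top c) with h2 | h2 | h2
      · exact Or.inl (h.le₀ h2)
      · exact Or.inl ((h.right h2 hg).resolve_left fun h3 => hc (hs _ _ (iff_of_true h2 h3))).1
      · exact Or.inr ((h.right h2 hg).resolve_left fun h3 =>
          hc (hs _ _ (iff_of_false (h.disj · h2) (h.disj · h3)))).1
    rcases this with h2 | h2
    · obtain ⟨k, hk, p, hp, e⟩ := h0 c h2
      exact ⟨k, hk, p, Or.inl hp, e⟩
    · obtain ⟨k, hk, p, hp, e⟩ := h1 c h2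
      exact ⟨k, hk, p, Or.inr hp, e⟩
  have or : ∀ (i : Bool) g, g ∈ (bif i then G₁ else G₀) → g ∈ G₀ ∨ g ∈ G₁ := fun i g hg => by
    cases i
    exacts [Or.inl hg, Or.inr hg]
  have st : ∀ i f, St G₀ G₁ E i f → ∃ P : Set A, P.Finite ∧
      ∀ c, side c ≠ side (c * f) → ∃ k ∈ E, ∃ p ∈ P, c = k * p := by
    intro i f hf
    induction hf with
    | one i g hg _ => exact gen g (or i g hg)
    | cons i g f hg _ _ ih =>
      obtain ⟨P, fP, hP⟩ := gen g (or i g hg)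
      obtain ⟨Q, fQ, hQ⟩ := ih
      refine ⟨P ∪ (· * g⁻¹) '' Q, fP.union (fQ.image _), fun c hc => ?_⟩
      by_cases h2 : side c = side (c * g)
      · obtain ⟨k, hk, p, hp, e⟩ := hQ (c * g) (by rwa [← h2, mul_assoc])
        exact ⟨k, hk, _, Or.inr ⟨p, hp, rfl⟩, by rw [← mul_assoc, ← e, mul_inv_cancel_right]⟩
      · obtain ⟨k, hk, p, hp, e⟩ := hP c h2
        exact ⟨k, hk, p, Or.inl hp, e⟩
  rcases h.cover (ht ▸ Subgroup.mem_top f) with h2 | h2 | h2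
  exacts [gen f (Or.inl (h.le₀ h2)), st _ f h2, st _ f h2]

/-- `side c = 1` if `St false c`, else `0`; `t 0 ^ n = (b⁻¹ a) ^ n` starts with a letter of the second
factor, `t 1 ^ n = (a⁻¹ b²) ^ n` with a letter of the first; for the finiteness use closure induction
on `f` and `IsAmalg.right`, `IsAmalg.cover` (both factors are finite modulo the centre) -/
theorem B3_side : ∃ side : Br 2 → ℤ,
    (∀ c, ∀ k ∈ Subgroup.zpowers ((bt 2 0 * bt 2 1) ^ 3), side (k * c) = side c) ∧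
    (∀ f, ∃ P : Set (Br 2), P.Finite ∧ ∀ c, side c ≠ side (c * f) →
      ∃ k ∈ Subgroup.zpowers ((bt 2 0 * bt 2 1) ^ 3), ∃ p ∈ P, c = k * p) ∧
    ∀ n : ℕ, 1 ≤ n → side (bt 2 0 ^ n) ≠ side (bt 2 1 ^ n) := by
  classical
  obtain ⟨hA, ht, na, nb, nb2⟩ := B3_amalg
  have h23 := b3_sq (a := bt 2 0) (b := bt 2 1) ((bt_isBraid 2).1 0 Nat.one_lt_two)
  have e0 : bt 2 0 = (bt 2 0 * bt 2 1)⁻¹ * (bt 2 0 * bt 2 1 * bt 2 0) := by group
  have e1 : bt 2 1 = (bt 2 0 * bt 2 1 * bt 2 0)⁻¹ * (bt 2 0 * bt 2 1) ^ 2 := by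
    rw [pow_two]
    group
  generalize bt 2 0 * bt 2 1 * bt 2 0 = a at *
  generalize bt 2 0 * bt 2 1 = b at *
  refine ⟨fun c => if St (Subgroup.zpowers a) (Subgroup.zpowers b) (Subgroup.zpowers (b ^ 3))
    false c then 1 else 0, fun c k hk => ?_, fun f => ?_, fun n hn => ?_⟩
  · refine if_congr ⟨fun h => ?_, fun h => hA.left h hk⟩ rfl rfl
    simpa only [inv_mul_cancel_left] using hA.left h (inv_mem hk)
  · refine b3_fin hA _ (fun c d h => if_congr h rfl rfl) ?_ ?_ ht f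
    · rw [← h23]
      exact b3_res a two_pos
    · exact b3_res b three_pos
  · obtain ⟨n, rfl⟩ := Nat.exists_eq_add_of_le' hn
    have s0 := b3_pow (G₀ := Subgroup.zpowers a) (G₁ := Subgroup.zpowers b) (i := true)
      (inv_mem (Subgroup.mem_zpowers b)) (fun h => nb (inv_mem_iff.1 h))
      (Subgroup.mem_zpowers a) na n
    have s1 := b3_pow (G₀ := Subgroup.zpowers a) (G₁ := Subgroup.zpowers b) (i := false)
      (inv_mem (Subgroup.mem_zpowers a)) (fun h => na (inv_mem_iff.1 h))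
      (pow_mem (Subgroup.mem_zpowers b) 2) nb2 n
    rw [← e0] at s0
    rw [← e1] at s1
    simp only [if_pos s1, if_neg fun h => hA.disj h s0]
    exact zero_ne_one

end Crest.Agent.R175.Cat
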