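import Crest.Agent.R175.CAFree
import Crest.Agent.R175.CABr

/-! Row 175, S0264: Artin combing, faithfulness of the Artin action, centralisers. -/

set_option autoImplicit false

namespace Crest.Agent.R175.Cat

open FreeGroup

variable {G : Type} [Group G]

/-- the Artin automorphisms of the free group on `ℕ` -/
def sig (i : ℕ) : MulAut (FreeGroup ℕ) := sg i (i + 1) (Nat.succ_ne_self i).symm

/-- `t j * t (j + 1) * ⋯ * t (j + d - 1)` -/
def up (t : ℕ → G) : ℕ → ℕ → G
  | _, 0 => 1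
  | j, d + 1 => t j * up t (j + 1) d

/-- the pure braid generators of the strand `k` -/
def aa (t : ℕ → G) (k j : ℕ) : G :=
  (up t (j + 1) (k - j - 1))⁻¹ * t j ^ 2 * up t (j + 1) (k - j - 1)

def nu (t : ℕ → G) (k : ℕ) : FreeGroup ℕ →* G :=
  FreeGroup.lift fun j => if j < k then aa t k j else 1

/-- kill the generators `x j` with `k ≤ j` -/
def kill (k : ℕ) : FreeGroup ℕ →* FreeGroup ℕ := FreeGroup.lift fun j => if j < k then of j else 1

variable {t : ℕ → G} {m : ℕ}

/-! Part 1: combing -/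

theorem sig_isBraid (m : ℕ) : IsBraid sig m :=
  ⟨fun i _ => sg_braid (i := i) (j := i + 1) (k := i + 1 + 1) _ _ (by omega),
    fun i j h _ => sg_comm _ _ (by omega) (by omega) (by omega) (by omega)⟩

theorem up_succ (t : ℕ → G) (j d : ℕ) : up t j (d + 1) = up t j d * t (j + d) := by
  induction d generalizing j with
  | zero => simp [up]
  | succ d ih =>
    rw [up, ih, up, mul_assoc]
    congr 3
    omega

theorem up_mem (t : ℕ → G) {j d k : ℕ} (h : j + d ≤ k) : up t j d ∈ Bk t k := by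
  induction d generalizing j with
  | zero => exact Subgroup.one_mem _
  | succ d ih =>
    exact Subgroup.mul_mem _ (Subgroup.subset_closure ⟨j, show j < k by omega, rfl⟩) (ih (by omega))

theorem up_comm (h : IsBraid t m) {i j d : ℕ} (h1 : i + 1 < j) (h2 : j + d ≤ m) :
    Commute (t i) (up t j d) := by
  induction d generalizing j with
  | zero => exact Commute.one_right _
  | succ d ih => exact (h.2 i j h1 (by omega)).mul_right (ih (by omega) (by omega))

theorem up_shift (h : IsBraid t m) {i j d : ℕ} (h1 : j ≤ i) (h2 : i + 1 < j + d) (h3 : j + d ≤ m) :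
    t (i + 1) * up t j d = up t j d * t i := by
  induction d generalizing j with
  | zero => omega
  | succ d ih =>
    rcases h1.eq_or_lt with rfl | h1
    · obtain ⟨d, rfl⟩ : ∃ d', d = d' + 1 := ⟨d - 1, by omega⟩
      have c := (up_comm h (i := j) (j := j + 1 + 1) (d := d) (by omega) (by omega)).eq
      rw [up, up, ← mul_assoc, ← mul_assoc, ← h.1 j (by omega), mul_assoc _ (t j), c]
      simp only [mul_assoc]
    · rw [up, ← mul_assoc, ← (h.2 j (i + 1) (by omega) (by omega)).eq, mul_assoc,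
        ih (by omega) (by omega) (by omega), mul_assoc]

theorem nu_kill (t : ℕ → G) (k : ℕ) (w : FreeGroup ℕ) : nu t k (kill k w) = nu t k w := by
  have : (nu t k).comp (kill k) = nu t k := by
    ext j
    by_cases h : j < k <;> simp [nu, kill, h]
  exact DFunLike.congr_fun this w

theorem kill_mem (k : ℕ) (w : FreeGroup ℕ) : kill k w ∈ Subgroup.closure (of '' Set.Iio k) := by
  have : ∀ j, kill k (of j) ∈ Subgroup.closure (of '' Set.Iio k) := fun j => by
    by_cases h : j < k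
    · rw [kill, FreeGroup.lift_apply_of, if_pos h]
      exact Subgroup.subset_closure ⟨j, h, rfl⟩
    · rw [kill, FreeGroup.lift_apply_of, if_neg h]
      exact Subgroup.one_mem _
  induction w using FreeGroup.induction_on with
  | C1 => rw [_root_.map_one]; exact Subgroup.one_mem _
  | of j => exact this j
  | inv_of j _ => rw [_root_.map_inv]; exact Subgroup.inv_mem _ (this j)
  | mul x y hx hy => rw [_root_.map_mul]; exact Subgroup.mul_mem _ hx hy

theorem kill_sig {i k : ℕ} (h : i + 1 < k) (w : FreeGroup ℕ) :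
    kill k (sig i w) = sig i (kill k w) := by
  have e : ∀ j, kill k (of j) = if j < k then of j else 1 := fun j => FreeGroup.lift_apply_of
  have : (kill k).comp (sig i).toMonoidHom = (sig i).toMonoidHom.comp (kill k) := by
    ext j
    change kill k (sig i (of j)) = sig i (kill k (of j))
    have hi : i < k := by omega
    by_cases h1 : j = i
    · subst h1
      rw [e, if_pos hi, sig, sg_left]
      simp only [_root_.map_mul, _root_.map_inv, e, if_pos hi, if_pos h]
    · by_cases h2 : j = i + 1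
      · subst h2
        rw [e, if_pos h, sig, sg_right, e, if_pos hi]
      · rw [sig, sg_other _ h1 h2, e]
        split_ifs
        · rw [sg_other _ h1 h2]
        · rw [_root_.map_one]
  exact DFunLike.congr_fun this w

theorem comb1_aa (t : ℕ → G) {k j : ℕ} (h : j < k) :
    aa t k j = (up t j (k - j))⁻¹ * t j ^ 2 * up t j (k - j) := by
  obtain ⟨d, hd⟩ : ∃ d, k - j = d + 1 := ⟨k - j - 1, by omega⟩
  rw [aa, hd, up, Nat.add_sub_cancel]
  group

theorem comb1_a1 {p q T u : G} (hb : p * q * p = q * p * q) (hu : q * T = T * u) :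
    u * ((p⁻¹ * T)⁻¹ * q ^ 2 * (p⁻¹ * T)) * u⁻¹ = T⁻¹ * p ^ 2 * T := by
  have e : u = T⁻¹ * q * T := by rw [mul_assoc, hu, inv_mul_cancel_left]
  have e3 : p * q * p⁻¹ = q⁻¹ * p * q := by
    rw [eq_comm, mul_assoc, inv_mul_eq_iff_eq_mul, ← mul_assoc, ← mul_assoc, ← hb]
    group
  calc u * ((p⁻¹ * T)⁻¹ * q ^ 2 * (p⁻¹ * T)) * u⁻¹
      = T⁻¹ * (q * ((p * q * p⁻¹) * (p * q * p⁻¹)) * q⁻¹) * T := by rw [e, sq]; group
    _ = T⁻¹ * p ^ 2 * T := by rw [e3, sq]; group

theorem comb1_a0 {p q T u : G} (hb : p * q * p = q * p * q) (hu : q * T = T * u) :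
    u * (T⁻¹ * p ^ 2 * T) * u⁻¹ = (T⁻¹ * p ^ 2 * T)⁻¹ * ((p⁻¹ * T)⁻¹ * q ^ 2 * (p⁻¹ * T)) *
      (T⁻¹ * p ^ 2 * T) := by
  have e : u = T⁻¹ * q * T := by rw [mul_assoc, hu, inv_mul_cancel_left]
  have e3 : q * p * q⁻¹ = p⁻¹ * q * p := by
    rw [eq_comm, mul_assoc, inv_mul_eq_iff_eq_mul, ← mul_assoc, ← mul_assoc, hb]
    group
  calc u * (T⁻¹ * p ^ 2 * T) * u⁻¹
      = T⁻¹ * ((q * p * q⁻¹) * (q * p * q⁻¹)) * T := by rw [e, sq]; group
    _ = _ := by rw [e3, sq, sq]; group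

/-- with `T = up t i (k - i)`, `p = t i`, `q = t (i + 1)`: `t i = T⁻¹ q T` (`up_shift`),
`aa t k i = T⁻¹ p² T`, `aa t k (i + 1) = T⁻¹ (p q² p⁻¹) T = T⁻¹ (q⁻¹ p² q) T`; the other generators are
fixed by `up_comm` (`i + 1 < j`) and `up_shift` (`j < i`) -/
theorem nu_sig (h : IsBraid t m) {i k : ℕ} (h1 : i + 1 < k) (h2 : k ≤ m) (w : FreeGroup ℕ) :
    nu t k (sig i w) = t i * nu t k w * (t i)⁻¹ := by
  have e : ∀ j, nu t k (of j) = if j < k then aa t k j else 1 := fun j => FreeGroup.lift_apply_of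
  have hi : i < k := by omega
  have hT : t (i + 1) * up t i (k - i) = up t i (k - i) * t i :=
    up_shift h le_rfl (by omega) (by omega)
  have hb := h.1 i (by omega)
  have a0 := comb1_aa t hi
  have a1 : aa t k (i + 1) =
      ((t i)⁻¹ * up t i (k - i))⁻¹ * t (i + 1) ^ 2 * ((t i)⁻¹ * up t i (k - i)) := by
    rw [comb1_aa t h1, show k - i = k - (i + 1) + 1 by omega, up, inv_mul_cancel_left]
  have : (nu t k).comp (sig i).toMonoidHom = (MulAut.conj (t i)).toMonoidHom.comp (nu t k) := by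
    ext j
    change nu t k (sig i (of j)) = t i * nu t k (of j) * (t i)⁻¹
    by_cases c1 : j = i
    · subst c1
      rw [sig, sg_left]
      simp only [_root_.map_mul, _root_.map_inv, e, if_pos hi, if_pos h1]
      rw [a0, a1, comb1_a0 hb hT]
    · by_cases c2 : j = i + 1
      · subst c2
        rw [sig, sg_right, e, e, if_pos hi, if_pos h1, a0, a1, comb1_a1 hb hT]
      · rw [sig, sg_other _ c1 c2, e, eq_mul_inv_iff_mul_eq]
        split_ifs with hj
        · rcases Nat.lt_or_gt_of_ne c1 with c | c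
          · have s1 : t (i + 1) * up t (j + 1) (k - j - 1) = up t (j + 1) (k - j - 1) * t i :=
              up_shift h (by omega) (by omega) (by omega)
            have s2 := ((h.2 j (i + 1) (by omega) (by omega)).pow_left 2).eq
            have s3 : t i * (up t (j + 1) (k - j - 1))⁻¹ =
                (up t (j + 1) (k - j - 1))⁻¹ * t (i + 1) := by
              rw [mul_inv_eq_iff_eq_mul, mul_assoc, s1, inv_mul_cancel_left]
            rw [aa, mul_assoc, ← s1, ← mul_assoc, ← mul_assoc (t i), ← mul_assoc (t i), s3,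
              mul_assoc _ _ (t (i + 1)), s2]
            simp only [mul_assoc]
          · have s1 : Commute (t i) (up t (j + 1) (k - j - 1)) :=
              up_comm h (by omega) (by omega)
            have s2 := (h.2 i j (by omega) (by omega)).pow_right 2
            exact ((s1.inv_right.mul_right s2).mul_right s1).eq.symm
        · rw [one_mul, mul_one]
  exact DFunLike.congr_fun this w

theorem comb1_inv (h : IsBraid t m) {i k : ℕ} (h1 : i + 1 < k) (h2 : k ≤ m) (w : FreeGroup ℕ) :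
    nu t k ((sig i).symm w) = (t i)⁻¹ * nu t k w * t i := by
  have := nu_sig h h1 h2 ((sig i).symm w)
  rw [MulEquiv.apply_symm_apply] at this
  rw [this]
  group

/-- the set of these products contains `1` (`j = k`) and is stable under left multiplication by
`t i` and `(t i)⁻¹`, `i < k`; elements of `Bk t (k - 1)` normalise the range of `nu t k` -/
theorem comb (h : IsBraid t m) {k : ℕ} (hk : k ≤ m) {b : G} (hb : b ∈ Bk t k) :
    ∃ j, j ≤ k ∧ ∃ w, ∃ β ∈ Bk t (k - 1), b = up t j (k - j) * nu t k w * β := by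
  have e : ∀ j, j < k → nu t k (of j) = aa t k j := fun j hj =>
    FreeGroup.lift_apply_of.trans (if_pos hj)
  have mem : ∀ i, i + 1 < k → t i ∈ Bk t (k - 1) := fun i hi =>
    Subgroup.subset_closure ⟨i, show i < k - 1 by omega, rfl⟩
  have pos : ∀ i j w β, i + 1 < k → j ≤ k → β ∈ Bk t (k - 1) →
      ∃ j', j' ≤ k ∧ ∃ w', ∃ β' ∈ Bk t (k - 1),
        up t j (k - j) * t i * nu t k w * β = up t j' (k - j') * nu t k w' * β' := by
    intro i j w β hi hj hβ
    refine ⟨j, hj, sig i w, t i * β, Subgroup.mul_mem _ (mem i hi) hβ, ?_⟩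
    rw [nu_sig h hi hk]
    group
  have neg : ∀ i j w β, i + 1 < k → j ≤ k → β ∈ Bk t (k - 1) →
      ∃ j', j' ≤ k ∧ ∃ w', ∃ β' ∈ Bk t (k - 1),
        up t j (k - j) * (t i)⁻¹ * nu t k w * β = up t j' (k - j') * nu t k w' * β' := by
    intro i j w β hi hj hβ
    refine ⟨j, hj, (sig i).symm w, (t i)⁻¹ * β,
      Subgroup.mul_mem _ (Subgroup.inv_mem _ (mem i hi)) hβ, ?_⟩
    rw [comb1_inv h hi hk]
    group
  have us : ∀ j, j < k → up t j (k - j) = t j * up t (j + 1) (k - (j + 1)) := fun j hj => by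
    rw [show k - j = k - (j + 1) + 1 by omega, up]
  induction hb using Subgroup.closure_induction_left with
  | one => exact ⟨k, le_rfl, 1, 1, Subgroup.one_mem _, by simp [up]⟩
  | mul_left x hx y _ ih =>
    obtain ⟨i, hi, rfl⟩ := hx
    have hi : i < k := hi
    obtain ⟨j, hj, w, β, hβ, rfl⟩ := ih
    rw [← mul_assoc, ← mul_assoc]
    rcases lt_trichotomy (i + 1) j with c | rfl | c
    · rw [(up_comm h c (by omega)).eq]
      exact pos i j w β (by omega) hj hβ
    · exact ⟨i, hi.le, w, β, hβ, by rw [us i hi]⟩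
    · rcases (Nat.lt_succ_iff.1 c).eq_or_lt with rfl | c
      · refine ⟨j + 1, hi, of j * w, β, hβ, ?_⟩
        rw [_root_.map_mul, e j hi, aa, us j hi, show k - j - 1 = k - (j + 1) by omega, sq]
        group
      · obtain ⟨i, rfl⟩ : ∃ i', i = i' + 1 := ⟨i - 1, by omega⟩
        rw [up_shift h (by omega) (by omega) (by omega)]
        exact pos i j w β hi hj hβ
  | inv_mul_cancel x hx y _ ih =>
    obtain ⟨i, hi, rfl⟩ := hx
    have hi : i < k := hi
    obtain ⟨j, hj, w, β, hβ, rfl⟩ := ih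
    rw [← mul_assoc, ← mul_assoc]
    rcases lt_trichotomy (i + 1) j with c | rfl | c
    · rw [(up_comm h c (by omega)).inv_left.eq]
      exact neg i j w β (by omega) hj hβ
    · refine ⟨i, hi.le, (of i)⁻¹ * w, β, hβ, ?_⟩
      rw [_root_.map_mul, _root_.map_inv, e i hi, aa, us i hi,
        show k - i - 1 = k - (i + 1) by omega, sq]
      group
    · rcases (Nat.lt_succ_iff.1 c).eq_or_lt with rfl | c
      · exact ⟨j + 1, hi, w, β, hβ, by rw [us j hi, inv_mul_cancel_left]⟩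
      · obtain ⟨i, rfl⟩ : ∃ i', i = i' + 1 := ⟨i - 1, by omega⟩
        have s1 : t (i + 1) * up t j (k - j) = up t j (k - j) * t i :=
          up_shift h (by omega) (by omega) (by omega)
        have s2 : (t (i + 1))⁻¹ * up t j (k - j) = up t j (k - j) * (t i)⁻¹ := by
          rw [inv_mul_eq_iff_eq_mul, ← mul_assoc, s1, mul_inv_cancel_right]
        rw [s2]
        exact neg i j w β hi hj hβ

/-! Part 2: faithfulness -/

variable {ρ : G →* MulAut (FreeGroup ℕ)}

theorem rho_fix (hρ : ∀ i, i < m → ρ (t i) = sig i) {k j : ℕ} (hk : k ≤ m) (hj : k < j) {b : G}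
    (hb : b ∈ Bk t k) : ρ b (of j) = of j := by
  induction hb using Subgroup.closure_induction with
  | mem x hx =>
    obtain ⟨i, hi, rfl⟩ := hx
    have hi : i < k := hi
    rw [hρ i (by omega)]
    exact sg_other _ (by omega) (by omega)
  | one => simp
  | mul x y _ _ h1 h2 => rw [_root_.map_mul, MulAut.mul_apply, h2, h1]
  | inv x _ h1 =>
    rw [_root_.map_inv]
    apply (ρ x).injective
    rw [MulAut.apply_inv_self, h1]

theorem rho_up (hρ : ∀ i, i < m → ρ (t i) = sig i) {j d : ℕ} (h : j + d ≤ m) :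
    ρ (up t j d) (of (j + d)) = of j ∧ ∀ i, i < j → ρ (up t j d) (of i) = of i := by
  induction d generalizing j with
  | zero => simp [up]
  | succ d ih =>
    obtain ⟨h1, h2⟩ := ih (j := j + 1) (by omega)
    simp only [up, _root_.map_mul, MulAut.mul_apply, hρ j (by omega)]
    refine ⟨?_, fun i hi => ?_⟩
    · rw [show j + (d + 1) = j + 1 + d by omega, h1]
      exact sg_right _
    · rw [h2 i (by omega)]
      exact sg_other _ (by omega) (by omega)

/-- `ρ (aa t k j) (x k) = (x j)⁻¹ * x k * x j`; `kill k ∘ ρ (aa t k j) = kill k` by `sg_sq_kill` -/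
theorem rho_nu (hρ : ∀ i, i < m → ρ (t i) = sig i) {k : ℕ} (hk : k ≤ m) (w : FreeGroup ℕ) :
    (∀ v, kill k (ρ (nu t k w) v) = kill k v) ∧
      ∃ u, ρ (nu t k w) (of k) = u * of k * u⁻¹ ∧ kill k u = (kill k w)⁻¹ := by
  induction w using FreeGroup.induction_on with
  | C1 => exact ⟨fun v => by simp, 1, by simp, by simp⟩
  | of j =>
    by_cases hj : j < k
    · obtain ⟨h1, h2⟩ := rho_up hρ (j := j + 1) (d := k - j - 1) (by omega)
      rw [show j + 1 + (k - j - 1) = k by omega] at h1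
      have h3 : (ρ (up t (j + 1) (k - j - 1)))⁻¹ (of (j + 1)) = of k := by
        rw [← h1, MulAut.inv_apply_self]
      have h4 : (ρ (up t (j + 1) (k - j - 1)))⁻¹ (of j) = of j := by
        conv_lhs => rw [← h2 j (by omega), MulAut.inv_apply_self]
      have h5 : ∀ v, ρ (nu t k (of j)) v =
          (ρ (up t (j + 1) (k - j - 1)))⁻¹ (sig j (sig j (ρ (up t (j + 1) (k - j - 1)) v))) := by
        intro v
        simp only [nu, FreeGroup.lift_apply_of, if_pos hj, aa, sq, _root_.map_mul, _root_.map_inv,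
          MulAut.mul_apply, hρ j (by omega)]
      refine ⟨fun v => ?_, (of j)⁻¹, ?_, by simp⟩
      · have := sg_sq_kill (Nat.succ_ne_self j).symm
          ((kill k).comp ((ρ (up t (j + 1) (k - j - 1)))⁻¹ : MulAut _).toMonoidHom)
          (by
            change kill k ((ρ (up t (j + 1) (k - j - 1)))⁻¹ (of (j + 1))) = 1
            rw [h3]
            simp [kill]) (ρ (up t (j + 1) (k - j - 1)) v)
        rw [h5]
        refine this.trans ?_
        change kill k ((ρ (up t (j + 1) (k - j - 1)))⁻¹ (ρ (up t (j + 1) (k - j - 1)) v)) = _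
        rw [MulAut.inv_apply_self]
      · rw [h5, h1, sig, sg_right, sg_left, _root_.map_mul, _root_.map_mul, _root_.map_inv, h3, h4, inv_inv]
    · refine ⟨fun v => ?_, 1, ?_, ?_⟩ <;> simp [nu, kill, hj]
  | inv_of j ih =>
    obtain ⟨h1, u, h2, h3⟩ := ih
    simp only [_root_.map_inv]
    have h4 : ∀ v, kill k ((ρ (nu t k (of j)))⁻¹ v) = kill k v := fun v => by
      rw [← h1, MulAut.apply_inv_self]
    refine ⟨h4, ((ρ (nu t k (of j)))⁻¹ u)⁻¹, ?_, by rw [_root_.map_inv, h4, h3]⟩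
    apply (ρ (nu t k (of j))).injective
    simp only [_root_.map_mul, _root_.map_inv, MulAut.apply_inv_self, h2]
    group
  | mul x y ihx ihy =>
    obtain ⟨h1, u, h2, h3⟩ := ihx
    obtain ⟨h4, u', h5, h6⟩ := ihy
    simp only [_root_.map_mul, MulAut.mul_apply]
    refine ⟨fun v => by rw [h1, h4], ρ (nu t k x) u' * u, ?_, ?_⟩
    · rw [h5, _root_.map_mul, _root_.map_mul, _root_.map_inv, h2]
      group
    · rw [_root_.map_mul, h1, h3, h6, mul_inv_rev]

/-- `free_cent` with `u = 1` -/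
theorem nu_faith (hρ : ∀ i, i < m → ρ (t i) = sig i) {k : ℕ} (hk : k ≤ m) {w : FreeGroup ℕ}
    (h : ρ (nu t k w) (of k) = of k) : kill k w = 1 := by
  obtain ⟨-, u, h1, h2⟩ := rho_nu hρ hk w
  have h3 := free_cent (i := k) (u := 1) (one_mem _) (w := u) (by
    have : u⁻¹ * (1 * of k) * u = 1 * of k := by
      conv_lhs => rw [← h, h1]
      group
    rw [this]
    exact Subgroup.mem_zpowers _)
  obtain ⟨n, rfl⟩ := h3
  simp only [one_mul, _root_.map_zpow] at h2
  rw [show kill k (of k) = 1 by simp [kill], one_zpow] at h2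
  exact inv_eq_one.1 h2.symm

theorem rho_nu_conj (h : IsBraid t m) (hρ : ∀ i, i < m → ρ (t i) = sig i) {k : ℕ} (hk : k ≤ m)
    {b : G} (hb : b ∈ Bk t (k - 1)) (w : FreeGroup ℕ) :
    nu t k (ρ b w) = b * nu t k w * b⁻¹ ∧ kill k (ρ b w) = ρ b (kill k w) := by
  induction hb using Subgroup.closure_induction generalizing w with
  | mem x hx =>
    obtain ⟨i, hi, rfl⟩ := hx
    have hi : i < k - 1 := hi
    rw [hρ i (by omega)]
    exact ⟨nu_sig h (by omega) hk w, kill_sig (by omega) w⟩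
  | one => simp
  | mul x y _ _ h1 h2 =>
    simp only [_root_.map_mul, MulAut.mul_apply]
    refine ⟨?_, by rw [(h1 _).2, (h2 _).2]⟩
    rw [(h1 _).1, (h2 _).1]
    group
  | inv x _ h1 =>
    obtain ⟨h2, h3⟩ := h1 ((ρ x)⁻¹ w)
    rw [MulAut.apply_inv_self] at h2 h3
    rw [_root_.map_inv, h2, h3, MulAut.inv_apply_self]
    refine ⟨?_, rfl⟩
    group

/-- the form of `comb` used below: the index `j` is read off from the action on `x k` -/
theorem comb' (h : IsBraid t m) (hρ : ∀ i, i < m → ρ (t i) = sig i) {k : ℕ} (hk0 : 0 < k)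
    (hk : k ≤ m) {b : G} (hb : b ∈ Bk t k) :
    ∃ j, j ≤ k ∧ ∃ w, kill k w = w ∧ ∃ β ∈ Bk t (k - 1), b = up t j (k - j) * nu t k w * β ∧
      ∃ u, ρ b (of k) = u * of j * u⁻¹ := by
  obtain ⟨j, hj, w, β, hβ, rfl⟩ := comb h hk hb
  obtain ⟨-, u, h1, -⟩ := rho_nu hρ hk w
  have h2 := (rho_up hρ (j := j) (d := k - j) (by omega)).1
  rw [show j + (k - j) = k by omega] at h2
  have h3 : (kill k).comp (kill k) = kill k := by
    ext i
    by_cases hi : i < k <;> simp [kill, hi]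
  refine ⟨j, hj, kill k w, DFunLike.congr_fun h3 w, β, hβ, by rw [nu_kill],
    ρ (up t j (k - j)) u, ?_⟩
  simp only [_root_.map_mul, MulAut.mul_apply]
  rw [rho_fix hρ (k := k - 1) (by omega) (by omega) hβ, h1, _root_.map_mul, _root_.map_mul, _root_.map_inv, h2]

theorem rho_inj (h : IsBraid t m) (hρ : ∀ i, i < m → ρ (t i) = sig i) {k : ℕ} (hk : k ≤ m) {b : G}
    (hb : b ∈ Bk t k) (h1 : ρ b = 1) : b = 1 := by
  induction k generalizing b with
  | zero => simpa [Bk] using hb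
  | succ k ih =>
    obtain ⟨j, hj, w, hw, β, hβ, hb', u, hu⟩ := comb' h hρ (Nat.succ_pos k) hk hb
    have h2 : j = k + 1 := isConj_of (isConj_iff.2 ⟨u, by rw [← hu, h1]; rfl⟩)
    subst h2
    rw [Nat.sub_self, up, one_mul] at hb'
    have h3 : ρ b (of (k + 1)) = of (k + 1) := by rw [h1]; rfl
    rw [hb', _root_.map_mul, MulAut.mul_apply,
      rho_fix hρ (k := k + 1 - 1) (by omega) (by omega) hβ] at h3
    have h4 := nu_faith hρ hk h3
    rw [hw] at h4
    rw [h4, _root_.map_one, one_mul] at hb'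
    subst hb'
    exact ih (by omega) hβ h1

/-! Part 3: centralisers -/

theorem p3_Bk_mono (t : ℕ → G) {k l : ℕ} (h : k ≤ l) : Bk t k ≤ Bk t l :=
  Subgroup.closure_mono (Set.image_mono (Set.Iio_subset_Iio h))

theorem p3_t_mem (t : ℕ → G) {i k : ℕ} (h : i < k) : t i ∈ Bk t k :=
  Subgroup.subset_closure ⟨i, h, rfl⟩

theorem p3_twist (hρ : ∀ i, i < m → ρ (t i) = sig i) (hm : 2 ≤ m) {w : FreeGroup ℕ}
    (hw : ρ ((t 0 * t 1) ^ 3) w = w) : sig 0 w = w ∧ sig 1 w = w := by
  rw [map_pow, _root_.map_mul, hρ 0 (by omega), hρ 1 (by omega)] at hw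
  exact free_twist (i := 0) (j := 1) (k := 2) (by omega) (by omega) (by omega) hw

/-- induction on `k`; for `k ≥ 3` the twist `z` fixes `ρ b (x k) = u * x j * u⁻¹`, so `3 ≤ j`
(`free_twist`, `sg_fix_conj`) and `up t j _` commutes with `t 0, t 1`; `n = nu t k w` satisfies
`n⁻¹ z n z⁻¹ = nu t k (w⁻¹ * ρ z w) ∈ Bk t (k - 1)`, so `ρ z w = w` (`nu_faith`), and `n` commutes
with `t 0, t 1` (`free_twist`, `nu_sig`) -/
theorem twist_conj (h : IsBraid t m) (hρ : ∀ i, i < m → ρ (t i) = sig i) {k : ℕ} (hk2 : 2 ≤ k)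
    (hk : k ≤ m) {b : G} (hb : b ∈ Bk t k) (hz : b⁻¹ * (t 0 * t 1) ^ 3 * b ∈ Bk t 2) :
    ∃ c, Commute c (t 0) ∧ Commute c (t 1) ∧ ∃ e ∈ Bk t 2, b = c * e := by
  induction k, hk2 using Nat.le_induction generalizing b with
  | base => exact ⟨1, Commute.one_left _, Commute.one_left _, b, hb, (one_mul b).symm⟩
  | succ k hk2 ih =>
    have hm : 2 ≤ m := by omega
    obtain ⟨z, hzz⟩ : ∃ z, z = (t 0 * t 1) ^ 3 := ⟨_, rfl⟩
    have hzm : z ∈ Bk t 2 := by
      rw [hzz]
      exact pow_mem (mul_mem (p3_t_mem t (by omega)) (p3_t_mem t (by omega))) 3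
    have hcz : ∀ c : G, Commute c (t 0) → Commute c (t 1) → Commute c z := fun c h0 h1 => by
      rw [hzz]
      exact (h0.mul_right h1).pow_right 3
    have htw : ∀ w, ρ z w = w → sig 0 w = w ∧ sig 1 w = w := fun w hw =>
      p3_twist hρ hm (hzz ▸ hw)
    rw [← hzz] at hz ih
    obtain ⟨j, hj, w, hw, β, hβ, hbe, u, hu⟩ := comb' h hρ (k := k + 1) (Nat.succ_pos k) hk hb
    have hβ' : β ∈ Bk t k := hβ
    have hfix : ρ z (u * of j * u⁻¹) = u * of j * u⁻¹ := by
      have h1 : ρ (b⁻¹ * z * b) (of (k + 1)) = of (k + 1) := rho_fix hρ hm (by omega) hz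
      have h2 : z * b = b * (b⁻¹ * z * b) := by group
      rw [← hu, ← MulAut.mul_apply, ← _root_.map_mul, h2, _root_.map_mul, MulAut.mul_apply, h1]
    obtain ⟨f0, f1⟩ := htw _ hfix
    obtain ⟨j0, j1⟩ := sg_fix_conj _ f0
    obtain ⟨-, j2⟩ := sg_fix_conj _ f1
    have hU0 : Commute (t 0) (up t j (k + 1 - j)) := up_comm h (by omega) (by omega)
    have hU1 : Commute (t 1) (up t j (k + 1 - j)) := up_comm h (by omega) (by omega)
    obtain ⟨U, hU⟩ : ∃ U, U = up t j (k + 1 - j) := ⟨_, rfl⟩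
    rw [← hU] at hbe hU0 hU1
    have hUz : U⁻¹ * z * U = z := by
      rw [mul_assoc, ← (hcz U hU0.symm hU1.symm).eq, inv_mul_cancel_left]
    obtain ⟨c1, c2⟩ := rho_nu_conj h hρ hk (b := z) (p3_Bk_mono t hk2 hzm) w
    have hmem : nu t (k + 1) (w⁻¹ * ρ z w) ∈ Bk t k := by
      have e : nu t (k + 1) (w⁻¹ * ρ z w) = β * (b⁻¹ * z * b) * β⁻¹ * z⁻¹ := by
        rw [_root_.map_mul, _root_.map_inv, c1, hbe]
        have e' : U⁻¹ * z * U * nu t (k + 1) w * z⁻¹ = z * nu t (k + 1) w * z⁻¹ := by rw [hUz]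
        rw [← e']
        group
      rw [e]
      exact mul_mem (mul_mem (mul_mem hβ' (p3_Bk_mono t hk2 hz)) (inv_mem hβ'))
        (inv_mem (p3_Bk_mono t hk2 hzm))
    have hk1 := nu_faith hρ hk (rho_fix hρ (by omega) (Nat.lt_succ_self k) hmem)
    rw [_root_.map_mul, _root_.map_inv, c2, hw, inv_mul_eq_one] at hk1
    obtain ⟨g0, g1⟩ := htw w hk1.symm
    have n0 := nu_sig h (i := 0) (k := k + 1) (by omega) hk w
    have n1 := nu_sig h (i := 1) (k := k + 1) (by omega) hk w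
    rw [g0] at n0
    rw [g1] at n1
    obtain ⟨n, hn⟩ : ∃ n, n = nu t (k + 1) w := ⟨_, rfl⟩
    rw [← hn] at hbe n0 n1
    have hn0 : Commute n (t 0) := (eq_mul_inv_iff_mul_eq.1 n0 : n * t 0 = t 0 * n)
    have hn1 : Commute n (t 1) := (eq_mul_inv_iff_mul_eq.1 n1 : n * t 1 = t 1 * n)
    have hnz : n⁻¹ * z * n = z := by
      rw [mul_assoc, ← (hcz n hn0 hn1).eq, inv_mul_cancel_left]
    have hz' : β⁻¹ * z * β ∈ Bk t 2 := by
      have e : b⁻¹ * z * b = β⁻¹ * (n⁻¹ * (U⁻¹ * z * U) * n) * β := by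
        rw [hbe]; group
      rw [e, hUz, hnz] at hz
      exact hz
    obtain ⟨c, hc0, hc1, e, he, hβe⟩ := ih (by omega) hβ' hz'
    refine ⟨U * n * c, (hU0.symm.mul_left hn0).mul_left hc0, (hU1.symm.mul_left hn1).mul_left hc1,
      e, he, ?_⟩
    rw [hbe, hβe, mul_assoc (U * n)]

/-- `comb'` with `k = 2`: `j = 2`, `sig 0 w = w`, `sg_sq`, `free_cent`,
`nu t 2 (x 1 * x 0) = t 1 * t 0 ^ 2 * t 1 = (t 0 * t 1) ^ 3 * (t 0 ^ 2)⁻¹` -/
theorem cent_two (h : IsBraid t m) (hρ : ∀ i, i < m → ρ (t i) = sig i) (hm : 2 ≤ m) {b : G}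
    (hb : b ∈ Bk t 2) (hc : Commute b (t 0)) :
    ∃ i j : ℤ, b = t 0 ^ i * ((t 0 * t 1) ^ 3) ^ j := by
  obtain ⟨j, hj, w, hw, β, hβ, hbe, u, hu⟩ := comb' h hρ (by omega) hm hb
  have hs2 : sig 0 (of 2) = of 2 := sg_other _ (by omega) (by omega)
  have hfix : sig 0 (u * of j * u⁻¹) = u * of j * u⁻¹ := by
    rw [← hu, ← hρ 0 (by omega), ← MulAut.mul_apply, ← _root_.map_mul, ← hc.eq, _root_.map_mul, MulAut.mul_apply,
      hρ 0 (by omega), hs2]
  obtain ⟨j0, j1⟩ := sg_fix_conj _ hfix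
  have hj2 : j = 2 := by omega
  subst hj2
  have hβ' : β ∈ Subgroup.zpowers (t 0) := by
    refine (Subgroup.closure_le _).2 ?_ hβ
    rintro _ ⟨i, hi, rfl⟩
    have : i = 0 := by
      have : i < 2 - 1 := hi
      omega
    subst this
    exact Subgroup.mem_zpowers _
  obtain ⟨i, rfl⟩ := Subgroup.mem_zpowers_iff.1 hβ'
  have hb' : b = nu t 2 w * t 0 ^ i := by rw [hbe]; simp [up]
  have hn : Commute (nu t 2 w) (t 0) := by
    have e : nu t 2 w = b * (t 0 ^ i)⁻¹ := by rw [hb']; group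
    rw [e]
    exact hc.mul_left ((Commute.refl (t 0)).zpow_left i).inv_left
  have n0 := nu_sig h (i := 0) (k := 2) (by omega) hm w
  have h1 : nu t 2 (w⁻¹ * sig 0 w) = 1 := by
    rw [_root_.map_mul, _root_.map_inv, n0, ← hn.eq]
    group
  have hk1 := nu_faith hρ hm (w := w⁻¹ * sig 0 w) (by rw [h1, _root_.map_one]; rfl)
  rw [_root_.map_mul, _root_.map_inv, kill_sig (by omega), hw, inv_mul_eq_one] at hk1
  have hwm : w ∈ Subgroup.closure (of '' ({0, 1} : Set ℕ)) := by
    have := kill_mem 2 w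
    rw [hw] at this
    refine Subgroup.closure_mono (Set.image_mono fun a ha => ?_) this
    have : a < 2 := ha
    simp only [Set.mem_insert_iff, Set.mem_singleton_iff]
    omega
  have hsq : sig 0 (sig 0 w) = (of 1 * of 0)⁻¹ * w * (of 1 * of 0) := sg_sq _ hwm
  rw [← hk1, ← hk1] at hsq
  have hcw : w⁻¹ * (of 1 * of 0) * w = of 1 * of 0 := by
    conv_lhs => enter [2]; rw [hsq]
    group
  have hwz : w ∈ Subgroup.zpowers (of 1 * of 0 : FreeGroup ℕ) :=
    free_cent (i := 0) (u := of 1) (Subgroup.subset_closure ⟨1, by simp, rfl⟩)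
      (by rw [hcw]; exact Subgroup.mem_zpowers _)
  obtain ⟨l, rfl⟩ := Subgroup.mem_zpowers_iff.1 hwz
  have hbr : t 0 * t 1 * t 0 = t 1 * t 0 * t 1 := h.1 0 (by omega)
  have hnu : nu t 2 (of 1 * of 0) = (t 0 ^ 2)⁻¹ * (t 0 * t 1) ^ 3 := by
    have e1 : nu t 2 (of 1 * of 0) = t 1 * t 0 * t 0 * t 1 := by
      simp [nu, aa, up, pow_two, mul_assoc]
    have e2 : (t 0 * t 1) ^ 3 = t 0 * (t 1 * t 0 * t 1) * t 0 * t 1 := by
      simp [pow_succ, mul_assoc]
    rw [e1, e2, ← hbr]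
    simp [pow_two, mul_assoc]
  have hcz : Commute (t 0) ((t 0 * t 1) ^ 3) := (braid_comm_cube hbr).1
  obtain ⟨z, hzz⟩ : ∃ z, z = (t 0 * t 1) ^ 3 := ⟨_, rfl⟩
  rw [← hzz] at hnu hcz ⊢
  refine ⟨-(2 * l) + i, l, ?_⟩
  rw [hb', map_zpow, hnu, (hcz.pow_left 2).inv_left.mul_zpow, mul_assoc,
    ((hcz.zpow_left i).zpow_right l).symm.eq, ← mul_assoc, zpow_add]
  congr 2
  rw [inv_zpow', ← zpow_natCast, ← zpow_mul]
  congr 1
  push_cast
  ring

theorem Br.exists_rho (m : ℕ) :
    ∃ ρ : Br m →* MulAut (FreeGroup ℕ), (∀ i, i < m → ρ (bt m i) = sig i) ∧ Function.Injective ρ := by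
  obtain ⟨ρ, hρ⟩ := Br.exists_lift (sig_isBraid m)
  exact ⟨ρ, hρ, (injective_iff_map_eq_one ρ).2 fun b hb =>
    rho_inj (bt_isBraid m) hρ le_rfl (Br.top m ▸ Subgroup.mem_top b) hb⟩

theorem Br.exists_inc {m : ℕ} (hm : 2 ≤ m) : ∃ ι : Br 2 →* Br m, Function.Injective ι ∧
    ι (bt 2 0) = bt m 0 ∧ ι (bt 2 1) = bt m 1 := by
  obtain ⟨ι, hι⟩ := Br.exists_lift ((bt_isBraid m).mono hm)
  obtain ⟨ρ, h1, -⟩ := Br.exists_rho m
  obtain ⟨ρ', h2, h3⟩ := Br.exists_rho 2
  have : ρ.comp ι = ρ' := Br.hom_ext fun i hi => by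
    rw [MonoidHom.comp_apply, hι i hi, h1 i (hi.trans_le hm), h2 i hi]
  refine ⟨ι, Function.Injective.of_comp (f := ρ) ?_, hι 0 (by omega), hι 1 (by omega)⟩
  rw [← this] at h3
  exact h3

theorem Br.twist_conj {m : ℕ} (hm : 2 ≤ m) {b : Br m}
    (hz : b⁻¹ * (bt m 0 * bt m 1) ^ 3 * b ∈ Bk (bt m) 2) :
    ∃ c, Commute c (bt m 0) ∧ Commute c (bt m 1) ∧ ∃ e ∈ Bk (bt m) 2, b = c * e := by
  obtain ⟨ρ, h1, -⟩ := Br.exists_rho m
  exact Cat.twist_conj (bt_isBraid m) h1 hm le_rfl (Br.top m ▸ Subgroup.mem_top b) hz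

theorem Br.cent_two {b : Br 2} (hc : Commute b (bt 2 0)) :
    ∃ i j : ℤ, b = bt 2 0 ^ i * ((bt 2 0 * bt 2 1) ^ 3) ^ j := by
  obtain ⟨ρ, h1, -⟩ := Br.exists_rho 2
  exact Cat.cent_two (bt_isBraid 2) h1 le_rfl (Br.top 2 ▸ Subgroup.mem_top b) hc

theorem anchor_CAComb : True := by
  have := @sig.eq_1
  have := @up.eq_1
  have := @up.eq_2
  have := @up.eq_def
  have := @aa.eq_1
  have := @nu.eq_1
  have := @kill.eq_1
  trivial

end Crest.Agent.R175.Cat
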