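import Crest.Agent.R175.CAAm

/-! Row 175, S0264: the Artin automorphisms of a free group, centralisers and fixed subgroups. -/

set_option autoImplicit false

namespace Crest.Agent.R175.Cat

open FreeGroup

variable {α : Type} [DecidableEq α]

/-- the Artin automorphism `x i ↦ (x i)⁻¹ * x j * x i`, `x j ↦ x i` -/
def sg (i j : α) (h : i ≠ j) : MulAut (FreeGroup α) :=
  MonoidHom.toMulEquiv
    (FreeGroup.lift fun a => if a = i then (of i)⁻¹ * of j * of i else if a = j then of i else of a)
    (FreeGroup.lift fun a => if a = i then of j else if a = j then of j * of i * (of j)⁻¹ else of a)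
    (by
      ext a
      by_cases h1 : a = i
      · simp [h1, h.symm, mul_assoc]
      · by_cases h2 : a = j <;> simp [h1, h2, h.symm])
    (by
      ext a
      by_cases h1 : a = i
      · simp [h1, h.symm]
      · by_cases h2 : a = j
        · simp [h2, h.symm, mul_assoc]
        · simp [h1, h2])

theorem sg_left {i j : α} (h : i ≠ j) : sg i j h (of i) = (of i)⁻¹ * of j * of i := by
  simp [sg]

theorem sg_right {i j : α} (h : i ≠ j) : sg i j h (of j) = of i := by
  simp [sg, h.symm]

theorem sg_other {i j a : α} (h : i ≠ j) (h1 : a ≠ i) (h2 : a ≠ j) : sg i j h (of a) = of a := by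
  simp [sg, h1, h2]

theorem aut_ext {f g : MulAut (FreeGroup α)} (h : ∀ a, f (of a) = g (of a)) : f = g := by
  exact MulEquiv.toMonoidHom_injective (FreeGroup.ext_hom _ _ h)

theorem sg_braid {i j k : α} (hij : i ≠ j) (hjk : j ≠ k) (hik : i ≠ k) :
    sg i j hij * sg j k hjk * sg i j hij = sg j k hjk * sg i j hij * sg j k hjk := by
  refine aut_ext fun a => ?_
  by_cases h1 : a = i
  · subst h1
    simp [sg_left, sg_right, sg_other, hij, hik, hik.symm, hjk.symm, mul_assoc]
  by_cases h2 : a = j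
  · subst h2
    simp [sg_left, sg_right, sg_other, hij, hik, hik.symm, hjk.symm, mul_assoc]
  by_cases h3 : a = k
  · subst h3
    simp [sg_right, sg_other, hij, hik, hik.symm, hjk.symm]
  · simp [sg_other, h1, h2, h3]

theorem sg_comm {i j k l : α} (hij : i ≠ j) (hkl : k ≠ l) (h1 : i ≠ k) (h2 : i ≠ l) (h3 : j ≠ k)
    (h4 : j ≠ l) : Commute (sg i j hij) (sg k l hkl) := by
  refine aut_ext fun a => ?_
  by_cases a1 : a = i
  · subst a1
    simp [sg_left, sg_other, h1, h2, h3, h4]
  by_cases a2 : a = j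
  · subst a2
    simp [sg_right, sg_other, h1, h2, h3, h4]
  by_cases a3 : a = k
  · subst a3
    simp [sg_left, sg_other, h1.symm, h2.symm, h3.symm, h4.symm]
  by_cases a4 : a = l
  · subst a4
    simp [sg_right, sg_other, h1.symm, h2.symm, h3.symm, h4.symm]
  · simp [sg_other, a1, a2, a3, a4]

theorem sg_two {i j : α} (h : i ≠ j) : sg i j h (of j * of i) = of j * of i := by
  simp [sg_left, sg_right, mul_assoc]

theorem sg_three {i j k : α} (hij : i ≠ j) (hjk : j ≠ k) (hik : i ≠ k) :
    sg i j hij (of k * of j * of i) = of k * of j * of i ∧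
      sg j k hjk (of k * of j * of i) = of k * of j * of i := by
  simp [sg_left, sg_right, sg_other, hij, hik, hik.symm, hjk.symm, mul_assoc]

omit [DecidableEq α] in
theorem fr_conj (f : MulAut (FreeGroup α)) (δ : FreeGroup α) {S : Set α}
    (h : ∀ a ∈ S, f (of a) = δ⁻¹ * of a * δ) {w : FreeGroup α}
    (hw : w ∈ Subgroup.closure (of '' S)) : f w = δ⁻¹ * w * δ := by
  induction hw using Subgroup.closure_induction with
  | mem x hx =>
    obtain ⟨a, ha, rfl⟩ := hx
    exact h a ha
  | one => simp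
  | mul x y _ _ hx hy => simp [hx, hy, mul_assoc]
  | inv x _ hx => simp [hx, mul_assoc]

theorem sg_sq {i j : α} (h : i ≠ j) {w : FreeGroup α} (hw : w ∈ Subgroup.closure (of '' {i, j})) :
    sg i j h (sg i j h w) = (of j * of i)⁻¹ * w * (of j * of i) := by
  refine fr_conj (sg i j h * sg i j h) _ ?_ hw
  rintro a (rfl | rfl) <;> simp [sg_left, sg_right, mul_assoc]

theorem sg_cube {i j k : α} (hij : i ≠ j) (hjk : j ≠ k) (hik : i ≠ k) {w : FreeGroup α}
    (hw : w ∈ Subgroup.closure (of '' {i, j, k})) :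
    ((sg i j hij * sg j k hjk) ^ 3) w = (of k * of j * of i)⁻¹ * w * (of k * of j * of i) := by
  refine fr_conj _ _ ?_ hw
  rintro a (rfl | rfl | rfl) <;>
    simp [pow_succ, sg_left, sg_right, sg_other, hij, hik, hik.symm, hjk.symm, mul_assoc]

/-- a homomorphism which kills `x j` does not see `sg i j ^ 2` -/
theorem sg_sq_kill {G : Type} [Group G] {i j : α} (h : i ≠ j) (f : FreeGroup α →* G)
    (hf : f (of j) = 1) (w : FreeGroup α) : f (sg i j h (sg i j h w)) = f w := by
  have h1 : f.comp (sg i j h * sg i j h).toMonoidHom = f := by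
    refine FreeGroup.ext_hom _ _ fun a => ?_
    by_cases h1 : a = i
    · simp [h1, sg_left, sg_right, hf]
    by_cases h2 : a = j
    · simp [h2, sg_left, sg_right, hf]
    · simp [sg_other, h1, h2]
  exact DFunLike.congr_fun h1 w

theorem isConj_of {a b : α} (h : IsConj (of a) (of b)) : a = b := by
  have h1 := isConj_iff_eq.1 ((FreeGroup.lift fun c =>
    if c = a then Multiplicative.ofAdd (1 : ℤ) else 1).map_isConj h)
  by_contra h2
  simp [Ne.symm h2] at h1

/-- a conjugate of `x a` which is fixed by `sg i j` has `a ≠ i`, `a ≠ j` -/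
theorem sg_fix_conj {i j a : α} (h : i ≠ j) {u : FreeGroup α}
    (hu : sg i j h (u * of a * u⁻¹) = u * of a * u⁻¹) : a ≠ i ∧ a ≠ j := by
  have h1 : IsConj (sg i j h (of a)) (of a) := by
    refine isConj_iff.2 ⟨u⁻¹ * sg i j h u, ?_⟩
    rw [_root_.map_mul, _root_.map_mul, _root_.map_inv] at hu
    rw [mul_inv_rev, mul_assoc u⁻¹, ← mul_assoc, mul_assoc u⁻¹, hu]
    simp [mul_assoc]
  constructor
  · rintro rfl
    rw [sg_left] at h1
    exact h (isConj_of ((isConj_iff.2 ⟨(of a)⁻¹, by rw [inv_inv]⟩).trans h1)).symm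
  · rintro rfl
    rw [sg_right] at h1
    exact h (isConj_of h1)

/-- the change of basis `x i ↦ u * x i` -/
theorem fr_basis {i : α} {u : FreeGroup α} (hu : u ∈ Subgroup.closure (of '' {i}ᶜ)) :
    ∃ τ : MulAut (FreeGroup α), τ (of i) = u * of i ∧ ∀ a, a ≠ i → τ (of a) = of a := by
  have fx : ∀ v : FreeGroup α,
      FreeGroup.lift (fun a => if a = i then v * of i else of a) u = u := fun v => by
    induction hu using Subgroup.closure_induction with
    | mem x hx =>
      obtain ⟨a, ha, rfl⟩ := hx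
      rw [FreeGroup.lift_apply_of, if_neg (show a ≠ i from ha)]
    | one => simp
    | mul x y _ _ hx hy => rw [_root_.map_mul, hx, hy]
    | inv x _ hx => rw [_root_.map_inv, hx]
  refine ⟨MonoidHom.toMulEquiv (FreeGroup.lift fun a => if a = i then u * of i else of a)
    (FreeGroup.lift fun a => if a = i then u⁻¹ * of i else of a) ?_ ?_, ?_, fun a ha => ?_⟩
  · ext a
    by_cases h : a = i <;> simp [h, fx]
  · ext a
    by_cases h : a = i <;> simp [h, fx]
  · simp
  · simp [ha]

/-- `isAmalg_free {i}`, `IsAmalg.conj`, after the change of basis `x i ↦ u * x i` -/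
theorem free_cent {i : α} {u : FreeGroup α} (hu : u ∈ Subgroup.closure (of '' {i}ᶜ))
    {w : FreeGroup α} (h : w⁻¹ * (u * of i) * w ∈ Subgroup.zpowers (u * of i)) :
    w ∈ Subgroup.zpowers (u * of i) := by
  obtain ⟨τ, t1, -⟩ := fr_basis hu
  obtain ⟨w, rfl⟩ := τ.surjective w
  have e : Subgroup.zpowers (u * of i) = (Subgroup.zpowers (of i)).map τ.toMonoidHom := by
    rw [MonoidHom.map_zpowers, ← t1]
    rfl
  rw [e] at h ⊢
  rw [← t1, ← _root_.map_inv, ← _root_.map_mul, ← _root_.map_mul] at h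
  replace h := (Subgroup.mem_map_iff_mem (f := τ.toMonoidHom) τ.injective).1 h
  refine Subgroup.mem_map_of_mem τ.toMonoidHom (by_contra fun h0 => ?_)
  obtain ⟨h1, h2⟩ := isAmalg_free ({i} : Set α)
  rw [Set.image_singleton, ← Subgroup.zpowers_eq_closure] at h1 h2
  obtain ⟨g, -, hg⟩ := h1.conj (Subgroup.mem_zpowers _) (h2 ▸ Subgroup.mem_top w) h0 h
  rw [Subgroup.mem_bot, mul_assoc, inv_mul_eq_one, right_eq_mul] at hg
  exact of_ne_one i hg

/-- `isAmalg_free {j, k}ᶜ`, change of basis `x i ↦ x k * x j * x i`, `IsAmalg.twist` -/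
theorem free_twist {i j k : α} (hij : i ≠ j) (hjk : j ≠ k) (hik : i ≠ k) {w : FreeGroup α}
    (h : ((sg i j hij * sg j k hjk) ^ 3) w = w) : sg i j hij w = w ∧ sg j k hjk w = w := by
  have hu : of k * of j ∈ Subgroup.closure (of '' ({i}ᶜ : Set α)) :=
    mul_mem (Subgroup.subset_closure ⟨k, hik.symm, rfl⟩) (Subgroup.subset_closure ⟨j, hij.symm, rfl⟩)
  obtain ⟨τ, t1, t2⟩ := fr_basis hu
  obtain ⟨h1, h2⟩ := isAmalg_free ({j, k}ᶜ : Set α)
  have h3 := h1.map (f := τ.toMonoidHom) τ.injective
  rw [Subgroup.map_bot] at h3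
  have fx : ∀ f : MulAut (FreeGroup α), f (of k * of j * of i) = of k * of j * of i →
      (∀ a, a ≠ i → a ≠ j → a ≠ k → f (of a) = of a) →
      ∀ g ∈ (Subgroup.closure (of '' ({j, k}ᶜ : Set α))).map τ.toMonoidHom, f g = g := by
    rintro f f1 f2 _ ⟨g, hg, rfl⟩
    have h4 := fr_conj (τ⁻¹ * f * τ) 1 (S := {j, k}ᶜ) (fun a ha => ?_) hg
    · rw [inv_one, one_mul, mul_one, mul_assoc, MulAut.mul_apply, MulAut.inv_apply,
        MulEquiv.symm_apply_eq] at h4
      exact h4
    · rw [inv_one, one_mul, mul_one, mul_assoc, MulAut.mul_apply, MulAut.inv_apply,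
        MulEquiv.symm_apply_eq, MulAut.mul_apply]
      by_cases h5 : a = i
      · rw [h5, t1, f1]
      · rw [t2 a h5, f2 a h5 (fun h => ha (Or.inl h)) fun h => ha (Or.inr h)]
  have f1 := fx _ (sg_three hij hjk hik).1 fun a a1 a2 _ => sg_other hij a1 a2
  have f2 := fx _ (sg_three hij hjk hik).2 fun a _ a2 a3 => sg_other hjk a2 a3
  have h4 := h3.twist ((sg i j hij * sg j k hjk) ^ 3).toMonoidHom (δ := of k * of j * of i)
    ⟨of i, Subgroup.subset_closure ⟨i, fun h => h.elim hij hik, rfl⟩, t1⟩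
    (t1 ▸ fun h => of_ne_one i (τ.injective (h.trans (_root_.map_one τ).symm)))
    (fun g hg => by simp [pow_succ, f1 g hg, f2 g hg]) ?_ (w := w) ?_ h
  · exact ⟨f1 w h4, f2 w h4⟩
  · rintro _ ⟨g, hg, rfl⟩
    rw [compl_compl] at hg
    have h5 := fr_conj τ 1 (S := {j, k}) (by
      rintro a (rfl | rfl)
      · simp [t2 a hij.symm]
      · simp [t2 a hik.symm]) hg
    rw [inv_one, one_mul, mul_one] at h5
    have h6 : τ.toMonoidHom g = g := h5
    rw [h6]
    exact sg_cube hij hjk hik (Subgroup.closure_mono (Set.image_mono (Set.subset_insert _ _)) hg)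
  · rw [← Subgroup.map_sup, h2]
    exact ⟨τ.symm w, Subgroup.mem_top _, τ.apply_symm_apply w⟩

theorem anchor_CAFree : True := by
  have := @sg.eq_1
  trivial

end Crest.Agent.R175.Cat
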