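import Crest.Agent.R175.CAV3
import Crest.Agent.R175.CAB3

/-! Row 175, S0264: the tree product of the triangle group and three braid groups. -/

set_option autoImplicit false

namespace Crest.Agent.R175.Cat

variable {A : Type} [Group A]

/-- a braid group is amalgamated to `K` along the edge `e` -/
structure Leaf (j : VV →* A) (K : Subgroup A) (e : ZMod 3) (n : ℕ) (β : Br n →* A) : Prop where
  two : 2 ≤ n
  h0 : β (bt n 0) = j (sv e)
  h1 : β (bt n 1) = j (sv (e + 1))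
  inj : Function.Injective β
  am : IsAmalg K β.range ((EE e).map j)

/-- the tree product -/
structure Tower (A : Type) [Group A] (n : ZMod 3 → ℕ) where
  j : VV →* A
  β : ∀ e, Br (n e) →* A
  inj : Function.Injective j
  l0 : Leaf j j.range 0 (n 0) (β 0)
  l1 : Leaf j (j.range ⊔ (β 0).range) 1 (n 1) (β 1)
  l2 : Leaf j (j.range ⊔ (β 0).range ⊔ (β 1).range) 2 (n 2) (β 2)
  top : j.range ⊔ (β 0).range ⊔ (β 1).range ⊔ (β 2).range = ⊤

/-- elements conjugating a full twist into the triangle group -/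
def Good1 (j : VV →* A) (K : Subgroup A) : Prop :=
  ∀ e, ∀ a ∈ K, a⁻¹ * j (zz sv e) * a ∈ j.range →
    ∃ h, Commute h (j (sv e)) ∧ Commute h (j (sv (e + 1))) ∧ ∃ v, a = h * j v

/-- projections to the vertices next to the triangle group -/
def Good2 (j : VV →* A) (K : Subgroup A) {Y : Type} [MulAction VV Y] (y : ZMod 3 → Y) : Prop :=
  ∃ p : ZMod 3 → A → Y, (∀ e, p e 1 = y e) ∧ (∀ e v, ∀ c ∈ K, p e (j v * c) = v • p e c) ∧
    (∀ e, ∀ v ∈ EE e, ∀ c ∈ K, p e (c * j v) = p e c) ∧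
    ∀ e e', ∀ f ∈ K, ∃ P : Set A, P.Finite ∧
      ∀ c ∈ K, p e c ≠ p e' (c * f) → ∃ v, ∃ q ∈ P, c = j v * q

variable {j : VV →* A} {K : Subgroup A}

/-! Part 1 -/

theorem Leaf.map {B : Type} [Group B] {e : ZMod 3} {n : ℕ} {β : Br n →* A} (h : Leaf j K e n β)
    {f : A →* B} (hf : Function.Injective f) : Leaf (f.comp j) (K.map f) e n (f.comp β) := by
  refine ⟨h.two, by simp [h.h0], by simp [h.h1], hf.comp h.inj, ?_⟩
  have := h.am.map hf
  rwa [MonoidHom.map_range, Subgroup.map_map] at this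

theorem Tower.map {B : Type} [Group B] {n : ZMod 3 → ℕ} (T : Tower A n) (f : A ≃* B) :
    Nonempty (Tower B n) := by
  have h0 := T.l0.map (f := f.toMonoidHom) f.injective
  have h1 := T.l1.map (f := f.toMonoidHom) f.injective
  have h2 := T.l2.map (f := f.toMonoidHom) f.injective
  have h3 := congrArg (Subgroup.map f.toMonoidHom) T.top
  rw [Subgroup.map_top_of_surjective _ f.surjective] at h3
  simp only [Subgroup.map_sup, MonoidHom.map_range] at h0 h1 h2 h3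
  exact ⟨⟨f.toMonoidHom.comp T.j, fun e => f.toMonoidHom.comp (T.β e), f.injective.comp T.inj,
    h0, h1, h2, h3⟩⟩

/-- `Br.twist_conj` -/
theorem Leaf.twist {e : ZMod 3} {n : ℕ} {β : Br n →* A} (h : Leaf j K e n β) {b : A}
    (hb : b ∈ β.range) (hz : b⁻¹ * j (zz sv e) * b ∈ (EE e).map j) :
    ∃ c, Commute c (j (sv e)) ∧ Commute c (j (sv (e + 1))) ∧ ∃ g ∈ (EE e).map j, b = c * g := by
  obtain ⟨b, rfl⟩ := hb
  have hE : (EE e).map j = (Bk (bt n) 2).map β := by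
    rw [EE, Bk_two, MonoidHom.map_closure, MonoidHom.map_closure, Set.image_pair, Set.image_pair,
      h.h0, h.h1]
  have hzz : j (zz sv e) = β ((bt n 0 * bt n 1) ^ 3) := by
    rw [zz, map_pow, map_pow, map_mul, map_mul, h.h0, h.h1]
  rw [hE, hzz, ← map_inv, ← map_mul, ← map_mul, Subgroup.mem_map_iff_mem h.inj] at hz
  obtain ⟨c, h0, h1, g, hg, rfl⟩ := Br.twist_conj h.two hz
  refine ⟨β c, ?_, ?_, β g, ?_, map_mul β c g⟩
  · rw [← h.h0]
    exact h0.map β
  · rw [← h.h1]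
    exact h1.map β
  · rw [hE]
    exact Subgroup.mem_map_of_mem β hg

theorem good1_base (j : VV →* A) : Good1 j j.range := by
  rintro e _ ⟨v, rfl⟩ -
  exact ⟨1, Commute.one_left _, Commute.one_left _, v, (one_mul _).symm⟩

theorem cg1_comm {e : ZMod 3} {c : A} (h0 : Commute c (j (sv e)))
    (h1 : Commute c (j (sv (e + 1)))) : Commute c (j (zz sv e)) := by
  rw [zz, map_pow, map_mul]
  exact (h0.mul_right h1).pow_right 3

theorem cg1_conj {z c g : A} (h : Commute c z) : (c * g)⁻¹ * z * (c * g) = g⁻¹ * z * g := by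
  rw [mul_inv_rev, mul_assoc g⁻¹, mul_assoc g⁻¹, ← mul_assoc (c⁻¹ * z), mul_assoc c⁻¹, ← h.eq,
    inv_mul_cancel_left, mul_assoc]

theorem cg1_edge (hj : Function.Injective j) (h : Good1 j K) {e e' : ZMod 3} {g : A} (hg : g ∈ K)
    (hz : g⁻¹ * j (zz sv e) * g ∈ (EE e').map j) : e = e' ∧ ∃ c, Commute c (j (sv e)) ∧
      Commute c (j (sv (e + 1))) ∧ ∃ v ∈ EE e, g = c * j v := by
  obtain ⟨c, h0, h1, v, rfl⟩ := h e g hg (Subgroup.map_le_range _ _ hz)
  rw [cg1_conj (cg1_comm h0 h1), ← map_inv, ← map_mul, ← map_mul,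
    Subgroup.mem_map_iff_mem hj] at hz
  exact ⟨(V_a hz).1, c, h0, h1, v, (V_a hz).2, rfl⟩

/-- other edges: `IsAmalg.conj` and `V_a`; the same edge: `IsAmalg.conjInd` with `H` the centraliser
of the two generators, `V_a`, `Leaf.twist` -/
theorem Good1.step (hj : Function.Injective j) (hK : j.range ≤ K) (h : Good1 j K) {e : ZMod 3}
    {n : ℕ} {β : Br n →* A} (l : Leaf j K e n β) : Good1 j (K ⊔ β.range) := by
  intro e' a ha hz
  by_cases haK : a ∈ K
  · exact h e' a haK hz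
  have hzK : j (zz sv e') ∈ K := hK ⟨_, rfl⟩
  obtain ⟨g, hg, hgz⟩ := l.am.conj hzK ha haK (hK hz)
  obtain rfl := (cg1_edge hj h hg hgz).1
  have hH : ∀ k, k ∈ Subgroup.centralizer {j (sv e'), j (sv (e' + 1))} ↔
      Commute k (j (sv e')) ∧ Commute k (j (sv (e' + 1))) := by
    intro k
    simp only [Subgroup.mem_centralizer_iff, Set.mem_insert_iff, Set.mem_singleton_iff,
      forall_eq_or_imp, forall_eq]
    exact and_congr eq_comm eq_comm
  obtain ⟨k, hk, g, hg, rfl⟩ := l.am.conjInd (Subgroup.mem_map_of_mem j (zz_mem e'))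
    (H := Subgroup.centralizer {j (sv e'), j (sv (e' + 1))})
    (fun k hk => cg1_comm ((hH k).1 hk).1 ((hH k).1 hk).2)
    (fun g hg hgz => by
      obtain ⟨-, c, h0, h1, v, hv, rfl⟩ := cg1_edge hj h hg hgz
      exact ⟨c, (hH c).2 ⟨h0, h1⟩, j v, Subgroup.mem_map_of_mem j hv, rfl⟩)
    (fun g hg hgz => by
      obtain ⟨c, h0, h1, v, hv, rfl⟩ := l.twist hg hgz
      exact ⟨c, (hH c).2 ⟨h0, h1⟩, v, hv, rfl⟩)
    ha (hK hz)
  obtain ⟨k0, k1⟩ := (hH k).1 hk
  rw [cg1_conj (cg1_comm k0 k1)] at hz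
  obtain ⟨c, h0, h1, v, rfl⟩ := h e' g hg hz
  exact ⟨k * c, k0.mul_left h0, k1.mul_left h1, v, (mul_assoc _ _ _).symm⟩

/-- `c = h * ε b` with `ε = j.comp (exists_eps e)`; `b` is determined modulo the centre
(`B3_center`); use `B3_side` -/
theorem Good1.sep (hj : Function.Injective j) (h : Good1 j ⊤) (e : ZMod 3) :
    Sep (zz (fun e => j (sv e)) e) {h | Commute h (j (sv e)) ∧ Commute h (j (sv (e + 1)))}
      (j (sv e) ^ 6) (j (sv (e + 1)) ^ 6) := by
  classical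
  obtain ⟨ε₀, hi, e0, e1, hr⟩ := exists_eps e
  obtain ⟨side, s1, s2, s3⟩ := B3_side
  have hε : Function.Injective (j.comp ε₀) := hj.comp hi
  have f0 : j.comp ε₀ (bt 2 0) = j (sv e) := by rw [MonoidHom.comp_apply, e0]
  have f1 : j.comp ε₀ (bt 2 1) = j (sv (e + 1)) := by rw [MonoidHom.comp_apply, e1]
  have hw : zz (fun e => j (sv e)) e = j (zz sv e) := by rw [zz, zz, map_pow, map_mul]
  have hdec : ∀ c, Commute (j (zz sv e)) c → ∃ k, Commute k (j (sv e)) ∧
      Commute k (j (sv (e + 1))) ∧ ∃ b, c = k * j.comp ε₀ b := by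
    intro c hc
    obtain ⟨-, k, h0, h1, v, hv, rfl⟩ := cg1_edge hj h (Subgroup.mem_top c) (e := e) (e' := e) (by
      rw [mul_assoc, hc.eq, inv_mul_cancel_left]
      exact Subgroup.mem_map_of_mem j (zz_mem e))
    rw [← hr] at hv
    obtain ⟨b, rfl⟩ := hv
    exact ⟨k, h0, h1, b, rfl⟩
  generalize j.comp ε₀ = ε at hε f0 f1 hdec
  rw [hw, ← f0, ← f1]
  rw [← f0, ← f1] at hdec
  have hall : ∀ k, Commute k (ε (bt 2 0)) → Commute k (ε (bt 2 1)) → ∀ b, Commute k (ε b) := by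
    intro k h0 h1 b
    have hb : ε b ∈ Subgroup.closure {ε (bt 2 0), ε (bt 2 1)} := by
      rw [← Br.range₂]
      exact ⟨b, rfl⟩
    have hle : Subgroup.closure {ε (bt 2 0), ε (bt 2 1)} ≤ Subgroup.centralizer {k} := by
      rw [Subgroup.closure_le]
      rintro x (rfl | rfl)
      · exact Subgroup.mem_centralizer_singleton_iff.2 h0.symm.eq
      · exact Subgroup.mem_centralizer_singleton_iff.2 h1.symm.eq
    exact (Subgroup.mem_centralizer_singleton_iff.1 (hle hb) : Commute (ε b) k).symm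
  let side' : A → ℤ := fun c =>
    if hc : ∃ b, ∃ k, Commute k (ε (bt 2 0)) ∧ Commute k (ε (bt 2 1)) ∧ c = k * ε b then
      side hc.choose else 0
  have key : ∀ k b, Commute k (ε (bt 2 0)) → Commute k (ε (bt 2 1)) →
      side' (k * ε b) = side b := by
    intro k b h0 h1
    have hc : ∃ b', ∃ k', Commute k' (ε (bt 2 0)) ∧ Commute k' (ε (bt 2 1)) ∧
        k * ε b = k' * ε b' := ⟨b, k, h0, h1, rfl⟩
    have e2 : side' (k * ε b) = side hc.choose := dif_pos hc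
    obtain ⟨k', g0, g1, g2⟩ := hc.choose_spec
    rw [e2]
    generalize hc.choose = b' at g2
    have e3 : ε (b * b'⁻¹) = k⁻¹ * k' := by
      rw [map_mul, map_inv, eq_inv_mul_iff_mul_eq, ← mul_assoc, g2, mul_inv_cancel_right]
    have c0 : Commute (b * b'⁻¹) (bt 2 0) :=
      Commute.of_map hε (by rw [e3]; exact h0.inv_left.mul_left g0)
    have c1 : Commute (b * b'⁻¹) (bt 2 1) :=
      Commute.of_map hε (by rw [e3]; exact h1.inv_left.mul_left g1)
    rw [← s1 b' _ (B3_center c0 c1), inv_mul_cancel_right]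
  refine ⟨side', fun f hf => ?_, fun n hn => ?_⟩
  · obtain ⟨kf, a0, a1, bf, rfl⟩ := hdec f hf
    obtain ⟨P, hP, hP'⟩ := s2 bf
    refine ⟨ε '' P, hP.image _, fun c hc hne => ?_⟩
    obtain ⟨k, h0, h1, b, rfl⟩ := hdec c hc
    have e2 : k * ε b * (kf * ε bf) = k * kf * ε (b * bf) := by
      rw [map_mul, mul_assoc, mul_assoc, ← mul_assoc (ε b), ← (hall kf a0 a1 b).eq, mul_assoc]
    rw [e2, key _ _ h0 h1, key _ _ (h0.mul_left a0) (h1.mul_left a1)] at hne
    obtain ⟨z, hz, p, hp, rfl⟩ := hP' b hne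
    obtain ⟨i, rfl⟩ := Subgroup.mem_zpowers_iff.1 hz
    have hb := braid_comm_cube ((bt_isBraid 2).1 0 (by norm_num))
    refine ⟨k * ε (((bt 2 0 * bt 2 1) ^ 3) ^ i), ⟨h0.mul_left ?_, h1.mul_left ?_⟩, ε p,
      Set.mem_image_of_mem _ hp, by rw [map_mul, mul_assoc]⟩
    · exact (hb.1.symm.zpow_left i).map ε
    · exact (hb.2.symm.zpow_left i).map ε
  · have a0 := key 1 (bt 2 0 ^ (6 * n)) (Commute.one_left _) (Commute.one_left _)
    have a1 := key 1 (bt 2 1 ^ (6 * n)) (Commute.one_left _) (Commute.one_left _)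
    rw [one_mul, map_pow, pow_mul] at a0 a1
    rw [a0, a1]
    exact s3 _ (by omega)

/-! Part 2 -/

section
variable {Y : Type} [MulAction VV Y] {y : ZMod 3 → Y}

theorem good2_base (hj : Function.Injective j) (hy : ∀ e, ∀ v ∈ EE e, v • y e = y e) :
    Good2 j j.range y := by
  have hi : ∀ v, Function.invFun j (j v) = v := Function.leftInverse_invFun hj
  refine ⟨fun e c => Function.invFun j c • y e, fun e => ?_, fun e v c hc => ?_,
    fun e v hv c hc => ?_, fun e e' f _ => ⟨{1}, Set.finite_singleton _, fun c hc _ => ?_⟩⟩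
  · show Function.invFun j 1 • y e = y e
    rw [← map_one j, hi, one_smul]
  · obtain ⟨w, rfl⟩ := hc
    show Function.invFun j (j v * j w) • y e = v • Function.invFun j (j w) • y e
    rw [← map_mul, hi, hi, mul_smul]
  · obtain ⟨w, rfl⟩ := hc
    show Function.invFun j (j w * j v) • y e = Function.invFun j (j w) • y e
    rw [← map_mul, hi, hi, mul_smul, hy e v hv]
  · obtain ⟨w, rfl⟩ := hc
    exact ⟨w, 1, rfl, (mul_one _).symm⟩

/-- `p' e c = p e c` for `c ∈ K`, otherwise `p e₀ g` with `First c g`; the last property is stable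
under products (closure induction on `f`), for `f ∈ K` and `f ∈ β.range` use the `first_*` lemmas -/
theorem Good2.step (hK : j.range ≤ K) (h : Good2 j K y) {e : ZMod 3}
    {n : ℕ} {β : Br n →* A} (l : Leaf j K e n β) : Good2 j (K ⊔ β.range) y := by
  classical
  obtain ⟨p, p1, p2, p3, p4⟩ := h
  have am := l.am
  have hjK : ∀ v, j v ∈ K := fun v => hK ⟨v, rfl⟩
  obtain ⟨p', hA, hB⟩ : ∃ p' : ZMod 3 → A → Y, (∀ e' c, c ∈ K → p' e' c = p e' c) ∧
      ∀ e' c g, First K β.range ((EE e).map j) c g → p' e' c = p e g := by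
    refine ⟨fun e' c => if c ∈ K then p e' c else
      if h : ∃ g, First K β.range ((EE e).map j) c g then p e h.choose else y e',
      fun e' c hc => if_pos hc, fun e' c g hg => ?_⟩
    have hex : ∃ g, First K β.range ((EE e).map j) c g := ⟨g, hg⟩
    simp only [if_neg (am.first_not_mem hg), dif_pos hex]
    obtain ⟨v, hv, hv'⟩ := am.first_unique hg hex.choose_spec
    have : hex.choose = g * j v := by rw [hv', mul_inv_cancel_left]
    rw [this]
    exact p3 e v hv g hg.1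
  have hfK : ∀ f ∈ K, ∀ e₁ e₂, ∃ P : Set A, P.Finite ∧ ∀ c ∈ K ⊔ β.range,
      p' e₁ c ≠ p' e₂ (c * f) → ∃ v, ∃ q ∈ P, c = j v * q := by
    intro f hf e₁ e₂
    obtain ⟨P, hP, hP'⟩ := p4 e₁ e₂ f hf
    refine ⟨P, hP, fun c hc hne => ?_⟩
    by_cases hcK : c ∈ K
    · rw [hA _ _ hcK, hA _ _ (K.mul_mem hcK hf)] at hne
      exact hP' c hcK hne
    · obtain ⟨g, hg⟩ := am.first_exists hc hcK
      rw [hB _ _ _ hg, hB _ _ _ (am.first_right₀ hg hf)] at hne
      exact absurd rfl hne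
  have hfB : ∀ f ∈ β.range, ∀ e₁ e₂, ∃ P : Set A, P.Finite ∧ ∀ c ∈ K ⊔ β.range,
      p' e₁ c ≠ p' e₂ (c * f) → ∃ v, ∃ q ∈ P, c = j v * q := by
    intro b hb e₁ e₂
    by_cases hbK : b ∈ K
    · exact hfK b hbK e₁ e₂
    obtain ⟨P₁, hP₁, hP₁'⟩ := p4 e₁ e 1 K.one_mem
    obtain ⟨P₂, hP₂, hP₂'⟩ := p4 e e₂ 1 K.one_mem
    refine ⟨P₁ ∪ (fun q => q * b⁻¹) '' P₂, hP₁.union (hP₂.image _), fun c hc hne => ?_⟩
    by_cases hcK : c ∈ K
    · have hcb : c * b ∉ K := fun h => hbK (by simpa using K.mul_mem (K.inv_mem hcK) h)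
      rw [hA _ _ hcK, hB _ _ _ (am.first_mul hcK hb hcb)] at hne
      obtain ⟨v, q, hq, e1⟩ := hP₁' c hcK (by rwa [mul_one])
      exact ⟨v, q, Or.inl hq, e1⟩
    · by_cases hcb : c * b ∈ K
      · have h1 : First K β.range ((EE e).map j) (c * b * b⁻¹) (c * b) :=
          am.first_mul hcb (β.range.inv_mem hb) (by rwa [mul_inv_cancel_right])
        rw [mul_inv_cancel_right] at h1
        rw [hB _ _ _ h1, hA _ _ hcb] at hne
        obtain ⟨v, q, hq, e1⟩ := hP₂' (c * b) hcb (by rwa [mul_one])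
        exact ⟨v, q * b⁻¹, Or.inr ⟨q, hq, rfl⟩, by rw [← mul_assoc, ← e1, mul_inv_cancel_right]⟩
      · obtain ⟨g, hg⟩ := am.first_exists hc hcK
        rw [hB _ _ _ hg, hB _ _ _ (am.first_right₁ hg hb hcb)] at hne
        exact absurd rfl hne
  refine ⟨p', fun e' => by rw [hA _ _ K.one_mem, p1], fun e' v c hc => ?_,
    fun e' v hv c hc => ?_, fun e₁ e₂ f hf => ?_⟩
  · by_cases hcK : c ∈ K
    · rw [hA _ _ hcK, hA _ _ (K.mul_mem (hjK v) hcK), p2 e' v c hcK]
    · obtain ⟨g, hg⟩ := am.first_exists hc hcK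
      rw [hB _ _ _ hg, hB _ _ _ (hg.left (hjK v)), p2 e v g hg.1]
  · by_cases hcK : c ∈ K
    · rw [hA _ _ hcK, hA _ _ (K.mul_mem hcK (hjK v)), p3 e' v hv c hcK]
    · obtain ⟨g, hg⟩ := am.first_exists hc hcK
      rw [hB _ _ _ hg, hB _ _ _ (am.first_right₀ hg (hjK v))]
  · have key : ∀ f ∈ Subgroup.closure ((K : Set A) ∪ β.range), ∀ e₁ e₂, ∃ P : Set A, P.Finite ∧
        ∀ c ∈ K ⊔ β.range, p' e₁ c ≠ p' e₂ (c * f) → ∃ v, ∃ q ∈ P, c = j v * q := by
      intro f hf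
      induction hf using Subgroup.closure_induction'' with
      | mem x hx => exact hx.elim (hfK x) (hfB x)
      | inv_mem x hx =>
        exact hx.elim (fun h => hfK _ (K.inv_mem h)) (fun h => hfB _ (β.range.inv_mem h))
      | one => exact hfK 1 K.one_mem
      | mul f₁ f₂ h₁ h₂ i₁ i₂ =>
        intro e₁ e₂
        obtain ⟨P₁, hP₁, hP₁'⟩ := i₁ e₁ e₁
        obtain ⟨P₂, hP₂, hP₂'⟩ := i₂ e₁ e₂
        refine ⟨P₁ ∪ (fun q => q * f₁⁻¹) '' P₂, hP₁.union (hP₂.image _), fun c hc hne => ?_⟩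
        by_cases h0 : p' e₁ c = p' e₁ (c * f₁)
        · rw [h0, ← mul_assoc] at hne
          have hm : f₁ ∈ K ⊔ β.range := by rwa [Subgroup.sup_eq_closure]
          obtain ⟨v, q, hq, e1⟩ := hP₂' (c * f₁) (mul_mem hc hm) hne
          exact ⟨v, q * f₁⁻¹, Or.inr ⟨q, hq, rfl⟩, by rw [← mul_assoc, ← e1, mul_inv_cancel_right]⟩
        · obtain ⟨v, q, hq, e1⟩ := hP₁' c hc h0
          exact ⟨v, q, Or.inl hq, e1⟩
    exact key f (by rwa [← Subgroup.sup_eq_closure]) e₁ e₂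

/-- `side' c = side (p e c)`; for each `q ∈ P` choose one element `c_q` of the centraliser in the
coset `j.range * q`; `p e c_q` and `p e (c_q * f)` are fixed by `sv (e + 1)` -/
theorem Good2.sep (hj : Function.Injective j) (hy : ∀ e, ∀ v ∈ EE e, v • y e = y e)
    (h : Good2 j ⊤ y) (e : ZMod 3) (side : Y → ℤ)
    (h1 : ∀ a b : Y, sv (e + 1) • a = a → sv (e + 1) • b = b → ∃ P : Set VV, P.Finite ∧
      ∀ c, Commute (sv (e + 1)) c → side (c • a) ≠ side (c • b) →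
        ∃ h ∈ Subgroup.zpowers (sv (e + 1)), ∃ p ∈ P, c = h * p)
    (h2 : ∀ n : ℕ, 1 ≤ n → side (y e) ≠ side (zz sv (e + 1) ^ n • y e)) :
    Sep (j (sv (e + 1))) (Subgroup.zpowers (j (sv (e + 1)))) (zz (fun e => j (sv e)) e)
      (zz (fun e => j (sv e)) (e + 1)) := by
  obtain ⟨p, p1, p2, p3, p4⟩ := h
  have hz : ∀ e', zz (fun e => j (sv e)) e' = j (zz sv e') := fun e' => by
    simp only [zz, map_pow, map_mul]
  have hs : sv (e + 1) ∈ EE e := Subgroup.subset_closure (Set.mem_insert_of_mem _ rfl)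
  have hfix : ∀ c, Commute (j (sv (e + 1))) c → sv (e + 1) • p e c = p e c := fun c hc => by
    rw [← p2 e _ c (Subgroup.mem_top _), hc.eq, p3 e _ hs c (Subgroup.mem_top _)]
  refine ⟨fun c => side (p e c), fun f hf => ?_, fun n hn => ?_⟩
  · obtain ⟨P₀, hP₀, hP₀'⟩ := p4 e e f (Subgroup.mem_top _)
    have key : ∀ q : A, ∃ P : Set A, P.Finite ∧ ∀ c, Commute (j (sv (e + 1))) c →
        side (p e c) ≠ side (p e (c * f)) → (∃ v, c = j v * q) →
        ∃ h ∈ Subgroup.zpowers (j (sv (e + 1))), ∃ p ∈ P, c = h * p := by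
      intro q
      by_cases hq : ∃ c₀, Commute (j (sv (e + 1))) c₀ ∧ ∃ v, c₀ = j v * q
      · obtain ⟨c₀, hc₀, v₀, e0⟩ := hq
        obtain ⟨P, hP, hP'⟩ := h1 _ _ (hfix c₀ hc₀) (hfix _ (hc₀.mul_right hf))
        refine ⟨(fun x => j x * c₀) '' P, hP.image _, fun c hc hne ⟨v, e1⟩ => ?_⟩
        have e2 : c = j (v * v₀⁻¹) * c₀ := by
          rw [e1, e0, map_mul, map_inv, mul_assoc, inv_mul_cancel_left]
        have e3 : Commute (sv (e + 1)) (v * v₀⁻¹) := by
          have e4 : j (v * v₀⁻¹) = c * c₀⁻¹ := by rw [e2, mul_inv_cancel_right]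
          apply hj
          rw [map_mul j (sv (e + 1)), map_mul j _ (sv (e + 1)), e4]
          exact (hc.mul_right hc₀.inv_right).eq
        rw [e2, mul_assoc, p2 e _ _ (Subgroup.mem_top _), p2 e _ _ (Subgroup.mem_top _)] at hne
        obtain ⟨h, ⟨k, rfl⟩, x, hx, e5⟩ := hP' _ e3 hne
        refine ⟨j (sv (e + 1)) ^ k, ⟨k, rfl⟩, j x * c₀, ⟨x, hx, rfl⟩, ?_⟩
        rw [e2, e5, map_mul, map_zpow, mul_assoc]
      · exact ⟨∅, Set.finite_empty, fun c hc _ hv => absurd ⟨c, hc, hv⟩ hq⟩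
    choose P hP hP' using key
    refine ⟨⋃ q ∈ P₀, P q, hP₀.biUnion fun q _ => hP q, fun c hc hne => ?_⟩
    obtain ⟨v, q, hq, e1⟩ := hP₀' c (Subgroup.mem_top _) fun h => hne (congrArg side h)
    obtain ⟨h, hh, x, hx, e2⟩ := hP' q c hc hne ⟨v, e1⟩
    exact ⟨h, hh, x, Set.mem_biUnion hq hx, e2⟩
  · have e1 : p e (j (zz sv e) ^ n) = y e := by
      rw [← map_pow, ← one_mul (j _), p3 e _ (pow_mem (zz_mem e) n) 1 (Subgroup.mem_top _), p1]
    have e2 : p e (j (zz sv (e + 1)) ^ n) = zz sv (e + 1) ^ n • y e := by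
      rw [← map_pow, ← mul_one (j _), p2 e _ 1 (Subgroup.mem_top _), p1]
    show side (p e _) ≠ side (p e _)
    rw [hz, hz, e1, e2]
    exact h2 n hn

end

theorem Tower.catData {n : ZMod 3 → ℕ} (T : Tower A n) (hn : ∀ e, 10 ≤ n e) :
    Nonempty (CatData A) := by
  have k1 : T.j.range ≤ T.j.range ⊔ (T.β 0).range := le_sup_left
  have k2 : T.j.range ≤ T.j.range ⊔ (T.β 0).range ⊔ (T.β 1).range := k1.trans le_sup_left
  have g1 := (((good1_base T.j).step T.inj le_rfl T.l0).step T.inj k1 T.l1).step T.inj k2 T.l2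
  obtain ⟨Y, _, y, hy, hs⟩ := V_b
  have g2 := (((good2_base T.inj hy).step le_rfl T.l0).step k1 T.l1).step k2 T.l2
  rw [T.top] at g1 g2
  refine ⟨⟨fun e => T.j (sv e), fun e => ?_, g1.sep T.inj, fun e => ?_⟩⟩
  · refine ⟨fun i => T.β e (bt (n e) i), ((bt_isBraid (n e)).map (T.β e)).mono (hn e), ?_⟩
    have : ∀ e : ZMod 3, e = 0 ∨ e = 1 ∨ e = 2 := by decide
    rcases this e with rfl | rfl | rfl
    exacts [⟨T.l0.h0, T.l0.h1⟩, ⟨T.l1.h0, T.l1.h1⟩, ⟨T.l2.h0, T.l2.h1⟩]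
  · obtain ⟨side, h1, h2⟩ := hs e
    exact g2.sep T.inj hy e side h1 h2

theorem anchor_CAGood : True := by
  have := @Good1.eq_1
  have := @Good2.eq_1
  trivial

end Crest.Agent.R175.Cat
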