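import Crest.Agent.R175.CAComb

/-! Row 175, S0264: the triangle Artin group inside `F₃ ⋊ B₃`. -/

set_option autoImplicit false

namespace Crest.Agent.R175.Cat

open FreeGroup SemidirectProduct

noncomputable section

def rho3 : Br 2 →* MulAut (FreeGroup (Fin 3)) :=
  (Br.exists_lift₂ (sg_braid (i := (0 : Fin 3)) (j := 1) (k := 2) (by decide) (by decide)
    (by decide))).choose

theorem rho3_spec : rho3 (bt 2 0) = sg 0 1 (by decide) ∧ rho3 (bt 2 1) = sg 1 2 (by decide) :=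
  (Br.exists_lift₂ (sg_braid (i := (0 : Fin 3)) (j := 1) (k := 2) (by decide) (by decide)
    (by decide))).choose_spec

abbrev WW : Type := FreeGroup (Fin 3) ⋊[rho3] Br 2

def dl : FreeGroup (Fin 3) := of 2 * of 1 * of 0

def tau : WW := inl (of 0) * inr (bt 2 0 * bt 2 1)

def sW (e : ZMod 3) : WW := tau ^ e.val * inr (bt 2 0) * (tau ^ e.val)⁻¹

/-! Part 1 -/

theorem V1_ind {P : Br 2 → Prop} (h1 : P 1) (h0 : ∀ b, P b → P (bt 2 0 * b) ∧ P (bt 2 1 * b) ∧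
    P ((bt 2 0)⁻¹ * b) ∧ P ((bt 2 1)⁻¹ * b)) (b : Br 2) : P b := by
  have hb : b ∈ Subgroup.closure {bt 2 0, bt 2 1} := by
    rw [← Bk_two, Br.top]
    exact Subgroup.mem_top b
  induction hb using Subgroup.closure_induction_left with
  | one => exact h1
  | mul_left x hx y _ ih =>
    rcases hx with rfl | rfl
    exacts [(h0 y ih).1, (h0 y ih).2.1]
  | inv_mul_cancel x hx y _ ih =>
    rcases hx with rfl | rfl
    exacts [(h0 y ih).2.2.1, (h0 y ih).2.2.2]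

theorem V1_braid : bt 2 0 * bt 2 1 * bt 2 0 = bt 2 1 * bt 2 0 * bt 2 1 :=
  (bt_isBraid 2).1 0 (by norm_num)

theorem V1_r00 : rho3 (bt 2 0) (of 0) = (of 0)⁻¹ * of 1 * of 0 := by rw [rho3_spec.1, sg_left]
theorem V1_r01 : rho3 (bt 2 0) (of 1) = of 0 := by rw [rho3_spec.1, sg_right]
theorem V1_r02 : rho3 (bt 2 0) (of 2) = of 2 := by
  rw [rho3_spec.1, sg_other _ (by decide) (by decide)]
theorem V1_r10 : rho3 (bt 2 1) (of 0) = of 0 := by
  rw [rho3_spec.2, sg_other _ (by decide) (by decide)]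
theorem V1_r11 : rho3 (bt 2 1) (of 1) = (of 1)⁻¹ * of 2 * of 1 := by rw [rho3_spec.2, sg_left]
theorem V1_r12 : rho3 (bt 2 1) (of 2) = of 1 := by rw [rho3_spec.2, sg_right]

theorem rho3_dl (b : Br 2) : rho3 b dl = dl := by
  have h := sg_three (i := (0 : Fin 3)) (j := 1) (k := 2) (by decide) (by decide) (by decide)
  have h0 : rho3 (bt 2 0) dl = dl := by rw [rho3_spec.1]; exact h.1
  have h1 : rho3 (bt 2 1) dl = dl := by rw [rho3_spec.2]; exact h.2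
  have hi : ∀ c, rho3 c dl = dl → rho3 c⁻¹ dl = dl := fun c hc => by
    rw [_root_.map_inv, MulAut.inv_apply, MulEquiv.symm_apply_eq, hc]
  refine V1_ind (P := fun b => rho3 b dl = dl) (by rw [_root_.map_one]; rfl) (fun b hb => ?_) b
  simp only [_root_.map_mul, MulAut.mul_apply, hb, h0, h1, hi _ h0, hi _ h1, and_self]

theorem rho3_z (w : FreeGroup (Fin 3)) : rho3 ((bt 2 0 * bt 2 1) ^ 3) w = dl⁻¹ * w * dl := by
  rw [map_pow, _root_.map_mul, rho3_spec.1, rho3_spec.2]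
  refine sg_cube _ _ (by decide) ?_
  have : ({0, 1, 2} : Set (Fin 3)) = Set.univ := by
    ext a
    fin_cases a <;> simp
  rw [this, Set.image_univ, FreeGroup.closure_range_of]
  exact Subgroup.mem_top w

theorem tau_sq : tau ^ 2 = inl (of 1 * of 0) * inr ((bt 2 0 * bt 2 1) ^ 2) := by
  ext
  · simp [tau, sq, V1_r10, V1_r00, mul_assoc]
  · simp [tau, sq]

theorem tau_cube : tau ^ 3 = inl dl * inr ((bt 2 0 * bt 2 1) ^ 3) := by
  rw [pow_succ', tau_sq]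
  ext
  · simp only [tau, mul_left, left_inl, right_inl, left_inr, mul_right, right_inr, one_mul,
      _root_.map_one, mul_one]
    simp [dl, V1_r10, V1_r00, V1_r11, V1_r01, V1_r02, mul_assoc]
  · simp [tau, pow_succ']

theorem tau_cube_comm (w : WW) : Commute (tau ^ 3) w := by
  have hz : ∀ b : Br 2, Commute ((bt 2 0 * bt 2 1) ^ 3) b := by
    obtain ⟨h0, h1⟩ := braid_comm_cube V1_braid
    exact V1_ind (Commute.one_right _) fun b hb => ⟨h0.symm.mul_right hb, h1.symm.mul_right hb,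
      h0.symm.inv_right.mul_right hb, h1.symm.inv_right.mul_right hb⟩
  rw [tau_cube, Commute, SemiconjBy]
  ext
  · simp only [mul_left, left_inl, right_inl, left_inr, _root_.map_one, mul_one, mul_right,
      right_inr, one_mul, rho3_z, rho3_dl]
    group
  · simp only [mul_right, right_inl, right_inr, one_mul]
    exact (hz _).eq

theorem sW_zero : sW 0 = inr (bt 2 0) := by
  simp [sW]

theorem sW_one : sW 1 = inr (bt 2 1) := by
  have : (1 : ZMod 3).val = 1 := rfl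
  rw [sW, this, pow_one, mul_inv_eq_iff_eq_mul]
  ext
  · simp [tau, V1_r10]
  · simp only [tau, mul_right, right_inl, right_inr, one_mul, mul_assoc]
    rw [← mul_assoc, V1_braid, mul_assoc]

theorem V1_cases (e : ZMod 3) : e = 0 ∨ e = 1 ∨ e = 2 := by
  revert e
  decide

theorem sW_succ (e : ZMod 3) : tau * sW e * tau⁻¹ = sW (e + 1) := by
  rcases V1_cases e with rfl | rfl | rfl
  · change tau * (tau ^ 0 * _ * (tau ^ 0)⁻¹) * tau⁻¹ = tau ^ 1 * _ * (tau ^ 1)⁻¹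
    group
  · change tau * (tau ^ 1 * _ * (tau ^ 1)⁻¹) * tau⁻¹ = tau ^ 2 * _ * (tau ^ 2)⁻¹
    group
  · change tau * (tau ^ 2 * _ * (tau ^ 2)⁻¹) * tau⁻¹ = tau ^ 0 * _ * (tau ^ 0)⁻¹
    have := (tau_cube_comm (inr (bt 2 0))).eq
    calc tau * (tau ^ 2 * inr (bt 2 0) * (tau ^ 2)⁻¹) * tau⁻¹
        = tau ^ 3 * inr (bt 2 0) * (tau ^ 3)⁻¹ := by group
      _ = _ := by rw [this]; group

theorem sW_braid (e : ZMod 3) : sW e * sW (e + 1) * sW e = sW (e + 1) * sW e * sW (e + 1) := by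
  have step : ∀ e : ZMod 3, sW e * sW (e + 1) * sW e = sW (e + 1) * sW e * sW (e + 1) →
      sW (e + 1) * sW (e + 1 + 1) * sW (e + 1) =
        sW (e + 1 + 1) * sW (e + 1) * sW (e + 1 + 1) := fun e h => by
    rw [← sW_succ (e + 1)]
    generalize sW (e + 1) = q, sW_succ e = hq at h ⊢
    calc q * (tau * q * tau⁻¹) * q = (tau * sW e * tau⁻¹) * (tau * q * tau⁻¹) *
          (tau * sW e * tau⁻¹) := by rw [hq]
      _ = tau * (sW e * q * sW e) * tau⁻¹ := by group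
      _ = (tau * q * tau⁻¹) * (tau * sW e * tau⁻¹) * (tau * q * tau⁻¹) := by rw [h]; group
      _ = _ := by rw [hq]
  have h0 : sW 0 * sW (0 + 1) * sW 0 = sW (0 + 1) * sW 0 * sW (0 + 1) := by
    rw [zero_add, sW_zero, sW_one, ← _root_.map_mul, ← _root_.map_mul, V1_braid, _root_.map_mul,
      _root_.map_mul]
  rcases V1_cases e with rfl | rfl | rfl
  exacts [h0, step 0 h0, step 1 (step 0 h0)]

def jW : VV →* WW := (VV.exists_lift sW_braid).choose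

theorem jW_sv (e : ZMod 3) : jW (sv e) = sW e := (VV.exists_lift sW_braid).choose_spec e

def DD : Subgroup WW where
  carrier := {w | w.left ∈ Subgroup.zpowers dl}
  one_mem' := (Subgroup.zpowers dl).one_mem
  mul_mem' := by
    intro a b ha hb
    obtain ⟨k, hk⟩ := Subgroup.mem_zpowers_iff.1 hb
    refine (Subgroup.zpowers dl).mul_mem ha (Subgroup.mem_zpowers_iff.2 ⟨k, ?_⟩)
    rw [← hk, map_zpow, rho3_dl]
  inv_mem' := by
    intro a ha
    obtain ⟨k, hk⟩ := Subgroup.mem_zpowers_iff.1 ha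
    refine Subgroup.mem_zpowers_iff.2 ⟨-k, ?_⟩
    change dl ^ (-k) = rho3 a.right⁻¹ a.left⁻¹
    rw [← hk, ← zpow_neg, map_zpow, rho3_dl]

theorem mem_DD {w : WW} : w ∈ DD ↔ w.left ∈ Subgroup.zpowers dl := Iff.rfl

theorem V1_lift {Q : Type} [Group Q] (X : Fin 3 → Q) (φ : Br 2 →* Q)
    (h0 : ∀ a, FreeGroup.lift X (rho3 (bt 2 0) (of a)) = φ (bt 2 0) * X a * (φ (bt 2 0))⁻¹)
    (h1 : ∀ a, FreeGroup.lift X (rho3 (bt 2 1) (of a)) = φ (bt 2 1) * X a * (φ (bt 2 1))⁻¹) :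
    ∃ Λ : WW →* Q, (∀ w, Λ (inl w) = FreeGroup.lift X w) ∧ ∀ b, Λ (inr b) = φ b := by
  have ext : ∀ b, (∀ a, FreeGroup.lift X (rho3 b (of a)) = φ b * X a * (φ b)⁻¹) →
      ∀ w, FreeGroup.lift X (rho3 b w) = φ b * FreeGroup.lift X w * (φ b)⁻¹ := fun b hb w => by
    have : (FreeGroup.lift X).comp (rho3 b).toMonoidHom =
        (MulAut.conj (φ b)).toMonoidHom.comp (FreeGroup.lift X) := by
      ext a
      exact (hb a).trans (by simp)
    exact DFunLike.congr_fun this w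
  have inv : ∀ b, (∀ w, FreeGroup.lift X (rho3 b w) = φ b * FreeGroup.lift X w * (φ b)⁻¹) →
      ∀ w, FreeGroup.lift X (rho3 b⁻¹ w) = φ b⁻¹ * FreeGroup.lift X w * (φ b⁻¹)⁻¹ := fun b hb w => by
    have := hb (rho3 b⁻¹ w)
    rw [← MulAut.mul_apply, ← _root_.map_mul, mul_inv_cancel, _root_.map_one, MulAut.one_apply]
      at this
    rw [this, _root_.map_inv φ]
    group
  have mul : ∀ c, (∀ w, FreeGroup.lift X (rho3 c w) = φ c * FreeGroup.lift X w * (φ c)⁻¹) →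
      ∀ b, (∀ w, FreeGroup.lift X (rho3 b w) = φ b * FreeGroup.lift X w * (φ b)⁻¹) →
      ∀ w, FreeGroup.lift X (rho3 (c * b) w) =
        φ (c * b) * FreeGroup.lift X w * (φ (c * b))⁻¹ := fun c hc b hb w => by
    rw [_root_.map_mul, MulAut.mul_apply, hc, hb, _root_.map_mul]
    group
  have all := V1_ind (P := fun b => ∀ w, FreeGroup.lift X (rho3 b w) =
      φ b * FreeGroup.lift X w * (φ b)⁻¹) (fun w => by simp) fun b hb =>
    ⟨mul _ (ext _ h0) b hb, mul _ (ext _ h1) b hb, mul _ (inv _ (ext _ h0)) b hb,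
      mul _ (inv _ (ext _ h1)) b hb⟩
  refine ⟨SemidirectProduct.lift (FreeGroup.lift X) φ fun b => MonoidHom.ext fun w => all b w,
    fun w => lift_inl _ _ _ _, fun b => lift_inr _ _ _ _⟩

theorem exists_deg : ∃ deg : WW →* Multiplicative ℤ,
    (∀ a, deg (inl (of a)) = Multiplicative.ofAdd 1) ∧ (∀ b, deg (inr b) = 1) ∧
      (∀ v, deg (jW v) = 1) ∧ deg tau = Multiplicative.ofAdd 1 ∧
      (∀ k : ℤ, deg (inl (dl ^ k)) = Multiplicative.ofAdd (3 * k)) ∧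
      ∀ d ∈ DD, (3 : ℤ) ∣ Multiplicative.toAdd (deg d) := by
  obtain ⟨deg, h1, h2⟩ := V1_lift (fun _ => Multiplicative.ofAdd (1 : ℤ)) 1
    (fun a => by fin_cases a <;> simp [V1_r00, V1_r01, V1_r02])
    (fun a => by fin_cases a <;> simp [V1_r10, V1_r11, V1_r12])
  have h3 : ∀ a, deg (inl (of a)) = Multiplicative.ofAdd 1 := fun a => by simp [h1]
  have h4 : ∀ b, deg (inr b) = 1 := fun b => h2 b
  have h5 : ∀ k : ℤ, deg (inl (dl ^ k)) = Multiplicative.ofAdd (3 * k) := fun k => by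
    rw [map_zpow, map_zpow, dl]
    simp only [_root_.map_mul, h3, ← ofAdd_add, ← ofAdd_zsmul, smul_eq_mul]
    congr 1
    ring
  refine ⟨deg, h3, h4, fun v => ?_, by rw [tau, _root_.map_mul, h3, h4, mul_one], h5,
    fun d hd => ?_⟩
  · have : deg.comp jW = 1 := VV.hom_ext fun e => by
      simp [jW_sv, sW, h4]
    exact DFunLike.congr_fun this v
  · obtain ⟨k, hk⟩ := Subgroup.mem_zpowers_iff.1 hd
    rw [← inl_left_mul_inr_right d, _root_.map_mul, h4, mul_one, ← hk, h5]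
    exact ⟨k, rfl⟩

/-! Part 2 -/

theorem V1_fix {Q : Type} [Group Q] {a b c T : Q} (h : a * b * a = b * a * b)
    (hT : T * c = b * T) : a * (b⁻¹ * a⁻¹ * T) * c⁻¹ = b⁻¹ * a⁻¹ * T := by
  have e : T * c⁻¹ = b⁻¹ * T := by
    rw [mul_inv_eq_iff_eq_mul, mul_assoc, hT, inv_mul_cancel_left]
  calc a * (b⁻¹ * a⁻¹ * T) * c⁻¹ = a * b⁻¹ * a⁻¹ * (T * c⁻¹) := by group
    _ = a * (b * a * b)⁻¹ * T := by rw [e]; group
    _ = _ := by rw [← h]; group

/-- abstract form of the relations of `F₃ ⋊ B₃` inside `VV ⋊ ℤ` -/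
theorem V1_rel {Q : Type} [Group Q] {a b c T : Q} (hb : c * a * c = a * c * a)
    (h1 : T * a = b * T) (h2 : T * b = c * T) (h3 : T * c = a * T) :
    (c⁻¹ * b⁻¹ * T)⁻¹ * (a⁻¹ * c⁻¹ * T) * (c⁻¹ * b⁻¹ * T) = a * (c⁻¹ * b⁻¹ * T) * a⁻¹ ∧
      c⁻¹ * b⁻¹ * T = a * (a⁻¹ * c⁻¹ * T) * a⁻¹ := by
  have e1 : b = T * a * T⁻¹ := by rw [h1]; group
  have e2 : c = T * b * T⁻¹ := by rw [h2]; group
  have e3 : a = T * c * T⁻¹ := by rw [h3]; group
  have i1 : T * a⁻¹ = b⁻¹ * T := by rw [e1]; group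
  have i2 : T * b⁻¹ = c⁻¹ * T := by rw [e2]; group
  have i3 : T * c⁻¹ = a⁻¹ * T := by rw [e3]; group
  have k : c⁻¹ * b⁻¹ * T = a * (a⁻¹ * c⁻¹ * T) * a⁻¹ := by
    rw [mul_assoc c⁻¹, ← i1]
    group
  refine ⟨?_, k⟩
  have p : (a⁻¹ * c⁻¹ * T) * (c⁻¹ * b⁻¹ * T) = a⁻¹ * c⁻¹ * a⁻¹ * c⁻¹ * (T * T) := by
    calc (a⁻¹ * c⁻¹ * T) * (c⁻¹ * b⁻¹ * T) = a⁻¹ * c⁻¹ * (T * c⁻¹) * b⁻¹ * T := by group
      _ = a⁻¹ * c⁻¹ * a⁻¹ * (T * b⁻¹) * T := by rw [i3]; group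
      _ = _ := by rw [i2]; group
  have q : T * T * a⁻¹ = c⁻¹ * (T * T) := by
    rw [mul_assoc, i1, ← mul_assoc, i2, mul_assoc]
  have r : a * ((a⁻¹ * c⁻¹ * T) * (c⁻¹ * b⁻¹ * T)) * a⁻¹ =
      (a⁻¹ * c⁻¹ * T) * (c⁻¹ * b⁻¹ * T) := by
    rw [p]
    calc a * (a⁻¹ * c⁻¹ * a⁻¹ * c⁻¹ * (T * T)) * a⁻¹
        = (c * a * c)⁻¹ * (T * T * a⁻¹) := by group
      _ = _ := by rw [hb, q]; group
  rw [mul_assoc, ← r, inv_mul_eq_iff_eq_mul]
  conv_rhs => rw [k]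
  rw [← k]
  generalize c⁻¹ * b⁻¹ * T = X0, a⁻¹ * c⁻¹ * T = X1 at k ⊢
  conv_rhs => enter [1]; rw [k]
  group

theorem V1_U : ∃ (U : Type) (_ : Group U) (ι : VV →* U) (T : U), Function.Injective ι ∧
    ∀ e, T * ι (sv e) = ι (sv (e + 1)) * T := by
  obtain ⟨r, hr⟩ := exists_rot
  refine ⟨VV ⋊[zpowersHom (MulAut VV) r] Multiplicative ℤ, inferInstance, inl,
    inr (Multiplicative.ofAdd 1), inl_injective, fun e => ?_⟩
  ext
  · simp [hr]
  · simp

/-- left inverse into `VV ⋊ Multiplicative ℤ` (the generator `T` acts by the rotation `exists_rot`):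
`t 0 ↦ s 0`, `t 1 ↦ s 1`, `x 0 ↦ (s 2)⁻¹ (s 1)⁻¹ T`, `x 1 ↦ (s 0)⁻¹ (s 2)⁻¹ T`, `x 2 ↦ (s 1)⁻¹ (s 0)⁻¹ T`
(`SemidirectProduct.lift`; then `tau ↦ T`) -/
theorem jW_inj : Function.Injective jW := by
  obtain ⟨U, _, ι, T, hι, hT⟩ := V1_U
  obtain ⟨s, hs⟩ : ∃ s : ZMod 3 → U, ∀ e, ι (sv e) = s e := ⟨_, fun _ => rfl⟩
  simp only [hs] at hT
  have hb : ∀ e, s e * s (e + 1) * s e = s (e + 1) * s e * s (e + 1) := fun e => by
    simp only [← hs, ← _root_.map_mul, sv_braid]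
  have t0 : T * s 0 = s 1 * T := hT 0
  have t1 : T * s 1 = s 2 * T := hT 1
  have t2 : T * s 2 = s 0 * T := hT 2
  have b0 : s 0 * s 1 * s 0 = s 1 * s 0 * s 1 := hb 0
  have b1 : s 1 * s 2 * s 1 = s 2 * s 1 * s 2 := hb 1
  have b2 : s 2 * s 0 * s 2 = s 0 * s 2 * s 0 := hb 2
  obtain ⟨φ, p0, p1⟩ := Br.exists_lift₂ b0
  obtain ⟨Λ, l1, l2⟩ := V1_lift
    ![(s 2)⁻¹ * (s 1)⁻¹ * T, (s 0)⁻¹ * (s 2)⁻¹ * T, (s 1)⁻¹ * (s 0)⁻¹ * T] φ
    (fun a => by
      rw [p0]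
      fin_cases a
      · simpa [V1_r00] using (V1_rel b2 t0 t1 t2).1
      · simpa [V1_r01] using (V1_rel b2 t0 t1 t2).2
      · simpa [V1_r02] using (V1_fix b0 t0).symm)
    (fun a => by
      rw [p1]
      fin_cases a
      · simpa [V1_r10] using (V1_fix b1 t1).symm
      · simpa [V1_r11] using (V1_rel b0 t1 t2 t0).1
      · simpa [V1_r12] using (V1_rel b0 t1 t2 t0).2)
  have lt : Λ tau = T := by
    rw [tau, _root_.map_mul, l1, l2, _root_.map_mul, p0, p1, FreeGroup.lift_apply_of]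
    change (s 2)⁻¹ * (s 1)⁻¹ * T * (s 0 * s 1) = T
    calc (s 2)⁻¹ * (s 1)⁻¹ * T * (s 0 * s 1) = (s 2)⁻¹ * (s 1)⁻¹ * (T * s 0) * s 1 := by group
      _ = (s 2)⁻¹ * (T * s 1) := by rw [t0]; group
      _ = T := by rw [t1]; group
  have l0 : Λ (sW 0) = s 0 := by rw [sW_zero, l2, p0]
  have ls : ∀ e, Λ (sW e) = s e → Λ (sW (e + 1)) = s (e + 1) := fun e he => by
    rw [← sW_succ, _root_.map_mul, _root_.map_mul, _root_.map_inv, lt, he, hT,
      mul_inv_cancel_right]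
  have : Λ.comp jW = ι := VV.hom_ext fun e => by
    rw [MonoidHom.comp_apply, jW_sv, hs]
    rcases V1_cases e with rfl | rfl | rfl
    exacts [l0, ls 0 l0, ls 1 (ls 0 l0)]
  refine Function.Injective.of_comp (f := Λ) ?_
  rwa [← MonoidHom.coe_comp, this]

theorem V1_eps : ∃ ε : Br 2 →* VV, ε.range = EE 0 ∧ ∀ b, jW (ε b) = inr b := by
  obtain ⟨ε, -, h0, h1, h2⟩ := exists_eps 0
  refine ⟨ε, h2, fun b => ?_⟩
  have : jW.comp ε = inr := Br.hom_ext fun i hi => by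
    obtain rfl | rfl : i = 0 ∨ i = 1 := by omega
    · rw [MonoidHom.comp_apply, h0, jW_sv, sW_zero]
    · rw [MonoidHom.comp_apply, h1, jW_sv, zero_add, sW_one]
  exact DFunLike.congr_fun this b

/-- degree `0` forces `left = 1`; `exists_eps 0` -/
theorem jW_mem_DD {v : VV} : jW v ∈ DD ↔ v ∈ EE 0 := by
  obtain ⟨ε, h1, h2⟩ := V1_eps
  obtain ⟨deg, -, d1, d2, -, d3, -⟩ := exists_deg
  rw [← h1]
  constructor
  · intro h
    obtain ⟨k, hk⟩ := Subgroup.mem_zpowers_iff.1 h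
    have := d2 v
    rw [← inl_left_mul_inr_right (jW v), _root_.map_mul, d1, mul_one, ← hk, d3] at this
    have k0 : k = 0 := by
      have : 3 * k = 0 := Multiplicative.ofAdd.injective this
      omega
    refine ⟨(jW v).right, jW_inj ?_⟩
    rw [h2, ← inl_left_mul_inr_right (jW v), ← hk, k0]
    simp
  · rintro ⟨b, rfl⟩
    rw [h2]
    exact (Subgroup.zpowers dl).one_mem

theorem jW_zz : jW (zz sv 0) = inr ((bt 2 0 * bt 2 1) ^ 3) := by
  rw [zz, map_pow, _root_.map_mul, jW_sv, jW_sv, zero_add, sW_zero, sW_one, map_pow,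
    _root_.map_mul]

/-- `rho3_z`, `free_cent` with `i = 0`, `u = x 2 * x 1` -/
theorem conj_z_DD {w : WW} (h : w⁻¹ * jW (zz sv 0) * w ∈ DD) : w ∈ DD := by
  obtain ⟨k, hk⟩ := Subgroup.mem_zpowers_iff.1 h
  have e : w * (w⁻¹ * jW (zz sv 0) * w) = jW (zz sv 0) * w := by group
  have e1 := congrArg SemidirectProduct.left e
  rw [mul_left, ← hk, map_zpow, rho3_dl, jW_zz, mul_left, left_inr, right_inr, rho3_z, one_mul]
    at e1
  refine free_cent (i := 0) (u := of 2 * of 1) (Subgroup.mul_mem _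
    (Subgroup.subset_closure ⟨2, by decide, rfl⟩) (Subgroup.subset_closure ⟨1, by decide, rfl⟩)) ?_
  change w.left⁻¹ * dl * w.left ∈ Subgroup.zpowers dl
  refine Subgroup.mem_zpowers_iff.2 ⟨1 - k, ?_⟩
  calc dl ^ (1 - k) = w.left⁻¹ * dl * (dl⁻¹ * w.left * dl) * dl ^ (-k) := by group
    _ = _ := by rw [← e1]; group

theorem anchor_CAV1 : True := by
  have := @rho3.eq_1
  have := @dl.eq_1
  have := @tau.eq_1
  have := @sW.eq_1
  have := @jW.eq_1
  have := @DD.eq_1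
  trivial

end

end Crest.Agent.R175.Cat
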