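import Crest.Agent.R175.CAV1

/-! Row 175, S0264: the standard tree of a generator of the triangle Artin group. -/

set_option autoImplicit false

namespace Crest.Agent.R175.Cat

open FreeGroup SemidirectProduct

/-- a coefficient of a Fox derivative: let `x a` act on `FreeGroup α × ℤ` (from the right) by
`(g, n) ↦ (g * x a, n + lam a g)` -/
theorem exists_fox {α : Type} (lam : α → FreeGroup α → ℤ)
    (hf : ∀ a, (Function.support (lam a)).Finite) :
    ∃ side : FreeGroup α → ℤ, side 1 = 0 ∧ (∀ g a, side (g * of a) = side g + lam a g) ∧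
      ∀ f, {g | side (g * f) ≠ side g}.Finite := by
  let π : α → Equiv.Perm (FreeGroup α × ℤ) := fun a =>
    { toFun := fun p => (p.1 * of a, p.2 + lam a p.1)
      invFun := fun p => (p.1 * (of a)⁻¹, p.2 - lam a (p.1 * (of a)⁻¹))
      left_inv := fun p => by simp
      right_inv := fun p => by simp }
  let Φ : FreeGroup α →* Equiv.Perm (FreeGroup α × ℤ) := FreeGroup.lift fun a => (π a)⁻¹
  have e : ∀ a, Φ (of a) = (π a)⁻¹ := fun a => FreeGroup.lift_apply_of
  have e1 : ∀ a, Φ (of a)⁻¹ = π a := fun a => by rw [_root_.map_inv, e, inv_inv]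
  have em : ∀ f f' p, Φ (f * f')⁻¹ p = Φ f'⁻¹ (Φ f⁻¹ p) := fun f f' p => by
    rw [mul_inv_rev, _root_.map_mul, Equiv.Perm.mul_apply]
  have key : ∀ f, ∃ c : FreeGroup α → ℤ, (Function.support c).Finite ∧
      ∀ g n, Φ f⁻¹ (g, n) = (g * f, n + c g) := by
    intro f
    induction f using FreeGroup.induction_on with
    | C1 => exact ⟨0, by simp, fun g n => by simp⟩
    | of a => exact ⟨lam a, hf a, fun g n => by rw [e1]; rfl⟩
    | inv_of a _ =>
      refine ⟨fun g => -lam a (g * (of a)⁻¹),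
        ((hf a).preimage (mul_left_injective (of a)⁻¹).injOn).subset fun g hg => ?_,
        fun g n => by rw [inv_inv, e]; rfl⟩
      simpa using hg
    | mul x y hx hy =>
      obtain ⟨c, c1, c2⟩ := hx
      obtain ⟨d, d1, d2⟩ := hy
      refine ⟨fun g => c g + d (g * x), (c1.union (d1.preimage (mul_left_injective x).injOn)).subset
        (Function.support_add _ _), fun g n => by rw [em, c2, d2, mul_assoc, add_assoc]⟩
  have e2 : ∀ g, Φ g⁻¹ (1, 0) = (g, (Φ g⁻¹ (1, 0)).2) := fun g => by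
    obtain ⟨c, -, c2⟩ := key g
    rw [c2, one_mul]
  refine ⟨fun g => (Φ g⁻¹ (1, 0)).2, by simp, fun g a => ?_, fun f => ?_⟩
  · simp only
    rw [em, e1, e2]
    rfl
  · obtain ⟨c, c1, c2⟩ := key f
    refine c1.subset fun g hg h0 => hg ?_
    simp only
    rw [em, e2, c2, h0, add_zero]

/-- `exists_fox` with `lam 2 g = [g = (x 2)⁻¹]`, `lam 1 = 0`, `lam 0 g = -[g = x 1]` -/
theorem exists_sideF : ∃ side : FreeGroup (Fin 3) → ℤ, (∀ g, ∀ k : ℤ, side (g * dl ^ k) = side g) ∧
    (∀ f, {g | side (g * f) ≠ side g}.Finite) ∧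
    ∀ n : ℕ, 1 ≤ n → side (of 1 * of 0) ≠ side ((dl ^ n)⁻¹ * (of 1 * of 0)) := by
  obtain ⟨side, s0, s1, s2⟩ := exists_fox (α := Fin 3)
    ![fun g => if g = of 1 then -1 else 0, 0, fun g => if g = (of 2)⁻¹ then 1 else 0] (by
      intro a
      fin_cases a
      · exact (Set.finite_singleton (of 1)).subset fun g hg => by simpa using hg
      · simp
      · exact (Set.finite_singleton (of 2)⁻¹).subset fun g hg => by simpa using hg)
  have h1 : ∀ g, side (g * dl) = side g := fun g => by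
    rw [dl, ← mul_assoc, ← mul_assoc, s1, s1, s1]
    by_cases h : g = (of 2)⁻¹ <;> simp [h, mul_eq_one_iff_eq_inv]
  have h2 : ∀ g, ∀ k : ℤ, side (g * dl ^ k) = side g := fun g k => by
    induction k using Int.induction_on with
    | zero => simp
    | succ k ih => rw [zpow_add_one, ← mul_assoc, h1, ih]
    | pred k ih => rw [← ih, ← h1, zpow_sub_one, mul_assoc, inv_mul_cancel_right]
  refine ⟨side, h2, s2, fun n hn => ?_⟩
  have h3 : dl ≠ 1 := fun h => by
    have := congrArg
      (fun w => (FreeGroup.lift (fun _ : Fin 3 => Multiplicative.ofAdd (1 : ℤ)) w).toAdd) h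
    simp [dl] at this
  have h4 := h2 1 (-n)
  have h5 := s1 1 1
  rw [one_mul, s0] at h4 h5
  rw [zpow_neg, zpow_natCast] at h4
  rw [← mul_assoc, s1, s1, s1, h4, h5]
  simpa [h3] using (by omega : n ≠ 0)

theorem CAV2_z (j : ℤ) (w : FreeGroup (Fin 3)) :
    rho3 (((bt 2 0 * bt 2 1) ^ 3) ^ j) w = (dl ^ j)⁻¹ * w * dl ^ j := by
  have e : rho3 ((bt 2 0 * bt 2 1) ^ 3) = MulAut.conj dl⁻¹ :=
    MulEquiv.ext fun w => by rw [rho3_z, MulAut.conj_apply, inv_inv]
  rw [map_zpow, e, ← map_zpow, MulAut.conj_apply, inv_zpow, inv_inv]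

theorem CAV2_fix {b : Br 2} {w : FreeGroup (Fin 3)} (h : rho3 b w = w) (i : ℤ) :
    rho3 (b ^ i) w = w := by
  rw [map_zpow]
  exact (MulAction.stabilizer (MulAut (FreeGroup (Fin 3))) w).zpow_mem (x := rho3 b) h i

/-- `side w = sideF w.left`.  The degree shows that `sg 0 1` fixes `a.left` and `b.left`.  If `c`
commutes with `sv 0` then `jW c = (f, t 0 ^ i * z ^ j)` (`Br.cent_two`), `(jW c * a).left =
g * a.left * dl ^ j` with `g = f * (dl ^ j)⁻¹`, and `jW (sv 0 ^ (-i) * c) = inl g * (tau ^ 3) ^ j`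
where `j` is determined by `g` (degree). -/
theorem exists_sideW : ∃ side : WW → ℤ, (∀ w, ∀ d ∈ DD, side (w * d) = side w) ∧
    (∀ a b : WW, a⁻¹ * jW (sv 0) * a ∈ DD → b⁻¹ * jW (sv 0) * b ∈ DD →
      ∃ P : Set VV, P.Finite ∧ ∀ c, Commute (sv 0) c → side (jW c * a) ≠ side (jW c * b) →
        ∃ h ∈ Subgroup.zpowers (sv 0), ∃ p ∈ P, c = h * p) ∧
    ∀ n : ℕ, 1 ≤ n → side (tau ^ 2) ≠ side (jW (zz sv 0 ^ n) * tau ^ 2) := by
  obtain ⟨side, s1, s2, s3⟩ := exists_sideF
  obtain ⟨deg, -, d2, d3, -, d5, -⟩ := exists_deg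
  have j0 : jW (sv 0) = inr (bt 2 0) := by rw [jW_sv, sW_zero]
  have fx : ∀ a : WW, a⁻¹ * jW (sv 0) * a ∈ DD → rho3 (bt 2 0) a.left = a.left := by
    intro a ha
    obtain ⟨k, hk⟩ := Subgroup.mem_zpowers_iff.1 (mem_DD.1 ha)
    have h1 : deg (a⁻¹ * jW (sv 0) * a) = 1 := by simp [d3]
    rw [← inl_left_mul_inr_right (a⁻¹ * jW (sv 0) * a), _root_.map_mul, d2, ← hk, d5, mul_one,
      ofAdd_eq_one] at h1
    obtain rfl : k = 0 := by omega
    have h2 : (jW (sv 0) * a).left = (a * (a⁻¹ * jW (sv 0) * a)).left := by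
      rw [mul_assoc, mul_inv_cancel_left]
    rw [mul_left a, ← hk, j0] at h2
    simpa using h2
  refine ⟨fun w => side w.left, fun w d hd => ?_, fun a b ha hb => ?_, fun n hn => ?_⟩
  · obtain ⟨k, hk⟩ := Subgroup.mem_zpowers_iff.1 (mem_DD.1 hd)
    simp only [mul_left]
    rw [← hk, map_zpow, rho3_dl, s1]
  · refine ⟨⋃ g ∈ {g | side (g * a.left) ≠ side g} ∪ {g | side (g * b.left) ≠ side g},
      {p | ∃ j : ℤ, jW p = inl (g * dl ^ j) * inr (((bt 2 0 * bt 2 1) ^ 3) ^ j)},
      ((s2 _).union (s2 _)).biUnion fun g _ => Set.Subsingleton.finite ?_, fun c hc hs => ?_⟩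
    · rintro p ⟨j, hj⟩ p' ⟨j', hj'⟩
      have h1 := congrArg deg hj
      have h2 := congrArg deg hj'
      rw [d3, _root_.map_mul, _root_.map_mul, _root_.map_mul, d2, d5] at h1 h2
      have h3 := Multiplicative.ofAdd.injective (mul_left_cancel (mul_right_cancel (h1.symm.trans h2)))
      obtain rfl : j = j' := by omega
      exact jW_inj (hj.trans hj'.symm)
    · have h1 := (hc.map jW).eq
      rw [j0] at h1
      obtain ⟨i, j, hij⟩ := Br.cent_two (b := (jW c).right) (congrArg right h1).symm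
      have h2 : rho3 (bt 2 0) (jW c).left = (jW c).left := by simpa using congrArg left h1
      have h3 : ∀ a : WW, rho3 (bt 2 0) a.left = a.left →
          side (jW c * a).left = side ((jW c).left * (dl ^ j)⁻¹ * a.left) := fun a ha => by
        rw [mul_left, hij, _root_.map_mul, MulAut.mul_apply, CAV2_z, _root_.map_mul,
          _root_.map_mul, _root_.map_inv, CAV2_fix ha, map_zpow (rho3 _), rho3_dl, ← mul_assoc, s1,
          mul_assoc]
      refine ⟨sv 0 ^ i, Subgroup.zpow_mem_zpowers _ _, (sv 0 ^ i)⁻¹ * c, ?_,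
        (mul_inv_cancel_left _ _).symm⟩
      refine Set.mem_biUnion (x := (jW c).left * (dl ^ j)⁻¹) ?_ ⟨j, ?_⟩
      · simp only [h3 a (fx a ha), h3 b (fx b hb)] at hs
        by_contra h4
        simp only [Set.mem_union, Set.mem_ofPred_eq, not_or, not_not] at h4
        exact hs (h4.1.trans h4.2.symm)
      · rw [_root_.map_mul, ← zpow_neg, map_zpow, j0, ← map_zpow]
        ext
        · simp only [mul_left, left_inr, right_inr, one_mul, left_inl, right_inl, _root_.map_one,
            mul_one, CAV2_fix h2, inv_mul_cancel_right]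
        · simp only [mul_right, right_inr, right_inl, one_mul, hij, zpow_neg, inv_mul_cancel_left]
  · have h1 : jW (zz sv 0 ^ n) = inr (((bt 2 0 * bt 2 1) ^ 3) ^ (n : ℤ)) := by
      rw [zz, zero_add, zpow_natCast]
      simp only [map_pow, _root_.map_mul, j0, jW_sv, sW_one]
    have h2 : (tau ^ 2).left = of 1 * of 0 := by
      rw [tau_sq, mul_left, left_inr, _root_.map_one, mul_one, left_inl]
    simp only [mul_left, h1, h2, left_inr, right_inr, one_mul, CAV2_z, s1]
    exact_mod_cast s3 n hn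

end Crest.Agent.R175.Cat
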