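import Crest.Agent.R175.CAV2

/-! Row 175, S0264: the two facts about the triangle Artin group which are used later. -/

set_option autoImplicit false

namespace Crest.Agent.R175.Cat

/-- the rotation by `e` is conjugation by `tau ^ e.val` -/
theorem cav3_rot (e : ZMod 3) : ∃ ρ : MulAut VV, (∀ f, ρ (sv f) = sv (f + e)) ∧
    ∀ v, jW (ρ v) = tau ^ e.val * jW v * (tau ^ e.val)⁻¹ := by
  obtain ⟨r, hr⟩ := exists_rot
  have h1 : ∀ v, jW (r v) = tau * jW v * tau⁻¹ := by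
    have : jW.comp r.toMonoidHom = (MulAut.conj tau).toMonoidHom.comp jW :=
      VV.hom_ext fun f => by
        change jW (r (sv f)) = tau * jW (sv f) * tau⁻¹
        rw [hr, jW_sv, jW_sv, sW_succ]
    exact fun v => DFunLike.congr_fun this v
  have key : ∀ n : ℕ, (∀ f, (r ^ n) (sv f) = sv (f + n)) ∧
      ∀ v, jW ((r ^ n) v) = tau ^ n * jW v * (tau ^ n)⁻¹ := by
    intro n
    induction n with
    | zero => simp
    | succ n ih =>
      refine ⟨fun f => ?_, fun v => ?_⟩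
      · rw [pow_succ', MulAut.mul_apply, ih.1, hr, Nat.cast_succ, add_assoc]
      · rw [pow_succ', MulAut.mul_apply, h1, ih.2, pow_succ']
        group
  refine ⟨r ^ e.val, fun f => ?_, (key e.val).2⟩
  rw [(key e.val).1, ZMod.natCast_zmod_val]

theorem cav3_zz {e : ZMod 3} {ρ : MulAut VV} (h : ∀ f, ρ (sv f) = sv (f + e)) :
    ρ (zz sv 0) = zz sv e := by
  rw [zz, zz, map_pow, map_mul, h, h, zero_add, zero_add, add_comm]

theorem cav3_EE {e : ZMod 3} {v : VV} :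
    v ∈ EE e ↔ (tau ^ e.val)⁻¹ * jW v * tau ^ e.val ∈ DD := by
  obtain ⟨ρ, h1, h2⟩ := cav3_rot e
  obtain ⟨u, rfl⟩ := ρ.surjective v
  have h3 : (tau ^ e.val)⁻¹ * jW (ρ u) * tau ^ e.val = jW u := by
    rw [h2]
    group
  have h4 : EE e = (EE 0).map ρ.toMonoidHom := by
    rw [EE, EE, MonoidHom.map_closure, Set.image_pair]
    change _ = Subgroup.closure {ρ (sv 0), ρ (sv (0 + 1))}
    rw [h1, h1, zero_add, zero_add, add_comm]
  rw [h3, jW_mem_DD, h4]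
  exact Subgroup.mem_map_iff_mem (f := ρ.toMonoidHom) ρ.injective

theorem cav3_tau (e : ZMod 3) : ∃ d ∈ DD, (tau ^ (e + 1).val)⁻¹ * tau ^ e.val = tau ^ 2 * d := by
  have h3 : tau ^ 3 ∈ DD := by
    rw [tau_cube, mem_DD, SemidirectProduct.mul_left, SemidirectProduct.left_inl,
      SemidirectProduct.left_inr, map_one, mul_one]
    exact Subgroup.mem_zpowers dl
  have h : e = 0 ∨ e = 1 ∨ e = 2 := by
    revert e
    decide
  rcases h with rfl | rfl | rfl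
  · refine ⟨_, inv_mem h3, ?_⟩
    change (tau ^ 1)⁻¹ * tau ^ 0 = _
    group
  · refine ⟨_, inv_mem h3, ?_⟩
    change (tau ^ 2)⁻¹ * tau ^ 1 = _
    group
  · refine ⟨_, one_mem _, ?_⟩
    change (tau ^ 0)⁻¹ * tau ^ 2 = _
    group

/-- `w = (tau ^ e.val)⁻¹ * jW v * tau ^ e'.val` lies in `DD` (`conj_z_DD`); degree modulo `3` -/
theorem V_a {e e' : ZMod 3} {v : VV} (h : v⁻¹ * zz sv e * v ∈ EE e') : e = e' ∧ v ∈ EE e := by
  obtain ⟨ρ, h1, h2⟩ := cav3_rot e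
  have h3 := cav3_EE.1 h
  have h4 : (tau ^ e.val)⁻¹ * jW v * tau ^ e'.val ∈ DD := by
    refine conj_z_DD ?_
    rw [← cav3_zz h1, map_mul, map_mul, map_inv, h2] at h3
    convert h3 using 1
    group
  obtain ⟨deg, -, -, d1, d2, -, d3⟩ := exists_deg
  have h5 := d3 _ h4
  rw [deg.map_mul, deg.map_mul, deg.map_inv, deg.map_pow, deg.map_pow, d1, d2] at h5
  simp only [toAdd_mul, toAdd_inv, toAdd_pow, toAdd_ofAdd, toAdd_one, nsmul_eq_mul, mul_one,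
    add_zero] at h5
  have h6 : e = e' := by
    have a1 := ZMod.val_lt e
    have a2 := ZMod.val_lt e'
    exact ZMod.val_injective 3 (by omega)
  subst h6
  exact ⟨rfl, cav3_EE.2 h4⟩

/-- `Y = WW ⧸ DD`, `y e = tau ^ e.val`; the case `e = 2` is `exists_sideW`, the others follow by
the rotation (left multiplication by `tau`) -/
theorem V_b : ∃ (Y : Type) (_ : MulAction VV Y) (y : ZMod 3 → Y),
    (∀ e, ∀ v ∈ EE e, v • y e = y e) ∧ ∀ e, ∃ side : Y → ℤ,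
      (∀ a b : Y, sv (e + 1) • a = a → sv (e + 1) • b = b → ∃ P : Set VV, P.Finite ∧
        ∀ c, Commute (sv (e + 1)) c → side (c • a) ≠ side (c • b) →
          ∃ h ∈ Subgroup.zpowers (sv (e + 1)), ∃ p ∈ P, c = h * p) ∧
      ∀ n : ℕ, 1 ≤ n → side (y e) ≠ side (zz sv (e + 1) ^ n • y e) := by
  have hfix : ∀ (g a : WW), ((g * a : WW) : WW ⧸ DD) = (a : WW ⧸ DD) ↔ a⁻¹ * g * a ∈ DD := by
    intro g a
    rw [eq_comm, QuotientGroup.eq, mul_assoc]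
  refine ⟨WW ⧸ DD, MulAction.compHom _ jW, fun e => ((tau ^ e.val : WW) : WW ⧸ DD),
    fun e v hv => (hfix _ _).2 (cav3_EE.1 hv), fun e => ?_⟩
  obtain ⟨sd, s1, s2, s3⟩ := exists_sideW
  obtain ⟨ρ, h1, h2⟩ := cav3_rot (e + 1)
  have h0 : ρ (sv 0) = sv (e + 1) := by rw [h1, zero_add]
  have hs : ∀ w : WW, sd ((tau ^ (e + 1).val)⁻¹ * (w : WW ⧸ DD).out) =
      sd ((tau ^ (e + 1).val)⁻¹ * w) := by
    intro w
    obtain ⟨d, hd⟩ := QuotientGroup.mk_out_eq_mul DD w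
    rw [hd, ← mul_assoc, s1 _ _ d.2]
  have hc : ∀ (c : VV) (a : WW), (tau ^ (e + 1).val)⁻¹ * (jW (ρ c) * a) =
      jW c * ((tau ^ (e + 1).val)⁻¹ * a) := by
    intro c a
    rw [h2]
    group
  have hD : ∀ a : WW, ((jW (sv (e + 1)) * a : WW) : WW ⧸ DD) = (a : WW ⧸ DD) →
      ((tau ^ (e + 1).val)⁻¹ * a)⁻¹ * jW (sv 0) * ((tau ^ (e + 1).val)⁻¹ * a) ∈ DD := by
    intro a ha
    rw [hfix, ← h0, h2] at ha
    convert ha using 1
    group
  refine ⟨fun y => sd ((tau ^ (e + 1).val)⁻¹ * y.out), fun a b ha hb => ?_, fun n hn => ?_⟩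
  · obtain ⟨a, rfl⟩ := QuotientGroup.mk_surjective a
    obtain ⟨b, rfl⟩ := QuotientGroup.mk_surjective b
    obtain ⟨P, hP, hP'⟩ := s2 _ _ (hD a ha) (hD b hb)
    refine ⟨ρ '' P, hP.image _, fun c hcm hne => ?_⟩
    obtain ⟨c, rfl⟩ := ρ.surjective c
    have hcm' : Commute (sv 0) c := by
      refine ρ.injective ?_
      rw [map_mul, map_mul, h0]
      exact hcm
    have hne' : sd ((tau ^ (e + 1).val)⁻¹ * ((jW (ρ c) * a : WW) : WW ⧸ DD).out) ≠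
        sd ((tau ^ (e + 1).val)⁻¹ * ((jW (ρ c) * b : WW) : WW ⧸ DD).out) := hne
    rw [hs, hs, hc, hc] at hne'
    obtain ⟨h, hh, p, hp, rfl⟩ := hP' c hcm' hne'
    obtain ⟨k, rfl⟩ := Subgroup.mem_zpowers_iff.1 hh
    exact ⟨_, Subgroup.mem_zpowers_iff.2 ⟨k, rfl⟩, ρ p, ⟨p, hp, rfl⟩, by rw [map_mul, map_zpow, h0]⟩
  · change sd ((tau ^ (e + 1).val)⁻¹ * ((tau ^ e.val : WW) : WW ⧸ DD).out) ≠
      sd ((tau ^ (e + 1).val)⁻¹ * ((jW (zz sv (e + 1) ^ n) * tau ^ e.val : WW) : WW ⧸ DD).out)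
    obtain ⟨d, hd, hd'⟩ := cav3_tau e
    rw [hs, hs, ← cav3_zz h1, ← map_pow, hc, hd', ← mul_assoc, s1 _ _ hd, s1 _ _ hd]
    exact s3 n hn

end Crest.Agent.R175.Cat
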