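import Crest.Prelude.Def_GeometricAction
import Crest.Prelude.Def_ArtinGroup

/-! Row 175, S0264: the interface between the algebra (`CA*`) and the CAT(0) geometry (`CG*`). -/

set_option autoImplicit false

namespace Crest.Agent.R175.Cat

variable {G : Type} [Group G]

/-- `t 0, …, t (m - 1)` satisfy the relations of the braid group on `m + 1` strands -/
def IsBraid (t : ℕ → G) (m : ℕ) : Prop :=
  (∀ i, i + 1 < m → t i * t (i + 1) * t i = t (i + 1) * t i * t (i + 1)) ∧
    ∀ i j, i + 1 < j → j < m → Commute (t i) (t j)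

/-- inside the centraliser of `w`, the set `H` coarsely separates `a ^ n` from `b ^ n` -/
def Sep (w : G) (H : Set G) (a b : G) : Prop :=
  ∃ side : G → ℤ,
    (∀ f, Commute w f → ∃ P : Set G, P.Finite ∧
      ∀ c, Commute w c → side c ≠ side (c * f) → ∃ h ∈ H, ∃ p ∈ P, c = h * p) ∧
    ∀ n : ℕ, 1 ≤ n → side (a ^ n) ≠ side (b ^ n)

/-- the full twist of the edge `(s e, s (e + 1))` -/
def zz (s : ZMod 3 → G) (e : ZMod 3) : G := (s e * s (e + 1)) ^ 3

/-- the algebraic data which exclude a geometric action on a CAT(0) space -/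
structure CatData (G : Type) [Group G] where
  s : ZMod 3 → G
  tail : ∀ e, ∃ t : ℕ → G, IsBraid t 10 ∧ t 0 = s e ∧ t 1 = s (e + 1)
  sep1 : ∀ e, Sep (zz s e) {h | Commute h (s e) ∧ Commute h (s (e + 1))} (s e ^ 6) (s (e + 1) ^ 6)
  sep2 : ∀ e, Sep (s (e + 1)) (Subgroup.zpowers (s (e + 1))) (zz s e) (zz s (e + 1))

theorem anchor_CDefs : True := by
  have := @IsBraid.eq_1
  have := @Sep.eq_1
  have := @zz.eq_1
  trivial

end Crest.Agent.R175.Cat
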