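import Crest.Agent.R175.CGDefs

/-! Row 175, S0264, geometry: CN midpoints and convexity in a CAT(0) space. -/

set_option autoImplicit false

namespace Crest.Agent.R175.Cat

open Crest.Geometry

universe u

variable {X : Type u} [MetricSpace X]

/-- CN inequality. Take a geodesic `γ` from `x` to `y`, `m = γ (d/2)`; for `z` take a geodesic
`γ'` from `x` to `z` and use the comparison inequality with `s = d/2`, `t = dist x z`
(treat `dist x y = 0` and `dist x z = 0` separately: then it is trivial / `dist x m = d/2`). -/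
theorem exists_mid (hX : IsCAT0Space X) (x y : X) : ∃ m, IsMid m x y := by
  obtain ⟨γ, hγ⟩ := hX.1 x y
  refine ⟨γ (dist x y / 2), fun z => ?_⟩
  obtain ⟨η, hη⟩ := hX.1 x z
  have d0 := dist_nonneg (x := x) (y := y)
  have e0 := dist_nonneg (x := x) (y := z)
  have key := hX.2 x y z γ η hγ hη (dist x y / 2) ⟨by linarith, by linarith⟩ (dist x z) ⟨e0, le_rfl⟩
  rw [hη.2.1, dist_comm] at key
  rw [dist_comm z x, dist_comm z y]
  refine key.trans (le_of_eq ?_)
  rcases d0.eq_or_lt with h | h
  · obtain rfl := dist_eq_zero.1 h.symm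
    simp
  rcases e0.eq_or_lt with h' | h'
  · obtain rfl := dist_eq_zero.1 h'.symm
    simp only [dist_self, dist_comm y x]
    ring
  field_simp
  ring

/-- Midpoint contraction: use `h' m`, `h q`, `h r`. -/
theorem IsMid.contract {m m' p q r : X} (h : IsMid m p q) (h' : IsMid m' q r) :
    dist m m' ≤ dist p r / 2 := by
  have h1 := h' m
  have h2 := h q
  have h3 := h r
  rw [dist_self, dist_comm q m, dist_comm q p] at h2
  rw [dist_comm r m, dist_comm r p, dist_comm r q] at h3
  exact le_of_sq_le_sq (by linarith) (by positivity)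

/-- An approximate midpoint is close to the midpoint. -/
theorem IsMid.approx {m p q w : X} (h : IsMid m p q) {a b : ℝ} (hp : dist w p ≤ a)
    (hq : dist w q ≤ a) (hb : 0 ≤ b) (hpq : 2 * b ≤ dist p q) : dist w m ^ 2 ≤ a ^ 2 - b ^ 2 := by
  have h1 := h w
  have h2 := pow_le_pow_left₀ dist_nonneg hp 2
  have h3 := pow_le_pow_left₀ dist_nonneg hq 2
  have h4 := pow_le_pow_left₀ (by positivity) hpq 2
  linarith

theorem cg0_rev {γ : ℝ → X} {x y : X} (h : IsGeodesicSeg γ x y) :
    IsGeodesicSeg (fun r => γ (dist x y - r)) y x := by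
  refine ⟨by simpa using h.2.1, by simpa [dist_comm y x] using h.1, fun s hs t ht => ?_⟩
  rw [dist_comm y x] at hs ht
  rw [h.2.2 _ ⟨by linarith [hs.2], by linarith [hs.1]⟩ _ ⟨by linarith [ht.2], by linarith [ht.1]⟩,
    sub_sub_sub_cancel_left, abs_sub_comm]

theorem cg0_ratio (hX : IsCAT0Space X) {γ η : ℝ → X} {x y z : X} (h : IsGeodesicSeg γ x y)
    (h' : IsGeodesicSeg η x z) {l : ℝ} (l0 : 0 ≤ l) (l1 : l ≤ 1) :
    dist (γ (l * dist x y)) (η (l * dist x z)) ≤ l * dist y z := by
  have d0 := dist_nonneg (x := x) (y := y)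
  have e0 := dist_nonneg (x := x) (y := z)
  refine le_of_sq_le_sq ((hX.2 x y z γ η h h' _ ⟨by positivity, by nlinarith⟩ _
    ⟨by positivity, by nlinarith⟩).trans (le_of_eq ?_)) (by positivity)
  rcases d0.eq_or_lt with a | a
  · obtain rfl := dist_eq_zero.1 a.symm
    simp
  rcases e0.eq_or_lt with b | b
  · obtain rfl := dist_eq_zero.1 b.symm
    simp [dist_comm y x]
  field_simp
  ring

/-- Convexity of the metric. With `d = dist x y > 0`, `λ = s / d`, take a geodesic `η` from `x` to
`y'`: the comparison inequality at `(λ d, λ e)` (`e = dist x y'`) gives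
`dist (γ s) (η (λ e)) ≤ λ * dist y y'`; the reversed geodesics `r ↦ γ' (d - r)`, `r ↦ η (e - r)`
from `y'` give `dist (η (λ e)) (γ' s) ≤ (1 - λ) * dist x x'`. -/
theorem geod_convex (hX : IsCAT0Space X) {γ γ' : ℝ → X} {x y x' y' : X}
    (h : IsGeodesicSeg γ x y) (h' : IsGeodesicSeg γ' x' y') (hd : dist x' y' = dist x y)
    {s : ℝ} (hs : s ∈ Set.Icc (0 : ℝ) (dist x y)) :
    dist (γ s) (γ' s) ≤ max (dist x x') (dist y y') := by
  rcases (dist_nonneg (x := x) (y := y)).eq_or_lt with d0 | d0
  · obtain rfl : s = 0 := le_antisymm (d0 ▸ hs.2) hs.1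
    rw [h.1, h'.1]
    exact le_max_left _ _
  obtain ⟨η, hη⟩ := hX.1 x y'
  obtain ⟨l, rfl⟩ : ∃ l, s = l * dist x y := ⟨s / dist x y, by field_simp⟩
  have l0 : 0 ≤ l := nonneg_of_mul_nonneg_left hs.1 d0
  have l1 : l ≤ 1 := le_of_mul_le_mul_right (by simpa using hs.2) d0
  have a := cg0_ratio hX h hη l0 l1
  have b := cg0_ratio hX (cg0_rev hη) (cg0_rev h') (sub_nonneg.2 l1) (by linarith : 1 - l ≤ 1)
  simp only [dist_comm y' x, dist_comm y' x', hd] at b
  rw [show dist x y' - (1 - l) * dist x y' = l * dist x y' by ring,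
    show dist x y - (1 - l) * dist x y = l * dist x y by ring] at b
  have c1 := mul_le_mul_of_nonneg_left (le_max_right (dist x x') (dist y y')) l0
  have c2 := mul_le_mul_of_nonneg_left (le_max_left (dist x x') (dist y y')) (sub_nonneg.2 l1)
  linarith [dist_triangle (γ (l * dist x y)) (η (l * dist x y')) (γ' (l * dist x y))]

/-- The displacement of an isometry is convex along geodesics (apply `geod_convex` to `γ` and
`w • γ`). -/
theorem disp_convex {G : Type} [Group G] [MulAction G X] [IsIsometricSMul G X]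
    (hX : IsCAT0Space X) {γ : ℝ → X} {x y : X} (h : IsGeodesicSeg γ x y) (w : G)
    {s : ℝ} (hs : s ∈ Set.Icc (0 : ℝ) (dist x y)) :
    dist (γ s) (w • γ s) ≤ max (dist x (w • x)) (dist y (w • y)) := by
  refine geod_convex hX h (γ' := fun r => w • γ r) ⟨by simp only [h.1], ?_, ?_⟩ (dist_smul w x y) hs
  · simp only [dist_smul, h.2.1]
  · simpa only [dist_smul] using h.2.2

end Crest.Agent.R175.Cat
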