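import Crest.Agent.R175.CGDefs

/-! Row 175, S0264, geometry: the Gram form of translation lengths. -/

set_option autoImplicit false

namespace Crest.Agent.R175.Cat

universe u

/-- A metric `d` with Bruhat–Tits (CN) midpoints. -/
structure CG1CN (X : Type u) (d : X → X → ℝ) : Prop where
  self : ∀ x, d x x = 0
  eq_of : ∀ x y, d x y = 0 → x = y
  symm : ∀ x y, d x y = d y x
  tri : ∀ x y z, d x z ≤ d x y + d y z
  cn : ∀ x y, ∃ m, ∀ z, d z m ^ 2 ≤ d z x ^ 2 / 2 + d z y ^ 2 / 2 - d x y ^ 2 / 4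

theorem CG1CN.nonneg {X : Type u} {d : X → X → ℝ} (h : CG1CN X d) (x y : X) : 0 ≤ d x y := by
  linarith [h.tri x y x, h.self x, h.symm y x]

/-- The quadrilateral inequality. -/
theorem CG1CN.quad {X : Type u} {d : X → X → ℝ} (h : CG1CN X d) (p q r s : X) :
    d p r ^ 2 + d q s ^ 2 ≤ d p q ^ 2 + d q r ^ 2 + d r s ^ 2 + d s p ^ 2 := by
  obtain ⟨m, hm⟩ := h.cn p r
  have h1 := pow_le_pow_left₀ (h.nonneg q s) (h.tri q m s) 2
  have h2 := hm q
  have h3 := hm s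
  rw [h.symm q p] at h2
  rw [h.symm s r, h.symm s m] at h3
  nlinarith [sq_nonneg (d q m - d m s)]

theorem CG1_nonpos {a C : ℝ} (h : ∀ k : ℕ, a * 2 ^ k ≤ C) : a ≤ 0 := by
  by_contra ha
  rw [not_le] at ha
  obtain ⟨k, hk⟩ := pow_unbounded_of_one_lt (C / a) (one_lt_two (α := ℝ))
  rw [div_lt_iff₀' ha] at hk
  exact hk.not_ge (h k)

theorem CG1CN.gram {X : Type u} {G : Type} [Group G] [MulAction G X] {d : X → X → ℝ}
    (h : CG1CN X d) (iso : ∀ (f : G) x y, d (f • x) (f • y) = d x y)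
    (ss : ∀ f : G, ∃ x, ∀ y, d x (f • x) ≤ d y (f • y)) :
    ∃ (τ : G → ℝ) (B : G → G → ℝ), GramForm τ B ∧ (∀ g (y : X), τ g ≤ d y (g • y)) ∧
      (∀ g, τ g = 0 → ∃ p : X, g • p = p) ∧
      ∀ g (x : X), ∃ C : ℝ, ∀ n : ℕ, d x (g ^ n • x) ≤ n * τ g + C := by
  choose p hp using ss
  obtain ⟨τ, hτ⟩ : ∃ τ : G → ℝ, ∀ f, τ f = d (p f) (f • p f) := ⟨_, fun _ => rfl⟩
  have le : ∀ (f : G) y, τ f ≤ d y (f • y) := fun f y => hτ f ▸ hp f y
  have nn : ∀ f, 0 ≤ τ f := fun f => hτ f ▸ h.nonneg _ _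
  have sq_le : ∀ (f : G) y, τ f ^ 2 ≤ d y (f • y) ^ 2 := fun f y =>
    pow_le_pow_left₀ (nn f) (le f y) 2
  have mv : ∀ (f g : G) y, d (f • y) (g • y) = d y ((f⁻¹ * g) • y) := fun f g y => by
    rw [← iso f⁻¹, inv_smul_smul, mul_smul]
  have inv : ∀ f, τ f⁻¹ = τ f := by
    have : ∀ f, τ f⁻¹ ≤ τ f := fun f => (le f⁻¹ (p f)).trans_eq (by
      rw [← iso f, smul_inv_smul, h.symm, hτ])
    exact fun f => le_antisymm (this f) (by simpa using this f⁻¹)
  have up : ∀ (f : G) (n : ℕ), d (p f) (f ^ n • p f) ≤ n * τ f := fun f n => by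
    induction n with
    | zero => simp [h.self]
    | succ n ih =>
      have := h.tri (p f) (f ^ n • p f) (f ^ (n + 1) • p f)
      rw [pow_succ, mul_smul, iso, ← hτ] at this
      rw [pow_succ, mul_smul]
      push_cast
      linarith
  have dbl : ∀ f, 2 * τ f ≤ τ (f * f) := fun f => by
    obtain ⟨m, hm⟩ := h.cn (p (f * f)) (f • p (f * f))
    have h1 := hm (f • m)
    have h2 := hm (p (f * f))
    have h3 := hm (f⁻¹ • p (f * f))
    have h4 := sq_le f m
    rw [iso, h.symm _ m, h.symm m (p _)] at h1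
    rw [h.self] at h2
    rw [mv, inv_inv, ← hτ, ← iso f _ (p (f * f)), ← iso f _ m, smul_inv_smul,
      h.symm _ (f • m)] at h3
    exact le_of_sq_le_sq (by nlinarith) (nn _)
  have low : ∀ (f : G) (k : ℕ), 2 ^ k * τ f ≤ τ (f ^ 2 ^ k) := fun f k => by
    induction k with
    | zero => simp
    | succ k ih =>
      rw [pow_succ 2 k, pow_succ 2 k, pow_mul, sq]
      linarith [dbl (f ^ 2 ^ k)]
  have par : ∀ f g, Commute f g → τ (f * g) ^ 2 + τ (f⁻¹ * g) ^ 2 ≤ 2 * τ f ^ 2 + 2 * τ g ^ 2 := by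
    intro f g hc
    have hD := h.nonneg (p g) (p f)
    refine sub_nonpos.1 (CG1_nonpos
      (C := 8 * τ f * d (p g) (p f) + 8 * d (p g) (p f) ^ 2) fun k => ?_)
    have h1 := h.quad (p g) (f ^ 2 ^ k • p g) ((f * g) ^ 2 ^ k • p g) (g ^ 2 ^ k • p g)
    have h2 := pow_le_pow_left₀ (mul_nonneg (by positivity) (nn _))
      ((low (f * g) k).trans (le _ (p g))) 2
    have h3 := pow_le_pow_left₀ (mul_nonneg (by positivity) (nn _))
      ((low (f⁻¹ * g) k).trans (le _ (p g))) 2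
    have h4 := pow_le_pow_left₀ (h.nonneg _ _) (up g (2 ^ k)) 2
    have h5 : d (p g) (f ^ 2 ^ k • p g) ≤ 2 ^ k * τ f + 2 * d (p g) (p f) := by
      have h6 := up f (2 ^ k)
      have h7 := h.tri (p g) (p f) (f ^ 2 ^ k • p g)
      have h8 := h.tri (p f) (f ^ 2 ^ k • p f) (f ^ 2 ^ k • p g)
      rw [iso, h.symm (p f) (p g)] at h8
      push_cast at h6
      linarith
    have h6 := pow_le_pow_left₀ (h.nonneg _ _) h5 2
    have e1 : d (f ^ 2 ^ k • p g) ((f * g) ^ 2 ^ k • p g) = d (p g) (g ^ 2 ^ k • p g) := by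
      rw [hc.mul_pow, mul_smul, iso]
    have e2 : d ((f * g) ^ 2 ^ k • p g) (g ^ 2 ^ k • p g) = d (p g) (f ^ 2 ^ k • p g) := by
      rw [hc.eq, hc.symm.mul_pow, mul_smul, iso, h.symm]
    rw [e1, e2, h.symm _ (p g), mv, ← inv_pow, ← hc.inv_left.mul_pow] at h1
    have h7 : (1 : ℝ) ≤ 2 ^ k := one_le_pow₀ one_le_two
    push_cast at h4
    generalize (2 : ℝ) ^ k = N at *
    refine le_of_mul_le_mul_left ?_ (show 0 < N by linarith)
    nlinarith [mul_le_mul_of_nonneg_left h7 (sq_nonneg (d (p g) (p f)))]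
  have par' : ∀ f g, Commute f g → τ (f * g) ^ 2 + τ (f⁻¹ * g) ^ 2 = 2 * τ f ^ 2 + 2 * τ g ^ 2 := by
    intro f g hc
    have h1 := par (f * g) (f⁻¹ * g) (((Commute.refl f).inv_right.mul_right hc).mul_left
      (hc.symm.inv_right.mul_right (.refl g)))
    have h2 : f * g * (f⁻¹ * g) = g * g := by rw [hc.eq]; group
    have h3 : (f * g)⁻¹ * (f⁻¹ * g) = f⁻¹ * f⁻¹ := by rw [hc.inv_left.eq, hc.eq, hc.inv_left.eq.symm,
      mul_inv_rev, mul_assoc, ← mul_assoc g⁻¹, ← hc.inv_left.inv_right.eq, mul_assoc,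
      inv_mul_cancel, mul_one]
    rw [h2, h3] at h1
    have h4 := pow_le_pow_left₀ (mul_nonneg zero_le_two (nn _)) (dbl g) 2
    have h5 := pow_le_pow_left₀ (mul_nonneg zero_le_two (nn _)) (dbl f⁻¹) 2
    rw [inv] at h5
    linarith [par f g hc]
  obtain ⟨B, hB⟩ : ∃ B : G → G → ℝ, ∀ f g, B f g = τ (f * g) ^ 2 - τ f ^ 2 - τ g ^ 2 :=
    ⟨_, fun _ _ => rfl⟩
  have Binv : ∀ f g, Commute f g → B f g⁻¹ = -B f g := fun f g hc => by
    have h1 := par' f g hc
    rw [← inv (f⁻¹ * g), mul_inv_rev, inv_inv, ← hc.inv_right.eq] at h1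
    rw [hB, hB, inv]
    linarith
  have qf : ∀ f g, Commute f g → ∀ n : ℕ,
      τ (f ^ n * g) ^ 2 = n ^ 2 * τ f ^ 2 + n * B f g + τ g ^ 2 := fun f g hc n => by
    induction n using Nat.twoStepInduction with
    | zero => simp
    | one => rw [hB, pow_one]; ring
    | more n ih1 ih2 =>
      have h1 := par' f (f ^ (n + 1) * g) (((Commute.refl f).pow_right _).mul_right hc)
      rw [← mul_assoc, ← pow_succ', ih2, pow_succ' f n, mul_assoc, inv_mul_cancel_left, ih1] at h1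
      push_cast at h1 ⊢
      linarith
  have ub : ∀ f g, Commute f g → ∀ n : ℕ, d (p f) ((f ^ n * g) • p f) ^ 2 ≤
      n ^ 2 * τ f ^ 2 + n * B f g + 2 * d (p f) (g • p f) ^ 2 := fun f g hc n => by
    have h1 := h.quad (p f) (g • p f) ((f ^ n * g) • p f) (f ^ n • p f)
    have h2 := sq_le (f ^ n * g⁻¹) (p f)
    have h3 := pow_le_pow_left₀ (h.nonneg _ _) (up f n) 2
    have e1 : d (g • p f) ((f ^ n * g) • p f) = d (p f) (f ^ n • p f) := by
      rw [(hc.pow_left n).eq, mul_smul, iso]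
    have e2 : d ((f ^ n * g) • p f) (f ^ n • p f) = d (p f) (g • p f) := by
      rw [mul_smul, iso, h.symm]
    rw [e1, e2, h.symm _ (p f), mv, ← (hc.pow_left n).inv_right.eq] at h1
    rw [qf f _ hc.inv_right, Binv f g hc] at h2
    nlinarith [sq_nonneg (τ g⁻¹)]
  have sub : ∀ f g g', Commute f g → Commute f g' → B f (g * g') ≤ B f g + B f g' := by
    intro f g g' hc hc'
    refine sub_nonpos.1 (CG1_nonpos
      (C := 2 * d (p f) (g • p f) ^ 2 + 2 * d (p f) (g' • p f) ^ 2) fun k => ?_)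
    have h1 := ub f g hc (2 ^ k)
    have h2 := ub f g' hc' (2 ^ k)
    have h3 := sq_le (f ^ (2 ^ k + 2 ^ k) * (g * g')) (p f)
    have h4 := h.tri (p f) ((f ^ 2 ^ k * g) • p f) ((f ^ 2 ^ k * g) • (f ^ 2 ^ k * g') • p f)
    have e1 : f ^ 2 ^ k * g * (f ^ 2 ^ k * g') = f ^ (2 ^ k + 2 ^ k) * (g * g') := by
      rw [pow_add, mul_assoc, ← mul_assoc g, ← (hc.pow_left _).eq, mul_assoc, mul_assoc]
    rw [iso, ← mul_smul, e1] at h4
    have h5 := pow_le_pow_left₀ (h.nonneg _ _) h4 2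
    rw [qf f _ (hc.mul_right hc')] at h3
    push_cast at h1 h2 h3
    nlinarith [sq_nonneg (τ (g * g')),
      sq_nonneg (d (p f) ((f ^ 2 ^ k * g) • p f) - d (p f) ((f ^ 2 ^ k * g') • p f))]
  have add : ∀ f g g', Commute f g → Commute f g' → B f (g * g') = B f g + B f g' := by
    intro f g g' hc hc'
    have h1 := sub f g'⁻¹ g⁻¹ hc'.inv_right hc.inv_right
    rw [← mul_inv_rev, Binv f _ (hc.mul_right hc'), Binv f g hc, Binv f g' hc'] at h1
    linarith [sub f g g' hc hc']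
  have conj : ∀ g k, τ (k * g * k⁻¹) = τ g := by
    have : ∀ g k, τ (k * g * k⁻¹) ≤ τ g := fun g k => (le _ (k • p g)).trans_eq (by
      rw [mul_smul, mul_smul, inv_smul_smul, iso, hτ])
    refine fun g k => le_antisymm (this g k) ?_
    have h1 := this (k * g * k⁻¹) k⁻¹
    rwa [show k⁻¹ * (k * g * k⁻¹) * k⁻¹⁻¹ = g by group] at h1
  have self : ∀ f, τ (f * f) = 2 * τ f := fun f => by
    refine le_antisymm ?_ (dbl f)
    have h1 := up f 2
    rw [sq] at h1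
    exact_mod_cast (le _ (p f)).trans h1
  refine ⟨τ, fun f g => B f g / 2, ⟨nn, conj, inv, fun f g => by rw [hB], fun f g g' hc hc' => ?_,
    fun f => ?_⟩, le, fun g hg => ⟨p g, (h.eq_of _ _ ((hτ g).symm.trans hg)).symm⟩, fun g x => ?_⟩
  · rw [add f g g' hc hc', add_div]
  · rw [hB, self]
    ring
  · refine ⟨2 * d x (p g), fun n => ?_⟩
    have h6 := up g n
    have h7 := h.tri x (p g) (g ^ n • x)
    have h8 := h.tri (p g) (g ^ n • p g) (g ^ n • x)
    rw [iso, h.symm (p g) x] at h8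
    linarith

/-- Adapt the proof of `Crest.Agent.R244.CNSpace.exists_fixed` (file `R244/Cat0.lean`; copy, do
not import: there `X : Type`): `τ f = dist (p f) (f • p f)`, the facts `le nn inv up dbl low par
par' Binv qf ub sub add` are proved there (their `B` is twice ours; `self` is `qf f 1 _ 2` or
`dbl` + `up`; `conj` from `le` applied to `h • p g` in both directions). -/
theorem exists_gramForm {G : Type} [Group G] {X : Type u} [MetricSpace X] [MulAction G X]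
    [IsIsometricSMul G X] (cn : ∀ x y : X, ∃ m, IsMid m x y)
    (ss : ∀ g : G, ∃ p : X, ∀ y : X, dist p (g • p) ≤ dist y (g • y)) :
    ∃ (τ : G → ℝ) (B : G → G → ℝ), GramForm τ B ∧ (∀ g (y : X), τ g ≤ dist y (g • y)) ∧
      (∀ g, τ g = 0 → ∃ p : X, g • p = p) ∧
      ∀ g (x : X), ∃ C : ℝ, ∀ n : ℕ, dist x (g ^ n • x) ≤ n * τ g + C :=
  CG1CN.gram (d := dist) ⟨dist_self, fun _ _ => eq_of_dist_eq_zero, dist_comm, dist_triangle, cn⟩
    (fun f x y => dist_smul f x y) ss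

end Crest.Agent.R175.Cat
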