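import Crest.Agent.R175.CGDefs

/-! Row 175, S0264, geometry: algebra of the Gram form on one edge. -/

set_option autoImplicit false

namespace Crest.Agent.R175.Cat

variable {G : Type} [Group G] {τ : G → ℝ} {B : G → G → ℝ}

theorem GramForm.symm (h : GramForm τ B) {f g : G} (hc : Commute f g) : B f g = B g f := by
  rw [h.B_def, h.B_def, hc.eq]; ring

theorem GramForm.one_right (h : GramForm τ B) (f : G) : B f 1 = 0 := by
  have := h.add f 1 1 (Commute.one_right f) (Commute.one_right f)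
  rw [mul_one] at this
  linarith

theorem GramForm.inv_right (h : GramForm τ B) {f g : G} (hc : Commute f g) :
    B f g⁻¹ = -B f g := by
  have := h.add f g g⁻¹ hc hc.inv_right
  rw [mul_inv_cancel, h.one_right] at this
  linarith

theorem GramForm.pow_right (h : GramForm τ B) {f g : G} (hc : Commute f g) (n : ℕ) :
    B f (g ^ n) = n * B f g := by
  induction n with
  | zero => simp [h.one_right]
  | succ n ih =>
    rw [pow_succ, h.add f _ _ (hc.pow_right n) hc, ih]
    push_cast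
    ring

theorem GramForm.zpow_right (h : GramForm τ B) {f g : G} (hc : Commute f g) (n : ℤ) :
    B f (g ^ n) = n * B f g := by
  obtain ⟨m, rfl | rfl⟩ := n.eq_nat_or_neg
  · rw [zpow_natCast, h.pow_right hc]; simp
  · rw [zpow_neg, zpow_natCast, h.inv_right (hc.pow_right m), h.pow_right hc]; simp

theorem GramForm.sq_mul (h : GramForm τ B) (f g : G) :
    τ (f * g) ^ 2 = τ f ^ 2 + 2 * B f g + τ g ^ 2 := by
  rw [h.B_def]; ring

/-- `τ (g ^ n) ^ 2 = B (g ^ n) (g ^ n) = n ^ 2 * τ g ^ 2` -/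
theorem GramForm.sq_zpow (h : GramForm τ B) (g : G) (n : ℤ) :
    τ (g ^ n) ^ 2 = (n : ℝ) ^ 2 * τ g ^ 2 := by
  have c : Commute (g ^ n) g := (Commute.refl g).zpow_left n
  rw [← h.self, h.zpow_right c, h.symm c, h.zpow_right (Commute.refl g), h.self]
  ring

/-- a homomorphism to `ℝ` takes the same value on two elements satisfying the braid relation -/
theorem GramForm.braid_right (h : GramForm τ B) {f s t : G} (hs : Commute f s) (ht : Commute f t)
    (hb : s * t * s = t * s * t) : B f s = B f t := by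
  have h1 := h.add f (s * t) s (hs.mul_right ht) hs
  have h2 := h.add f (t * s) t (ht.mul_right hs) ht
  rw [h.add f s t hs ht] at h1
  rw [h.add f t s ht hs, ← hb, h1] at h2
  linarith

theorem braid_twist_symm' {s t : G} (hb : s * t * s = t * s * t) :
    (t * s) ^ 3 = (s * t) ^ 3 := by
  calc (t * s) ^ 3 = (t * s * t) * (s * t * s) := by
        simp only [pow_succ, pow_zero, one_mul, mul_assoc]
    _ = (s * t * s) * (t * s * t) := by rw [← hb]
    _ = _ := by simp only [pow_succ, pow_zero, one_mul, mul_assoc]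

theorem braid_comm_left {s t : G} (hb : s * t * s = t * s * t) : Commute ((s * t) ^ 3) s := by
  have e : (s * t) ^ 3 = (s * t * s) * (s * t * s) := by
    conv_rhs => rw [hb, ← hb]
    calc (s * t) ^ 3 = (s * t * s) * (t * s * t) := by simp only [pow_succ, pow_zero, one_mul, mul_assoc]
      _ = _ := by rw [← hb]
  have a : (s * t * s) * s = t * (s * t * s) := by
    calc (s * t * s) * s = (t * s * t) * s := by rw [hb]
      _ = _ := by simp only [mul_assoc]
  have b : (s * t * s) * t = s * (s * t * s) := by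
    calc (s * t * s) * t = s * (t * s * t) := by simp only [mul_assoc]
      _ = _ := by rw [← hb]
  rw [e, Commute, SemiconjBy, mul_assoc, a, ← mul_assoc, b, mul_assoc]

theorem braid_comm_right {s t : G} (hb : s * t * s = t * s * t) : Commute ((s * t) ^ 3) t := by
  rw [← braid_twist_symm' hb]
  exact braid_comm_left hb.symm

theorem braid_twist_symm {s t : G} (hb : s * t * s = t * s * t) : (t * s) ^ 3 = (s * t) ^ 3 := by
  exact braid_twist_symm' hb

/-- `t = (s t) s (s t)⁻¹` -/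
theorem GramForm.tau_braid (h : GramForm τ B) {s t : G} (hb : s * t * s = t * s * t) :
    τ t = τ s := by
  have e : t = (s * t) * s * (s * t)⁻¹ := by rw [hb]; group
  rw [e, h.conj]

/-- `B z z = 6 * B z s` -/
theorem GramForm.twist_B (h : GramForm τ B) {s t : G} (hb : s * t * s = t * s * t) :
    B ((s * t) ^ 3) s = τ ((s * t) ^ 3) ^ 2 / 6 := by
  have zs := braid_comm_left hb
  have zt := braid_comm_right hb
  have h1 := h.pow_right (zs.mul_right zt) 3
  rw [h.self, h.add _ _ _ zs zt, ← h.braid_right zs zt hb] at h1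
  push_cast at h1
  linarith

/-- `α ^ 2 + ζ ^ 2 = R ^ 2` for `u = s ^ 6 / z` -/
theorem GramForm.tau_u (h : GramForm τ B) {s t : G} (hb : s * t * s = t * s * t) :
    τ (s ^ 6 * ((s * t) ^ 3)⁻¹) ^ 2 = 36 * τ s ^ 2 - τ ((s * t) ^ 3) ^ 2 := by
  have zs := braid_comm_left hb
  have h1 := h.sq_zpow s 6
  have h2 := h.pow_right zs 6
  rw [h.sq_mul, h.inv, h.inv_right (zs.pow_right 6).symm, h.symm (zs.pow_right 6).symm, h2,
    h.twist_B hb]
  rw [show (6 : ℤ) = ((6 : ℕ) : ℤ) from rfl, zpow_natCast] at h1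
  rw [h1]
  push_cast
  ring

/-- (L1, algebra) with `u = s ^ 6 / z`: `(s ^ 6) ^ n)⁻¹ * g = (u ^ n)⁻¹ * ((z ^ n)⁻¹ * g)` and
`B u z = 0 = B u g` (both `B z ·` and `B g ·` are homomorphisms on `⟨s, t⟩` with equal values on
`s` and `t`, and `u` has exponent sum `0`). -/
theorem GramForm.L1_alg (h : GramForm τ B) {s t g : G} (hb : s * t * s = t * s * t)
    (hs : Commute g s) (ht : Commute g t) (n : ℕ) :
    (n : ℝ) ^ 2 * (36 * τ s ^ 2 - τ ((s * t) ^ 3) ^ 2) ≤ τ (((s ^ 6) ^ n)⁻¹ * g) ^ 2 := by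
  have zs := braid_comm_left hb
  have zt := braid_comm_right hb
  obtain ⟨z, hz⟩ : ∃ z, z = (s * t) ^ 3 := ⟨_, rfl⟩
  have gz : Commute g z := hz ▸ (hs.mul_right ht).pow_right 3
  have key : ∀ f, Commute f s → Commute f t → B f (s ^ 6 * z⁻¹) = 0 := fun f fs ft => by
    have fz : Commute f z := hz ▸ (fs.mul_right ft).pow_right 3
    rw [h.add _ _ _ (fs.pow_right 6) fz.inv_right, h.inv_right fz, h.pow_right fs, hz,
      h.pow_right (fs.mul_right ft), h.add _ _ _ fs ft, ← h.braid_right fs ft hb]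
    push_cast
    ring
  have hu := h.tau_u hb
  rw [← hz] at zs zt hu ⊢
  obtain ⟨u, hu'⟩ : ∃ u, u = s ^ 6 * z⁻¹ := ⟨_, rfl⟩
  rw [← hu'] at key hu
  have zu : Commute z u := hu' ▸ (zs.pow_right 6).mul_right (Commute.refl z).inv_right
  have gu : Commute g u := hu' ▸ (hs.pow_right 6).mul_right gz.inv_right
  have e : ((s ^ 6) ^ n)⁻¹ * g = (u ^ n)⁻¹ * ((z ^ n)⁻¹ * g) := by
    have : s ^ 6 = z * u := by rw [zu.eq, hu', inv_mul_cancel_right]
    rw [this, zu.mul_pow, mul_inv_rev, mul_assoc]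
  have c1 : Commute ((z ^ n)⁻¹ * g) u := (zu.pow_left n).inv_left.mul_left gu
  have b0 : B (u ^ n)⁻¹ ((z ^ n)⁻¹ * g) = 0 := by
    rw [h.symm (c1.pow_right n).inv_right.symm, h.inv_right (c1.pow_right n), h.pow_right c1,
      h.symm c1, h.add _ _ _ (zu.symm.pow_right n).inv_right gu.symm,
      h.inv_right (zu.symm.pow_right n), h.pow_right zu.symm, h.symm zu.symm, h.symm gu.symm,
      key z zs zt, key g hs ht]
    ring
  have h1 := h.sq_zpow u n
  rw [zpow_natCast] at h1
  rw [e, h.sq_mul, b0, h.inv, h1, hu]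
  push_cast
  nlinarith [sq_nonneg (τ ((z ^ n)⁻¹ * g))]

/-- (L2, algebra) -/
theorem GramForm.L2_alg (h : GramForm τ B) {s t : G} (hb : s * t * s = t * s * t) (n : ℕ) (j : ℤ) :
    τ ((((s * t) ^ 3) ^ n)⁻¹ * s ^ j) ^ 2 =
      (n : ℝ) ^ 2 * τ ((s * t) ^ 3) ^ 2 - 2 * n * j * (τ ((s * t) ^ 3) ^ 2 / 6) +
        (j : ℝ) ^ 2 * τ s ^ 2 := by
  have zs := braid_comm_left hb
  have h0 := h.twist_B hb
  obtain ⟨z, hz⟩ : ∃ z, z = (s * t) ^ 3 := ⟨_, rfl⟩
  rw [← hz] at zs h0 ⊢
  have h1 := h.sq_zpow z n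
  rw [zpow_natCast] at h1
  have c : Commute (z ^ n)⁻¹ s := (zs.pow_left n).inv_left
  rw [h.sq_mul, h.inv, h1, h.sq_zpow, h.zpow_right c, h.symm c,
    h.inv_right (zs.pow_left n).symm, h.pow_right zs.symm, h.symm zs.symm, h0]
  push_cast
  ring

end Crest.Agent.R175.Cat
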