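import Crest.Agent.R175.CG2

/-! Row 175, S0264, geometry: the Gram inequality in the braid group on 11 strands. -/

set_option autoImplicit false

namespace Crest.Agent.R175.Cat

variable {G : Type} [Group G]

/-- Jucys–Murphy elements: `y 0 = 1`, `y (j + 1) = t j * y j * t j` -/
def jm (t : ℕ → G) : ℕ → G
  | 0 => 1
  | j + 1 => t j * jm t j * t j

/-- full twists: `T 0 = 1`, `T (j + 1) = T j * y (j + 1)` -/
def fullTw (t : ℕ → G) : ℕ → G
  | 0 => 1
  | j + 1 => fullTw t j * jm t (j + 1)

theorem anchor_CG3 : True := by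
  have := @jm.eq_1
  have := @jm.eq_2
  have := @jm.eq_def
  have := @fullTw.eq_1
  have := @fullTw.eq_2
  have := @fullTw.eq_def
  trivial

/-- anything commuting with `t 0, …, t (j - 1)` commutes with `y j` -/
theorem commute_jm {t : ℕ → G} {g : G} {j : ℕ} (h : ∀ i, i < j → Commute g (t i)) :
    Commute g (jm t j) := by
  induction j with
  | zero => exact Commute.one_right g
  | succ j ih =>
    have h1 := h j (Nat.lt_succ_self j)
    exact (h1.mul_right (ih fun i hi => h i (Nat.lt_succ_of_lt hi))).mul_right h1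

theorem commute_fullTw {t : ℕ → G} {g : G} {j : ℕ} (h : ∀ i, i < j → Commute g (t i)) :
    Commute g (fullTw t j) := by
  induction j with
  | zero => exact Commute.one_right g
  | succ j ih =>
    exact (ih fun i hi => h i (Nat.lt_succ_of_lt hi)).mul_right (commute_jm h)

/-- Induction on `j`. For `j = i + 2`: `y (i+2) = t (i+1) t i y i t i t (i+1)`, use the braid
relation twice and that `t (i+1)` commutes with `y i`. For `j > i + 2`: `t i` commutes with
`t (j-1)` and `y (j-1)`. -/
theorem jm_commute {t : ℕ → G} {m : ℕ} (ht : IsBraid t m) {i j : ℕ} (hij : i + 2 ≤ j)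
    (hj : j ≤ m) : Commute (jm t j) (t i) := by
  induction j, hij using Nat.le_induction with
  | base =>
    have hb := ht.1 i (by omega)
    have hc : Commute (t (i + 1)) (jm t i) :=
      commute_jm fun k hk => (ht.2 k (i + 1) (by omega) (by omega)).symm
    change Commute (t (i + 1) * (t i * jm t i * t i) * t (i + 1)) (t i)
    generalize jm t i = y at hc
    generalize t (i + 1) = b at hb hc
    generalize t i = a at hb
    calc b * (a * y * a) * b * a = b * a * y * (a * b * a) := by simp only [mul_assoc]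
      _ = b * a * (y * b) * a * b := by rw [hb]; simp only [mul_assoc]
      _ = (b * a * b) * y * a * b := by rw [← hc.eq]; simp only [mul_assoc]
      _ = a * (b * (a * y * a) * b) := by rw [← hb]; simp only [mul_assoc]
  | succ j hij ih =>
    have h1 : Commute (t j) (t i) := (ht.2 i j (by omega) (by omega)).symm
    exact (h1.mul_left (ih (by omega))).mul_left h1

/-- Induction on `j`. For `i + 1 = j`: `T (i+1) = T (i-1) * (y i * y (i+1))` (for `i ≥ 1`),
`T (i-1)` commutes with `t i`, and `y i` commutes with `y (i+1) = t i * y i * t i`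
(by `jm_commute` and `commute_jm`), which says `y t y t = t y t y`, so `y i * y (i+1) = (y t) ^ 2`
commutes with `t = t i`. -/
theorem fullTw_commute {t : ℕ → G} {m : ℕ} (ht : IsBraid t m) {i j : ℕ} (hij : i < j)
    (hj : j ≤ m) : Commute (fullTw t j) (t i) := by
  induction j with
  | zero => omega
  | succ j ih =>
    rcases Nat.lt_succ_iff_lt_or_eq.1 hij with h1 | rfl
    · exact (ih h1 (by omega)).mul_left (jm_commute ht (by omega) hj)
    · cases i with
      | zero =>
        change Commute (1 * (t 0 * 1 * t 0)) (t 0)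
        rw [one_mul, mul_one]
        exact (Commute.refl _).mul_left (Commute.refl _)
      | succ i =>
        have h1 : Commute (t (i + 1)) (fullTw t i) :=
          commute_fullTw fun k hk => (ht.2 k (i + 1) (by omega) (by omega)).symm
        have h2 : Commute (jm t (i + 1 + 1)) (jm t (i + 1)) :=
          commute_jm fun k hk => jm_commute ht (by omega) hj
        change Commute (fullTw t i * jm t (i + 1) * jm t (i + 1 + 1)) (t (i + 1))
        rw [mul_assoc]
        refine h1.symm.mul_left ?_
        change Commute (t (i + 1) * jm t (i + 1) * t (i + 1)) (jm t (i + 1)) at h2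
        change Commute (jm t (i + 1) * (t (i + 1) * jm t (i + 1) * t (i + 1))) (t (i + 1))
        generalize jm t (i + 1) = y at h2
        generalize t (i + 1) = a at h2
        calc y * (a * y * a) * a = (a * y * a) * y * a := by rw [h2.eq]
          _ = a * (y * (a * y * a)) := by simp only [mul_assoc]

variable {τ : G → ℝ} {B : G → G → ℝ}

/-- if `f` commutes with `t 0, …, t (j-1)` then `B f (t i) = B f (t 0)` (`braid_right`), so
`B f (y j) = 2 j B f (t 0)` -/
theorem GramForm.B_jm (h : GramForm τ B) {t : ℕ → G} {m : ℕ} (ht : IsBraid t m) {f : G} {j : ℕ}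
    (hj : j ≤ m) (hf : ∀ i, i < j → Commute f (t i)) : B f (jm t j) = 2 * j * B f (t 0) := by
  have hB : ∀ i, i < j → B f (t i) = B f (t 0) := by
    intro i
    induction i with
    | zero => exact fun _ => rfl
    | succ i ih =>
      intro hi
      rw [← ih (by omega)]
      exact (h.braid_right (hf i (by omega)) (hf _ hi) (ht.1 i (by omega))).symm
  have : ∀ k, k ≤ j → B f (jm t k) = 2 * k * B f (t 0) := by
    intro k
    induction k with
    | zero => intro _; simp [jm, h.one_right]
    | succ k ih =>
      intro hk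
      have c1 := hf k (by omega)
      have c2 : Commute f (jm t k) := commute_jm fun i hi => hf i (by omega)
      rw [jm, h.add _ _ _ (c1.mul_right c2) c1, h.add _ _ _ c1 c2, ih (by omega), hB k (by omega)]
      push_cast
      ring
  exact this j le_rfl

theorem GramForm.B_fullTw (h : GramForm τ B) {t : ℕ → G} {m : ℕ} (ht : IsBraid t m) {f : G}
    {j : ℕ} (hj : j ≤ m) (hf : ∀ i, i < j → Commute f (t i)) :
    B f (fullTw t j) = j * (j + 1) * B f (t 0) := by
  induction j with
  | zero => simp [fullTw, h.one_right]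
  | succ j ih =>
    have hf' : ∀ i, i < j → Commute f (t i) := fun i hi => hf i (by omega)
    rw [fullTw, h.add _ _ _ (commute_fullTw hf') (commute_jm hf), ih (by omega) hf',
      h.B_jm ht hj hf]
    push_cast
    ring

/-- With `η = B (t 0) (y 2)`, `x = B (t 0) (t 2)`: `B (t 0) (t i) = x` for `2 ≤ i < m`
(`braid_right`), `B (t 0) (y j) = η + 2 (j - 2) x` for `2 ≤ j ≤ m`, `B (t 0) (y 1) = 2 τ²`,
`c j = B (t 0) (T j) = 2 τ² + (j-1) η + (j-1)(j-2) x`;
`τ (y j) ² = B (y j) (T j) - B (y j) (T (j-1)) = 2 j c j - j (j-1) (η + 2 (j-2) x)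
 = 4 j τ² + j (j-1) η`. For `j = 10`: `η ≥ -4 τ² / 9`. Finally `(t 0 * t 1) ^ 3 = t 0 ^ 2 * y 2`,
so `ζ² = 6 B z (t 0) = 6 (2 τ² + η) ≥ 28 τ² / 3`. -/
theorem GramForm.gram (h : GramForm τ B) {t : ℕ → G} (ht : IsBraid t 10) :
    28 / 3 * τ (t 0) ^ 2 ≤ τ ((t 0 * t 1) ^ 3) ^ 2 := by
  have c0 : ∀ i, 2 ≤ i → i < 10 → Commute (t 0) (t i) := fun i h1 h2 => ht.2 0 i (by omega) h2
  have hx : ∀ i, 2 ≤ i → i < 10 → B (t 0) (t i) = B (t 0) (t 2) := by
    intro i hi
    induction i, hi using Nat.le_induction with
    | base => exact fun _ => rfl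
    | succ i hi ih =>
      intro h2
      rw [← ih (by omega)]
      exact (h.braid_right (c0 i hi (by omega)) (c0 _ (by omega) h2) (ht.1 i h2)).symm
  have cy : ∀ j, 2 ≤ j → j ≤ 10 → Commute (t 0) (jm t j) := fun j h1 h2 =>
    (jm_commute ht (by omega) h2).symm
  have hy : ∀ j, 2 ≤ j → j ≤ 10 →
      B (t 0) (jm t j) = B (t 0) (jm t 2) + 2 * (j - 2) * B (t 0) (t 2) := by
    intro j hj
    induction j, hj using Nat.le_induction with
    | base => intro _; norm_num
    | succ j hj ih =>
      intro h2
      have c1 := c0 j hj (by omega)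
      have c2 := cy j hj (by omega)
      rw [jm, h.add _ _ _ (c1.mul_right c2) c1, h.add _ _ _ c1 c2, ih (by omega), hx j hj (by omega)]
      push_cast
      ring
  have cT : ∀ j, 1 ≤ j → j ≤ 10 → Commute (t 0) (fullTw t j) := fun j h1 h2 =>
    (fullTw_commute ht (by omega) h2).symm
  have hT1 : fullTw t 1 = t 0 * t 0 := by simp [fullTw, jm]
  have hT : ∀ j, 1 ≤ j → j ≤ 10 → B (t 0) (fullTw t j) =
      2 * τ (t 0) ^ 2 + (j - 1) * B (t 0) (jm t 2) + (j - 1) * (j - 2) * B (t 0) (t 2) := by
    intro j hj
    induction j, hj using Nat.le_induction with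
    | base =>
      intro _
      rw [hT1, h.add _ _ _ (Commute.refl _) (Commute.refl _), h.self]
      norm_num
      ring
    | succ j hj ih =>
      intro h2
      rw [fullTw, h.add _ _ _ (cT j hj (by omega)) (cy _ (by omega) h2), ih (by omega),
        hy (j + 1) (by omega) h2]
      push_cast
      ring
  have f10 : ∀ i, i < 10 → Commute (fullTw t 10) (t i) := fun i hi => fullTw_commute ht hi le_rfl
  have y9 : ∀ i, i < 9 → Commute (jm t 10) (t i) := fun i hi => jm_commute ht (by omega) le_rfl
  have e1 := h.B_jm ht le_rfl f10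
  have e2 := h.B_fullTw ht (by norm_num : 9 ≤ 10) y9
  have e3 : B (jm t 10) (fullTw t 10) = B (jm t 10) (fullTw t 9) + τ (jm t 10) ^ 2 := by
    rw [show fullTw t 10 = fullTw t 9 * jm t 10 from rfl,
      h.add _ _ _ (commute_fullTw y9) (Commute.refl _), h.self]
  rw [h.symm (commute_jm f10), e3, e2, h.symm (f10 0 (by norm_num)), hT 10 (by norm_num) le_rfl,
    h.symm (y9 0 (by norm_num)), hy 10 (by norm_num) le_rfl] at e1
  have hb := ht.1 0 (by norm_num)
  rw [zero_add] at hb
  have e4 : (t 0 * t 1) ^ 3 = fullTw t 2 := by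
    have : fullTw t 2 = t 0 * t 0 * (t 1 * (t 0 * t 0) * t 1) := by simp [fullTw, jm]
    rw [this]
    calc (t 0 * t 1) ^ 3 = t 0 * (t 1 * t 0 * t 1) * t 0 * t 1 := by
          simp only [pow_succ, pow_zero, one_mul, mul_assoc]
      _ = _ := by rw [← hb]; simp only [mul_assoc]
  have e5 := h.twist_B hb
  rw [h.symm (braid_comm_left hb)] at e5
  have e6 := hT 2 (by norm_num) (by norm_num)
  rw [← e4, e5] at e6
  push_cast at e1 e6
  nlinarith [sq_nonneg (τ (jm t 10))]

end Crest.Agent.R175.Cat
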