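import Crest.Agent.R175.CGDefs

/-! Row 175, S0264, geometry: consequences of properness and cocompactness. -/

set_option autoImplicit false

namespace Crest.Agent.R175.Cat

open Crest.Geometry

universe u

variable {G : Type} [Group G] {X : Type u} [MetricSpace X] [ProperSpace X] [MulAction G X]

/-- properness for `K = closedBall x R` (which contains `x` and `g • x`; `R < 0` is vacuous) -/
theorem finite_disp (hA : IsGeometricAction G X) (x : X) (R : ℝ) :
    {g : G | dist x (g • x) ≤ R}.Finite := by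
  refine (hA.2.1 _ (isCompact_closedBall x R)).subset fun g hg => ?_
  have hg' : dist x (g • x) ≤ R := hg
  exact ⟨g • x, ⟨x, Metric.mem_closedBall_self (dist_nonneg.trans hg'), rfl⟩,
    Metric.mem_closedBall'.2 hg'⟩

/-- cocompactness: some `D` with every point within `D` of the orbit of `x` -/
theorem exists_cobounded (hA : IsGeometricAction G X) (x : X) :
    ∃ D : ℝ, ∀ y : X, ∃ g : G, dist y (g • x) ≤ D := by
  have := hA.1
  obtain ⟨K, hK, hc⟩ := hA.2.2
  obtain ⟨D, hD⟩ := hK.isBounded.subset_closedBall x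
  refine ⟨D, fun y => ?_⟩
  obtain ⟨g, k, hk, rfl⟩ := hc y
  exact ⟨g, by simpa only [dist_smul] using Metric.mem_closedBall.1 (hD hk)⟩

omit [ProperSpace X] in
theorem cg4_conj [IsIsometricSMul G X] (h g : G) (k : X) :
    dist k ((h⁻¹ * g * h) • k) = dist (h • k) (g • h • k) := by
  rw [← dist_smul h, ← mul_smul, ← mul_smul]
  congr 2
  group

omit [ProperSpace X] in
theorem cg4_near [IsIsometricSMul G X] {x y : X} {g w : G} {D R : ℝ} (h1 : dist y (g • x) ≤ D)
    (h2 : dist y (w • y) ≤ R) : dist x ((g⁻¹ * w * g) • x) ≤ R + 2 * D := by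
  rw [cg4_conj]
  have h3 := dist_triangle4 (g • x) y (w • y) (w • g • x)
  rw [dist_smul, dist_comm (g • x) y] at h3
  linarith

/-- Every element is semisimple. Let `R = dist x (g • x)`, `K = closedBall x D`. The set `F` of
conjugates `f` of `g` with `dist x (f • x) ≤ R + 2 D` is finite and contains `g`; minimise the
continuous function `(f, k) ↦ dist k (f • k)` over `F × K`, at `(h⁻¹ g h, k)`, and take
`p = h • k`. -/
theorem exists_min_disp [Nonempty X] (hA : IsGeometricAction G X) (g : G) :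
    ∃ p : X, ∀ y : X, dist p (g • p) ≤ dist y (g • y) := by
  have := hA.1
  obtain ⟨x⟩ := ‹Nonempty X›
  obtain ⟨D, hD⟩ := exists_cobounded hA x
  have hD0 : 0 ≤ D := by
    obtain ⟨h, hh⟩ := hD x
    exact dist_nonneg.trans hh
  obtain ⟨R, hR⟩ : ∃ R, R = dist x (g • x) := ⟨_, rfl⟩
  let F : Set G := {f | dist x (f • x) ≤ R + 2 * D ∧ ∃ h : G, f = h⁻¹ * g * h}
  have hF : F.Finite := (finite_disp hA x (R + 2 * D)).subset fun f hf => hf.1
  let A : Set ℝ := ⋃ f ∈ F, (fun k : X => dist k (f • k)) '' Metric.closedBall x D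
  have hAc : IsCompact A := hF.isCompact_biUnion fun f _ =>
    (isCompact_closedBall x D).image (continuous_id.dist (continuous_const_smul f))
  have hRA : R ∈ A := by
    refine Set.mem_biUnion (x := g) ⟨by linarith, 1, by group⟩ ?_
    exact ⟨x, Metric.mem_closedBall_self hD0, hR.symm⟩
  obtain ⟨m, hm, hmin⟩ := hAc.exists_isLeast ⟨R, hRA⟩
  obtain ⟨f, ⟨-, h, rfl⟩, k, -, hk⟩ := Set.mem_iUnion₂.1 hm
  refine ⟨h • k, fun y => ?_⟩
  have hk' : dist (h • k) (g • h • k) = m := by rw [← cg4_conj]; exact hk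
  rw [hk']
  rcases le_total (dist y (g • y)) R with hy | hy
  · obtain ⟨h', hh'⟩ := hD y
    refine hmin (Set.mem_biUnion (x := h'⁻¹ * g * h') ⟨cg4_near hh' hy, h', rfl⟩
      ⟨h'⁻¹ • y, ?_, ?_⟩)
    · rw [Metric.mem_closedBall, ← dist_smul h', smul_inv_smul]
      exact hh'
    · show dist (h'⁻¹ • y) ((h'⁻¹ * g * h') • h'⁻¹ • y) = dist y (g • y)
      rw [cg4_conj, smul_inv_smul]
  · exact (hmin hRA).trans hy

/-- an element with a fixed point has finite order (its powers lie in a finite set) -/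
theorem exists_pow_eq_one (hA : IsGeometricAction G X) {g : G} {p : X} (h : g • p = p) :
    ∃ n : ℕ, 1 ≤ n ∧ g ^ n = 1 := by
  have hfin := finite_disp hA p 0
  have hmem : ∀ n : ℕ, g ^ n ∈ {f : G | dist p (f • p) ≤ 0} := by
    intro n
    have : g ^ n • p = p := by
      induction n with
      | zero => simp
      | succ n ih => rw [pow_succ, mul_smul, h, ih]
    simp [this]
  have hord : IsOfFinOrder g := by
    rw [← finite_powers]
    refine hfin.subset ?_
    rintro _ ⟨n, rfl⟩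
    exact hmem n
  obtain ⟨n, hn, he⟩ := isOfFinOrder_iff_pow_eq_one.1 hord
  exact ⟨n, hn, he⟩

/-- The centraliser of `w` acts coboundedly on `{y | dist y (w • y) ≤ R}`. For such `y` take `g`
with `dist y (g • x) ≤ D`; then `g⁻¹ w g` lies in the finite set
`F = {f | dist x (f • x) ≤ R + 2 D}`. Choose for every `f ∈ F` conjugate to `w` one `k f` with
`(k f)⁻¹ w (k f) = f`; then `c = g (k f)⁻¹` commutes with `w` and
`dist y (c • x) ≤ D + dist x ((k f)⁻¹ • x)`. -/
theorem centraliser_cobounded (hA : IsGeometricAction G X) (x : X) (w : G) (R : ℝ) :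
    ∃ D : ℝ, ∀ y : X, dist y (w • y) ≤ R → ∃ c : G, Commute w c ∧ dist y (c • x) ≤ D := by
  have := hA.1
  obtain ⟨D, hD⟩ := exists_cobounded hA x
  let F : Set G := {f | dist x (f • x) ≤ R + 2 * D}
  have hF : F.Finite := finite_disp hA x (R + 2 * D)
  have hk : ∀ f : G, ∃ k : G, (∃ h : G, h⁻¹ * w * h = f) → k⁻¹ * w * k = f := by
    intro f
    by_cases h : ∃ h : G, h⁻¹ * w * h = f
    · obtain ⟨k, hk⟩ := h
      exact ⟨k, fun _ => hk⟩
    · exact ⟨1, fun h' => absurd h' h⟩
  choose k hk using hk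
  obtain ⟨M, hM⟩ := (hF.image fun f => dist x ((k f)⁻¹ • x)).bddAbove
  refine ⟨D + M, fun y hy => ?_⟩
  obtain ⟨g, hg⟩ := hD y
  have hf : g⁻¹ * w * g ∈ F := cg4_near hg hy
  have h1 := hk (g⁻¹ * w * g) ⟨g, rfl⟩
  have h2 : dist x ((k (g⁻¹ * w * g))⁻¹ • x) ≤ M := hM ⟨_, hf, rfl⟩
  obtain ⟨l, hl⟩ : ∃ l, l = k (g⁻¹ * w * g) := ⟨_, rfl⟩
  rw [← hl] at h1 h2
  refine ⟨g * l⁻¹, ?_, ?_⟩
  · show w * (g * l⁻¹) = g * l⁻¹ * w
    calc w * (g * l⁻¹) = g * (g⁻¹ * w * g) * l⁻¹ := by group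
      _ = g * (l⁻¹ * w * l) * l⁻¹ := by rw [h1]
      _ = g * l⁻¹ * w := by group
  · have h3 := dist_triangle y (g • x) ((g * l⁻¹) • x)
    rw [mul_smul, dist_smul] at h3
    rw [mul_smul]
    linarith

end Crest.Agent.R175.Cat
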