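import Crest.Agent.R175.CG0
import Crest.Agent.R175.CG4

/-! Row 175, S0264, geometry: a geodesic from `a ^ n • x` to `b ^ n • x` passes near `H • x`. -/

set_option autoImplicit false

namespace Crest.Agent.R175.Cat

open Crest.Geometry

universe u

/-- Let `R = dist x (w • x)`; the end points `a ^ n • x`, `b ^ n • x` have `w`-displacement `R`,
so all points of a geodesic `γ` between them have displacement `≤ R` (`disp_convex`). Take `D`
from `centraliser_cobounded` (enlarge to `D ≥ 0`), `N = ⌈d⌉₊ + 1`, `y i = γ (i d / N)`,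
`c i` in the centraliser with `dist (y i) (c i • x) ≤ D`, `c 0 = a ^ n`, `c N = b ^ n`. Some `i < N`
has `side (c i) ≠ side (c (i+1))`; `f = (c i)⁻¹ * c (i+1)` lies in the finite set
`{f | dist x (f • x) ≤ 2 D + 1}` and commutes with `w`, so `c i = h p` with `p` in a finite set
independent of `n`; `dist (h • x) (c i • x) = dist x (p • x) ≤ D'`. Take `C = 2 (D + D')`. -/
theorem Sep.chain {G : Type} [Group G] {X : Type u} [MetricSpace X] [ProperSpace X]
    [MulAction G X] (hX : IsCAT0Space X) (hA : IsGeometricAction G X) {w a b : G} {H : Set G}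
    (hS : Sep w H a b) (ha : Commute w a) (hb : Commute w b) (x : X) :
    ∃ C : ℝ, ∀ n : ℕ, 1 ≤ n → ∃ h ∈ H,
      dist (a ^ n • x) (h • x) + dist (h • x) (b ^ n • x) ≤ dist (a ^ n • x) (b ^ n • x) + C := by
  have : IsIsometricSMul G X := hA.1
  obtain ⟨side, hP, hs⟩ := hS
  choose! P hPf hP using hP
  obtain ⟨D, hD⟩ := centraliser_cobounded hA x w (dist x (w • x))
  have D0 : 0 ≤ D := by
    obtain ⟨c, -, hc⟩ := hD x le_rfl
    exact dist_nonneg.trans hc
  have hF : ({f : G | dist x (f • x) ≤ 2 * D + 1} ∩ {f | Commute w f}).Finite :=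
    (finite_disp hA x _).inter_of_left _
  obtain ⟨D', hD'⟩ := ((hF.biUnion fun f hf => hPf f hf.2).image fun p => dist x (p • x)).bddAbove
  have disp : ∀ g : G, Commute w g → dist (g • x) (w • g • x) = dist x (w • x) := fun g hg => by
    rw [smul_smul, hg.eq, ← smul_smul, dist_smul]
  refine ⟨2 * (D + D'), fun n hn => ?_⟩
  obtain ⟨γ, hγ⟩ := hX.1 (a ^ n • x) (b ^ n • x)
  obtain ⟨d, hd⟩ : ∃ d, d = dist (a ^ n • x) (b ^ n • x) := ⟨_, rfl⟩
  have d0 : 0 ≤ d := hd ▸ dist_nonneg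
  obtain ⟨N, hN0, hN⟩ : ∃ N : ℕ, 0 < N ∧ d ≤ N := ⟨⌈d⌉₊ + 1, Nat.succ_pos _, by
    push_cast
    linarith [Nat.le_ceil d]⟩
  have N0 : (0 : ℝ) < N := Nat.cast_pos.2 hN0
  have δ0 : 0 ≤ d / N := by positivity
  have δ1 : d / N ≤ 1 := (div_le_one N0).2 hN
  have eN : (N : ℝ) * (d / N) = d := by field_simp
  have mem : ∀ i : ℕ, i ≤ N → (i : ℝ) * (d / N) ∈ Set.Icc (0 : ℝ) (dist (a ^ n • x) (b ^ n • x)) :=
    fun i hi => ⟨by positivity, by
      rw [← hd]
      exact (mul_le_mul_of_nonneg_right (Nat.cast_le.2 hi) δ0).trans eN.le⟩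
  have hc : ∀ i : ℕ, i ≤ N → ∃ c : G, Commute w c ∧ dist (γ (i * (d / N))) (c • x) ≤ D ∧
      (i = 0 → c = a ^ n) ∧ (i = N → c = b ^ n) := fun i hi => by
    by_cases h0 : i = 0
    · refine ⟨a ^ n, ha.pow_right n, ?_, fun _ => rfl, fun h => absurd (h0 ▸ h) hN0.ne⟩
      rw [h0, Nat.cast_zero, zero_mul, hγ.1, dist_self]
      exact D0
    by_cases h1 : i = N
    · refine ⟨b ^ n, hb.pow_right n, ?_, fun h => absurd h h0, fun _ => rfl⟩
      rw [h1, eN, hd, hγ.2.1, dist_self]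
      exact D0
    have h2 := disp_convex hX hγ w (mem i hi)
    rw [disp _ (ha.pow_right n), disp _ (hb.pow_right n), max_self] at h2
    obtain ⟨c, h3, h4⟩ := hD _ h2
    exact ⟨c, h3, h4, fun h => absurd h h0, fun h => absurd h h1⟩
  choose! c c1 c2 c3 c4 using hc
  obtain ⟨i, hi, hne⟩ : ∃ i, i < N ∧ side (c i) ≠ side (c (i + 1)) := by
    by_contra h
    push Not at h
    have h' : ∀ i, i ≤ N → side (c i) = side (c 0) := fun i => by
      induction i with
      | zero => exact fun _ => rfl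
      | succ i ih => exact fun hi => (h i hi).symm.trans (ih (Nat.le_of_succ_le hi))
    have h2 := h' N le_rfl
    rw [c4 N le_rfl rfl, c3 0 hN0.le rfl] at h2
    exact hs n hn h2.symm
  have hf : Commute w ((c i)⁻¹ * c (i + 1)) := (c1 i hi.le).inv_right.mul_right (c1 _ hi)
  have hf2 : dist x (((c i)⁻¹ * c (i + 1)) • x) ≤ 2 * D + 1 := by
    rw [← dist_smul (c i), smul_smul, mul_inv_cancel_left]
    have e1 := c2 i hi.le
    have e2 := c2 _ hi
    have e3 := hγ.2.2 _ (mem i hi.le) _ (mem _ hi)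
    have e4 : (i : ℝ) * (d / N) - ((i + 1 : ℕ) : ℝ) * (d / N) = -(d / N) := by
      push_cast
      ring
    rw [e4, abs_neg, abs_of_nonneg δ0] at e3
    have e5 := dist_triangle4 (c i • x) (γ (i * (d / N))) (γ ((i + 1 : ℕ) * (d / N))) (c (i + 1) • x)
    rw [dist_comm] at e1
    linarith
  obtain ⟨h, hh, p, hp, e⟩ := hP _ hf (c i) (c1 i hi.le) (by rwa [mul_inv_cancel_left])
  have b1 : dist (h • x) (c i • x) ≤ D' := by
    rw [e, ← smul_smul, dist_smul]
    exact hD' ⟨p, Set.mem_biUnion (x := (c i)⁻¹ * c (i + 1)) ⟨hf2, hf⟩ hp, rfl⟩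
  refine ⟨h, hh, ?_⟩
  have m := mem i hi.le
  have g1 := hγ.2.2 0 ⟨le_rfl, dist_nonneg⟩ _ m
  have g2 := hγ.2.2 _ m _ ⟨dist_nonneg, le_rfl⟩
  rw [hγ.1, zero_sub, abs_neg, abs_of_nonneg m.1] at g1
  rw [hγ.2.1, abs_sub_comm, abs_of_nonneg (sub_nonneg.2 m.2)] at g2
  have t1 := dist_triangle4 (a ^ n • x) (γ (i * (d / N))) (c i • x) (h • x)
  have t2 := dist_triangle4 (h • x) (c i • x) (γ (i * (d / N))) (b ^ n • x)
  have e1 := c2 i hi.le
  have e2 := dist_comm (c i • x) (h • x)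
  have e3 := dist_comm (c i • x) (γ (i * (d / N)))
  linarith

end Crest.Agent.R175.Cat
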