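import Mathlib

/-! Row 175, S0264, geometry: real inequalities. -/

set_option autoImplicit false

namespace Crest.Agent.R175.Cat

/-- Plane geometry behind L2. With `R = 6 τ`, the numbers under the roots are the squared norms of
the plane vectors `(n ζ₁² / R - j τ, n ζ₁ α₁ / R)` and `(j τ - n ζ₂² / R, n ζ₂ α₂ / R)`; their sum
has squared norm `n² (α₁ ζ₂ + α₂ ζ₁)² / R²` (use `αᵢ² = R² - ζᵢ²`); triangle inequality. -/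
theorem L2_real {τ ζ₁ ζ₂ α₁ α₂ n j d₁ d₂ : ℝ} (hτ : 0 < τ) (hζ₁ : 0 ≤ ζ₁) (hζ₂ : 0 ≤ ζ₂)
    (hα₁ : 0 ≤ α₁) (hα₂ : 0 ≤ α₂) (hn : 0 ≤ n) (e₁ : α₁ ^ 2 = 36 * τ ^ 2 - ζ₁ ^ 2)
    (e₂ : α₂ ^ 2 = 36 * τ ^ 2 - ζ₂ ^ 2) (hd₁ : 0 ≤ d₁) (hd₂ : 0 ≤ d₂)
    (h₁ : n ^ 2 * ζ₁ ^ 2 - 2 * n * j * (ζ₁ ^ 2 / 6) + j ^ 2 * τ ^ 2 ≤ d₁ ^ 2)
    (h₂ : n ^ 2 * ζ₂ ^ 2 - 2 * n * j * (ζ₂ ^ 2 / 6) + j ^ 2 * τ ^ 2 ≤ d₂ ^ 2) :
    n * ((α₁ * ζ₂ + α₂ * ζ₁) / (6 * τ)) ≤ d₁ + d₂ := by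
  have hR : (6 * τ) ≠ 0 := by positivity
  have key : ∀ (z : ℂ) (d : ℝ), 0 ≤ d → z.re ^ 2 + z.im ^ 2 ≤ d ^ 2 → ‖z‖ ≤ d := by
    intro z d hd h
    refine (pow_le_pow_iff_left₀ (norm_nonneg _) hd two_ne_zero).1 ?_
    rw [Complex.sq_norm, Complex.normSq_apply]; nlinarith
  have sq : ∀ ζ α : ℝ, α ^ 2 = 36 * τ ^ 2 - ζ ^ 2 →
      (n * ζ ^ 2 / (6 * τ) - j * τ) ^ 2 + (n * ζ * α / (6 * τ)) ^ 2 =
        n ^ 2 * ζ ^ 2 - 2 * n * j * (ζ ^ 2 / 6) + j ^ 2 * τ ^ 2 := by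
    intro ζ α e
    rw [div_pow (n * ζ * α), mul_pow, e]
    field_simp
    ring
  let z₁ : ℂ := ⟨n * ζ₁ ^ 2 / (6 * τ) - j * τ, n * ζ₁ * α₁ / (6 * τ)⟩
  let z₂ : ℂ := ⟨-(n * ζ₂ ^ 2 / (6 * τ) - j * τ), n * ζ₂ * α₂ / (6 * τ)⟩
  have a₁ : ‖z₁‖ ≤ d₁ := key _ _ hd₁ (by rw [sq ζ₁ α₁ e₁]; exact h₁)
  have a₂ : ‖z₂‖ ≤ d₂ := key _ _ hd₂ (by
    change (-(n * ζ₂ ^ 2 / (6 * τ) - j * τ)) ^ 2 + (n * ζ₂ * α₂ / (6 * τ)) ^ 2 ≤ _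
    rw [neg_sq, sq ζ₂ α₂ e₂]; exact h₂)
  refine le_trans ?_ ((norm_add_le z₁ z₂).trans (add_le_add a₁ a₂))
  refine (pow_le_pow_iff_left₀ (by positivity) (norm_nonneg _) two_ne_zero).1 (le_of_eq ?_)
  rw [Complex.sq_norm, Complex.normSq_apply]
  change _ = (n * ζ₁ ^ 2 / (6 * τ) - j * τ + -(n * ζ₂ ^ 2 / (6 * τ) - j * τ)) *
      (n * ζ₁ ^ 2 / (6 * τ) - j * τ + -(n * ζ₂ ^ 2 / (6 * τ) - j * τ)) +
    (n * ζ₁ * α₁ / (6 * τ) + n * ζ₂ * α₂ / (6 * τ)) *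
      (n * ζ₁ * α₁ / (6 * τ) + n * ζ₂ * α₂ / (6 * τ))
  field_simp
  linear_combination n ^ 2 * (ζ₂ ^ 2 - ζ₁ ^ 2) * (e₁ - e₂)

/-- `n a ≤ n b + C + 2 √(K n + K)` for all `n ≥ 1` forces `a ≤ b` -/
theorem le_of_sqrt_err {a b C K : ℝ}
    (h : ∀ n : ℕ, 1 ≤ n → n * a ≤ n * b + C + 2 * Real.sqrt (K * n + K)) : a ≤ b := by
  by_contra hab
  push Not at hab
  set δ := a - b with hδ
  have hδ0 : 0 < δ := by linarith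
  set M := |K| with hM
  have hM0 : 0 ≤ M := abs_nonneg _
  obtain ⟨n, hn⟩ := exists_nat_gt (max 1 (max (2 * C / δ) (32 * M / δ ^ 2)))
  have h1 : (1 : ℝ) < n := (le_max_left _ _).trans_lt hn
  have h2 : 2 * C / δ < n := ((le_max_left _ _).trans (le_max_right _ _)).trans_lt hn
  have h3 : 32 * M / δ ^ 2 < n := ((le_max_right _ _).trans (le_max_right _ _)).trans_lt hn
  rw [div_lt_iff₀ hδ0] at h2
  rw [div_lt_iff₀ (by positivity)] at h3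
  have h4 := h n (by exact_mod_cast h1.le)
  have h5 : Real.sqrt (K * n + K) ≤ n * δ / 4 := by
    apply Real.sqrt_le_iff.2 ⟨by positivity, ?_⟩
    have : K ≤ M := le_abs_self K
    have h6 : K * n + K ≤ 2 * M * n := by nlinarith
    have h7 : 32 * M * n ≤ n * δ ^ 2 * n := by nlinarith
    nlinarith
  have : n * δ = n * a - n * b := by rw [hδ]; ring
  linarith

/-- the three inequalities are contradictory: add them up -/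
theorem final_real {τ : ℝ} {α ζ : ZMod 3 → ℝ} (hτ : 0 < τ) (hα : ∀ e, 0 < α e)
    (hζ : ∀ e, 3 * τ < ζ e)
    (h : ∀ e, (α e * ζ (e + 1) + α (e + 1) * ζ e) / (6 * τ) ≤ α (e + 2)) : False := by
  have h0 := h 0
  have h1 := h 1
  have h2 := h 2
  rw [div_le_iff₀ (by positivity)] at h0 h1 h2
  have e1 : (0 + 1 : ZMod 3) = 1 := by decide
  have e2 : (0 + 2 : ZMod 3) = 2 := by decide
  have e3 : (1 + 1 : ZMod 3) = 2 := by decide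
  have e4 : (1 + 2 : ZMod 3) = 0 := by decide
  have e5 : (2 + 1 : ZMod 3) = 0 := by decide
  have e6 : (2 + 2 : ZMod 3) = 1 := by decide
  rw [e1, e2] at h0
  rw [e3, e4] at h1
  rw [e5, e6] at h2
  have a0 := mul_pos (hα 0) (sub_pos.2 (hζ 1))
  have a1 := mul_pos (hα 0) (sub_pos.2 (hζ 2))
  have a2 := mul_pos (hα 1) (sub_pos.2 (hζ 0))
  have a3 := mul_pos (hα 1) (sub_pos.2 (hζ 2))
  have a4 := mul_pos (hα 2) (sub_pos.2 (hζ 0))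
  have a5 := mul_pos (hα 2) (sub_pos.2 (hζ 1))
  nlinarith

end Crest.Agent.R175.Cat
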