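import Crest.Agent.R175.CDefs

/-! Row 175, S0264, geometry: definitions. -/

set_option autoImplicit false

namespace Crest.Agent.R175.Cat

universe u

/-- `m` is a CN-midpoint of `x` and `y` -/
def IsMid {X : Type u} [MetricSpace X] (m x y : X) : Prop :=
  ∀ z, dist z m ^ 2 ≤ dist z x ^ 2 / 2 + dist z y ^ 2 / 2 - dist x y ^ 2 / 4

/-- translation lengths `τ` and the inner product `B` of commuting elements -/
structure GramForm {G : Type} [Group G] (τ : G → ℝ) (B : G → G → ℝ) : Prop where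
  nonneg : ∀ g, 0 ≤ τ g
  conj : ∀ g h, τ (h * g * h⁻¹) = τ g
  inv : ∀ g, τ g⁻¹ = τ g
  B_def : ∀ f g, B f g = (τ (f * g) ^ 2 - τ f ^ 2 - τ g ^ 2) / 2
  add : ∀ f g g', Commute f g → Commute f g' → B f (g * g') = B f g + B f g'
  self : ∀ f, B f f = τ f ^ 2

theorem anchor_CGDefs : True := by
  have := @IsMid.eq_1.{0}
  trivial

end Crest.Agent.R175.Cat
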