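import Crest.Agent.R175.CG1
import Crest.Agent.R175.CG3
import Crest.Agent.R175.CG5
import Crest.Agent.R175.CG6

/-! Row 175, S0264, geometry: a group with `CatData` has no geometric action on a CAT(0) space. -/

set_option autoImplicit false

namespace Crest.Agent.R175.Cat

open Crest.Geometry

universe u

theorem dist_smul_smul {G : Type} [Group G] {X : Type u} [MetricSpace X] [MulAction G X]
    [IsIsometricSMul G X] (f g : G) (x : X) : dist (f • x) (g • x) = dist x ((f⁻¹ * g) • x) := by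
  rw [← dist_smul f⁻¹, inv_smul_smul, mul_smul]

/-- one edge: the facts L1 and the approximate midpoint -/
theorem edge_facts {G : Type} [Group G] {X : Type u} [MetricSpace X] [ProperSpace X]
    [MulAction G X] [IsIsometricSMul G X] (hX : IsCAT0Space X) (hA : IsGeometricAction G X)
    {τ : G → ℝ} {B : G → G → ℝ} (hF : GramForm τ B) (hle : ∀ g (y : X), τ g ≤ dist y (g • y))
    (hup : ∀ g (x : X), ∃ C : ℝ, ∀ n : ℕ, dist x (g ^ n • x) ≤ n * τ g + C)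
    {s t : G} (hb : s * t * s = t * s * t)
    (hS : Sep ((s * t) ^ 3) {h | Commute h s ∧ Commute h t} (s ^ 6) (t ^ 6)) {α : ℝ}
    (hα : 0 ≤ α) (eα : α ^ 2 = 36 * τ s ^ 2 - τ ((s * t) ^ 3) ^ 2) (x : X) :
    ∃ K : ℝ, 0 ≤ K ∧ ∀ n : ℕ, 1 ≤ n →
      dist ((s ^ 6) ^ n • x) ((t ^ 6) ^ n • x) ≤ 2 * (n * α) + K ∧
      ∀ m, IsMid m ((s ^ 6) ^ n • x) ((t ^ 6) ^ n • x) →
        dist (((s * t) ^ 3) ^ n • x) m ≤ Real.sqrt (K * n + K) := by
  have zs := braid_comm_left hb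
  have zt := braid_comm_right hb
  have hts := braid_twist_symm hb
  have hτ := hF.tau_braid hb
  obtain ⟨C, hC⟩ := hS.chain hX hA (zs.pow_right 6) (zt.pow_right 6) x
  obtain ⟨C₁, h₁⟩ := hup (s ^ 6 * ((s * t) ^ 3)⁻¹)⁻¹ x
  obtain ⟨C₂, h₂⟩ := hup (t ^ 6 * ((s * t) ^ 3)⁻¹)⁻¹ x
  have u₁ : τ (s ^ 6 * ((s * t) ^ 3)⁻¹)⁻¹ = α := by
    rw [hF.inv]
    exact (pow_left_inj₀ (hF.nonneg _) hα two_ne_zero).1 (by rw [hF.tau_u hb, eα])
  have u₂ : τ (t ^ 6 * ((s * t) ^ 3)⁻¹)⁻¹ = α := by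
    rw [hF.inv]
    refine (pow_left_inj₀ (hF.nonneg _) hα two_ne_zero).1 ?_
    have := hF.tau_u hb.symm
    rw [hts, hτ] at this
    rw [this, eα]
  rw [u₁] at h₁
  rw [u₂] at h₂
  obtain ⟨E, hE⟩ : ∃ E : ℝ, E = |C| + |C₁| + |C₂| := ⟨_, rfl⟩
  have hE0 : 0 ≤ E := by rw [hE]; positivity
  have hCE : C ≤ E := by
    rw [hE]; linarith [le_abs_self C, abs_nonneg C₁, abs_nonneg C₂]
  have hC₁E : C₁ ≤ E := by
    rw [hE]; linarith [le_abs_self C₁, abs_nonneg C, abs_nonneg C₂]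
  have hC₂E : C₂ ≤ E := by
    rw [hE]; linarith [le_abs_self C₂, abs_nonneg C₁, abs_nonneg C]
  refine ⟨2 * E + 4 * α * E + E ^ 2 + 4 * E ^ 2, by positivity, fun n hn => ?_⟩
  have d₁ : dist (((s * t) ^ 3) ^ n • x) ((s ^ 6) ^ n • x) ≤ n * α + E := by
    rw [dist_comm, dist_smul_smul]
    have e : ((s ^ 6) ^ n)⁻¹ * ((s * t) ^ 3) ^ n = ((s ^ 6 * ((s * t) ^ 3)⁻¹)⁻¹) ^ n := by
      rw [mul_inv_rev, inv_inv, ((zs.pow_right 6).inv_right).eq, ← inv_pow,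
        ((zs.pow_right 6).inv_right).symm.mul_pow]
    rw [e]
    linarith [h₁ n]
  have d₂ : dist (((s * t) ^ 3) ^ n • x) ((t ^ 6) ^ n • x) ≤ n * α + E := by
    rw [dist_comm, dist_smul_smul]
    have e : ((t ^ 6) ^ n)⁻¹ * ((s * t) ^ 3) ^ n = ((t ^ 6 * ((s * t) ^ 3)⁻¹)⁻¹) ^ n := by
      rw [mul_inv_rev, inv_inv, ((zt.pow_right 6).inv_right).eq, ← inv_pow,
        ((zt.pow_right 6).inv_right).symm.mul_pow]
    rw [e]
    linarith [h₂ n]
  have hn0 : (0 : ℝ) ≤ n := Nat.cast_nonneg n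
  have hnα : 0 ≤ n * α := mul_nonneg hn0 hα
  refine ⟨?_, fun m hm => ?_⟩
  · have := dist_triangle_left ((s ^ 6) ^ n • x) ((t ^ 6) ^ n • x) (((s * t) ^ 3) ^ n • x)
    nlinarith [mul_nonneg hα hE0, sq_nonneg E]
  obtain ⟨g, ⟨gs, gt⟩, hg⟩ := hC n hn
  have l₁ : n * α ≤ dist ((s ^ 6) ^ n • x) (g • x) := by
    rw [dist_smul_smul]
    refine le_trans ?_ (hle _ x)
    refine (pow_le_pow_iff_left₀ hnα (hF.nonneg _) two_ne_zero).1 ?_
    have := hF.L1_alg hb gs gt n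
    rw [← eα] at this
    rw [mul_pow]
    exact this
  have l₂ : n * α ≤ dist (g • x) ((t ^ 6) ^ n • x) := by
    rw [dist_comm, dist_smul_smul]
    refine le_trans ?_ (hle _ x)
    refine (pow_le_pow_iff_left₀ hnα (hF.nonneg _) two_ne_zero).1 ?_
    have := hF.L1_alg hb.symm gt gs n
    rw [hts, hτ, ← eα] at this
    rw [mul_pow]
    exact this
  refine Real.le_sqrt_of_sq_le ?_
  have hn1 : (1 : ℝ) ≤ n := by exact_mod_cast hn
  by_cases hb0 : 0 ≤ n * α - E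
  · have := hm.approx d₁ d₂ hb0 (by linarith)
    nlinarith [mul_nonneg hα hE0, sq_nonneg E, mul_nonneg hn0 hE0, mul_nonneg hn0 (sq_nonneg E)]
  · have := hm.approx d₁ d₂ le_rfl (by simp)
    have h3 : (n * α + E) ^ 2 ≤ (2 * E) ^ 2 :=
      pow_le_pow_left₀ (by linarith) (by linarith [not_le.1 hb0]) 2
    nlinarith [mul_nonneg hα hE0, sq_nonneg E, mul_nonneg hn0 hE0, mul_nonneg hn0 (sq_nonneg E),
      mul_nonneg hn0 (mul_nonneg hα hE0)]

theorem CatData.not_geometric {G : Type} [Group G] (D : CatData G) (X : Type u) [MetricSpace X]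
    [ProperSpace X] [Nonempty X] [MulAction G X] (hX : Crest.Geometry.IsCAT0Space X) :
    ¬ Crest.Geometry.IsGeometricAction G X := by
  intro hA
  have : IsIsometricSMul G X := hA.1
  obtain ⟨τ, B, hF, hle, hfix, hup⟩ := exists_gramForm (G := G) (exists_mid hX) (exists_min_disp hA)
  obtain ⟨x⟩ : Nonempty X := inferInstance
  have hb : ∀ e, D.s e * D.s (e + 1) * D.s e = D.s (e + 1) * D.s e * D.s (e + 1) := fun e => by
    obtain ⟨t, ht, h0, h1⟩ := D.tail e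
    have := ht.1 0 (by norm_num)
    rwa [zero_add, h0, h1] at this
  have hτ : ∀ e, τ (D.s e) = τ (D.s 0) := by
    have h1 := hF.tau_braid (hb 0)
    have h2 := hF.tau_braid (hb 1)
    intro e
    have : e = 0 ∨ e = 0 + 1 ∨ e = 1 + 1 := by revert e; decide
    rcases this with rfl | rfl | rfl
    · rfl
    · exact h1
    · rw [h2]; exact h1
  obtain ⟨α, hα⟩ : ∃ α : ZMod 3 → ℝ, ∀ e, α e = τ (D.s e ^ 6 * (zz D.s e)⁻¹) := ⟨_, fun _ => rfl⟩
  obtain ⟨ζ, hζ⟩ : ∃ ζ : ZMod 3 → ℝ, ∀ e, ζ e = τ (zz D.s e) := ⟨_, fun _ => rfl⟩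
  have eα : ∀ e, α e ^ 2 = 36 * τ (D.s 0) ^ 2 - ζ e ^ 2 := fun e => by
    rw [hα, hζ, zz, hF.tau_u (hb e), hτ e]
  have αpos : ∀ e, 0 < α e := fun e => by
    refine lt_of_le_of_ne (hα e ▸ hF.nonneg _) fun h0 => ?_
    obtain ⟨p, hp⟩ := hfix _ ((hα e).symm.trans h0.symm)
    obtain ⟨n, hn, hpn⟩ := exists_pow_eq_one hA hp
    obtain ⟨side, -, hside⟩ := D.sep1 e
    apply hside n hn
    have zs := braid_comm_left (hb e)
    have zt := braid_comm_right (hb e)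
    rw [zz, (zs.pow_right 6).inv_left.symm.mul_pow, inv_pow, mul_inv_eq_one] at hpn
    have e1 : D.s (e + 1) = (D.s e * D.s (e + 1)) * D.s e * (D.s e * D.s (e + 1))⁻¹ := by
      rw [hb e]; group
    have e2 : (D.s (e + 1) ^ 6) ^ n =
        (D.s e * D.s (e + 1)) * (D.s e ^ 6) ^ n * (D.s e * D.s (e + 1))⁻¹ := by
      conv_lhs => rw [e1]
      rw [conj_pow, conj_pow]
    rw [e2, hpn, ← pow_mul, ((Commute.refl _).pow_right _).eq, mul_inv_cancel_right]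
  have τpos : 0 < τ (D.s 0) := by
    refine lt_of_le_of_ne (hF.nonneg _) fun h0 => ?_
    have := eα 0
    rw [← h0] at this
    nlinarith [αpos 0, sq_nonneg (ζ 0)]
  have ζ0 : ∀ e, 0 ≤ ζ e := fun e => hζ e ▸ hF.nonneg _
  have ζbig : ∀ e, 3 * τ (D.s 0) < ζ e := fun e => by
    obtain ⟨t, ht, h0, h1⟩ := D.tail e
    have := hF.gram ht
    rw [h0, h1, hτ e] at this
    have h2 : ζ e = τ ((D.s e * D.s (e + 1)) ^ 3) := hζ e
    rw [← h2] at this
    exact lt_of_pow_lt_pow_left₀ 2 (ζ0 e) (by nlinarith [mul_pos τpos τpos])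
  have hedge := fun e => edge_facts hX hA hF hle hup (hb e) (D.sep1 e) (αpos e).le
    (by rw [eα e, hτ e, hζ, zz]) x
  choose K hK0 hK using hedge
  refine final_real τpos αpos ζbig fun e => ?_
  obtain ⟨C, hC⟩ := (D.sep2 e).chain hX hA (braid_comm_right (hb e)).symm
    (braid_comm_left (hb (e + 1))).symm x
  refine le_of_sqrt_err (C := C + K (e + 2) / 2) (K := K e + K (e + 1)) fun n hn => ?_
  obtain ⟨g, ⟨j, rfl⟩, hg⟩ := hC n hn
  have hn0 : (0 : ℝ) ≤ n := Nat.cast_nonneg n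
  have low := L2_real (n := n) (j := j) τpos (ζ0 e) (ζ0 (e + 1)) (αpos e).le (αpos (e + 1)).le hn0
    (eα e) (eα (e + 1)) (dist_nonneg (x := zz D.s e ^ n • x) (y := D.s (e + 1) ^ j • x))
    (dist_nonneg (x := D.s (e + 1) ^ j • x) (y := zz D.s (e + 1) ^ n • x))
    (by
      have h1 := hF.L2_alg (hb e).symm n j
      rw [braid_twist_symm (hb e), hτ (e + 1)] at h1
      rw [hζ, zz, ← h1, dist_smul_smul]
      exact pow_le_pow_left₀ (hF.nonneg _) (hle _ x) 2)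
    (by
      have h1 := hF.L2_alg (hb (e + 1)) n j
      rw [hτ (e + 1)] at h1
      rw [hζ, zz, ← h1, dist_comm, dist_smul_smul]
      exact pow_le_pow_left₀ (hF.nonneg _) (hle _ x) 2)
  obtain ⟨m, hm⟩ := exists_mid hX ((D.s e ^ 6) ^ n • x) ((D.s (e + 1) ^ 6) ^ n • x)
  obtain ⟨m', hm'⟩ := exists_mid hX ((D.s (e + 1) ^ 6) ^ n • x) ((D.s (e + 1 + 1) ^ 6) ^ n • x)
  have a1 := (hK e n hn).2 m hm
  have a2 := (hK (e + 1) n hn).2 m' hm'
  have a3 := (hK (e + 2) n hn).1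
  have a4 := hm.contract hm'
  have e3 : e + 2 + 1 = e := (by decide : ∀ e : ZMod 3, e + 2 + 1 = e) e
  have e4 : e + 1 + 1 = e + 2 := by ring
  rw [e3, dist_comm] at a3
  rw [e4] at a4
  have s1 : Real.sqrt (K e * n + K e) ≤ Real.sqrt ((K e + K (e + 1)) * n + (K e + K (e + 1))) :=
    Real.sqrt_le_sqrt (by nlinarith [hK0 (e + 1), mul_nonneg (hK0 (e + 1)) hn0])
  have s2 : Real.sqrt (K (e + 1) * n + K (e + 1)) ≤
      Real.sqrt ((K e + K (e + 1)) * n + (K e + K (e + 1))) :=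
    Real.sqrt_le_sqrt (by nlinarith [hK0 e, mul_nonneg (hK0 e) hn0])
  have t1 := dist_triangle4 (zz D.s e ^ n • x) m m' (zz D.s (e + 1) ^ n • x)
  rw [dist_comm m' _] at t1
  simp only [zz] at t1 hg low
  linarith

end Crest.Agent.R175.Cat
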