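import Crest.Agent.R175.PDefs
import Crest.Agent.R61.Geom3

/-! Geometric representation in coordinates: positivity of roots. -/

set_option autoImplicit false
set_option linter.unusedSectionVars false

open Crest.GroupTheory
open scoped Classical

namespace Crest.Agent.R175

variable {S : Type} [Fintype S] [DecidableEq S] (M : CoxeterMatrix S)

theorem cc_symm (s t : S) : cc M s t = cc M t s := by
  simp [cc, M.symmetric s t]

theorem cc_self (s : S) : cc M s s = -2 := by
  simp [cc]

theorem cc_nonneg {s t : S} (h : s ≠ t) : 0 ≤ cc M s t := by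
  have h1 := M.off_diagonal s t h
  rcases Nat.eq_zero_or_pos (M s t) with h0 | h0
  · simp [cc, h0]
  · have h2 : (2 : ℝ) ≤ M s t := by exact_mod_cast (by omega : 2 ≤ M s t)
    refine mul_nonneg (by norm_num) (Real.cos_nonneg_of_neg_pi_div_two_le_of_le ?_ ?_)
    · have : 0 ≤ Real.pi / (M s t : ℝ) := by positivity
      linarith [Real.pi_pos]
    · exact div_le_div_of_nonneg_left Real.pi_pos.le (by norm_num) h2

theorem cc_eq_zero {s t : S} (h : s ≠ t) (h2 : ¬ Adj M s t) : cc M s t = 0 := by
  have : M s t = 2 := by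
    by_contra h3
    exact h2 ⟨h, h3⟩
  simp [cc, this]

theorem one_le_cc {s t : S} (h : Adj M s t) : 1 ≤ cc M s t := by
  have h1 := M.off_diagonal s t h.1
  have h2 := h.2
  rcases Nat.eq_zero_or_pos (M s t) with h0 | h0
  · simp [cc, h0]
  · have h3 : (3 : ℝ) ≤ M s t := by exact_mod_cast (by omega : 3 ≤ M s t)
    have h4 : Real.cos (Real.pi / 3) ≤ Real.cos (Real.pi / (M s t : ℝ)) :=
      Real.cos_le_cos_of_nonneg_of_le_pi (by positivity) (by linarith [Real.pi_pos])
        (div_le_div_of_nonneg_left Real.pi_pos.le (by norm_num) h3)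
    rw [Real.cos_pi_div_three] at h4
    unfold cc
    linarith

theorem flow_apply (s : S) (x : S → ℝ) : flow M s x = ∑ t, cc M s t * x t := by
  simp [flow, LinearMap.sum_apply]

theorem rs_apply (s : S) (x : S → ℝ) : rs M s x = x + flow M s x • al s := by
  simp [rs]

/-- The embedding into the representation space of row 61. -/
noncomputable def emb (S : Type) [Fintype S] : (S → ℝ) →ₗ[ℝ] R61.GV S :=
  LinearMap.inl ℝ _ _ ∘ₗ (Finsupp.linearEquivFunOnFinite ℝ ℝ S).symm.toLinearMap

omit [DecidableEq S] in
theorem emb_fst (x : S → ℝ) (t : S) : (emb S x).1 t = x t := by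
  simp [emb]

omit [DecidableEq S] in
theorem emb_snd (x : S → ℝ) : (emb S x).2 = 0 := by
  simp [emb]

omit [DecidableEq S] in
theorem emb_inj : Function.Injective (emb S) := fun x y h => by
  funext t
  rw [← emb_fst x, h, emb_fst]

theorem emb_al (s : S) : emb S (al s) = R61.ee s := by
  refine Prod.ext (Finsupp.ext fun t => ?_) (emb_snd _)
  rw [emb_fst]
  simp [al, R61.ee, Finsupp.single_apply, Pi.single_apply, eq_comm]

theorem sum_al (x : S → ℝ) : x = ∑ t, x t • al t := by
  funext u
  simp [al, Finset.sum_apply, Pi.single_apply]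

theorem flow_emb (s : S) (x : S → ℝ) : flow M s x = -(2 * R61.Bf M (R61.ee s) (emb S x)) := by
  conv_rhs => rw [sum_al x]
  rw [flow_apply, map_sum, map_sum, Finset.mul_sum, ← Finset.sum_neg_distrib]
  refine Finset.sum_congr rfl fun t _ => ?_
  rw [map_smul, map_smul, emb_al, R61.Bf_ee, cc, R61.kk, smul_eq_mul]
  ring

theorem emb_rs (s : S) (x : S → ℝ) : emb S (rs M s x) = R61.sig M s (emb S x) := by
  rw [rs_apply, map_add, map_smul, emb_al, R61.sig_apply, flow_emb]
  module

theorem rs_liftable : M.IsLiftable (rs M) := by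
  intro i j
  have h : ∀ (n : ℕ) (x : S → ℝ), emb S (((rs M i * rs M j) ^ n) x) =
      ((R61.sig M i * R61.sig M j) ^ n) (emb S x) := by
    intro n
    induction n with
    | zero => simp
    | succ n ih =>
      intro x
      rw [pow_succ', pow_succ', Module.End.mul_apply, Module.End.mul_apply, emb_rs, emb_rs, ih]
      rfl
  refine LinearMap.ext fun x => emb_inj ?_
  rw [h, R61.liftable M i j]
  rfl

theorem rho_simple (s : S) : rho M (M.simple s) = rs M s := by
  rw [rho, dif_pos (rs_liftable M)]
  exact M.toCoxeterSystem.lift_apply_simple (rs_liftable M) s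

theorem emb_rho (w : M.Group) (x : S → ℝ) :
    emb S (rho M w x) = R61.rho M.toCoxeterSystem w (emb S x) := by
  induction w using M.toCoxeterSystem.simple_induction_left with
  | one => simp
  | mul_simple_left w i ih =>
    rw [map_mul, map_mul, Module.End.mul_apply, Module.End.mul_apply, R61.rho_simple, ← ih,
      ← emb_rs, CoxeterMatrix.toCoxeterSystem_simple, rho_simple]

theorem form_emb (x y : S → ℝ) :
    ∑ s, x s * flow M s y = -(2 * R61.Bf M (emb S x) (emb S y)) := by
  conv_rhs => rw [sum_al x]
  rw [map_sum, map_sum, LinearMap.sum_apply, Finset.mul_sum, ← Finset.sum_neg_distrib]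
  refine Finset.sum_congr rfl fun t _ => ?_
  rw [map_smul, map_smul, emb_al, flow_emb, LinearMap.smul_apply, smul_eq_mul]
  ring

/-- Invariance of the Cartan form. -/
theorem form_rho (w : M.Group) (x y : S → ℝ) :
    ∑ s, rho M w x s * flow M s (rho M w y) = ∑ s, x s * flow M s y := by
  rw [form_emb, form_emb, emb_rho, emb_rho, R61.Bf_rho]

theorem rho_al_ne_zero (w : M.Group) (s : S) : rho M w (al s) ≠ 0 := by
  intro h
  have h1 := congrArg (rho M w⁻¹) h
  rw [← Module.End.mul_apply, ← map_mul, inv_mul_cancel, map_one, map_zero] at h1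
  have := congrFun h1 s
  simp [al] at this

theorem rho_pos {w : M.Group} {s : S} (h : len M w < len M (w * M.simple s)) :
    0 ≤ rho M w (al s) := by
  have h1 := R61.rho_pos M.toCoxeterSystem w s h
  rw [← emb_al, ← emb_rho] at h1
  intro t
  have := h1.2 t
  rwa [emb_fst] at this

theorem rho_neg {w : M.Group} {s : S} (h : len M (w * M.simple s) < len M w) :
    rho M w (al s) ≤ 0 := by
  have h1 := rho_pos M (w := w * M.simple s) (s := s) (by
    rwa [← CoxeterMatrix.toCoxeterSystem_simple, CoxeterSystem.simple_mul_simple_cancel_right])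
  have h2 : rs M s (al s) = -al s := by
    apply emb_inj
    rw [emb_rs, map_neg, emb_al, R61.Geom3_sig_ee]
  rw [map_mul, Module.End.mul_apply, rho_simple, h2, map_neg] at h1
  exact neg_nonneg.1 h1

/-- `W_Z` only changes the coordinates in `Z`. -/
theorem rho_supp {Z : Finset S} {w : M.Group} (hw : w ∈ WZ M Z) (x : S → ℝ) {t : S} (ht : t ∉ Z) :
    rho M w x t = x t := by
  induction hw using Subgroup.closure_induction generalizing x with
  | mem w hw =>
    obtain ⟨s, hs, rfl⟩ := hw
    have : t ≠ s := fun h => ht (h ▸ hs)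
    simp [rho_simple, rs_apply, al, this]
  | one => simp
  | mul a b _ _ iha ihb => rw [map_mul, Module.End.mul_apply, iha, ihb]
  | inv a _ ih =>
    rw [← ih (rho M a⁻¹ x), ← Module.End.mul_apply, ← map_mul, mul_inv_cancel, map_one,
      Module.End.one_apply]

end Crest.Agent.R175
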