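import Crest.Agent.R61.RootBasic

/-! Row 175: Matsumoto's theorem for arbitrary Coxeter systems. -/

set_option autoImplicit false

namespace Crest.Agent.R175.Mats

open CoxeterSystem Crest.Agent.R61

variable {B W : Type} [Group W] {M : CoxeterMatrix B}

/-- a descent sends the simple root to a negative root -/
theorem rho_neg (cs : CoxeterSystem M W) (w : W) (i : B)
    (h : cs.length (w * cs.simple i) < cs.length w) : Pos (-rho cs w (ee i)) := by
  have h1 := rho_pos cs (w * cs.simple i) i (by rwa [cs.simple_mul_simple_cancel_right])
  rwa [map_mul, Module.End.mul_apply, rho_simple, Geom3_sig_ee, map_neg] at h1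

theorem descent_of_neg (cs : CoxeterSystem M W) (w : W) (i : B) (h : Pos (-rho cs w (ee i))) :
    cs.length (w * cs.simple i) < cs.length w := by
  rcases lt_or_gt_of_ne (cs.length_mul_simple_ne w i) with h1 | h1
  · exact h1
  · have hr : Geom3Root cs (rho cs w (ee i)) (w * cs.simple i * w⁻¹) := ⟨w, i, rfl, Or.inl rfl⟩
    exact absurd (Geom3_pos_neg (rho_pos cs w i h1) h) hr.ne_zero

/-- two descents: alternating words can be removed from the right -/
theorem length_mul_alt (cs : CoxeterSystem M W) (w : W) (k : ℕ) :
    ∀ i j : B, i ≠ j → cs.length (w * cs.simple i) < cs.length w →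
      cs.length (w * cs.simple j) < cs.length w → (M i j = 0 ∨ k ≤ M i j) →
      cs.length (w * cs.wordProd (alternatingWord i j k)) + k = cs.length w := by
  induction k with
  | zero => intro i j _ _ _ _; simp [alternatingWord]
  | succ k ih =>
    intro i j hij hi hj hk
    have hk' : M j i = 0 ∨ k < M j i := by rw [M.symmetric j i]; omega
    have h1 := ih j i hij.symm hj hi (by omega)
    obtain ⟨a, b, ha, hb, e⟩ := alt_apply cs j i hij.symm k hk'
    have h2 : cs.length (w * cs.wordProd (alternatingWord j i k) * cs.simple j) <
        cs.length (w * cs.wordProd (alternatingWord j i k)) := by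
      apply descent_of_neg
      have p1 := rho_neg cs w i hi
      have p2 := rho_neg cs w j hj
      rw [map_mul, Module.End.mul_apply, e, map_add, map_smul, map_smul]
      refine ⟨?_, fun x => ?_⟩
      · have q1 := p1.1
        have q2 := p2.1
        simp only [Prod.snd_neg, neg_eq_zero] at q1 q2
        simp [q1, q2]
      · have q1 := mul_nonneg hb (p1.2 x)
        have q2 := mul_nonneg ha (p2.2 x)
        simp only [Prod.fst_neg, Finsupp.neg_apply, Prod.fst_add, Prod.smul_fst, Finsupp.add_apply,
          Finsupp.smul_apply, smul_eq_mul] at q1 q2 ⊢
        linarith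
    rw [alternatingWord_succ, wordProd_concat, ← mul_assoc]
    rcases cs.length_mul_simple (w * cs.wordProd (alternatingWord j i k)) j with h3 | h3 <;> omega

theorem ne_zero_of_descents (cs : CoxeterSystem M W) {w : W} {i j : B} (hij : i ≠ j)
    (hi : cs.length (w * cs.simple i) < cs.length w)
    (hj : cs.length (w * cs.simple j) < cs.length w) : M i j ≠ 0 := fun h => by
  have := length_mul_alt cs w (cs.length w + 1) i j hij hi hj (Or.inl h)
  omega

theorem reverse_alt (i j : B) (k : ℕ) : (alternatingWord i j k).reverse =
    if Even k then alternatingWord j i k else alternatingWord i j k := by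
  induction k generalizing i j with
  | zero => simp [alternatingWord]
  | succ k ih =>
    have h0 : (alternatingWord i j (k + 1)).reverse = j :: (alternatingWord j i k).reverse := by
      rw [alternatingWord_succ, List.concat_eq_append, List.reverse_append, List.reverse_singleton,
        List.singleton_append]
    rw [h0, ih]
    by_cases hk : Even k
    · rw [if_pos hk, if_neg (by simp [hk, parity_simps]), alternatingWord_succ', if_pos hk]
    · rw [if_neg hk, if_pos (by simpa [Nat.even_add_one] using hk), alternatingWord_succ', if_neg hk]

theorem braid_eq (cs : CoxeterSystem M W) (i j : B) :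
    cs.wordProd (alternatingWord i j (M i j)) = cs.wordProd (alternatingWord j i (M i j)) := by
  have := cs.wordProd_braidWord_eq i j
  simp only [braidWord] at this
  rwa [M.symmetric j i] at this

theorem braid_mul_self (cs : CoxeterSystem M W) (i j : B) :
    cs.wordProd (alternatingWord i j (M i j)) * cs.wordProd (alternatingWord i j (M i j)) = 1 := by
  have h : cs.wordProd (alternatingWord i j (M i j)).reverse =
      cs.wordProd (alternatingWord i j (M i j)) := by
    rw [reverse_alt]
    split_ifs
    · exact (braid_eq cs i j).symm
    · rfl
  nth_rewrite 1 [← h]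
  rw [wordProd_reverse, inv_mul_cancel]

/-- **Matsumoto's theorem**. -/
theorem matsumoto (cs : CoxeterSystem M W) {G : Type*} [Monoid G] (f : B → G)
    (hf : ∀ i j, i ≠ j → M i j ≠ 0 → ((alternatingWord i j (M i j)).map f).prod =
      ((alternatingWord j i (M i j)).map f).prod) :
    ∀ (n : ℕ) (ω ω' : List B), ω.length = n → cs.IsReduced ω → cs.IsReduced ω' →
      cs.wordProd ω = cs.wordProd ω' → (ω.map f).prod = (ω'.map f).prod := by
  intro n
  induction n with
  | zero =>
    intro ω ω' h0 h1 h2 e
    have : ω'.length = 0 := by rw [← h2.eq, ← e, h1.eq, h0]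
    rw [List.length_eq_zero_iff.1 h0, List.length_eq_zero_iff.1 this]
  | succ n ih =>
    intro ω ω' h0 h1 h2 e
    have h0' : ω'.length = n + 1 := by rw [← h2.eq, ← e, h1.eq, h0]
    obtain ⟨α, i, rfl⟩ := ω.eq_nil_or_concat.resolve_left (by rintro rfl; simp at h0)
    obtain ⟨β, j, rfl⟩ := ω'.eq_nil_or_concat.resolve_left (by rintro rfl; simp at h0')
    simp only [List.length_concat, Nat.add_right_cancel_iff] at h0 h0'
    -- cancelling the last letter
    have key : ∀ (α β : List B) (i : B), α.length = n → β.length = n → cs.IsReduced (α.concat i) →
        cs.wordProd (α.concat i) = cs.wordProd (β.concat i) →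
        ((α.concat i).map f).prod = ((β.concat i).map f).prod := by
      intro α β i ha hb hr e
      rw [wordProd_concat, wordProd_concat] at e
      have e' := mul_right_cancel e
      have hl : cs.length (cs.wordProd α) = n := by
        have a1 := cs.length_wordProd_le α
        have a2 := hr.eq
        rw [wordProd_concat, List.length_concat] at a2
        rcases cs.length_mul_simple (cs.wordProd α) i with h3 | h3 <;> omega
      have := ih α β ha (hl.trans ha.symm) (by rw [CoxeterSystem.IsReduced, ← e', hl, hb]) e'
      simp only [List.concat_eq_append, List.map_append, List.prod_append, this]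
    by_cases hij : i = j
    · subst hij
      exact key α β i h0 h0' h1 e
    set w := cs.wordProd (α.concat i) with hw
    have hl : cs.length w = n + 1 := by rw [hw, h1.eq, List.length_concat, h0]
    have hi : cs.length (w * cs.simple i) < cs.length w := by
      have := cs.length_wordProd_le α
      rw [hl, hw, wordProd_concat, cs.simple_mul_simple_cancel_right]
      omega
    have hj : cs.length (w * cs.simple j) < cs.length w := by
      have := cs.length_wordProd_le β
      rw [hl, e, wordProd_concat, cs.simple_mul_simple_cancel_right]
      omega
    have hm := ne_zero_of_descents cs hij hi hj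
    have h3 := length_mul_alt cs w (M i j) i j hij hi hj (Or.inr le_rfl)
    obtain ⟨ν, hν, eν⟩ := cs.exists_isReduced (w * cs.wordProd (alternatingWord i j (M i j)))
    have e1 : w = cs.wordProd (ν ++ alternatingWord i j (M i j)) := by
      rw [wordProd_append, ← eν, mul_assoc, braid_mul_self, mul_one]
    have e2 : w = cs.wordProd (ν ++ alternatingWord j i (M i j)) := by
      rw [wordProd_append, ← braid_eq, ← wordProd_append, ← e1]
    have hνl : ν.length + M i j = n + 1 := by rw [← hν.eq, ← eν, h3, hl]
    obtain ⟨m, hm'⟩ := Nat.exists_eq_succ_of_ne_zero hm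
    have c1 : ν ++ alternatingWord i j (M i j) = (ν ++ alternatingWord j i m).concat j := by
      rw [hm', alternatingWord_succ]; simp
    have c2 : ν ++ alternatingWord j i (M i j) = (ν ++ alternatingWord i j m).concat i := by
      rw [hm', alternatingWord_succ]; simp
    have k1 := key α (ν ++ alternatingWord i j m) i h0
      (by rw [List.length_append, length_alternatingWord]; omega) h1 (by rw [← c2, ← e2])
    have k2 := key β (ν ++ alternatingWord j i m) j h0'
      (by rw [List.length_append, length_alternatingWord]; omega) h2 (by rw [← c1, ← e1, e])
    rw [k1, k2, ← c1, ← c2, List.map_append, List.map_append, List.prod_append, List.prod_append,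
      hf i j hij hm]

end Crest.Agent.R175.Mats
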