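import Crest.Agent.R175.PC1
import Crest.Agent.R175.PCMats

/-! Matsumoto's theorem, reduced lifts and parabolic subgroups of the Coxeter group. -/

set_option autoImplicit false
set_option linter.unusedSectionVars false

open Crest.GroupTheory
open scoped Classical

namespace Crest.Agent.R175

variable {S : Type} [Fintype S] [DecidableEq S] (M : CoxeterMatrix S)

theorem mk_artinAltWord (m : ℕ) : ∀ s t : S,
    (PresentedGroup.mk (artinRelators M) (artinAltWord s t m) : ArtinGroup M) =
      ((CoxeterSystem.alternatingWord (if Even m then s else t) (if Even m then t else s) m).map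
        (artinGen M)).prod := by
  induction m with
  | zero => intro s t; simp [artinAltWord, CoxeterSystem.alternatingWord]
  | succ m ih =>
    intro s t
    rw [artinAltWord, map_mul, ih, CoxeterSystem.alternatingWord_succ', List.map_cons,
      List.prod_cons]
    by_cases hm : Even m
    · have : ¬ Even (m + 1) := by simp [hm, parity_simps]
      simp only [if_pos hm, if_neg this]
      rfl
    · have : Even (m + 1) := by simpa [Nat.even_add_one] using hm
      simp only [if_neg hm, if_pos this]
      rfl

/-- The braid relations in the Artin group. -/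
theorem artin_braid (i j : S) :
    ((CoxeterSystem.alternatingWord i j (M i j)).map (artinGen M)).prod =
      ((CoxeterSystem.alternatingWord j i (M i j)).map (artinGen M)).prod := by
  have h : (PresentedGroup.mk (artinRelators M) (artinAltWord i j (M i j)) : ArtinGroup M) =
      PresentedGroup.mk (artinRelators M) (artinAltWord j i (M i j)) :=
    PresentedGroup.mk_eq_mk_of_mul_inv_mem ⟨(i, j), rfl⟩
  rw [mk_artinAltWord, mk_artinAltWord] at h
  by_cases hm : Even (M i j)
  · simpa only [if_pos hm] using h
  · simpa only [if_neg hm] using h.symm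

theorem wordA_append (l l' : List S) : wordA M (l ++ l') = wordA M l * wordA M l' := by
  simp [wordA]

theorem wordA_cons (s : S) (l : List S) : wordA M (s :: l) = artinGen M s * wordA M l := by
  simp [wordA]

theorem wordA_nil : wordA M [] = 1 := by
  simp [wordA]

theorem simple_mem_WZ {Z : Finset S} {s : S} (hs : s ∈ Z) : M.simple s ∈ WZ M Z :=
  Subgroup.subset_closure ⟨s, hs, rfl⟩

theorem artinGen_mem_AZ {Z : Finset S} {s : S} (hs : s ∈ Z) : artinGen M s ∈ AZ M Z :=
  Subgroup.subset_closure ⟨s, hs, rfl⟩

/-- Matsumoto's theorem. -/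
theorem wordA_eq_of_reduced {l l' : List S} (hl : M.toCoxeterSystem.IsReduced l)
    (hl' : M.toCoxeterSystem.IsReduced l')
    (h : M.toCoxeterSystem.wordProd l = M.toCoxeterSystem.wordProd l') :
    wordA M l = wordA M l' := by
  exact Mats.matsumoto M.toCoxeterSystem (artinGen M) (fun i j _ _ => artin_braid M i j) _ l l' rfl
    hl hl' h

theorem lft_wordProd {l : List S} (hl : M.toCoxeterSystem.IsReduced l) :
    lft M (M.toCoxeterSystem.wordProd l) = wordA M l := by
  have h := Classical.choose_spec (M.toCoxeterSystem.exists_isReduced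
    (M.toCoxeterSystem.wordProd l))
  exact wordA_eq_of_reduced M h.1 hl h.2.symm

theorem lft_one : lft M 1 = 1 := by
  have := lft_wordProd M (l := []) (by simp [CoxeterSystem.IsReduced])
  simpa [wordA] using this

theorem lft_simple (s : S) : lft M (M.simple s) = artinGen M s := by
  have := lft_wordProd M (l := [s]) (by
    rw [CoxeterSystem.IsReduced, CoxeterSystem.wordProd_singleton, CoxeterSystem.length_simple]; rfl)
  simpa [wordA] using this

theorem lft_mul {w w' : M.Group} (h : len M (w * w') = len M w + len M w') :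
    lft M (w * w') = lft M w * lft M w' := by
  obtain ⟨l, hl, rfl⟩ := M.toCoxeterSystem.exists_isReduced w
  obtain ⟨l', hl', rfl⟩ := M.toCoxeterSystem.exists_isReduced w'
  have h2 : M.toCoxeterSystem.IsReduced (l ++ l') := by
    rw [CoxeterSystem.IsReduced, CoxeterSystem.wordProd_append, List.length_append, ← hl.eq,
      ← hl'.eq]
    exact h
  rw [← CoxeterSystem.wordProd_append, lft_wordProd M h2, lft_wordProd M hl, lft_wordProd M hl',
    wordA_append]

theorem wordA_mem {Z : Finset S} {l : List S} (h : InZ Z l) : wordA M l ∈ AZ M Z := by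
  induction l with
  | nil => rw [wordA_nil]; exact one_mem _
  | cons s l ih =>
    rw [wordA_cons]
    exact mul_mem (artinGen_mem_AZ M (h s (by simp))) (ih fun x hx => h x (by simp [hx]))

theorem wordProd_mem {Z : Finset S} {l : List S} (h : InZ Z l) :
    M.toCoxeterSystem.wordProd l ∈ WZ M Z := by
  induction l with
  | nil => rw [CoxeterSystem.wordProd_nil]; exact one_mem _
  | cons s l ih =>
    rw [CoxeterSystem.wordProd_cons]
    exact mul_mem (simple_mem_WZ M (h s (by simp))) (ih fun x hx => h x (by simp [hx]))

theorem prod_ind_eq_one (Z : Finset S) (l : List S) :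
    (l.map fun s => if s ∈ Z then (1 : ℕ) else 0).prod = if InZ Z l then 1 else 0 := by
  induction l with
  | nil => simp [InZ]
  | cons s l ih =>
    rw [List.map_cons, List.prod_cons, ih]
    have : InZ Z (s :: l) ↔ s ∈ Z ∧ InZ Z l := by simp [InZ]
    by_cases h1 : s ∈ Z <;> by_cases h2 : InZ Z l <;> simp [this, h1, h2]

theorem inZ_alt (Z : Finset S) (k : ℕ) : ∀ i j : S,
    InZ Z (CoxeterSystem.alternatingWord i j (k + 2)) ↔ i ∈ Z ∧ j ∈ Z := by
  induction k with
  | zero => intro i j; simp [InZ, CoxeterSystem.alternatingWord]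
  | succ k ih =>
    intro i j
    have h := ih j i
    rw [CoxeterSystem.alternatingWord_succ]
    simp only [InZ, List.concat_eq_append, List.mem_append, List.mem_singleton] at h ⊢
    constructor
    · intro h1
      exact (h.1 fun x hx => h1 x (Or.inl hx)).symm
    · rintro ⟨h1, h2⟩ x (hx | rfl)
      · exact h.2 ⟨h2, h1⟩ x hx
      · exact h2

theorem inZ_iff_of_reduced (Z : Finset S) {l l' : List S} (hl : M.toCoxeterSystem.IsReduced l)
    (hl' : M.toCoxeterSystem.IsReduced l')
    (h : M.toCoxeterSystem.wordProd l = M.toCoxeterSystem.wordProd l') (hZ : InZ Z l) :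
    InZ Z l' := by
  have := Mats.matsumoto M.toCoxeterSystem (fun s => if s ∈ Z then (1 : ℕ) else 0)
    (fun i j hij h0 => by
      have h1 := M.off_diagonal i j hij
      obtain ⟨k, hk⟩ : ∃ k, M i j = k + 2 := ⟨M i j - 2, by omega⟩
      rw [prod_ind_eq_one, prod_ind_eq_one, hk]
      simp only [inZ_alt, and_comm]) _ l l' rfl hl hl' h
  rw [prod_ind_eq_one, prod_ind_eq_one, if_pos hZ] at this
  by_contra h2
  rw [if_neg h2] at this
  exact one_ne_zero this

theorem exists_reduced_of_word {Z : Finset S} (l : List S) (h : InZ Z l) :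
    ∃ l', M.toCoxeterSystem.IsReduced l' ∧ InZ Z l' ∧
      M.toCoxeterSystem.wordProd l = M.toCoxeterSystem.wordProd l' := by
  induction l with
  | nil => exact ⟨[], by simp [CoxeterSystem.IsReduced], h, rfl⟩
  | cons s l ih =>
    obtain ⟨l', h1, h2, h3⟩ := ih fun x hx => h x (by simp [hx])
    have hs : s ∈ Z := h s (by simp)
    rw [CoxeterSystem.wordProd_cons, h3]
    rcases M.toCoxeterSystem.length_simple_mul (M.toCoxeterSystem.wordProd l') s with h4 | h4
    · refine ⟨s :: l', ?_, ?_, (CoxeterSystem.wordProd_cons _ _ _).symm⟩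
      · rw [CoxeterSystem.IsReduced, CoxeterSystem.wordProd_cons, h4, h1.eq, List.length_cons]
      · intro x hx
        rcases List.mem_cons.1 hx with rfl | hx
        · exact hs
        · exact h2 x hx
    · obtain ⟨l'', h5, h6⟩ := M.toCoxeterSystem.exists_isReduced
        (M.toCoxeterSystem.simple s * M.toCoxeterSystem.wordProd l')
      refine ⟨l'', h5, ?_, h6⟩
      have h7 : M.toCoxeterSystem.wordProd l' = M.toCoxeterSystem.wordProd (s :: l'') := by
        rw [CoxeterSystem.wordProd_cons, ← h6, CoxeterSystem.simple_mul_simple_cancel_left]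
      have h8 : M.toCoxeterSystem.IsReduced (s :: l'') := by
        rw [CoxeterSystem.IsReduced, ← h7, List.length_cons, ← h5.eq, ← h6, h4]
      exact fun x hx => inZ_iff_of_reduced M Z h1 h8 h7 h2 x (by simp [hx])

theorem exists_word_of_mem {Z : Finset S} {w : M.Group} (hw : w ∈ WZ M Z) :
    ∃ l, InZ Z l ∧ w = M.toCoxeterSystem.wordProd l := by
  induction hw using Subgroup.closure_induction with
  | mem w hw =>
    obtain ⟨s, hs, rfl⟩ := hw
    exact ⟨[s], by simpa [InZ] using hs, by simp⟩
  | one => exact ⟨[], by simp [InZ], by simp⟩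
  | mul a b _ _ iha ihb =>
    obtain ⟨l, h1, rfl⟩ := iha
    obtain ⟨l', h2, rfl⟩ := ihb
    refine ⟨l ++ l', fun x hx => ?_, (CoxeterSystem.wordProd_append _ _ _).symm⟩
    rcases List.mem_append.1 hx with hx | hx
    · exact h1 x hx
    · exact h2 x hx
  | inv a _ ih =>
    obtain ⟨l, h1, rfl⟩ := ih
    exact ⟨l.reverse, fun x hx => h1 x (List.mem_reverse.1 hx),
      (CoxeterSystem.wordProd_reverse _ _).symm⟩

/-- Every reduced word of an element of `W_Z` has its letters in `Z`. -/
theorem inZ_of_reduced {Z : Finset S} {l : List S} (hl : M.toCoxeterSystem.IsReduced l)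
    (h : M.toCoxeterSystem.wordProd l ∈ WZ M Z) : InZ Z l := by
  obtain ⟨l₁, h1, h2⟩ := exists_word_of_mem M h
  obtain ⟨l₂, h3, h4, h5⟩ := exists_reduced_of_word M l₁ h1
  exact inZ_iff_of_reduced M Z h3 hl (by rw [h2, h5]) h4

theorem exists_reduced_inZ {Z : Finset S} {w : M.Group} (hw : w ∈ WZ M Z) :
    ∃ l, M.toCoxeterSystem.IsReduced l ∧ InZ Z l ∧ w = M.toCoxeterSystem.wordProd l ∧
      lft M w = wordA M l := by
  obtain ⟨l, hl, rfl⟩ := M.toCoxeterSystem.exists_isReduced w
  exact ⟨l, hl, inZ_of_reduced M hl hw, rfl, lft_wordProd M hl⟩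

theorem len_lt_of_nonneg {w : M.Group} {s : S} (h : 0 ≤ rho M w (al s)) :
    len M w < len M (w * M.simple s) := by
  rcases lt_or_gt_of_ne (M.toCoxeterSystem.length_mul_simple_ne w s) with h1 | h1
  · exact absurd (le_antisymm (rho_neg M h1) h) (rho_al_ne_zero M w s)
  · exact h1

theorem len_lt_of_nonpos {w : M.Group} {s : S} (h : rho M w (al s) ≤ 0) :
    len M (w * M.simple s) < len M w := by
  rcases lt_or_gt_of_ne (M.toCoxeterSystem.length_mul_simple_ne w s) with h1 | h1
  · exact h1
  · exact absurd (le_antisymm h (rho_pos M h1)) (rho_al_ne_zero M w s)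

theorem rho_nonneg_of_supp {J : Finset S} {x : M.Group} (hx : ∀ s ∈ J, 0 ≤ rho M x (al s))
    {y : S → ℝ} (hy : 0 ≤ y) (hJ : ∀ t, t ∉ J → y t = 0) : 0 ≤ rho M x y := by
  rw [sum_al y, map_sum]
  refine Finset.sum_nonneg fun t _ => ?_
  rw [map_smul]
  by_cases ht : t ∈ J
  · exact smul_nonneg (hy t) (hx t ht)
  · rw [hJ t ht, zero_smul]

theorem rho_nonpos_of_supp {J : Finset S} {x : M.Group} (hx : ∀ s ∈ J, rho M x (al s) ≤ 0)
    {y : S → ℝ} (hy : 0 ≤ y) (hJ : ∀ t, t ∉ J → y t = 0) : rho M x y ≤ 0 := by
  rw [sum_al y, map_sum]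
  refine Finset.sum_nonpos fun t _ => ?_
  rw [map_smul]
  by_cases ht : t ∈ J
  · exact smul_nonpos_of_nonneg_of_nonpos (hy t) (hx t ht)
  · rw [hJ t ht, zero_smul]

theorem rho_al_supp {J : Finset S} {w : M.Group} (hw : w ∈ WZ M J) {s : S} (hs : s ∈ J) (t : S)
    (ht : t ∉ J) : rho M w (al s) t = 0 := by
  have : t ≠ s := fun h => ht (h ▸ hs)
  rw [rho_supp M hw _ ht]
  simp [al, this]

/-- An element without right descent in `J` is minimal in its coset. -/
theorem len_mul_of_min_right {J : Finset S} {x : M.Group}
    (hx : ∀ s ∈ J, len M x < len M (x * M.simple s)) {w : M.Group} (hw : w ∈ WZ M J) :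
    len M (x * w) = len M x + len M w := by
  obtain ⟨l, hl, hJ, rfl, -⟩ := exists_reduced_inZ M hw
  clear hw
  induction l using List.reverseRecOn with
  | nil => simp
  | append_singleton l s ih =>
    have h1 : M.toCoxeterSystem.IsReduced l := by simpa using hl.take l.length
    have h2 : InZ J l := fun y hy => hJ y (by simp [hy])
    have hs : s ∈ J := hJ s (by simp)
    have h3 := ih h1 h2
    have e : M.toCoxeterSystem.wordProd (l ++ [s]) = M.toCoxeterSystem.wordProd l * M.simple s := by
      simp [CoxeterSystem.wordProd_append]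
    have h4 : len M (M.toCoxeterSystem.wordProd l * M.simple s) =
        len M (M.toCoxeterSystem.wordProd l) + 1 := by
      rw [← e, len, len, hl.eq, h1.eq]; simp
    have h5 : len M (x * M.toCoxeterSystem.wordProd l) <
        len M (x * M.toCoxeterSystem.wordProd l * M.simple s) := by
      apply len_lt_of_nonneg
      rw [map_mul, Module.End.mul_apply]
      exact rho_nonneg_of_supp M (fun t ht => rho_pos M (hx t ht)) (rho_pos M (by omega))
        (rho_al_supp M (wordProd_mem M h2) hs)
    rw [e, ← mul_assoc, h4]
    rcases M.toCoxeterSystem.length_mul_simple (x * M.toCoxeterSystem.wordProd l) s with h6 | h6 <;>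
      simp only [CoxeterMatrix.toCoxeterSystem_simple, len] at * <;> omega

/-- An element with all right descents in `J` is maximal in its coset. -/
theorem len_mul_of_max_right {J : Finset S} {x : M.Group}
    (hx : ∀ s ∈ J, len M (x * M.simple s) < len M x) {w : M.Group} (hw : w ∈ WZ M J) :
    len M (x * w) + len M w = len M x := by
  obtain ⟨l, hl, hJ, rfl, -⟩ := exists_reduced_inZ M hw
  clear hw
  induction l using List.reverseRecOn with
  | nil => simp
  | append_singleton l s ih =>
    have h1 : M.toCoxeterSystem.IsReduced l := by simpa using hl.take l.length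
    have h2 : InZ J l := fun y hy => hJ y (by simp [hy])
    have hs : s ∈ J := hJ s (by simp)
    have h3 := ih h1 h2
    have e : M.toCoxeterSystem.wordProd (l ++ [s]) = M.toCoxeterSystem.wordProd l * M.simple s := by
      simp [CoxeterSystem.wordProd_append]
    have h4 : len M (M.toCoxeterSystem.wordProd l * M.simple s) =
        len M (M.toCoxeterSystem.wordProd l) + 1 := by
      rw [← e, len, len, hl.eq, h1.eq]; simp
    have h5 : len M (x * M.toCoxeterSystem.wordProd l * M.simple s) <
        len M (x * M.toCoxeterSystem.wordProd l) := by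
      apply len_lt_of_nonpos
      rw [map_mul, Module.End.mul_apply]
      exact rho_nonpos_of_supp M (fun t ht => rho_neg M (hx t ht)) (rho_pos M (by omega))
        (rho_al_supp M (wordProd_mem M h2) hs)
    rw [e, ← mul_assoc, h4]
    rcases M.toCoxeterSystem.length_mul_simple (x * M.toCoxeterSystem.wordProd l) s with h6 | h6 <;>
      simp only [CoxeterMatrix.toCoxeterSystem_simple, len] at * <;> omega

theorem len_inv (w : M.Group) : len M w⁻¹ = len M w := M.toCoxeterSystem.length_inv w

theorem len_inv_mul_simple (x : M.Group) (s : S) :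
    len M (x⁻¹ * M.simple s) = len M (M.simple s * x) := by
  rw [← len_inv, mul_inv_rev, inv_inv, ← CoxeterMatrix.toCoxeterSystem_simple,
    CoxeterSystem.inv_simple]

/-- An element without left descent in `J` is minimal in its coset. -/
theorem len_mul_of_min {J : Finset S} {x : M.Group}
    (hx : ∀ s ∈ J, len M x < len M (M.simple s * x)) {w : M.Group} (hw : w ∈ WZ M J) :
    len M (w * x) = len M w + len M x := by
  have := len_mul_of_min_right M (J := J) (x := x⁻¹)
    (fun s hs => by rw [len_inv, len_inv_mul_simple]; exact hx s hs) (inv_mem hw)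
  rw [← mul_inv_rev, len_inv, len_inv, len_inv] at this
  omega

/-- Generators with label two commute in the Artin group. -/
theorem artinGen_comm {s t : S} (h : ¬ Adj M s t) :
    artinGen M s * artinGen M t = artinGen M t * artinGen M s := by
  by_cases hst : s = t
  · rw [hst]
  have h2 : M s t = 2 := by
    by_contra h3
    exact h ⟨hst, h3⟩
  have := artin_braid M s t
  rw [h2] at this
  simpa [CoxeterSystem.alternatingWord] using this

end Crest.Agent.R175
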