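import Crest.Agent.R175.PC2

/-! Finite type: longest element, Garside element, Perron-Frobenius trichotomy. -/

set_option autoImplicit false
set_option linter.unusedSectionVars false

open Crest.GroupTheory
open scoped Classical

namespace Crest.Agent.R175

variable {S : Type} [Fintype S] [DecidableEq S] (M : CoxeterMatrix S)

/-- Minus the Cartan form. -/
noncomputable def bil (x y : S → ℝ) : ℝ := ∑ s, x s * flow M s y

theorem bil_symm (x y : S → ℝ) : bil M x y = bil M y x := by
  rw [bil, bil, form_emb, form_emb, R61.Bf_symm]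

theorem bil_add_left (x x' y : S → ℝ) : bil M (x + x') y = bil M x y + bil M x' y := by
  simp [bil, add_mul, Finset.sum_add_distrib]

theorem bil_smul_left (a : ℝ) (x y : S → ℝ) : bil M (a • x) y = a * bil M x y := by
  simp [bil, Finset.mul_sum, mul_assoc]

theorem bil_al (s : S) (y : S → ℝ) : bil M (al s) y = flow M s y := by
  simp [bil, al, Pi.single_apply]

theorem flow_al (s t : S) : flow M s (al t) = cc M s t := by
  simp [flow_apply, al, Pi.single_apply]

theorem bil_add_self (x y : S → ℝ) :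
    bil M (x + y) (x + y) = bil M x x + 2 * bil M y x + bil M y y := by
  rw [bil_add_left, bil_symm M x, bil_symm M y (x + y), bil_add_left, bil_add_left,
    bil_symm M x y]
  ring

theorem neg_two_le_cc (s t : S) : -2 ≤ cc M s t := by
  have := Real.neg_one_le_cos (Real.pi / (M s t : ℝ))
  unfold cc
  linarith

/-- Positive roots have height at least one. -/
theorem one_le_height {w : M.Group} {s : S} (h : 0 ≤ rho M w (al s)) :
    1 ≤ ∑ t, rho M w (al s) t := by
  have h1 := form_rho M w (al s) (al s)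
  have h2 : ∑ t, al s t * flow M t (al s) = -2 := by
    rw [← bil, bil_al, flow_al, cc_self]
  rw [h2] at h1
  generalize rho M w (al s) = β at h h1
  have h3 : -2 * (∑ t, β t) ^ 2 ≤ ∑ t, β t * flow M t β := by
    rw [sq, Finset.sum_mul_sum, Finset.mul_sum]
    refine Finset.sum_le_sum fun t _ => ?_
    rw [flow_apply, Finset.mul_sum, Finset.mul_sum]
    refine Finset.sum_le_sum fun u _ => ?_
    have := mul_le_mul_of_nonneg_right (neg_two_le_cc M t u) (mul_nonneg (h t) (h u))
    linarith
  have h4 : 0 ≤ ∑ t, β t := Finset.sum_nonneg fun t _ => h t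
  nlinarith

theorem finite_len_le (N : ℕ) : {w : M.Group | len M w ≤ N}.Finite := by
  refine ((List.finite_length_le S N).image M.toCoxeterSystem.wordProd).subset fun w hw => ?_
  obtain ⟨l, hl, rfl⟩ := M.toCoxeterSystem.exists_isReduced w
  exact ⟨l, by rw [Set.mem_ofPred_eq, ← hl.eq]; exact hw, rfl⟩

theorem sph_of_posDef {Z : Finset S} (h : PosDef M Z) : Sph M Z := by
  let L : (S → ℝ) →ₗ[ℝ] (S → ℝ) :=
    LinearMap.pi fun s => if s ∈ Z then flow M s else LinearMap.proj s
  have hL : ∀ x s, L x s = if s ∈ Z then flow M s x else x s := by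
    intro x s
    simp only [L, LinearMap.pi_apply]
    split_ifs <;> rfl
  have hinj : Function.Injective L := by
    rw [injective_iff_map_eq_zero]
    intro x hx
    by_contra h0
    have h1 : ∀ t, t ∉ Z → x t = 0 := fun t ht => by
      have := hL x t
      rwa [hx, if_neg ht, Pi.zero_apply, eq_comm] at this
    refine (h x h1 h0).ne (Finset.sum_eq_zero fun t _ => ?_)
    by_cases ht : t ∈ Z
    · have := hL x t
      rw [hx, if_pos ht, Pi.zero_apply] at this
      rw [← this, mul_zero]
    · rw [h1 t ht, zero_mul]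
  obtain ⟨ρ, hρ⟩ := LinearMap.surjective_of_injective hinj fun s => if s ∈ Z then -1 else 0
  have h1 : ∀ s ∈ Z, flow M s ρ = -1 := fun s hs => by
    have := hL ρ s
    rw [hρ] at this
    simpa [hs] using this.symm
  have h2 : ∀ s, s ∉ Z → ρ s = 0 := fun s hs => by
    have := hL ρ s
    rw [hρ] at this
    simpa [hs] using this.symm
  have h3 : ∀ x : S → ℝ, (∀ t, t ∉ Z → x t = 0) → bil M x ρ = -∑ t, x t := by
    intro x hx
    rw [bil, ← Finset.sum_neg_distrib]
    refine Finset.sum_congr rfl fun t _ => ?_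
    by_cases ht : t ∈ Z
    · rw [h1 t ht]; ring
    · rw [hx t ht]; ring
  have h4 : ∀ w ∈ WZ M Z, -∑ t, ρ t ≤ ∑ t, rho M w ρ t := by
    intro w hw
    have h5 : ∀ t, t ∉ Z → rho M w ρ t = 0 := fun t ht => by rw [rho_supp M hw _ ht, h2 t ht]
    have h6 : bil M (ρ + rho M w ρ) (ρ + rho M w ρ) ≤ 0 := by
      by_cases h0 : ρ + rho M w ρ = 0
      · rw [h0]; simp [bil]
      · exact (h _ (fun t ht => by rw [Pi.add_apply, h2 t ht, h5 t ht, add_zero]) h0).le
    have h7 : bil M (rho M w ρ) (rho M w ρ) = bil M ρ ρ := form_rho M w ρ ρ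
    rw [bil_add_self, h7, h3 ρ h2, h3 _ h5] at h6
    linarith
  have h8 : ∀ l : List S, M.toCoxeterSystem.IsReduced l → InZ Z l →
      ∑ t, rho M (M.toCoxeterSystem.wordProd l) ρ t + l.length ≤ ∑ t, ρ t := by
    intro l
    induction l using List.reverseRecOn with
    | nil => simp
    | append_singleton l s ih =>
      intro hl hJ
      have a1 : M.toCoxeterSystem.IsReduced l := by simpa using hl.take l.length
      have a3 := ih a1 fun y hy => hJ y (by simp [hy])
      have e : M.toCoxeterSystem.wordProd (l ++ [s]) =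
          M.toCoxeterSystem.wordProd l * M.simple s := by
        simp [CoxeterSystem.wordProd_append]
      have a4 : len M (M.toCoxeterSystem.wordProd l * M.simple s) =
          len M (M.toCoxeterSystem.wordProd l) + 1 := by
        rw [← e, len, len, hl.eq, a1.eq]; simp
      have a5 := one_le_height M (rho_pos M (w := M.toCoxeterSystem.wordProd l) (s := s) (by omega))
      rw [e, map_mul, Module.End.mul_apply, rho_simple, rs_apply, h1 s (hJ s (by simp)), map_add,
        map_smul]
      simp only [Pi.add_apply, Pi.smul_apply, smul_eq_mul, Finset.sum_add_distrib, neg_mul, one_mul,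
        Finset.sum_neg_distrib, List.length_append, List.length_singleton, Nat.cast_add,
        Nat.cast_one]
      linarith
  obtain ⟨N, hN⟩ := exists_nat_ge (2 * ∑ t, ρ t)
  refine (finite_len_le M N).subset fun w hw => ?_
  obtain ⟨l, hl, hZ, rfl, -⟩ := exists_reduced_inZ M hw
  have a1 := h8 l hl hZ
  have a2 := h4 _ hw
  rw [Set.mem_ofPred_eq, len, hl.eq]
  exact_mod_cast (by linarith : (l.length : ℝ) ≤ N)

theorem Sph.mono {Z Z' : Finset S} (h : Sph M Z) (hZ : Z' ⊆ Z) : Sph M Z' := by
  exact Set.Finite.subset h (Subgroup.closure_mono (Set.image_mono (by exact_mod_cast hZ)))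

theorem exists_longest {Z : Finset S} (h : Sph M Z) : ∃ w, Longest M Z w := by
  obtain ⟨w, hw, hmax⟩ := Set.exists_max_image _ (len M) h ⟨1, one_mem _⟩
  refine ⟨w, hw, fun s hs => lt_of_le_of_ne (hmax _ (mul_mem (simple_mem_WZ M hs) hw)) ?_⟩
  exact M.toCoxeterSystem.length_simple_mul_ne w s

theorem Longest.len_left {Z : Finset S} {w : M.Group} (h : Longest M Z w) {x : M.Group}
    (hx : x ∈ WZ M Z) : len M x + len M (x⁻¹ * w) = len M w := by
  have := len_mul_of_max_right M (J := Z) (x := w⁻¹)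
    (fun s hs => by rw [len_inv, len_inv_mul_simple]; exact h.2 s hs) hx
  rw [len_inv, ← len_inv M (w⁻¹ * x), mul_inv_rev, inv_inv] at this
  omega

theorem Longest.right {Z : Finset S} {w : M.Group} (h : Longest M Z w) {s : S} (hs : s ∈ Z) :
    len M (w * M.simple s) < len M w := by
  have h1 := h.len_left M (mul_mem h.1 (simple_mem_WZ M hs))
  have h2 : len M (w * M.simple s) ≠ len M w := M.toCoxeterSystem.length_mul_simple_ne w s
  omega

theorem exists_simple_of_len {Z : Finset S} {w : M.Group} (hw : w ∈ WZ M Z) (h : len M w = 1) :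
    ∃ s ∈ Z, w = M.simple s := by
  obtain ⟨l, hl, hZ, rfl, -⟩ := exists_reduced_inZ M hw
  rw [len, hl.eq] at h
  obtain ⟨s, rfl⟩ := List.length_eq_one_iff.1 h
  exact ⟨s, hZ s (by simp), by simp⟩

theorem len_simple (s : S) : len M (M.simple s) = 1 := M.toCoxeterSystem.length_simple s

theorem simple_mul_self (s : S) : M.simple s * M.simple s = 1 :=
  M.toCoxeterSystem.simple_mul_simple_self s

theorem simple_inv (s : S) : (M.simple s)⁻¹ = M.simple s := M.toCoxeterSystem.inv_simple s

theorem len_mul_simple (w : M.Group) (s : S) :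
    len M (w * M.simple s) = len M w + 1 ∨ len M (w * M.simple s) + 1 = len M w :=
  M.toCoxeterSystem.length_mul_simple w s

theorem len_simple_mul (w : M.Group) (s : S) :
    len M (M.simple s * w) = len M w + 1 ∨ len M (M.simple s * w) + 1 = len M w :=
  M.toCoxeterSystem.length_simple_mul w s

theorem lft_eq_mul_of_right {w : M.Group} {s : S} (h : len M (w * M.simple s) < len M w) :
    lft M w = lft M (w * M.simple s) * artinGen M s := by
  have e : w = w * M.simple s * M.simple s := by rw [mul_assoc, simple_mul_self, mul_one]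
  rw [← lft_simple, ← lft_mul, ← e]
  rw [← e, len_simple]
  rcases len_mul_simple M w s with h1 | h1 <;> omega

theorem lft_eq_mul_of_left {w : M.Group} {s : S} (h : len M (M.simple s * w) < len M w) :
    lft M w = artinGen M s * lft M (M.simple s * w) := by
  have e : w = M.simple s * (M.simple s * w) := by rw [← mul_assoc, simple_mul_self, one_mul]
  rw [← lft_simple, ← lft_mul, ← e]
  rw [← e, len_simple]
  rcases len_simple_mul M w s with h1 | h1 <;> omega

/-- Every element of `W_Z` is a prefix and a suffix of the longest element. -/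
theorem Longest.len_add {Z : Finset S} {w : M.Group} (h : Longest M Z w) {x : M.Group}
    (hx : x ∈ WZ M Z) : len M x + len M (x⁻¹ * w) = len M w ∧ len M (w * x⁻¹) + len M x = len M w := by
  refine ⟨h.len_left M hx, ?_⟩
  have := len_mul_of_max_right M (J := Z) (x := w) (fun s hs => h.right M hs) (inv_mem hx)
  rwa [len_inv] at this

/-- The Garside element permutes the generators. -/
theorem Longest.conj {Z : Finset S} {w : M.Group} (h : Longest M Z w) {s : S} (hs : s ∈ Z) :
    (∃ s' ∈ Z, lft M w * artinGen M s = artinGen M s' * lft M w) ∧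
    ∃ s' ∈ Z, artinGen M s * lft M w = lft M w * artinGen M s' := by
  have hsW := simple_mem_WZ M hs
  constructor
  · have h1 := (h.len_add M (mul_mem h.1 hsW)).2
    have h2 := h.right M hs
    have h3 := len_mul_simple M w s
    obtain ⟨s', hs', e⟩ := exists_simple_of_len M (mul_mem h.1 (inv_mem (mul_mem h.1 hsW)))
      (by omega)
    have e2 : M.simple s' * w = w * M.simple s := by
      rw [← e, mul_inv_rev, simple_inv]; group
    refine ⟨s', hs', ?_⟩
    nth_rewrite 1 [lft_eq_mul_of_left M (h.2 s' hs')]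
    rw [e2, mul_assoc, ← lft_eq_mul_of_right M h2]
  · have h1 := (h.len_add M (mul_mem hsW h.1)).1
    have h2 := h.2 s hs
    have h3 := len_simple_mul M w s
    obtain ⟨s', hs', e⟩ := exists_simple_of_len M (mul_mem (inv_mem (mul_mem hsW h.1)) h.1)
      (by omega)
    have e2 : w * M.simple s' = M.simple s * w := by
      rw [← e, mul_inv_rev, simple_inv]; group
    refine ⟨s', hs', ?_⟩
    nth_rewrite 1 [lft_eq_mul_of_right M (h.right M hs')]
    rw [e2, ← mul_assoc, ← lft_eq_mul_of_left M h2]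

/-- Positive elements of `A_Z`. -/
def IsPos (Z : Finset S) (a : ArtinGroup M) : Prop := ∃ p, InZ Z p ∧ a = wordA M p

theorem IsPos.one (Z : Finset S) : IsPos M Z 1 := ⟨[], by simp [InZ], (wordA_nil M).symm⟩

theorem IsPos.gen {Z : Finset S} {s : S} (hs : s ∈ Z) : IsPos M Z (artinGen M s) :=
  ⟨[s], by simpa [InZ] using hs, by simp [wordA]⟩

theorem IsPos.mul {Z : Finset S} {a b : ArtinGroup M} (ha : IsPos M Z a) (hb : IsPos M Z b) :
    IsPos M Z (a * b) := by
  obtain ⟨p, hp, rfl⟩ := ha
  obtain ⟨q, hq, rfl⟩ := hb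
  refine ⟨p ++ q, fun x hx => ?_, (wordA_append M p q).symm⟩
  rcases List.mem_append.1 hx with hx | hx
  · exact hp x hx
  · exact hq x hx

theorem IsPos.pow {Z : Finset S} {a : ArtinGroup M} (ha : IsPos M Z a) (n : ℕ) :
    IsPos M Z (a ^ n) := by
  induction n with
  | zero => rw [pow_zero]; exact IsPos.one M Z
  | succ n ih => rw [pow_succ]; exact ih.mul M ha

theorem IsPos.lft {Z : Finset S} {w : M.Group} (hw : w ∈ WZ M Z) : IsPos M Z (lft M w) := by
  obtain ⟨l, -, h1, -, h2⟩ := exists_reduced_inZ M hw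
  exact ⟨l, h1, h2⟩

theorem Longest.conj_pow {Z : Finset S} {w : M.Group} (h : Longest M Z w) (n : ℕ) :
    ∀ s ∈ Z, ∃ s' ∈ Z, artinGen M s * lft M w ^ n = lft M w ^ n * artinGen M s' := by
  induction n with
  | zero => intro s hs; exact ⟨s, hs, by simp⟩
  | succ n ih =>
    intro s hs
    obtain ⟨s₁, h1, e1⟩ := ih s hs
    obtain ⟨s₂, h2, e2⟩ := (h.conj M h1).2
    exact ⟨s₂, h2, by rw [pow_succ, ← mul_assoc, e1, mul_assoc, e2, mul_assoc]⟩

/-- Every chamber lies below a power of the Garside element. -/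
theorem Longest.exists_pow {Z : Finset S} {w : M.Group} (h : Longest M Z w) {g : ArtinGroup M}
    (hg : g ∈ AZ M Z) : ∃ (n : ℕ) (a : ArtinGroup M), IsPos M Z a ∧ g * a = lft M w ^ n := by
  induction hg using Subgroup.closure_induction_left with
  | one => exact ⟨0, 1, IsPos.one M Z, by simp⟩
  | mul_left x hx y _ ih =>
    obtain ⟨s, hs, rfl⟩ := hx
    obtain ⟨n, a, ha, e⟩ := ih
    obtain ⟨s', hs', e'⟩ := h.conj_pow M n s hs
    refine ⟨n + 1, a * lft M (M.simple s' * w),
      ha.mul M (IsPos.lft M (mul_mem (simple_mem_WZ M hs') h.1)), ?_⟩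
    rw [← mul_assoc, mul_assoc _ y, e, e', mul_assoc, ← lft_eq_mul_of_left M (h.2 s' hs'), pow_succ]
  | inv_mul_cancel x hx y _ ih =>
    obtain ⟨s, hs, rfl⟩ := hx
    obtain ⟨n, a, ha, e⟩ := ih
    obtain ⟨s', hs', e'⟩ := h.conj_pow M n s hs
    refine ⟨n, a * artinGen M s', ha.mul M (IsPos.gen M hs'), ?_⟩
    rw [mul_assoc, ← mul_assoc y, e, ← e', inv_mul_cancel_left]

/-- In finite type any two chambers have a common upper bound. -/
theorem exists_upper {Z : Finset S} (h : Sph M Z) {g g' : ArtinGroup M} (hg : g ∈ AZ M Z)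
    (hg' : g' ∈ AZ M Z) : ∃ p p', InZ Z p ∧ InZ Z p' ∧ g * wordA M p = g' * wordA M p' := by
  obtain ⟨w, hw⟩ := exists_longest M h
  obtain ⟨n, a, ha, e⟩ := hw.exists_pow M hg
  obtain ⟨n', a', ha', e'⟩ := hw.exists_pow M hg'
  obtain ⟨p, hp, ep⟩ := ha.mul M ((IsPos.lft M hw.1).pow M n')
  obtain ⟨p', hp', ep'⟩ := ha'.mul M ((IsPos.lft M hw.1).pow M n)
  refine ⟨p, p', hp, hp', ?_⟩
  rw [← ep, ← ep', ← mul_assoc, ← mul_assoc, e, e', ← pow_add, ← pow_add, add_comm]

theorem flow_nonneg_of_zero {y : S → ℝ} (hy : 0 ≤ y) {s : S} (h : y s = 0) : 0 ≤ flow M s y := by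
  rw [flow_apply]
  refine Finset.sum_nonneg fun t _ => ?_
  by_cases ht : s = t
  · rw [← ht, h, mul_zero]
  · exact mul_nonneg (cc_nonneg M ht) (hy t)

theorem flow_pos_of_adj {y : S → ℝ} (hy : 0 ≤ y) {s t : S} (h : y t = 0) (hs : 0 < y s)
    (hst : Adj M s t) : 0 < flow M t y := by
  rw [flow_apply]
  refine Finset.sum_pos' (fun u _ => ?_) ⟨s, Finset.mem_univ _, ?_⟩
  · by_cases ht : t = u
    · rw [← ht, h, mul_zero]
    · exact mul_nonneg (cc_nonneg M ht) (hy u)
  · rw [cc_symm]
    exact mul_pos (lt_of_lt_of_le one_pos (one_le_cc M hst)) hs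

/-- A diagram which is not positive definite supports a non-zero subharmonic vector. -/
theorem exists_weak_subharmonic {Z : Finset S} (h : ¬ PosDef M Z) :
    ∃ y : S → ℝ, 0 ≤ y ∧ y ≠ 0 ∧ (∀ t, t ∉ Z → y t = 0) ∧ ∀ s, 0 ≤ flow M s y := by
  obtain ⟨x, hx, hx0, hB⟩ : ∃ x : S → ℝ, (∀ t, t ∉ Z → x t = 0) ∧ x ≠ 0 ∧ 0 ≤ bil M x x := by
    by_contra h1
    refine h fun x hx hx0 => ?_
    by_contra h2
    exact h1 ⟨x, hx, hx0, not_lt.1 h2⟩
  have hB' : 0 ≤ bil M |x| |x| := by
    refine hB.trans (Finset.sum_le_sum fun s _ => ?_)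
    rw [flow_apply, flow_apply, Finset.mul_sum, Finset.mul_sum]
    refine Finset.sum_le_sum fun t _ => ?_
    rw [Pi.abs_apply, Pi.abs_apply, mul_left_comm, mul_left_comm |x s|, ← abs_mul]
    by_cases hst : s = t
    · rw [hst, abs_mul_self]
    · exact mul_le_mul_of_nonneg_left (le_abs_self _) (cc_nonneg M hst)
  have hcont : Continuous fun y : S → ℝ => bil M y y := by
    simp only [bil, flow_apply]
    fun_prop
  obtain ⟨y, hy, hy0, hmax⟩ : ∃ y ∈ Set.Icc 0 |x|, y ≠ 0 ∧
      ∀ z ∈ Set.Icc 0 |x|, bil M z z ≤ bil M y y := by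
    obtain ⟨y, hy, hmax⟩ := (isCompact_Icc (a := 0) (b := |x|)).exists_isMaxOn
      ⟨0, le_rfl, abs_nonneg x⟩ hcont.continuousOn
    by_cases hy0 : y = 0
    · refine ⟨|x|, ⟨abs_nonneg x, le_rfl⟩, fun h0 => hx0 (funext fun t => ?_), fun z hz => ?_⟩
      · simpa using congrFun h0 t
      · have : bil M z z ≤ bil M y y := hmax hz
        have h0 : bil M y y = 0 := by simp [hy0, bil]
        linarith
    · exact ⟨y, hy, hy0, fun z hz => hmax hz⟩
  refine ⟨y, hy.1, hy0, fun t ht => le_antisymm ?_ (hy.1 t), fun s => ?_⟩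
  · have := hy.2 t
    rwa [Pi.abs_apply, hx t ht, abs_zero] at this
  by_contra hneg
  have hneg' := not_le.1 hneg
  have hys : 0 < y s := lt_of_le_of_ne (hy.1 s) fun h0 =>
    hneg (flow_nonneg_of_zero M hy.1 h0.symm)
  obtain ⟨ε, hε, h1, h2⟩ : ∃ ε : ℝ, 0 < ε ∧ ε ≤ y s ∧ ε < -flow M s y :=
    ⟨min (y s) (-flow M s y / 2), lt_min hys (by linarith), min_le_left _ _,
      lt_of_le_of_lt (min_le_right _ _) (by linarith)⟩
  have h3 := hmax (y + (-ε) • al s) ⟨fun t => ?_, fun t => le_trans ?_ (hy.2 t)⟩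
  · rw [bil_add_self, bil_smul_left, bil_smul_left, bil_al, bil_al, map_smul, flow_al, cc_self,
      smul_eq_mul] at h3
    nlinarith
  · have := hy.1 t
    by_cases ht : t = s
    · subst ht; simp [al]; linarith
    · simpa [al, ht] using this
  · by_cases ht : t = s
    · subst ht; simp [al]; linarith
    · simp [al, ht]

theorem flow_eq_sum {Z : Finset S} {y : S → ℝ} (hy : ∀ t, t ∉ Z → y t = 0) (s : S) :
    flow M s y = ∑ t ∈ Z, cc M s t * y t := by
  rw [flow_apply]
  exact (Finset.sum_subset (Finset.subset_univ Z) fun t _ ht => by rw [hy t ht, mul_zero]).symm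

/-- A connected diagram which is not of finite type has a positive subharmonic vector. -/
theorem exists_subharmonic {Z : Finset S} (hc : Conn M Z) (h : ¬ Sph M Z) :
    ∃ lam : S → ℝ, (∀ s ∈ Z, 0 < lam s) ∧ ∀ s ∈ Z, 0 ≤ ∑ t ∈ Z, cc M s t * lam t := by
  let P : Finset S → Prop := fun J => ∃ y : S → ℝ, 0 ≤ y ∧ y ≠ 0 ∧ (∀ t, t ∉ Z → y t = 0) ∧
    (∀ s, 0 ≤ flow M s y) ∧ ∀ t, t ∈ J ↔ 0 < y t
  obtain ⟨y₀, a1, a2, a3, a4⟩ := exists_weak_subharmonic M fun h1 => h (sph_of_posDef M h1)
  obtain ⟨J, ⟨y, h1, h2, h3, h4, h5⟩, hmax⟩ := Set.exists_max_image {J | P J} Finset.card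
    (Set.toFinite _) ⟨Finset.univ.filter fun t => 0 < y₀ t, y₀, a1, a2, a3, a4, by simp⟩
  have hz : ∀ t, t ∉ J → y t = 0 := fun t ht => le_antisymm (not_lt.1 fun h => ht ((h5 t).2 h)) (h1 t)
  have hJ : J = Z := by
    by_contra hne
    obtain ⟨s, hs, t, ht, htJ, hst⟩ := hc.2 J
      (fun t ht => by by_contra h6; exact ((h5 t).1 ht).ne' (h3 t h6))
      (by
        by_contra h6
        exact h2 (funext fun t => hz t fun ht => h6 ⟨t, ht⟩)) hne
    have hp := flow_pos_of_adj M h1 (hz t htJ) ((h5 s).1 hs) hst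
    have h7 : P (insert t J) := by
      refine ⟨y + (flow M t y / 2) • al t, fun u => ?_, fun h0 => ?_, fun u hu => ?_, fun u => ?_,
        fun u => ?_⟩
      · have := h1 u
        by_cases hu : u = t
        · subst hu; simp [al] at this ⊢; linarith
        · simpa [al, hu] using this
      · have := congrFun h0 t
        simp [al, hz t htJ] at this
        exact hp.ne' this
      · have : u ≠ t := fun h => hu (h ▸ ht)
        simp [al, this, h3 u hu]
      · rw [map_add, map_smul, flow_al, smul_eq_mul]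
        by_cases hu : u = t
        · rw [hu, cc_self]; linarith
        · exact add_nonneg (h4 u) (mul_nonneg (by linarith) (cc_nonneg M hu))
      · by_cases hu : u = t
        · subst hu; simp [al, hz u htJ, hp]
        · simp [al, hu, h5 u]
    have := hmax _ h7
    rw [Finset.card_insert_of_notMem htJ] at this
    omega
  subst hJ
  exact ⟨y, fun s hs => (h5 s).1 hs, fun s _ => flow_eq_sum M h3 s ▸ h4 s⟩

/-- Proper subdiagrams of a connected diagram with a positive superharmonic vector have finite type. -/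
theorem sph_of_superharmonic {Z : Finset S} (hc : Conn M Z) {lam : S → ℝ} (hpos : ∀ s ∈ Z, 0 < lam s)
    (hh : ∀ s ∈ Z, ∑ t ∈ Z, cc M s t * lam t ≤ 0) {J : Finset S} (hJ : J ⊂ Z) : Sph M J := by
  apply sph_of_posDef
  by_contra h
  obtain ⟨y, h1, h2, h3, h4⟩ := exists_weak_subharmonic M h
  have h5 : ∀ t, t ∉ Z → y t = 0 := fun t ht => h3 t fun h => ht (hJ.1 h)
  have h6 : ∑ s ∈ Z, lam s * flow M s y ≤ 0 := by
    have : ∑ s ∈ Z, lam s * flow M s y = ∑ t ∈ Z, y t * ∑ s ∈ Z, cc M t s * lam s := by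
      simp only [flow_eq_sum M h5, Finset.mul_sum]
      rw [Finset.sum_comm]
      refine Finset.sum_congr rfl fun t _ => Finset.sum_congr rfl fun s _ => ?_
      rw [cc_symm M s t]; ring
    rw [this]
    exact Finset.sum_nonpos fun t ht => mul_nonpos_of_nonneg_of_nonpos (h1 t) (hh t ht)
  let J' := Finset.univ.filter fun t => 0 < y t
  have hz : ∀ t, t ∉ J' → y t = 0 := fun t ht =>
    le_antisymm (not_lt.1 fun h => ht (by simpa [J'] using h)) (h1 t)
  have hJ' : J' ⊆ J := fun t ht => by
    by_contra h7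
    have : 0 < y t := by simpa [J'] using ht
    exact this.ne' (h3 t h7)
  obtain ⟨s, hs, t, ht, htJ, hst⟩ := hc.2 J' (hJ'.trans hJ.1)
    (by
      by_contra h7
      exact h2 (funext fun t => hz t fun ht => h7 ⟨t, ht⟩))
    (fun h7 => hJ.2 (h7 ▸ hJ'))
  have hp := flow_pos_of_adj M h1 (hz t htJ) (by simpa [J'] using hs) hst
  refine absurd h6 (not_le.2 (Finset.sum_pos' (fun u hu => mul_nonneg (hpos u hu).le (h4 u))
    ⟨t, ht, mul_pos (hpos t ht) hp⟩))

end Crest.Agent.R175
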