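import Crest.Agent.R175.PC2

/-! Transfer of braid relations along a folding of a simply laced graph. -/

set_option autoImplicit false
set_option linter.unusedSectionVars false

open Crest.GroupTheory CoxeterSystem
open scoped Classical

namespace Crest.Agent.R175

variable {S : Type} [Fintype S] [DecidableEq S]

theorem isReduced_alt (M : CoxeterMatrix S) (k : ℕ) : ∀ i j : S, i ≠ j → (M i j = 0 ∨ k ≤ M i j) →
    M.toCoxeterSystem.IsReduced (alternatingWord i j k) := by
  induction k with
  | zero => intro i j _ _; simp [alternatingWord, CoxeterSystem.IsReduced]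
  | succ k ih =>
    intro i j hij hk
    have hk' : M j i = 0 ∨ k < M j i := by rw [M.symmetric j i]; omega
    have h1 := ih j i hij.symm (by omega)
    obtain ⟨a, b, ha, hb, e⟩ := R61.alt_apply M.toCoxeterSystem j i hij.symm k hk'
    rw [← emb_al, ← emb_al, ← emb_rho, ← map_smul, ← map_smul, ← map_add] at e
    have h2 := len_lt_of_nonneg M (w := M.toCoxeterSystem.wordProd (alternatingWord j i k)) (s := j)
      (by
        rw [emb_inj e]
        have : ∀ s : S, 0 ≤ al s := fun s t => by
          simp only [al, Pi.single_apply, Pi.zero_apply]; split_ifs <;> norm_num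
        exact add_nonneg (smul_nonneg ha (this _)) (smul_nonneg hb (this _)))
    rw [CoxeterSystem.IsReduced, alternatingWord_succ, wordProd_concat, List.length_concat, ← h1.eq]
    rcases M.toCoxeterSystem.length_mul_simple
      (M.toCoxeterSystem.wordProd (alternatingWord j i k)) j with h | h <;>
      simp only [CoxeterMatrix.toCoxeterSystem_simple, len] at * <;> omega

/-- The Coxeter matrix of a simple graph. -/
noncomputable def graphMat {I : Type} [DecidableEq I] (R : I → I → Prop)
    (hR : ∀ a b, R a b → R b a) : CoxeterMatrix I where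
  M := fun a b => if a = b then 1 else if R a b then 3 else 2
  isSymm := by
    ext a b
    have : R a b ↔ R b a := ⟨hR a b, hR b a⟩
    simp only [Matrix.transpose_apply, eq_comm (a := b), this]
  diagonal := fun a => if_pos rfl
  off_diagonal := fun a b h => by
    simp only [if_neg h]
    split_ifs <;> omega

/-- A folding of a simple graph onto a Coxeter matrix. -/
structure Folding (M : CoxeterMatrix S) (I : Type) [Fintype I] [DecidableEq I] where
  p : I → S
  R : I → I → Prop
  lam : I → ℝ
  symm : ∀ a b, R a b → R b a
  ne : ∀ a b, R a b → p a ≠ p b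
  pos : ∀ a, 0 < lam a
  weight : ∀ s j, s ≠ p j → ∑ i, (if p i = s ∧ R i j then lam i else 0) = cc M s (p j) * lam j

namespace Folding

variable {M : CoxeterMatrix S} {I : Type} [Fintype I] [DecidableEq I] (F : Folding M I)

/-- The simply laced Coxeter matrix. -/
noncomputable abbrev N : CoxeterMatrix I := graphMat F.R F.symm

theorem N_apply (a b : I) : F.N a b = if a = b then 1 else if F.R a b then 3 else 2 := rfl

theorem cc_N (a b : I) : cc F.N a b = if a = b then -2 else if F.R a b then 1 else 0 := by
  rw [cc, N_apply]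
  split_ifs <;> simp

/-- The folding map on coordinates. -/
noncomputable def fold : (I → ℝ) →ₗ[ℝ] (S → ℝ) :=
  ∑ i, (LinearMap.proj i : (I → ℝ) →ₗ[ℝ] ℝ).smulRight (F.lam i • al (F.p i))

theorem fold_apply (x : I → ℝ) : F.fold x = ∑ i, x i • F.lam i • al (F.p i) := by
  simp [fold, LinearMap.sum_apply]

theorem fold_al (i : I) : F.fold (al i) = F.lam i • al (F.p i) := by
  simp [fold_apply, al, Pi.single_apply]

theorem fold_nonneg {x : I → ℝ} (hx : 0 ≤ x) : 0 ≤ F.fold x := by
  rw [fold_apply]
  refine Finset.sum_nonneg fun i _ => smul_nonneg (hx i) (smul_nonneg (F.pos i).le fun t => ?_)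
  simp only [al, Pi.single_apply, Pi.zero_apply]; split_ifs <;> norm_num

/-- The fibre over a generator. -/
noncomputable def L (s : S) : List I := (Finset.univ.filter fun i => F.p i = s).toList

theorem mem_L (s : S) (i : I) : i ∈ F.L s ↔ F.p i = s := by simp [L]

theorem nodup_L (s : S) : (F.L s).Nodup := Finset.nodup_toList _

theorem rho_comm (s : S) (l : List I) (h1 : l.Nodup) (h2 : ∀ i ∈ l, F.p i = s) (x : I → ℝ) :
    rho F.N (F.N.toCoxeterSystem.wordProd l) x = x + (l.map fun i => flow F.N i x • al i).sum := by
  induction l with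
  | nil => simp
  | cons i l ih =>
    have h3 := List.nodup_cons.1 h1
    have h4 : ∀ l' : List I, (∀ j ∈ l', j ≠ i ∧ F.p j = s) →
        flow F.N i (l'.map fun j => flow F.N j x • al j).sum = 0 := by
      intro l' hl'
      rw [map_list_sum, List.map_map]
      refine List.sum_eq_zero fun y hy => ?_
      obtain ⟨j, hj, rfl⟩ := List.mem_map.1 hy
      have a1 : cc F.N i j = 0 := by
        rw [cc_N, if_neg (hl' j hj).1.symm, if_neg fun h =>
          F.ne _ _ h ((h2 i (by simp)).trans (hl' j hj).2.symm)]
      simp [flow_apply, al, Pi.single_apply, a1]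
    rw [wordProd_cons, map_mul, Module.End.mul_apply, ih h3.2 fun j hj => h2 j (by simp [hj]),
      CoxeterMatrix.toCoxeterSystem_simple, rho_simple, rs_apply, map_add,
      h4 l fun j hj => ⟨fun h => h3.1 (h ▸ hj), h2 j (by simp [hj])⟩, List.map_cons, List.sum_cons]
    module

theorem reduced_comm (s : S) (l : List I) (h1 : l.Nodup) (h2 : ∀ i ∈ l, F.p i = s) :
    F.N.toCoxeterSystem.IsReduced l := by
  induction l using List.reverseRecOn with
  | nil => simp [CoxeterSystem.IsReduced]
  | append_singleton l i ih =>
    have h3 : l.Nodup := (List.nodup_append.1 h1).1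
    have h4 : ∀ j ∈ l, F.p j = s := fun j hj => h2 j (by simp [hj])
    have h5 := ih h3 h4
    have h6 := len_lt_of_nonneg F.N (w := F.N.toCoxeterSystem.wordProd l) (s := i) (by
      rw [F.rho_comm s l h3 h4, List.sum_eq_zero, add_zero]
      · intro t
        simp only [al, Pi.single_apply, Pi.zero_apply]; split_ifs <;> norm_num
      intro y hy
      obtain ⟨j, hj, rfl⟩ := List.mem_map.1 hy
      have a1 : cc F.N j i = 0 := by
        rw [cc_N, if_neg ((List.nodup_append.1 h1).2.2 j hj i (by simp)), if_neg fun h =>
          F.ne _ _ h ((h4 j hj).trans (h2 i (by simp)).symm)]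
      simp [flow_apply, al, Pi.single_apply, a1])
    rw [CoxeterSystem.IsReduced, wordProd_append, wordProd_singleton, List.length_append, ← h5.eq]
    rcases F.N.toCoxeterSystem.length_mul_simple (F.N.toCoxeterSystem.wordProd l) i with h | h <;>
      simp only [CoxeterMatrix.toCoxeterSystem_simple, len, List.length_singleton] at * <;> omega

theorem sum_cc (s : S) (j : I) :
    ∑ i with F.p i = s, F.lam i * cc F.N i j = cc M s (F.p j) * F.lam j := by
  by_cases h : s = F.p j
  · rw [Finset.sum_eq_single j, cc_self, h, cc_self, mul_comm]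
    · intro i hi hij
      rw [cc_N, if_neg hij, if_neg fun hR => F.ne _ _ hR ((Finset.mem_filter.1 hi).2.trans h),
        mul_zero]
    · simp [h]
  · rw [← F.weight s j h, Finset.sum_filter]
    refine Finset.sum_congr rfl fun i _ => ?_
    by_cases hi : F.p i = s
    · have : i ≠ j := fun e => h (by rw [← hi, e])
      by_cases hR : F.R i j <;> simp [hi, cc_N, this, hR]
    · simp [hi]

theorem fold_T (s : S) (x : I → ℝ) :
    F.fold (rho F.N (F.N.toCoxeterSystem.wordProd (F.L s)) x) = rs M s (F.fold x) := by
  rw [F.rho_comm s _ (F.nodup_L s) fun i hi => (F.mem_L s i).1 hi, rs_apply, map_add, L,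
    Finset.sum_map_toList, map_sum]
  congr 1
  have h1 : flow M s (F.fold x) = ∑ i with F.p i = s, flow F.N i x * F.lam i := by
    rw [fold_apply, map_sum]
    simp only [flow_apply F.N, Finset.sum_mul]
    rw [Finset.sum_comm]
    refine Finset.sum_congr rfl fun j _ => ?_
    have : flow M s (al (F.p j)) = cc M s (F.p j) := by simp [flow_apply, al, Pi.single_apply]
    rw [map_smul, map_smul, this, smul_eq_mul, smul_eq_mul, mul_comm (F.lam j), ← F.sum_cc,
      Finset.mul_sum]
    exact Finset.sum_congr rfl fun i _ => by ring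
  rw [h1, Finset.sum_smul]
  refine Finset.sum_congr rfl fun i hi => ?_
  rw [map_smul, fold_al, (Finset.mem_filter.1 hi).2, smul_smul]

theorem fold_word (ω : List S) (x : I → ℝ) :
    F.fold (rho F.N (F.N.toCoxeterSystem.wordProd (ω.flatMap F.L)) x) =
      rho M (M.toCoxeterSystem.wordProd ω) (F.fold x) := by
  induction ω with
  | nil => simp
  | cons s ω ih =>
    rw [List.flatMap_cons, wordProd_append, wordProd_cons, map_mul, map_mul, Module.End.mul_apply,
      Module.End.mul_apply, fold_T, ih, CoxeterMatrix.toCoxeterSystem_simple, rho_simple]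

theorem ascent (ω : List S) (i : I) (h : len M (M.toCoxeterSystem.wordProd ω) <
    len M (M.toCoxeterSystem.wordProd ω * M.simple (F.p i))) :
    len F.N (F.N.toCoxeterSystem.wordProd (ω.flatMap F.L)) <
      len F.N (F.N.toCoxeterSystem.wordProd (ω.flatMap F.L) * F.N.simple i) := by
  refine lt_of_le_of_ne (not_lt.1 fun h1 => ?_) (F.N.toCoxeterSystem.length_mul_simple_ne _ i).symm
  have h2 := F.fold_nonneg (neg_nonneg.2 (rho_neg F.N h1))
  rw [map_neg, fold_word, fold_al, map_smul, neg_nonneg] at h2
  have h3 := le_antisymm h2 (smul_nonneg (F.pos i).le (rho_pos M h))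
  exact rho_al_ne_zero M _ _ ((smul_eq_zero.1 h3).resolve_left (F.pos i).ne')

theorem descent (ω : List S) (i : I) (h : len M (M.toCoxeterSystem.wordProd ω * M.simple (F.p i)) <
    len M (M.toCoxeterSystem.wordProd ω)) :
    len F.N (F.N.toCoxeterSystem.wordProd (ω.flatMap F.L) * F.N.simple i) <
      len F.N (F.N.toCoxeterSystem.wordProd (ω.flatMap F.L)) := by
  refine lt_of_le_of_ne (not_lt.1 fun h1 => ?_) (F.N.toCoxeterSystem.length_mul_simple_ne _ i)
  have h2 := F.fold_nonneg (rho_pos F.N h1)
  rw [fold_word, fold_al, map_smul] at h2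
  have h3 := le_antisymm (smul_nonpos_of_nonneg_of_nonpos (F.pos i).le (rho_neg M h)) h2
  exact rho_al_ne_zero M _ _ ((smul_eq_zero.1 h3).resolve_left (F.pos i).ne')

theorem reduced_word (ω : List S) (h : M.toCoxeterSystem.IsReduced ω) :
    F.N.toCoxeterSystem.IsReduced (ω.flatMap F.L) := by
  induction ω using List.reverseRecOn with
  | nil => simp [CoxeterSystem.IsReduced]
  | append_singleton ω s ih =>
    have h1 : M.toCoxeterSystem.IsReduced ω := by simpa using h.take ω.length
    have e : M.toCoxeterSystem.wordProd (ω ++ [s]) = M.toCoxeterSystem.wordProd ω * M.simple s := by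
      simp [CoxeterSystem.wordProd_append]
    have h4 : len M (M.toCoxeterSystem.wordProd ω * M.simple s) =
        len M (M.toCoxeterSystem.wordProd ω) + 1 := by
      rw [← e, len, len, h.eq, h1.eq]; simp
    have h5 := len_mul_of_min_right F.N (J := Finset.univ.filter fun i => F.p i = s)
      (x := F.N.toCoxeterSystem.wordProd (ω.flatMap F.L))
      (fun i hi => F.ascent ω i (by rw [(Finset.mem_filter.1 hi).2]; omega))
      (wordProd_mem F.N (l := F.L s) fun i hi => by simpa using (F.mem_L s i).1 hi)
    rw [CoxeterSystem.IsReduced, List.flatMap_append, List.flatMap_singleton, wordProd_append,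
      List.length_append, ← (ih h1).eq,
      ← (F.reduced_comm s _ (F.nodup_L s) fun i hi => (F.mem_L s i).1 hi).eq]
    exact h5

theorem braid_word {s t : S} (hst : s ≠ t) (h0 : M s t ≠ 0) :
    F.N.toCoxeterSystem.wordProd ((alternatingWord s t (M s t)).flatMap F.L) =
      F.N.toCoxeterSystem.wordProd ((alternatingWord t s (M s t)).flatMap F.L) := by
  have e := Mats.braid_eq M.toCoxeterSystem s t
  obtain ⟨k, hk⟩ := Nat.exists_eq_succ_of_ne_zero h0
  have hd : ∀ a b : S, M.toCoxeterSystem.IsReduced (alternatingWord a b (k + 1)) →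
      len M (M.toCoxeterSystem.wordProd (alternatingWord a b (k + 1)) * M.simple b) <
        len M (M.toCoxeterSystem.wordProd (alternatingWord a b (k + 1))) := by
    intro a b h
    have := M.toCoxeterSystem.length_wordProd_le (alternatingWord b a k)
    rw [len, len, h.eq, alternatingWord_succ, wordProd_concat, ← CoxeterMatrix.toCoxeterSystem_simple,
      simple_mul_simple_cancel_right, List.length_concat]
    omega
  have d1 := hd s t (isReduced_alt M _ s t hst (Or.inr hk.ge))
  have d2 := hd t s (isReduced_alt M _ t s hst.symm (Or.inr (by rw [M.symmetric t s]; exact hk.ge)))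
  rw [hk] at e ⊢
  simp only [Nat.succ_eq_add_one] at e ⊢
  let J : Finset I := Finset.univ.filter fun i => F.p i ∈ ({s, t} : Finset S)
  have hJ : ∀ a b : S, a ∈ ({s, t} : Finset S) → b ∈ ({s, t} : Finset S) →
      F.N.toCoxeterSystem.wordProd ((alternatingWord a b (k + 1)).flatMap F.L) ∈ WZ F.N J := by
    intro a b ha hb
    refine wordProd_mem F.N fun i hi => ?_
    obtain ⟨u, hu, hi'⟩ := List.mem_flatMap.1 hi
    have h1 := M.off_diagonal s t hst
    obtain ⟨k', rfl⟩ : ∃ k', k = k' + 1 := ⟨k - 1, by omega⟩
    refine Finset.mem_filter.2 ⟨Finset.mem_univ _, ?_⟩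
    rw [(F.mem_L u i).1 hi']
    exact (inZ_alt _ k' a b).2 ⟨ha, hb⟩ u hu
  have m1 := hJ s t (by simp) (by simp)
  have m2 := hJ t s (by simp) (by simp)
  have c1 := len_mul_of_max_right F.N (J := J) (fun i hi => F.descent (alternatingWord s t (k + 1)) i
    (by
      rcases Finset.mem_insert.1 (Finset.mem_filter.1 hi).2 with h | h
      · rw [h, e]; exact d2
      · rw [Finset.mem_singleton.1 h]; exact d1)) (mul_mem (inv_mem m1) m2)
  have c2 := len_mul_of_max_right F.N (J := J) (fun i hi => F.descent (alternatingWord t s (k + 1)) i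
    (by
      rcases Finset.mem_insert.1 (Finset.mem_filter.1 hi).2 with h | h
      · rw [h]; exact d2
      · rw [Finset.mem_singleton.1 h, ← e]; exact d1)) (mul_mem (inv_mem m2) m1)
  rw [mul_inv_cancel_left] at c1 c2
  exact inv_mul_eq_one.1 (F.N.toCoxeterSystem.length_eq_zero_iff.1 (by simp only [len] at *; omega))

theorem map_artinAltWord {G : Type*} [Group G] (f : S → G) (m : ℕ) : ∀ s t : S,
    FreeGroup.lift f (artinAltWord s t m) =
      ((alternatingWord (if Even m then s else t) (if Even m then t else s) m).map f).prod := by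
  induction m with
  | zero => intro s t; simp [artinAltWord, alternatingWord]
  | succ m ih =>
    intro s t
    rw [artinAltWord, map_mul, ih, alternatingWord_succ', List.map_cons, List.prod_cons,
      FreeGroup.lift_apply_of]
    by_cases hm : Even m
    · have : ¬ Even (m + 1) := by simp [hm, parity_simps]
      simp only [if_pos hm, if_neg this]
    · have : Even (m + 1) := by simpa [Nat.even_add_one] using hm
      simp only [if_neg hm, if_pos this]

theorem exists_hom {G : Type*} [Group G] (x : I → G)
    (h2 : ∀ i j, ¬ F.R i j → x i * x j = x j * x i)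
    (h3 : ∀ i j, F.R i j → x i * x j * x i = x j * x i * x j) :
    ∃ φ : ArtinGroup M →* G, ∀ s, φ (artinGen M s) = ((F.L s).map x).prod := by
  have hw : ∀ ω : List S, (ω.map fun s => ((F.L s).map x).prod).prod =
      ((ω.flatMap F.L).map x).prod := by
    intro ω
    induction ω with
    | nil => simp
    | cons s ω ih => rw [List.map_cons, List.prod_cons, ih, List.flatMap_cons, List.map_append,
        List.prod_append]
  have hb : ∀ s t : S, ((alternatingWord s t (M s t)).map fun s => ((F.L s).map x).prod).prod =
      ((alternatingWord t s (M s t)).map fun s => ((F.L s).map x).prod).prod := by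
    intro s t
    by_cases hst : s = t
    · rw [hst]
    by_cases h0 : M s t = 0
    · simp [h0, alternatingWord]
    rw [hw, hw]
    refine Mats.matsumoto F.N.toCoxeterSystem x (fun i j hij _ => ?_) _ _ _ rfl
      (F.reduced_word _ (isReduced_alt M _ s t hst (Or.inr le_rfl)))
      (F.reduced_word _ (isReduced_alt M _ t s (Ne.symm hst) (Or.inr (M.symmetric s t).le)))
      (F.braid_word hst h0)
    rw [N_apply, if_neg hij]
    split_ifs with hR
    · simpa [alternatingWord, mul_assoc] using (h3 i j hR).symm
    · simpa [alternatingWord] using h2 i j hR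
  refine ⟨PresentedGroup.toGroup (f := fun s => ((F.L s).map x).prod) ?_,
    fun s => PresentedGroup.toGroup.of _⟩
  rintro _ ⟨⟨s, t⟩, rfl⟩
  simp only [map_mul, map_inv, map_artinAltWord, mul_inv_eq_one]
  by_cases hm : Even (M s t)
  · simpa only [if_pos hm] using hb s t
  · simpa only [if_neg hm] using (hb s t).symm

end Folding

end Crest.Agent.R175
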