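import Crest.Agent.R175.PCUnf0
import Crest.Agent.R175.PCUnf1

/-! Existence of an unfolding. -/

set_option autoImplicit false

open Crest.GroupTheory
open scoped Classical

namespace Crest.Agent.R175

variable {S : Type} [Fintype S] [DecidableEq S]

theorem exists_folding (M : CoxeterMatrix S) : ∃ (I : Type) (_ : Fintype I) (_ : DecidableEq I)
    (F : Folding M I), Function.Surjective F.p := by
  obtain ⟨B, _, _, R, w, h1, h2, h3⟩ := exists_graphs ((Finset.univ.sup fun p : S × S => M p.1 p.2) + 1)
  refine ⟨S × B, inferInstance, inferInstance,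
    ⟨Prod.fst, fun a b => a.1 ≠ b.1 ∧ R (M a.1 b.1) a.2 b.2, fun a => w a.2,
      fun a b h => ⟨h.1.symm, M.symmetric a.1 b.1 ▸ h1 _ _ _ h.2⟩, fun a b h => h.1,
      fun a => h2 _, fun s j hs => ?_⟩, Prod.fst_surjective⟩
  rw [Fintype.sum_prod_type, Finset.sum_eq_single s, cc, ← h3 (M s j.1)
    (Nat.lt_succ_of_le (Finset.le_sup (f := fun p : S × S => M p.1 p.2) (Finset.mem_univ (s, j.1))))
    (M.off_diagonal s j.1 hs)]
  · refine Finset.sum_congr rfl fun b _ => ?_
    by_cases h : R (M s j.1) b j.2 <;> simp [h, hs]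
  · intro t _ ht
    simp [ht]
  · simp

/-- Adjacency in the framed graph. -/
def fadj {M : CoxeterMatrix S} {I : Type} [Fintype I] [DecidableEq I] (F : Folding M I)
    (Y : Finset S) : Option I → Option I → Prop
  | some a, some b => F.R a b
  | some a, none => F.p a ∉ Y
  | none, some a => F.p a ∉ Y
  | none, none => False

theorem exists_unfold (M : CoxeterMatrix S) (Y : Finset S) : Nonempty (Unfold M Y) := by
  obtain ⟨I, _, _, F, hF⟩ := exists_folding M
  refine ⟨{
    I := Option I
    typ := Option.map F.p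
    adj := fun i j k => k = true ∧ fadj F Y i j
    lam := fun i => i.elim 1 F.lam
    o := none
    adj_symm := ?_
    typ_none := fun i => Option.map_eq_none_iff
    adj_typ := ?_
    fibre := fun s => ?_
    lam_pos := ?_
    weight := ?_
    adj_o := fun s => ?_
    braid := fun G _ x h2 h3 => ?_ }⟩
  · rintro (_ | a) (_ | b) k ⟨h1, h2⟩
    exacts [⟨h1, h2⟩, ⟨h1, h2⟩, ⟨h1, h2⟩, ⟨h1, F.symm _ _ h2⟩]
  · rintro (_ | a) (_ | b) k ⟨h1, h2⟩
    · exact h2.elim
    · simp
    · simp
    · simpa using F.ne _ _ h2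
  · obtain ⟨a, rfl⟩ := hF s
    exact ⟨some a, rfl⟩
  · rintro (_ | a)
    exacts [one_pos, F.pos a]
  · rintro s t (_ | j) hst hj
    · simp at hj
    obtain rfl : F.p j = t := by simpa using hj
    rw [Fintype.sum_option, Option.elim_some, ← F.weight s j hst]
    simp [fadj]
  · constructor
    · rintro ⟨_ | a, k, h1, -, h2⟩
      · exact h2.elim
      · obtain rfl : F.p a = s := by simpa using h1
        exact h2
    · intro hs
      obtain ⟨a, rfl⟩ := hF s
      exact ⟨some a, true, rfl, rfl, hs⟩
  · obtain ⟨φ, hφ⟩ := F.exists_hom (fun i => x (some i))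
      (fun i j h => h2 _ _ fun k hk => h hk.2)
      (fun i j h => h3 _ _ true ⟨rfl, h⟩ fun hk => by simpa using hk.1)
    refine ⟨φ, fun s l hl hs => ?_⟩
    have hp : ((F.L s).map some).Perm l := by
      refine (List.perm_ext_iff_of_nodup ((F.nodup_L s).map (Option.some_injective I)) hl).2 ?_
      rintro (_ | a)
      · simp [hs]
      · simp [hs, F.mem_L]
    rw [hφ, ← (hp.map x).prod_eq', List.map_map]
    · rfl
    rw [List.map_map, List.pairwise_map]
    refine List.Pairwise.imp_of_mem (fun {a b} ha hb _ => ?_) (F.nodup_L s)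
    exact h2 _ _ fun k hk => F.ne _ _ hk.2 (((F.mem_L s a).1 ha).trans ((F.mem_L s b).1 hb).symm)

end Crest.Agent.R175
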