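import Crest.Agent.R175.PC2

/-! Graphs with Perron-Frobenius eigenvalue `2 cos (π / m)`. -/

set_option autoImplicit false

open scoped Classical

namespace Crest.Agent.R175

theorem exists_path (m : ℕ) (hm : m ≠ 1) : ∃ (P : Type) (_ : Fintype P) (_ : Nonempty P)
    (r : P → P → Prop) (w : P → ℝ), (∀ a b, r a b → r b a) ∧ (∀ a, 0 < w a) ∧
    ∀ a, ∑ b, (if r b a then w b else 0) = 2 * Real.cos (Real.pi / m) * w a := by
  rcases Nat.eq_zero_or_pos m with rfl | h0
  · exact ⟨Bool, inferInstance, inferInstance, fun _ _ => True, fun _ => 1, fun _ _ h => h,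
      fun _ => one_pos, fun _ => by simp⟩
  obtain ⟨n, rfl⟩ : ∃ n, m = n + 2 := ⟨m - 2, by omega⟩
  set θ : ℝ := Real.pi / ((n + 2 : ℕ) : ℝ) with hθ
  have hθ0 : 0 < θ := by positivity
  have hθ1 : ((n + 2 : ℕ) : ℝ) * θ = Real.pi := by rw [hθ]; field_simp
  refine ⟨Fin (n + 1), inferInstance, inferInstance,
    fun a b => a.val + 1 = b.val ∨ b.val + 1 = a.val, fun a => Real.sin ((a.val + 1 : ℕ) * θ),
    fun _ _ h => h.symm, fun a => ?_, fun a => ?_⟩
  · refine Real.sin_pos_of_pos_of_lt_pi (by positivity) ?_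
    rw [← hθ1]
    exact mul_lt_mul_of_pos_right (by exact_mod_cast (by omega : a.val + 1 < n + 2)) hθ0
  · have h1 : ∀ b : Fin (n + 1),
        (if b.val + 1 = a.val ∨ a.val + 1 = b.val then Real.sin ((b.val + 1 : ℕ) * θ) else 0) =
        (if b.val + 1 = a.val then Real.sin ((a.val : ℕ) * θ) else 0) +
        (if a.val + 1 = b.val then Real.sin ((a.val + 2 : ℕ) * θ) else 0) := by
      intro b
      by_cases h1 : b.val + 1 = a.val
      · rw [if_pos (Or.inl h1), if_pos h1, if_neg (by omega), add_zero, h1]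
      · by_cases h2 : a.val + 1 = b.val
        · rw [if_pos (Or.inr h2), if_neg h1, if_pos h2, zero_add, ← h2]
        · rw [if_neg (by omega), if_neg h1, if_neg h2, add_zero]
    have h2 : ∑ b : Fin (n + 1), (if b.val + 1 = a.val then Real.sin ((a.val : ℕ) * θ) else 0) =
        Real.sin ((a.val : ℕ) * θ) := by
      by_cases ha : a.val = 0
      · simp [ha]
      · rw [Finset.sum_eq_single (⟨a.val - 1, by omega⟩ : Fin (n + 1)), if_pos (by simp; omega)]
        · intro b _ hb
          exact if_neg fun h => hb (Fin.ext (by simp; omega))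
        · simp
    have h3 : ∑ b : Fin (n + 1), (if a.val + 1 = b.val then Real.sin ((a.val + 2 : ℕ) * θ) else 0) =
        Real.sin ((a.val + 2 : ℕ) * θ) := by
      by_cases ha : a.val = n
      · rw [ha, hθ1]; simp
      · rw [Finset.sum_eq_single (⟨a.val + 1, by omega⟩ : Fin (n + 1)), if_pos rfl]
        · intro b _ hb
          exact if_neg fun h => hb (Fin.ext h.symm)
        · simp
    have e1 : ((a.val + 2 : ℕ) : ℝ) * θ = ((a.val + 1 : ℕ) : ℝ) * θ + θ := by push_cast; ring
    have e2 : ((a.val : ℕ) : ℝ) * θ = ((a.val + 1 : ℕ) : ℝ) * θ - θ := by push_cast; ring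
    rw [Finset.sum_congr rfl fun b _ => by convert h1 b, Finset.sum_add_distrib, h2, h3, e1, e2,
      Real.sin_add, Real.sin_sub]
    ring

theorem exists_graphs (N : ℕ) : ∃ (B : Type) (_ : Fintype B) (_ : Nonempty B)
    (R : ℕ → B → B → Prop) (w : B → ℝ), (∀ m a b, R m a b → R m b a) ∧ (∀ a, 0 < w a) ∧
    ∀ m < N, m ≠ 1 → ∀ a, ∑ b, (if R m b a then w b else 0) = 2 * Real.cos (Real.pi / m) * w a := by
  induction N with
  | zero => exact ⟨Unit, inferInstance, inferInstance, fun _ _ _ => True, fun _ => 1,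
      fun _ _ _ h => h, fun _ => one_pos, fun m hm => absurd hm (Nat.not_lt_zero m)⟩
  | succ N ih =>
    obtain ⟨B, _, _, R, w, h1, h2, h3⟩ := ih
    by_cases hN : N = 1
    · exact ⟨B, inferInstance, inferInstance, R, w, h1, h2, fun m hm hm1 => h3 m (by omega) hm1⟩
    obtain ⟨P, _, _, r, u, g1, g2, g3⟩ := exists_path N hN
    refine ⟨B × P, inferInstance, inferInstance,
      fun m a b => (m = N ∧ a.1 = b.1 ∧ r a.2 b.2) ∨ (m ≠ N ∧ R m a.1 b.1 ∧ a.2 = b.2),
      fun a => w a.1 * u a.2, fun m a b h => ?_, fun a => mul_pos (h2 _) (g2 _),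
      fun m hm hm1 a => ?_⟩
    · rcases h with ⟨a1, a2, a3⟩ | ⟨a1, a2, a3⟩
      · exact Or.inl ⟨a1, a2.symm, g1 _ _ a3⟩
      · exact Or.inr ⟨a1, h1 _ _ _ a2, a3.symm⟩
    · rw [Fintype.sum_prod_type]
      by_cases hmN : m = N
      · subst hmN
        rw [Finset.sum_eq_single a.1, mul_left_comm, ← g3, Finset.mul_sum]
        · refine Finset.sum_congr rfl fun q _ => ?_
          by_cases h : r q a.2 <;> simp [h]
        · intro b _ hb
          simp [hb]
        · simp
      · rw [Finset.sum_comm, Finset.sum_eq_single a.2, ← mul_assoc, ← h3 m (by omega) hm1,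
          Finset.sum_mul]
        · refine Finset.sum_congr rfl fun q _ => ?_
          by_cases h : R m q a.1 <;> simp [h, hmN]
        · intro b _ hb
          simp [hb, hmN]
        · simp

end Crest.Agent.R175
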