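import Crest.Agent.R175.PDefs

/-! Differential graded representations of the preprojective (Ginzburg) algebra of a multigraph over
`ZMod 2`, in a model with one ambient vector space: the piece at vertex `i` in degree `n` is the
subquotient `P i n / N i n`. Twist functors and their inverses. -/

set_option autoImplicit false
set_option linter.unusedSectionVars false

open scoped Classical

noncomputable section

namespace Crest.Agent.R175

abbrev K2 := ZMod 2

/-- A multigraph whose edges carry a label in `Bool`. -/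
structure Gph (I : Type) where
  adj : I → I → Bool → Prop
  symm : ∀ i j k, adj i j k → adj j i k
  irr : ∀ i k, ¬ adj i i k

theorem add_self2 {V : Type} [AddCommGroup V] [Module K2 V] (x : V) : x + x = 0 := by
  have h : (2 : K2) = 0 := rfl
  rw [← two_smul K2 x, h, zero_smul]

theorem neg_self2 {V : Type} [AddCommGroup V] [Module K2 V] (x : V) : -x = x :=
  neg_eq_of_add_eq_zero_left (add_self2 x)

theorem sub_eq_add2 {V : Type} [AddCommGroup V] [Module K2 V] (x y : V) : x - y = x + y := by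
  rw [sub_eq_add_neg, neg_self2]

theorem add_add_cancel2 {V : Type} [AddCommGroup V] [Module K2 V] (x y : V) : x + (x + y) = y := by
  rw [← add_assoc, add_self2, zero_add]

variable {I : Type} [Fintype I] [DecidableEq I]

/-- A dg representation. `a i j k` is the arrow from `i` to `j` with label `k`, `t i` the loop. -/
structure Obj (G : Gph I) where
  V : Type
  [acg : AddCommGroup V]
  [mod : Module K2 V]
  d : I → V →ₗ[K2] V
  a : I → I → Bool → V →ₗ[K2] V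
  t : I → V →ₗ[K2] V
  P : I → ℤ → Submodule K2 V
  N : I → ℤ → Submodule K2 V
  NP : ∀ i n, N i n ≤ P i n
  a0 : ∀ i j k, ¬ G.adj i j k → a i j k = 0
  dd : ∀ i x, d i (d i x) = 0
  da : ∀ i j k x, d j (a i j k x) = a i j k (d i x)
  dt : ∀ i x, d i (t i x) + t i (d i x) = ∑ e : I × Bool, a e.1 i e.2 (a i e.1 e.2 x)
  dP : ∀ i n x, x ∈ P i n → d i x ∈ P i (n + 1)
  dN : ∀ i n x, x ∈ N i n → d i x ∈ N i (n + 1)
  aP : ∀ i j k n x, x ∈ P i n → a i j k x ∈ P j n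
  aN : ∀ i j k n x, x ∈ N i n → a i j k x ∈ N j n
  tP : ∀ i n x, x ∈ P i (n + 1) → t i x ∈ P i n
  tN : ∀ i n x, x ∈ N i (n + 1) → t i x ∈ N i n

attribute [instance] Obj.acg Obj.mod

variable {G : Gph I}

namespace Obj

variable (X : Obj G)

/-- One slot for every possible edge end. -/
abbrev F := I × Bool → X.V

/-- All arrows out of `s`. -/
def out (s : I) : X.V →ₗ[K2] X.F := LinearMap.pi fun e => X.a s e.1 e.2

/-- All arrows into `s`. -/
def inn (s : I) : X.F →ₗ[K2] X.V := ∑ e : I × Bool, (X.a e.1 s e.2).comp (LinearMap.proj e)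

/-- The differential on the slots. -/
def dF : X.F →ₗ[K2] X.F := LinearMap.pi fun e => (X.d e.1).comp (LinearMap.proj e)

@[simp] theorem out_apply (s : I) (x : X.V) (e : I × Bool) : X.out s x e = X.a s e.1 e.2 x := rfl

theorem inn_apply (s : I) (b : X.F) : X.inn s b = ∑ e : I × Bool, X.a e.1 s e.2 (b e) := by
  simp [inn]

@[simp] theorem dF_apply (b : X.F) (e : I × Bool) : X.dF b e = X.d e.1 (b e) := rfl

theorem inn_single (s : I) (e : I × Bool) (x : X.V) :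
    X.inn s (Pi.single e x) = X.a e.1 s e.2 x := by
  rw [inn_apply, Finset.sum_eq_single e]
  · simp
  · intro e' _ h
    simp [Pi.single_eq_of_ne h]
  · simp

theorem d_inn (s : I) (b : X.F) : X.d s (X.inn s b) = X.inn s (X.dF b) := by
  simp [inn_apply, X.da]

theorem dF_out (s : I) (x : X.V) : X.dF (X.out s x) = X.out s (X.d s x) := by
  ext e; simp [X.da]

theorem inn_out (s : I) (x : X.V) : X.inn s (X.out s x) = X.d s (X.t s x) + X.t s (X.d s x) := by
  rw [X.dt, inn_apply]; rfl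

theorem dF_dF (b : X.F) : X.dF (X.dF b) = 0 := by
  ext e; simp [X.dd]

theorem dF_single (e : I × Bool) (x : X.V) : X.dF (Pi.single e x) = Pi.single e (X.d e.1 x) := by
  ext e'
  by_cases h : e' = e
  · subst h; simp
  · simp [Pi.single_eq_of_ne h]

/-- Slots of the neighbours of `s`, with entries in the family `Q`. -/
def slots (s : I) (Q : I → Submodule K2 X.V) : Submodule K2 X.F :=
  Submodule.pi Set.univ fun e => if G.adj s e.1 e.2 then Q e.1 else ⊥

theorem mem_slots {s : I} {Q : I → Submodule K2 X.V} {b : X.F} :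
    b ∈ X.slots s Q ↔ ∀ e : I × Bool, (G.adj s e.1 e.2 → b e ∈ Q e.1) ∧ (¬ G.adj s e.1 e.2 → b e = 0) := by
  simp only [slots, Submodule.mem_pi, Set.mem_univ, true_imp_iff]
  refine forall_congr' fun e => ?_
  split_ifs with h <;> simp [h]

theorem out_mem {s : I} {Q : I → Submodule K2 X.V} {x : X.V} (h : ∀ j k, X.a s j k x ∈ Q j) :
    X.out s x ∈ X.slots s Q :=
  X.mem_slots.2 fun e => ⟨fun _ => h _ _, fun h' => by simp [X.a0 _ _ _ h']⟩

theorem inn_mem {s : I} {Q : I → Submodule K2 X.V} {R : Submodule K2 X.V} {b : X.F}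
    (hb : b ∈ X.slots s Q) (h : ∀ j k x, x ∈ Q j → X.a j s k x ∈ R) : X.inn s b ∈ R := by
  rw [inn_apply]
  refine Submodule.sum_mem _ fun e _ => ?_
  by_cases he : G.adj s e.1 e.2
  · exact h _ _ _ ((X.mem_slots.1 hb e).1 he)
  · simp [(X.mem_slots.1 hb e).2 he]

theorem dF_mem {s : I} {Q R : I → Submodule K2 X.V} {b : X.F} (hb : b ∈ X.slots s Q)
    (h : ∀ j x, x ∈ Q j → X.d j x ∈ R j) : X.dF b ∈ X.slots s R :=
  X.mem_slots.2 fun e => ⟨fun he => h _ _ ((X.mem_slots.1 hb e).1 he),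
    fun he => by simp [(X.mem_slots.1 hb e).2 he]⟩

theorem single_mem {s : I} {Q : I → Submodule K2 X.V} {j : I} {k : Bool} (h : G.adj s j k) {x : X.V}
    (hx : x ∈ Q j) : (Pi.single (j, k) x : X.F) ∈ X.slots s Q := by
  refine X.mem_slots.2 fun e => ?_
  by_cases he : e = (j, k)
  · subst he; simp [hx, h]
  · simp [Pi.single_eq_of_ne he]

theorem slots_mono {s : I} {Q R : I → Submodule K2 X.V} (h : ∀ j, Q j ≤ R j) :
    X.slots s Q ≤ X.slots s R := fun _ hb =>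
  X.mem_slots.2 fun e => ⟨fun he => h _ ((X.mem_slots.1 hb e).1 he), (X.mem_slots.1 hb e).2⟩

/-! ### The twist: the piece at `s` becomes the cone of `out` -/

/-- Ambient space of both twists: old space, a copy of the old space, slots. -/
abbrev W := X.V × X.V × X.F

/-- Inclusion of the old space. -/
def i0 : X.V →ₗ[K2] X.W := LinearMap.inl K2 _ _

/-- Inclusion of the new part. -/
def i1 : X.V × X.F →ₗ[K2] X.W := LinearMap.inr K2 _ _

@[simp] theorem i0_apply (x : X.V) : X.i0 x = (x, 0, 0) := rfl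
@[simp] theorem i1_apply (y : X.V × X.F) : X.i1 y = (0, y) := rfl

/-- `(x, u, b) ↦ in b + t u`. -/
def eps (s : I) : X.W →ₗ[K2] X.V :=
  (X.inn s).comp ((LinearMap.snd K2 _ _).comp (LinearMap.snd K2 _ _)) +
    (X.t s).comp ((LinearMap.fst K2 _ _).comp (LinearMap.snd K2 _ _))

@[simp] theorem eps_apply (s : I) (z : X.W) : X.eps s z = X.inn s z.2.2 + X.t s z.2.1 := rfl

/-- An operator of the old space, extended by zero. -/
def old (f : X.V →ₗ[K2] X.V) : X.W →ₗ[K2] X.W := X.i0.comp (f.comp (LinearMap.fst K2 _ _))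

@[simp] theorem old_apply (f : X.V →ₗ[K2] X.V) (z : X.W) : X.old f z = (f z.1, 0, 0) := rfl

def Td (s i : I) : X.W →ₗ[K2] X.W :=
  if i = s then X.i1.comp ((LinearMap.prod ((X.d s).comp (LinearMap.fst K2 _ _))
    (X.dF.comp (LinearMap.snd K2 _ _) + (X.out s).comp (LinearMap.fst K2 _ _))).comp
      (LinearMap.snd K2 _ _))
  else X.old (X.d i)

def Ta (s i j : I) (k : Bool) : X.W →ₗ[K2] X.W :=
  if i = s then X.i0.comp ((X.a s j k).comp (X.eps s))
  else if j = s then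
    (if G.adj i s k then X.i1.comp ((LinearMap.inr K2 _ _).comp
      ((LinearMap.single K2 (fun _ : I × Bool => X.V) (i, k)).comp (LinearMap.fst K2 _ _))) else 0)
  else X.old (X.a i j k)

def Tt (s i : I) : X.W →ₗ[K2] X.W :=
  if i = s then X.i1.comp ((LinearMap.inl K2 _ _).comp (X.eps s)) else X.old (X.t i)

/-- Graded pieces of the twists: at `s` the copy of the old space sits in degree `n + δ`. -/
def Tp (s : I) (δ : ℤ) (Q : I → ℤ → Submodule K2 X.V) (i : I) (n : ℤ) : Submodule K2 X.W :=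
  if i = s then (⊥ : Submodule K2 X.V).prod ((Q s (n + δ)).prod (X.slots s fun j => Q j n))
  else (Q i n).prod ⊥

theorem Td_self (s : I) (z : X.W) :
    X.Td s s z = (0, X.d s z.2.1, X.dF z.2.2 + X.out s z.2.1) := by simp [Td]
theorem Td_ne {s i : I} (h : i ≠ s) (z : X.W) : X.Td s i z = (X.d i z.1, 0, 0) := by simp [Td, h]
theorem Ta_self (s j : I) (k : Bool) (z : X.W) :
    X.Ta s s j k z = (X.a s j k (X.eps s z), 0, 0) := by simp [Ta]
theorem Ta_in {s i : I} {k : Bool} (h : G.adj i s k) (z : X.W) :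
    X.Ta s i s k z = (0, 0, Pi.single (i, k) z.1) := by
  have : i ≠ s := fun e => G.irr s k (e ▸ h)
  simp [Ta, h, this]
theorem Ta_ne {s i j : I} (hi : i ≠ s) (hj : j ≠ s) (k : Bool) (z : X.W) :
    X.Ta s i j k z = (X.a i j k z.1, 0, 0) := by simp [Ta, hi, hj]
theorem Ta_zero {s i j : I} {k : Bool} (h : ¬ G.adj i j k) : X.Ta s i j k = 0 := by
  unfold Ta
  split_ifs with h1 h2 h3
  · subst h1; simp [X.a0 _ _ _ h]
  · subst h2; exact absurd h3 h
  · rfl
  · ext <;> simp [X.a0 _ _ _ h]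
theorem Tt_self (s : I) (z : X.W) : X.Tt s s z = (0, X.eps s z, 0) := by simp [Tt]
theorem Tt_ne {s i : I} (h : i ≠ s) (z : X.W) : X.Tt s i z = (X.t i z.1, 0, 0) := by simp [Tt, h]
theorem mem_Tp_self {s : I} {δ : ℤ} {Q : I → ℤ → Submodule K2 X.V} {n : ℤ} {z : X.W} :
    z ∈ X.Tp s δ Q s n ↔ z.1 = 0 ∧ z.2.1 ∈ Q s (n + δ) ∧ z.2.2 ∈ X.slots s fun j => Q j n := by
  simp [Tp, Submodule.mem_prod]
theorem mem_Tp_ne {s i : I} (h : i ≠ s) {δ : ℤ} {Q : I → ℤ → Submodule K2 X.V} {n : ℤ} {z : X.W} :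
    z ∈ X.Tp s δ Q i n ↔ z.1 ∈ Q i n ∧ z.2 = 0 := by
  simp [Tp, h, Submodule.mem_prod]

theorem Tp_mono (s : I) (δ : ℤ) {Q R : I → ℤ → Submodule K2 X.V} (h : ∀ i n, Q i n ≤ R i n) (i : I)
    (n : ℤ) : X.Tp s δ Q i n ≤ X.Tp s δ R i n := by
  intro z hz
  by_cases hi : i = s
  · subst hi
    rw [mem_Tp_self] at hz ⊢
    exact ⟨hz.1, h _ _ hz.2.1, X.slots_mono (fun j => h j n) hz.2.2⟩
  · rw [X.mem_Tp_ne hi] at hz ⊢
    exact ⟨h _ _ hz.1, hz.2⟩

theorem eps_Td (s : I) (z : X.W) : X.eps s (X.Td s s z) = X.d s (X.eps s z) := by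
  simp only [Td_self, eps_apply, map_add, inn_out, d_inn]
  rw [add_assoc, add_assoc, add_self2, add_zero]

/-- A family of subspaces closed under all structure maps. -/
structure Cl (Q : I → ℤ → Submodule K2 X.V) : Prop where
  d : ∀ i n x, x ∈ Q i n → X.d i x ∈ Q i (n + 1)
  a : ∀ i j k n x, x ∈ Q i n → X.a i j k x ∈ Q j n
  t : ∀ i n x, x ∈ Q i (n + 1) → X.t i x ∈ Q i n

theorem clP : X.Cl X.P := ⟨X.dP, X.aP, X.tP⟩
theorem clN : X.Cl X.N := ⟨X.dN, X.aN, X.tN⟩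

variable {X} in
theorem Cl.eps {Q : I → ℤ → Submodule K2 X.V} (h : X.Cl Q) {s : I} {n : ℤ} {z : X.W}
    (hz : z ∈ X.Tp s 1 Q s n) : X.eps s z ∈ Q s n := by
  rw [mem_Tp_self] at hz
  exact add_mem (X.inn_mem hz.2.2 fun j k x hx => h.a _ _ _ _ _ hx) (h.t _ _ _ hz.2.1)

variable {X} in
theorem Cl.Td {Q : I → ℤ → Submodule K2 X.V} (h : X.Cl Q) (s i : I) (n : ℤ) (z : X.W)
    (hz : z ∈ X.Tp s 1 Q i n) : X.Td s i z ∈ X.Tp s 1 Q i (n + 1) := by
  by_cases hi : i = s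
  · subst hi
    rw [mem_Tp_self] at hz ⊢
    rw [Td_self]
    exact ⟨rfl, h.d _ _ _ hz.2.1, add_mem (X.dF_mem hz.2.2 fun j x hx => h.d _ _ _ hx)
      (X.out_mem fun j k => h.a _ _ _ _ _ hz.2.1)⟩
  · rw [X.mem_Tp_ne hi] at hz ⊢
    rw [X.Td_ne hi]
    exact ⟨h.d _ _ _ hz.1, rfl⟩

variable {X} in
theorem Cl.Ta {Q : I → ℤ → Submodule K2 X.V} (h : X.Cl Q) (s i j : I) (k : Bool) (n : ℤ) (z : X.W)
    (hz : z ∈ X.Tp s 1 Q i n) : X.Ta s i j k z ∈ X.Tp s 1 Q j n := by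
  by_cases hij : G.adj i j k
  swap
  · simp [X.Ta_zero hij]
  by_cases hi : i = s
  · subst hi
    have hj : j ≠ i := fun e => G.irr i k (e ▸ hij)
    rw [Ta_self, X.mem_Tp_ne hj]
    exact ⟨h.a _ _ _ _ _ (h.eps hz), rfl⟩
  · rw [X.mem_Tp_ne hi] at hz
    by_cases hj : j = s
    · subst hj
      rw [X.Ta_in hij, mem_Tp_self]
      exact ⟨rfl, zero_mem _, X.single_mem (G.symm _ _ _ hij) hz.1⟩
    · rw [X.Ta_ne hi hj, X.mem_Tp_ne hj]
      exact ⟨h.a _ _ _ _ _ hz.1, rfl⟩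

variable {X} in
theorem Cl.Tt {Q : I → ℤ → Submodule K2 X.V} (h : X.Cl Q) (s i : I) (n : ℤ) (z : X.W)
    (hz : z ∈ X.Tp s 1 Q i (n + 1)) : X.Tt s i z ∈ X.Tp s 1 Q i n := by
  by_cases hi : i = s
  · subst hi
    rw [Tt_self, mem_Tp_self]
    exact ⟨rfl, h.eps hz, zero_mem _⟩
  · rw [X.mem_Tp_ne hi] at hz ⊢
    rw [X.Tt_ne hi]
    exact ⟨h.t _ _ _ hz.1, rfl⟩

theorem T_da (s i j : I) (k : Bool) (z : X.W) :
    X.Td s j (X.Ta s i j k z) = X.Ta s i j k (X.Td s i z) := by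
  by_cases hij : G.adj i j k
  swap
  · simp [X.Ta_zero hij]
  by_cases hi : i = s
  · subst hi
    have hj : j ≠ i := fun e => G.irr i k (e ▸ hij)
    rw [Ta_self, Ta_self, X.Td_ne hj, eps_Td, X.da]
  · by_cases hj : j = s
    · subst hj
      rw [X.Ta_in hij, X.Ta_in hij, Td_self, X.Td_ne hi]
      simp [dF_single]
    · rw [X.Ta_ne hi hj, X.Ta_ne hi hj, X.Td_ne hj, X.Td_ne hi, X.da]

theorem T_dt (s i : I) (z : X.W) : X.Td s i (X.Tt s i z) + X.Tt s i (X.Td s i z) =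
    ∑ e : I × Bool, X.Ta s e.1 i e.2 (X.Ta s i e.1 e.2 z) := by
  by_cases hi : i = s
  · subst hi
    have h : ∀ e : I × Bool, X.Ta i e.1 i e.2 (X.Ta i i e.1 e.2 z) =
        X.i1 (0, Pi.single e (X.out i (X.eps i z) e)) := by
      intro e
      by_cases he : G.adj e.1 i e.2
      · rw [X.Ta_in he, Ta_self]; rfl
      · have he' : ¬ G.adj i e.1 e.2 := fun h => he (G.symm _ _ _ h)
        simp [X.Ta_zero he, X.a0 _ _ _ he']; rfl
    rw [Finset.sum_congr rfl fun e _ => h e, ← map_sum, Tt_self, Tt_self, eps_Td, Td_self]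
    ext e <;> simp [add_self2, Prod.fst_sum, Prod.snd_sum]
  · have h : ∀ e : I × Bool, X.Ta s e.1 i e.2 (X.Ta s i e.1 e.2 z) =
        X.i0 (X.a e.1 i e.2 (X.a i e.1 e.2 z.1)) := by
      rintro ⟨j, k⟩
      by_cases he : G.adj i j k
      · by_cases hj : j = s
        · subst hj
          simp [X.Ta_in he, Ta_self, inn_single]
        · simp [X.Ta_ne hj hi, X.Ta_ne hi hj]
      · simp [X.Ta_zero he, X.a0 _ _ _ he]; rfl
    rw [Finset.sum_congr rfl fun e _ => h e, ← map_sum, ← X.dt, X.Tt_ne hi, X.Tt_ne hi, X.Td_ne hi,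
      X.Td_ne hi]
    simp

/-- The twist at `s`. -/
def T (s : I) : Obj G where
  V := X.W
  d := X.Td s
  a := X.Ta s
  t := X.Tt s
  P := X.Tp s 1 X.P
  N := X.Tp s 1 X.N
  NP := X.Tp_mono s 1 X.NP
  a0 := fun _ _ _ h => X.Ta_zero h
  dd := fun i z => by
    by_cases hi : i = s
    · subst hi; simp [Td_self, X.dd, dF_dF, dF_out, add_self2]
    · simp [X.Td_ne hi, X.dd]
  da := X.T_da s
  dt := X.T_dt s
  dP := X.clP.Td s
  dN := X.clN.Td s
  aP := X.clP.Ta s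
  aN := X.clN.Ta s
  tP := X.clP.Tt s
  tN := X.clN.Tt s

/-! ### The inverse twist: the piece at `s` becomes the fibre of `inn` -/

/-- `v ↦ (0, t v, out v)`. -/
def eta (s : I) : X.V →ₗ[K2] X.W := X.i1.comp (LinearMap.prod (X.t s) (X.out s))

@[simp] theorem eta_apply (s : I) (x : X.V) : X.eta s x = (0, X.t s x, X.out s x) := rfl

def Ud (s i : I) : X.W →ₗ[K2] X.W :=
  if i = s then X.i1.comp ((LinearMap.prod
    ((X.inn s).comp (LinearMap.snd K2 _ _) + (X.d s).comp (LinearMap.fst K2 _ _))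
    (X.dF.comp (LinearMap.snd K2 _ _))).comp (LinearMap.snd K2 _ _))
  else X.old (X.d i)

def Ua (s i j : I) (k : Bool) : X.W →ₗ[K2] X.W :=
  if i = s then
    (if G.adj s j k then X.i0.comp ((LinearMap.proj (j, k) : X.F →ₗ[K2] X.V).comp
      ((LinearMap.snd K2 _ _).comp (LinearMap.snd K2 _ _))) else 0)
  else if j = s then (X.eta s).comp ((X.a i s k).comp (LinearMap.fst K2 _ _))
  else X.old (X.a i j k)

def Ut (s i : I) : X.W →ₗ[K2] X.W :=
  if i = s then (X.eta s).comp ((LinearMap.fst K2 _ _).comp (LinearMap.snd K2 _ _))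
  else X.old (X.t i)

theorem Ud_self (s : I) (z : X.W) :
    X.Ud s s z = (0, X.inn s z.2.2 + X.d s z.2.1, X.dF z.2.2) := by simp [Ud]
theorem Ud_ne {s i : I} (h : i ≠ s) (z : X.W) : X.Ud s i z = (X.d i z.1, 0, 0) := by simp [Ud, h]
theorem Ua_out {s j : I} {k : Bool} (h : G.adj s j k) (z : X.W) :
    X.Ua s s j k z = (z.2.2 (j, k), 0, 0) := by simp [Ua, h]
theorem Ua_in {s i : I} (h : i ≠ s) (k : Bool) (z : X.W) :
    X.Ua s i s k z = X.eta s (X.a i s k z.1) := by simp [Ua, h]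
theorem Ua_ne {s i j : I} (hi : i ≠ s) (hj : j ≠ s) (k : Bool) (z : X.W) :
    X.Ua s i j k z = (X.a i j k z.1, 0, 0) := by simp [Ua, hi, hj]
theorem Ua_zero {s i j : I} {k : Bool} (h : ¬ G.adj i j k) : X.Ua s i j k = 0 := by
  unfold Ua
  split_ifs with h1 h2 h3
  · subst h1; exact absurd h2 h
  · rfl
  · subst h3; simp [X.a0 _ _ _ h]
  · ext <;> simp [X.a0 _ _ _ h]
theorem Ut_self (s : I) (z : X.W) : X.Ut s s z = X.eta s z.2.1 := by simp [Ut]
theorem Ut_ne {s i : I} (h : i ≠ s) (z : X.W) : X.Ut s i z = (X.t i z.1, 0, 0) := by simp [Ut, h]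

theorem Ud_eta (s : I) (x : X.V) : X.Ud s s (X.eta s x) = X.eta s (X.d s x) := by
  simp only [Ud_self, eta_apply, inn_out, dF_out]
  rw [add_comm (X.d s (X.t s x)), add_assoc, add_self2, add_zero]

variable {X} in
theorem Cl.eta {Q : I → ℤ → Submodule K2 X.V} (h : X.Cl Q) {s : I} {n : ℤ} {x : X.V}
    (hx : x ∈ Q s n) : X.eta s x ∈ X.Tp s (-1) Q s n := by
  rw [mem_Tp_self]
  exact ⟨rfl, h.t _ _ _ (by simpa using hx), X.out_mem fun j k => h.a _ _ _ _ _ hx⟩

variable {X} in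
theorem Cl.Ud {Q : I → ℤ → Submodule K2 X.V} (h : X.Cl Q) (s i : I) (n : ℤ) (z : X.W)
    (hz : z ∈ X.Tp s (-1) Q i n) : X.Ud s i z ∈ X.Tp s (-1) Q i (n + 1) := by
  by_cases hi : i = s
  · subst hi
    rw [mem_Tp_self] at hz ⊢
    rw [Ud_self]
    refine ⟨rfl, ?_, X.dF_mem hz.2.2 fun j x hx => h.d _ _ _ hx⟩
    have e1 : n + 1 + -1 = n := by ring
    have e2 : n + -1 + 1 = n := by ring
    rw [e1]
    exact add_mem (X.inn_mem hz.2.2 fun j k x hx => h.a _ _ _ _ _ hx) (e2 ▸ h.d _ _ _ hz.2.1)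
  · rw [X.mem_Tp_ne hi] at hz ⊢
    rw [X.Ud_ne hi]
    exact ⟨h.d _ _ _ hz.1, rfl⟩

variable {X} in
theorem Cl.Ua {Q : I → ℤ → Submodule K2 X.V} (h : X.Cl Q) (s i j : I) (k : Bool) (n : ℤ) (z : X.W)
    (hz : z ∈ X.Tp s (-1) Q i n) : X.Ua s i j k z ∈ X.Tp s (-1) Q j n := by
  by_cases hij : G.adj i j k
  swap
  · simp [X.Ua_zero hij]
  by_cases hi : i = s
  · subst hi
    have hj : j ≠ i := fun e => G.irr i k (e ▸ hij)
    rw [X.Ua_out hij, X.mem_Tp_ne hj]
    rw [mem_Tp_self] at hz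
    exact ⟨(X.mem_slots.1 hz.2.2 (j, k)).1 hij, rfl⟩
  · rw [X.mem_Tp_ne hi] at hz
    by_cases hj : j = s
    · subst hj
      rw [X.Ua_in hi]
      exact h.eta (h.a _ _ _ _ _ hz.1)
    · rw [X.Ua_ne hi hj, X.mem_Tp_ne hj]
      exact ⟨h.a _ _ _ _ _ hz.1, rfl⟩

variable {X} in
theorem Cl.Ut {Q : I → ℤ → Submodule K2 X.V} (h : X.Cl Q) (s i : I) (n : ℤ) (z : X.W)
    (hz : z ∈ X.Tp s (-1) Q i (n + 1)) : X.Ut s i z ∈ X.Tp s (-1) Q i n := by
  by_cases hi : i = s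
  · subst hi
    rw [mem_Tp_self] at hz
    rw [Ut_self]
    exact h.eta (by simpa using hz.2.1)
  · rw [X.mem_Tp_ne hi] at hz ⊢
    rw [X.Ut_ne hi]
    exact ⟨h.t _ _ _ hz.1, rfl⟩

theorem U_da (s i j : I) (k : Bool) (z : X.W) :
    X.Ud s j (X.Ua s i j k z) = X.Ua s i j k (X.Ud s i z) := by
  by_cases hij : G.adj i j k
  swap
  · simp [X.Ua_zero hij]
  by_cases hi : i = s
  · subst hi
    have hj : j ≠ i := fun e => G.irr i k (e ▸ hij)
    rw [X.Ua_out hij, X.Ua_out hij, X.Ud_ne hj, Ud_self]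
    rfl
  · by_cases hj : j = s
    · subst hj
      rw [X.Ua_in hi, X.Ua_in hi, Ud_eta, X.Ud_ne hi, X.da]
    · rw [X.Ua_ne hi hj, X.Ua_ne hi hj, X.Ud_ne hj, X.Ud_ne hi, X.da]

theorem U_dt (s i : I) (z : X.W) : X.Ud s i (X.Ut s i z) + X.Ut s i (X.Ud s i z) =
    ∑ e : I × Bool, X.Ua s e.1 i e.2 (X.Ua s i e.1 e.2 z) := by
  by_cases hi : i = s
  · subst hi
    have h : ∀ e : I × Bool, X.Ua i e.1 i e.2 (X.Ua i i e.1 e.2 z) =
        X.eta i (X.a e.1 i e.2 (z.2.2 e)) := by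
      intro e
      by_cases he : G.adj i e.1 e.2
      · have hj : e.1 ≠ i := fun h => G.irr i e.2 (h ▸ he)
        rw [X.Ua_out he, X.Ua_in hj]
      · have he' : ¬ G.adj e.1 i e.2 := fun h => he (G.symm _ _ _ h)
        simp [X.Ua_zero he, X.a0 _ _ _ he']; rfl
    rw [Finset.sum_congr rfl fun e _ => h e, ← map_sum, ← inn_apply, Ut_self, Ut_self, Ud_eta, Ud_self,
      ← map_add]
    congr 1
    simp only
    rw [add_comm (X.inn i _), add_add_cancel2]
  · have h : ∀ e : I × Bool, X.Ua s e.1 i e.2 (X.Ua s i e.1 e.2 z) =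
        X.i0 (X.a e.1 i e.2 (X.a i e.1 e.2 z.1)) := by
      rintro ⟨j, k⟩
      by_cases he : G.adj i j k
      · by_cases hj : j = s
        · subst hj
          simp [X.Ua_in hi, X.Ua_out (G.symm _ _ _ he)]
        · simp [X.Ua_ne hj hi, X.Ua_ne hi hj]
      · simp [X.Ua_zero he, X.a0 _ _ _ he]; rfl
    rw [Finset.sum_congr rfl fun e _ => h e, ← map_sum, ← X.dt, X.Ut_ne hi, X.Ut_ne hi, X.Ud_ne hi,
      X.Ud_ne hi]
    simp

/-- The inverse twist at `s`. -/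
def U (s : I) : Obj G where
  V := X.W
  d := X.Ud s
  a := X.Ua s
  t := X.Ut s
  P := X.Tp s (-1) X.P
  N := X.Tp s (-1) X.N
  NP := X.Tp_mono s (-1) X.NP
  a0 := fun _ _ _ h => X.Ua_zero h
  dd := fun i z => by
    by_cases hi : i = s
    · subst hi; simp [Ud_self, X.dd, dF_dF, d_inn, add_self2]
    · simp [X.Ud_ne hi, X.dd]
  da := X.U_da s
  dt := X.U_dt s
  dP := X.clP.Ud s
  dN := X.clN.Ud s
  aP := X.clP.Ua s
  aN := X.clN.Ua s
  tP := X.clP.Ut s
  tN := X.clN.Ut s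

/-- The same operators with other graded pieces. -/
def re (P N : I → ℤ → Submodule K2 X.V) (hP : X.Cl P) (hN : X.Cl N) (h : ∀ i n, N i n ≤ P i n) :
    Obj G :=
  { X with
    P := P, N := N, NP := h, dP := hP.d, dN := hN.d, aP := hP.a, aN := hN.a, tP := hP.t, tN := hN.t }

end Obj

end Crest.Agent.R175
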