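import Crest.Agent.R175.PD0

/-! Cohomology, morphisms, cones, functoriality of the twists, truncations, socle filtration,
quasi-isomorphism classes, colimits. -/

set_option autoImplicit false
set_option linter.unusedSectionVars false

open scoped Classical

noncomputable section

namespace Crest.Agent.R175

/-- Dimension of the image of `A` modulo `B`. -/
def rdim {V : Type} [AddCommGroup V] [Module K2 V] (A B : Submodule K2 V) : ℕ :=
  Module.finrank K2 (A.map B.mkQ)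

/-- The image of `A` modulo `B` is finite dimensional. -/
def FinR {V : Type} [AddCommGroup V] [Module K2 V] (A B : Submodule K2 V) : Prop :=
  Module.Finite K2 (A.map B.mkQ)

variable {I : Type} [Fintype I] [DecidableEq I] {G : Gph I}

namespace Obj

variable (X : Obj G)

/-- Cocycles. -/
def Z (i : I) (n : ℤ) : Submodule K2 X.V := X.P i n ⊓ (X.N i (n + 1)).comap (X.d i)

/-- Coboundaries. -/
def Bd (i : I) (n : ℤ) : Submodule K2 X.V := (X.P i (n - 1)).map (X.d i) ⊔ X.N i n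

/-- Dimension of the cohomology. -/
def hd (i : I) (n : ℤ) : ℕ := rdim (X.Z i n) (X.Bd i n)

/-- No cohomology at vertex `i` in degree `n`. -/
def Acyc (i : I) (n : ℤ) : Prop := X.Z i n ≤ X.Bd i n

/-- Finite dimensional cohomology. -/
def Fin : Prop := ∀ i n, FinR (X.Z i n) (X.Bd i n)

theorem mem_Z {i : I} {n : ℤ} {x : X.V} : x ∈ X.Z i n ↔ x ∈ X.P i n ∧ X.d i x ∈ X.N i (n + 1) :=
  Iff.rfl

theorem mem_Bd {i : I} {n : ℤ} {x : X.V} :
    x ∈ X.Bd i n ↔ ∃ y ∈ X.P i (n - 1), X.d i y + x ∈ X.N i n := by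
  constructor
  · intro h
    obtain ⟨_, ⟨y, hy, rfl⟩, z, hz, rfl⟩ := Submodule.mem_sup.1 h
    exact ⟨y, hy, by rwa [add_add_cancel2]⟩
  · rintro ⟨y, hy, h⟩
    exact Submodule.mem_sup.2 ⟨_, ⟨y, hy, rfl⟩, _, h, add_add_cancel2 _ _⟩

theorem N_le_Bd (i : I) (n : ℤ) : X.N i n ≤ X.Bd i n := le_sup_right

theorem Z_le_P (i : I) (n : ℤ) : X.Z i n ≤ X.P i n := inf_le_left

theorem d_mem_P {i : I} {n : ℤ} {y : X.V} (hy : y ∈ X.P i (n - 1)) : X.d i y ∈ X.P i n := by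
  simpa using X.dP i _ y hy

theorem d_mem_Bd {i : I} {n : ℤ} {y : X.V} (hy : y ∈ X.P i n) : X.d i y ∈ X.Bd i (n + 1) :=
  X.mem_Bd.2 ⟨y, by simpa using hy, by simp [add_self2]⟩

theorem Bd_le_Z (i : I) (n : ℤ) : X.Bd i n ≤ X.Z i n := by
  refine sup_le ?_ fun x hx => ⟨X.NP _ _ hx, X.dN _ _ _ hx⟩
  rintro _ ⟨y, hy, rfl⟩
  exact ⟨X.d_mem_P hy, by simp [X.dd]⟩

theorem a_mem_Z {i : I} {n : ℤ} {x : X.V} (j : I) (k : Bool) (hx : x ∈ X.Z i n) :
    X.a i j k x ∈ X.Z j n :=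
  ⟨X.aP _ _ _ _ _ hx.1, by
    have := X.aN _ j k _ _ hx.2
    rwa [← X.da] at this⟩

theorem a_mem_Bd {i : I} {n : ℤ} {x : X.V} (j : I) (k : Bool) (hx : x ∈ X.Bd i n) :
    X.a i j k x ∈ X.Bd j n := by
  obtain ⟨y, hy, h⟩ := X.mem_Bd.1 hx
  refine X.mem_Bd.2 ⟨X.a i j k y, X.aP _ _ _ _ _ hy, ?_⟩
  rw [X.da, ← map_add]
  exact X.aN _ _ _ _ _ h

/-- Socle filtration of the cohomology. -/
def Soc : ℕ → I → ℤ → Submodule K2 X.V
  | 0 => X.Bd
  | m + 1 => fun i n => X.Z i n ⊓ ⨅ e : I × Bool, (Soc m e.1 n).comap (X.a i e.1 e.2)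

theorem mem_Soc_succ {m : ℕ} {i : I} {n : ℤ} {x : X.V} :
    x ∈ X.Soc (m + 1) i n ↔ x ∈ X.Z i n ∧ ∀ j k, X.a i j k x ∈ X.Soc m j n := by
  simp [Soc, Submodule.mem_iInf]

/-- The cohomology in degree `n` is a nilpotent module. -/
def NilAt (n : ℤ) : Prop := ∃ m, ∀ i, X.Z i n ≤ X.Soc m i n

/-- The arrows into `i` are jointly surjective on the cohomology of degree `n`. -/
def InSurj (i : I) (n : ℤ) : Prop :=
  ∀ z ∈ X.Z i n, ∃ b ∈ X.slots i fun j => X.Z j n, X.inn i b + z ∈ X.Bd i n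

/-- A submodule of the cohomology in degree `e`. -/
structure SubM (e : ℤ) where
  A : I → Submodule K2 X.V
  lo : ∀ i, X.Bd i e ≤ A i
  hi : ∀ i, A i ≤ X.Z i e
  cl : ∀ i j k x, x ∈ A i → X.a i j k x ∈ A j

/-- The zero submodule. -/
def botM (e : ℤ) : X.SubM e := ⟨fun i => X.Bd i e, fun _ => le_rfl, fun i => X.Bd_le_Z i e,
  fun _ j k _ hx => X.a_mem_Bd j k hx⟩

/-- The whole cohomology. -/
def topM (e : ℤ) : X.SubM e := ⟨fun i => X.Z i e, fun i => X.Bd_le_Z i e, fun _ => le_rfl,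
  fun _ j k _ hx => X.a_mem_Z j k hx⟩

variable {X} in
/-- Everything below `e`, the submodule in degree `e`, nothing above. -/
def SubM.cut {e : ℤ} (A : X.SubM e) (i : I) (n : ℤ) : Submodule K2 X.V :=
  if n < e then X.P i n else if n = e then A.A i else X.N i n

variable {X} in
theorem SubM.cut_lt {e : ℤ} (A : X.SubM e) (i : I) {n : ℤ} (h : n < e) : A.cut i n = X.P i n := by
  simp [SubM.cut, h]

variable {X} in
theorem SubM.cut_eq {e : ℤ} (A : X.SubM e) (i : I) : A.cut i e = A.A i := by simp [SubM.cut]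

variable {X} in
theorem SubM.cut_gt {e : ℤ} (A : X.SubM e) (i : I) {n : ℤ} (h : e < n) : A.cut i n = X.N i n := by
  simp [SubM.cut, h.ne', not_lt.2 h.le]

variable {X} in
theorem SubM.N_le_cut {e : ℤ} (A : X.SubM e) (i : I) (n : ℤ) : X.N i n ≤ A.cut i n := by
  rcases lt_trichotomy n e with h | rfl | h
  · rw [A.cut_lt i h]; exact X.NP i n
  · rw [A.cut_eq]; exact (X.N_le_Bd i n).trans (A.lo i)
  · rw [A.cut_gt i h]

variable {X} in
theorem SubM.cut_le_P {e : ℤ} (A : X.SubM e) (i : I) (n : ℤ) : A.cut i n ≤ X.P i n := by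
  rcases lt_trichotomy n e with h | rfl | h
  · rw [A.cut_lt i h]
  · rw [A.cut_eq]; exact (A.hi i).trans (X.Z_le_P i n)
  · rw [A.cut_gt i h]; exact X.NP i n

variable {X} in
theorem SubM.cl_cut {e : ℤ} (A : X.SubM e) : X.Cl A.cut := by
  refine ⟨fun i n x hx => ?_, fun i j k n x hx => ?_, fun i n x hx => ?_⟩
  · rcases lt_trichotomy n e with h | rfl | h
    · rw [A.cut_lt i h] at hx
      rcases lt_or_eq_of_le (show n + 1 ≤ e by omega) with h' | rfl
      · rw [A.cut_lt i h']; exact X.dP _ _ _ hx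
      · rw [A.cut_eq]; exact A.lo i (X.d_mem_Bd hx)
    · rw [A.cut_eq] at hx
      rw [A.cut_gt i (by omega)]
      exact (A.hi i hx).2
    · rw [A.cut_gt i h] at hx
      rw [A.cut_gt i (by omega)]
      exact X.dN _ _ _ hx
  · rcases lt_trichotomy n e with h | rfl | h
    · rw [A.cut_lt _ h] at hx ⊢; exact X.aP _ _ _ _ _ hx
    · rw [A.cut_eq] at hx ⊢; exact A.cl _ _ _ _ hx
    · rw [A.cut_gt _ h] at hx ⊢; exact X.aN _ _ _ _ _ hx
  · by_cases h : n < e
    · rw [A.cut_lt _ h]; exact X.tP _ _ _ (A.cut_le_P _ _ hx)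
    · rw [A.cut_gt _ (by omega)] at hx
      exact A.N_le_cut _ _ (X.tN _ _ _ hx)

variable {X} in
/-- The subobject with the cohomology of `X` below `e`, the submodule in degree `e`, nothing above. -/
def SubM.sub {e : ℤ} (A : X.SubM e) : Obj G := X.re A.cut X.N A.cl_cut X.clN A.N_le_cut

variable {X} in
/-- The quotient by that subobject. -/
def SubM.quo {e : ℤ} (A : X.SubM e) : Obj G := X.re X.P A.cut X.clP A.cl_cut A.cut_le_P

/-- The twist (`true`) or inverse twist (`false`). -/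
def tw (X : Obj G) : I × Bool → Obj G
  | (i, true) => X.T i
  | (i, false) => X.U i

/-- A word in the twists and their inverses; the first letter acts first. -/
def Gw (l : List (I × Bool)) (X : Obj G) : Obj G := l.foldl tw X

/-- A word in the twists. -/
abbrev Tw (l : List I) (X : Obj G) : Obj G := Gw (l.map fun i => (i, true)) X

/-- A word in the inverse twists. -/
abbrev Uw (l : List I) (X : Obj G) : Obj G := Gw (l.map fun i => (i, false)) X

theorem Gw_nil : Gw [] X = X := rfl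
theorem Gw_cons (x : I × Bool) (l : List (I × Bool)) : Gw (x :: l) X = Gw l (X.tw x) := rfl
theorem Gw_append (l l' : List (I × Bool)) : Gw (l ++ l') X = Gw l' (Gw l X) := List.foldl_append
theorem Tw_nil : Tw [] X = X := rfl
theorem Tw_cons (i : I) (l : List I) : Tw (i :: l) X = Tw l (X.T i) := rfl
theorem Tw_append (l l' : List I) : Tw (l ++ l') X = Tw l' (Tw l X) := by
  rw [Tw, List.map_append, Gw_append]
theorem Uw_nil : Uw [] X = X := rfl
theorem Uw_cons (i : I) (l : List I) : Uw (i :: l) X = Uw l (X.U i) := rfl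
theorem Uw_append (l l' : List I) : Uw (l ++ l') X = Uw l' (Uw l X) := by
  rw [Uw, List.map_append, Gw_append]

end Obj

/-- The simple object at the vertex `o`, in degree zero. -/
def simple (G : Gph I) (o : I) : Obj G where
  V := K2
  d := fun _ => 0
  a := fun _ _ _ => 0
  t := fun _ => 0
  P := fun i n => if i = o ∧ n = 0 then ⊤ else ⊥
  N := fun _ _ => ⊥
  NP := fun _ _ => bot_le
  a0 := fun _ _ _ _ => rfl
  dd := fun _ _ => rfl
  da := fun _ _ _ _ => rfl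
  dt := fun _ _ => by simp
  dP := fun _ _ _ _ => zero_mem _
  dN := fun _ _ _ _ => zero_mem _
  aP := fun _ _ _ _ _ _ => zero_mem _
  aN := fun _ _ _ _ _ _ => zero_mem _
  tP := fun _ _ _ _ => zero_mem _
  tN := fun _ _ _ _ => zero_mem _

/-- A strict morphism. -/
@[ext] structure Hom (X Y : Obj G) where
  f : I → X.V →ₗ[K2] Y.V
  d : ∀ i x, f i (X.d i x) = Y.d i (f i x)
  a : ∀ i j k x, f j (X.a i j k x) = Y.a i j k (f i x)
  t : ∀ i x, f i (X.t i x) = Y.t i (f i x)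
  P : ∀ i n x, x ∈ X.P i n → f i x ∈ Y.P i n
  N : ∀ i n x, x ∈ X.N i n → f i x ∈ Y.N i n

namespace Hom

variable {X Y W : Obj G}

/-- The identity. -/
def id (X : Obj G) : Hom X X :=
  ⟨fun _ => LinearMap.id, fun _ _ => rfl, fun _ _ _ _ => rfl, fun _ _ => rfl, fun _ _ _ h => h,
    fun _ _ _ h => h⟩

/-- First `φ`, then `ψ`. -/
def comp (φ : Hom X Y) (ψ : Hom Y W) : Hom X W where
  f := fun i => (ψ.f i).comp (φ.f i)
  d := fun i x => by simp [φ.d, ψ.d]
  a := fun i j k x => by simp [φ.a, ψ.a]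
  t := fun i x => by simp [φ.t, ψ.t]
  P := fun i n x h => ψ.P _ _ _ (φ.P _ _ _ h)
  N := fun i n x h => ψ.N _ _ _ (φ.N _ _ _ h)

@[simp] theorem id_f (i : I) (x : X.V) : (Hom.id X).f i x = x := rfl
@[simp] theorem comp_f (φ : Hom X Y) (ψ : Hom Y W) (i : I) (x : X.V) :
    (φ.comp ψ).f i x = ψ.f i (φ.f i x) := rfl

variable (φ : Hom X Y)

/-- Surjective on cohomology. -/
def Surj (i : I) (n : ℤ) : Prop := ∀ y ∈ Y.Z i n, ∃ x ∈ X.Z i n, φ.f i x + y ∈ Y.Bd i n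

/-- Injective on cohomology. -/
def Inj (i : I) (n : ℤ) : Prop := ∀ x ∈ X.Z i n, φ.f i x ∈ Y.Bd i n → x ∈ X.Bd i n

/-- Zero on cohomology. -/
def Null (i : I) (n : ℤ) : Prop := ∀ x ∈ X.Z i n, φ.f i x ∈ Y.Bd i n

/-- Quasi-isomorphism. -/
def QIso : Prop := ∀ i n, φ.Inj i n ∧ φ.Surj i n

theorem mem_Z {i : I} {n : ℤ} {x : X.V} (hx : x ∈ X.Z i n) : φ.f i x ∈ Y.Z i n :=
  ⟨φ.P _ _ _ hx.1, by
    have := φ.N _ _ _ hx.2
    rwa [φ.d] at this⟩

theorem mem_Bd {i : I} {n : ℤ} {x : X.V} (hx : x ∈ X.Bd i n) : φ.f i x ∈ Y.Bd i n := by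
  obtain ⟨y, hy, h⟩ := X.mem_Bd.1 hx
  refine Y.mem_Bd.2 ⟨φ.f i y, φ.P _ _ _ hy, ?_⟩
  rw [← φ.d, ← map_add]
  exact φ.N _ _ _ h

/-- The differential of the cone. -/
def cd (i : I) : X.V × Y.V →ₗ[K2] X.V × Y.V :=
  LinearMap.prod ((X.d i).comp (LinearMap.fst K2 _ _))
    ((Y.d i).comp (LinearMap.snd K2 _ _) + (φ.f i).comp (LinearMap.fst K2 _ _))

@[simp] theorem cd_apply (i : I) (z : X.V × Y.V) :
    φ.cd i z = (X.d i z.1, Y.d i z.2 + φ.f i z.1) := rfl

/-- The mapping cone. -/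
def cone : Obj G where
  V := X.V × Y.V
  d := φ.cd
  a := fun i j k => (X.a i j k).prodMap (Y.a i j k)
  t := fun i => (X.t i).prodMap (Y.t i)
  P := fun i n => (X.P i (n + 1)).prod (Y.P i n)
  N := fun i n => (X.N i (n + 1)).prod (Y.N i n)
  NP := fun i n => Submodule.prod_mono (X.NP _ _) (Y.NP _ _)
  a0 := fun i j k h => by rw [X.a0 i j k h, Y.a0 i j k h]; ext <;> simp
  dd := fun i x => by simp [X.dd, Y.dd, φ.d, add_self2]
  da := fun i j k x => by simp [X.da, Y.da, φ.a]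
  dt := fun i x => by
    refine Prod.ext ?_ ?_
    · simp [Prod.fst_sum, X.dt]
    · simp only [Prod.snd_sum, LinearMap.prodMap_apply, ← Y.dt, cd_apply, Prod.snd_add, map_add, φ.t]
      rw [add_comm (Y.t i (Y.d i x.2)), add_assoc, add_add_cancel2]
  dP := fun i n x h => ⟨X.dP _ _ _ h.1,
    show Y.d i x.2 + φ.f i x.1 ∈ Y.P i (n + 1) from add_mem (Y.dP _ _ _ h.2) (φ.P _ _ _ h.1)⟩
  dN := fun i n x h => ⟨X.dN _ _ _ h.1,
    show Y.d i x.2 + φ.f i x.1 ∈ Y.N i (n + 1) from add_mem (Y.dN _ _ _ h.2) (φ.N _ _ _ h.1)⟩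
  aP := fun i j k n x h => ⟨X.aP _ _ _ _ _ h.1, Y.aP _ _ _ _ _ h.2⟩
  aN := fun i j k n x h => ⟨X.aN _ _ _ _ _ h.1, Y.aN _ _ _ _ _ h.2⟩
  tP := fun i n x h => ⟨X.tP _ _ _ h.1, Y.tP _ _ _ h.2⟩
  tN := fun i n x h => ⟨X.tN _ _ _ h.1, Y.tN _ _ _ h.2⟩

theorem cone_d (i : I) (z : X.V × Y.V) :
    φ.cone.d i z = (X.d i z.1, Y.d i z.2 + φ.f i z.1) := rfl
theorem cone_a (i j : I) (k : Bool) (z : X.V × Y.V) :
    φ.cone.a i j k z = (X.a i j k z.1, Y.a i j k z.2) := rfl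
theorem cone_t (i : I) (z : X.V × Y.V) : φ.cone.t i z = (X.t i z.1, Y.t i z.2) := rfl
theorem mem_cone_P {i : I} {n : ℤ} {z : X.V × Y.V} :
    z ∈ φ.cone.P i n ↔ z.1 ∈ X.P i (n + 1) ∧ z.2 ∈ Y.P i n := Iff.rfl
theorem mem_cone_N {i : I} {n : ℤ} {z : X.V × Y.V} :
    z ∈ φ.cone.N i n ↔ z.1 ∈ X.N i (n + 1) ∧ z.2 ∈ Y.N i n := Iff.rfl

/-- The morphism on the slots. -/
def fF : X.F →ₗ[K2] Y.F := LinearMap.pi fun e => (φ.f e.1).comp (LinearMap.proj e)

@[simp] theorem fF_apply (b : X.F) (e : I × Bool) : φ.fF b e = φ.f e.1 (b e) := rfl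

theorem fF_dF (b : X.F) : φ.fF (X.dF b) = Y.dF (φ.fF b) := by ext e; simp [φ.d]
theorem fF_out (s : I) (x : X.V) : φ.fF (X.out s x) = Y.out s (φ.f s x) := by ext e; simp [φ.a]
theorem f_inn (s : I) (b : X.F) : φ.f s (X.inn s b) = Y.inn s (φ.fF b) := by
  simp [Obj.inn_apply, φ.a]
theorem fF_single (e : I × Bool) (x : X.V) : φ.fF (Pi.single e x) = Pi.single e (φ.f e.1 x) := by
  ext e'
  by_cases h : e' = e
  · subst h; simp
  · simp [Pi.single_eq_of_ne h]
theorem fF_mem {s : I} {Q : I → Submodule K2 X.V} {R : I → Submodule K2 Y.V} {b : X.F}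
    (hb : b ∈ X.slots s Q) (h : ∀ j x, x ∈ Q j → φ.f j x ∈ R j) : φ.fF b ∈ Y.slots s R :=
  Y.mem_slots.2 fun e => ⟨fun he => h _ _ ((X.mem_slots.1 hb e).1 he),
    fun he => by simp [(X.mem_slots.1 hb e).2 he]⟩

/-- The morphism on the ambient space of the twists. -/
def fW (s i : I) : X.W →ₗ[K2] Y.W :=
  if i = s then Y.i1.comp (((φ.f s).prodMap φ.fF).comp (LinearMap.snd K2 _ _))
  else Y.i0.comp ((φ.f i).comp (LinearMap.fst K2 _ _))

theorem fW_self (s : I) (z : X.W) : φ.fW s s z = (0, φ.f s z.2.1, φ.fF z.2.2) := by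
  simp [fW]
theorem fW_ne {s i : I} (h : i ≠ s) (z : X.W) : φ.fW s i z = (φ.f i z.1, 0, 0) := by simp [fW, h]

theorem fW_mem (s : I) (δ : ℤ) {Q : I → ℤ → Submodule K2 X.V} {R : I → ℤ → Submodule K2 Y.V}
    (h : ∀ i n x, x ∈ Q i n → φ.f i x ∈ R i n) (i : I) (n : ℤ) (z : X.W)
    (hz : z ∈ X.Tp s δ Q i n) : φ.fW s i z ∈ Y.Tp s δ R i n := by
  by_cases hi : i = s
  · subst hi
    rw [Obj.mem_Tp_self] at hz ⊢
    rw [fW_self]
    exact ⟨rfl, h _ _ _ hz.2.1, φ.fF_mem hz.2.2 fun j x hx => h _ _ _ hx⟩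
  · rw [Obj.mem_Tp_ne _ hi] at hz ⊢
    rw [φ.fW_ne hi]
    exact ⟨h _ _ _ hz.1, rfl⟩

theorem eps_fW (s : I) (z : X.W) : Y.eps s (φ.fW s s z) = φ.f s (X.eps s z) := by
  simp [fW_self, f_inn, φ.t]

theorem fW_eta (s : I) (x : X.V) : φ.fW s s (X.eta s x) = Y.eta s (φ.f s x) := by
  simp [fW_self, fF_out, φ.t]

/-- Functoriality of the twist. -/
def mapT (s : I) : Hom (X.T s) (Y.T s) where
  f := φ.fW s
  d := fun i (z : X.W) => by
    show φ.fW s i (X.Td s i z) = Y.Td s i (φ.fW s i z)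
    by_cases hi : i = s
    · subst hi; simp [fW_self, Obj.Td_self, φ.d, fF_dF, fF_out]
    · simp [φ.fW_ne hi, Obj.Td_ne _ hi, φ.d]
  a := fun i j k (z : X.W) => by
    show φ.fW s j (X.Ta s i j k z) = Y.Ta s i j k (φ.fW s i z)
    by_cases hij : G.adj i j k
    swap
    · simp [Obj.Ta_zero _ hij]
    by_cases hi : i = s
    · subst hi
      have hj : j ≠ i := fun e => G.irr i k (e ▸ hij)
      rw [Obj.Ta_self, Obj.Ta_self, φ.fW_ne hj, eps_fW, φ.a]
    · by_cases hj : j = s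
      · subst hj
        rw [Obj.Ta_in _ hij, Obj.Ta_in _ hij, fW_self, φ.fW_ne hi]
        simp [fF_single]
      · rw [Obj.Ta_ne _ hi hj, Obj.Ta_ne _ hi hj, φ.fW_ne hi, φ.fW_ne hj, φ.a]
  t := fun i (z : X.W) => by
    show φ.fW s i (X.Tt s i z) = Y.Tt s i (φ.fW s i z)
    by_cases hi : i = s
    · subst hi; rw [Obj.Tt_self, Obj.Tt_self, eps_fW, fW_self]; simp
    · simp [φ.fW_ne hi, Obj.Tt_ne _ hi, φ.t]
  P := φ.fW_mem s 1 φ.P
  N := φ.fW_mem s 1 φ.N

/-- Functoriality of the inverse twist. -/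
def mapU (s : I) : Hom (X.U s) (Y.U s) where
  f := φ.fW s
  d := fun i (z : X.W) => by
    show φ.fW s i (X.Ud s i z) = Y.Ud s i (φ.fW s i z)
    by_cases hi : i = s
    · subst hi; simp [fW_self, Obj.Ud_self, φ.d, fF_dF, f_inn]
    · simp [φ.fW_ne hi, Obj.Ud_ne _ hi, φ.d]
  a := fun i j k (z : X.W) => by
    show φ.fW s j (X.Ua s i j k z) = Y.Ua s i j k (φ.fW s i z)
    by_cases hij : G.adj i j k
    swap
    · simp [Obj.Ua_zero _ hij]
    by_cases hi : i = s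
    · subst hi
      have hj : j ≠ i := fun e => G.irr i k (e ▸ hij)
      rw [Obj.Ua_out _ hij, Obj.Ua_out _ hij, φ.fW_ne hj, fW_self]
      rfl
    · by_cases hj : j = s
      · subst hj
        rw [Obj.Ua_in _ hi, Obj.Ua_in _ hi, fW_eta, φ.fW_ne hi, φ.a]
      · rw [Obj.Ua_ne _ hi hj, Obj.Ua_ne _ hi hj, φ.fW_ne hi, φ.fW_ne hj, φ.a]
  t := fun i (z : X.W) => by
    show φ.fW s i (X.Ut s i z) = Y.Ut s i (φ.fW s i z)
    by_cases hi : i = s
    · subst hi; rw [Obj.Ut_self, Obj.Ut_self, fW_eta, fW_self]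
    · simp [φ.fW_ne hi, Obj.Ut_ne _ hi, φ.t]
  P := φ.fW_mem s (-1) φ.P
  N := φ.fW_mem s (-1) φ.N

theorem mapT_f (s : I) : (φ.mapT s).f = φ.fW s := rfl
theorem mapU_f (s : I) : (φ.mapU s).f = φ.fW s := rfl

/-- Functoriality of one letter. -/
def maptw : (x : I × Bool) → Hom (X.tw x) (Y.tw x)
  | (i, true) => φ.mapT i
  | (i, false) => φ.mapU i

/-- Functoriality of a word. -/
def mapGw : (l : List (I × Bool)) → {X Y : Obj G} → Hom X Y → Hom (Obj.Gw l X) (Obj.Gw l Y)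
  | [], _, _, φ => φ
  | x :: l, _, _, φ => mapGw l (φ.maptw x)

/-- A commuting square induces a morphism of cones. -/
def coneMap {X' Y' : Obj G} (φ' : Hom X' Y') (α : Hom X X') (β : Hom Y Y')
    (h : ∀ i x, β.f i (φ.f i x) = φ'.f i (α.f i x)) : Hom φ.cone φ'.cone where
  f := fun i => (α.f i).prodMap (β.f i)
  d := fun i (z : X.V × Y.V) => by
    show (α.f i (X.d i z.1), β.f i (Y.d i z.2 + φ.f i z.1)) =
      (X'.d i (α.f i z.1), Y'.d i (β.f i z.2) + φ'.f i (α.f i z.1))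
    rw [map_add, α.d, β.d, h]
  a := fun i j k (z : X.V × Y.V) => Prod.ext (α.a _ _ _ _) (β.a _ _ _ _)
  t := fun i (z : X.V × Y.V) => Prod.ext (α.t _ _) (β.t _ _)
  P := fun i n z hz => ⟨α.P _ _ _ hz.1, β.P _ _ _ hz.2⟩
  N := fun i n z hz => ⟨α.N _ _ _ hz.1, β.N _ _ _ hz.2⟩

end Hom

namespace Obj

variable (X : Obj G)

/-- The identity between two objects with the same operators. -/
def reHom {P N P' N' : I → ℤ → Submodule K2 X.V} (hP : X.Cl P) (hN : X.Cl N)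
    (h : ∀ i n, N i n ≤ P i n) (hP' : X.Cl P') (hN' : X.Cl N') (h' : ∀ i n, N' i n ≤ P' i n)
    (h1 : ∀ i n, P i n ≤ P' i n) (h2 : ∀ i n, N i n ≤ N' i n) :
    Hom (X.re P N hP hN h) (X.re P' N' hP' hN' h') :=
  ⟨fun _ => LinearMap.id, fun _ _ => rfl, fun _ _ _ _ => rfl, fun _ _ => rfl,
    fun i n _ hx => h1 i n hx, fun i n _ hx => h2 i n hx⟩

variable {X} in
/-- Inclusion of the subobject. -/
def SubM.incl {e : ℤ} (A : X.SubM e) : Hom A.sub X :=
  ⟨fun _ => LinearMap.id, fun _ _ => rfl, fun _ _ _ _ => rfl, fun _ _ => rfl,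
    fun i n _ hx => A.cut_le_P i n hx, fun _ _ _ hx => hx⟩

variable {X} in
/-- Projection to the quotient. -/
def SubM.proj {e : ℤ} (A : X.SubM e) : Hom X A.quo :=
  ⟨fun _ => LinearMap.id, fun _ _ => rfl, fun _ _ _ _ => rfl, fun _ _ => rfl,
    fun _ _ _ hx => hx, fun i n _ hx => A.N_le_cut i n hx⟩

/-- Components of the natural map from the twist. -/
def epsF (s i : I) : X.W →ₗ[K2] X.V := if i = s then X.eps s else LinearMap.fst K2 _ _

theorem epsF_self (s : I) (z : X.W) : X.epsF s s z = X.eps s z := by simp only [epsF, if_true]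
theorem epsF_ne {s i : I} (h : i ≠ s) (z : X.W) : X.epsF s i z = z.1 := by simp [epsF, h]

/-- The natural map from the twist. -/
def epsH (s : I) : Hom (X.T s) X where
  f := X.epsF s
  d := fun i (z : X.W) => by
    show X.epsF s i (X.Td s i z) = X.d i (X.epsF s i z)
    by_cases hi : i = s
    · subst hi; rw [epsF_self, epsF_self, eps_Td]
    · simp [X.epsF_ne hi, X.Td_ne hi]
  a := fun i j k (z : X.W) => by
    show X.epsF s j (X.Ta s i j k z) = X.a i j k (X.epsF s i z)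
    by_cases hij : G.adj i j k
    swap
    · simp [X.Ta_zero hij, X.a0 _ _ _ hij]
    by_cases hi : i = s
    · subst hi
      have hj : j ≠ i := fun e => G.irr i k (e ▸ hij)
      rw [X.epsF_ne hj, epsF_self, Ta_self]
    · by_cases hj : j = s
      · subst hj
        simp [X.epsF_ne hi, epsF_self, X.Ta_in hij, inn_single]
      · simp [X.epsF_ne hi, X.epsF_ne hj, X.Ta_ne hi hj]
  t := fun i (z : X.W) => by
    show X.epsF s i (X.Tt s i z) = X.t i (X.epsF s i z)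
    by_cases hi : i = s
    · subst hi; simp [Tt_self, epsF_self]
    · simp [X.epsF_ne hi, X.Tt_ne hi]
  P := fun i n (z : X.W) hz => by
    show X.epsF s i z ∈ X.P i n
    by_cases hi : i = s
    · subst hi; rw [epsF_self]; exact X.clP.eps hz
    · rw [X.epsF_ne hi]; exact ((X.mem_Tp_ne hi).1 hz).1
  N := fun i n (z : X.W) hz => by
    show X.epsF s i z ∈ X.N i n
    by_cases hi : i = s
    · subst hi; rw [epsF_self]; exact X.clN.eps hz
    · rw [X.epsF_ne hi]; exact ((X.mem_Tp_ne hi).1 hz).1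

theorem epsH_f (s : I) : (X.epsH s).f = X.epsF s := rfl

/-- Components of the natural map to the inverse twist. -/
def etaF (s i : I) : X.V →ₗ[K2] X.W := if i = s then X.eta s else X.i0

theorem etaF_self (s : I) (x : X.V) : X.etaF s s x = X.eta s x := by simp only [etaF, if_true]
theorem etaF_ne {s i : I} (h : i ≠ s) (x : X.V) : X.etaF s i x = (x, 0, 0) := by simp [etaF, h]

/-- The natural map to the inverse twist. -/
def etaH (s : I) : Hom X (X.U s) where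
  f := X.etaF s
  d := fun i x => by
    show X.etaF s i (X.d i x) = X.Ud s i (X.etaF s i x)
    by_cases hi : i = s
    · subst hi; rw [etaF_self, etaF_self, Ud_eta]
    · simp [X.etaF_ne hi, X.Ud_ne hi]
  a := fun i j k x => by
    show X.etaF s j (X.a i j k x) = X.Ua s i j k (X.etaF s i x)
    by_cases hij : G.adj i j k
    swap
    · simp [X.Ua_zero hij, X.a0 _ _ _ hij]
    by_cases hi : i = s
    · subst hi
      have hj : j ≠ i := fun e => G.irr i k (e ▸ hij)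
      simp [X.etaF_ne hj, etaF_self, X.Ua_out hij]
    · by_cases hj : j = s
      · subst hj
        simp [X.etaF_ne hi, etaF_self, X.Ua_in hi]
      · simp [X.etaF_ne hi, X.etaF_ne hj, X.Ua_ne hi hj]
  t := fun i x => by
    show X.etaF s i (X.t i x) = X.Ut s i (X.etaF s i x)
    by_cases hi : i = s
    · subst hi; simp [Ut_self, etaF_self]
    · simp [X.etaF_ne hi, X.Ut_ne hi]
  P := fun i n x hx => by
    show X.etaF s i x ∈ X.Tp s (-1) X.P i n
    by_cases hi : i = s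
    · subst hi; rw [etaF_self]; exact X.clP.eta hx
    · rw [X.etaF_ne hi, X.mem_Tp_ne hi]; exact ⟨hx, rfl⟩
  N := fun i n x hx => by
    show X.etaF s i x ∈ X.Tp s (-1) X.N i n
    by_cases hi : i = s
    · subst hi; rw [etaF_self]; exact X.clN.eta hx
    · rw [X.etaF_ne hi, X.mem_Tp_ne hi]; exact ⟨hx, rfl⟩

theorem etaH_f (s : I) : (X.etaH s).f = X.etaF s := rfl

/-- The composite of the natural maps along a word. -/
def etaW : (l : List I) → (X : Obj G) → Hom X (Uw l X)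
  | [], X => Hom.id X
  | i :: l, X => (X.etaH i).comp (etaW l (X.U i))

/-- The Koszul complex at `s`: the cone of the natural map to the inverse twist. -/
def kos (s : I) : Obj G := (X.etaH s).cone

end Obj

/-- Functoriality of the Koszul complex. -/
def Hom.kos {X Y : Obj G} (φ : Hom X Y) (s : I) : Hom (X.kos s) (Y.kos s) :=
  (X.etaH s).coneMap (Y.etaH s) φ (φ.mapU s) fun i x => by
    show φ.fW s i (X.etaF s i x) = Y.etaF s i (φ.f i x)
    by_cases hi : i = s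
    · subst hi; rw [Obj.etaF_self, Obj.etaF_self]; exact φ.fW_eta i x
    · rw [Obj.etaF_ne _ hi, Obj.etaF_ne _ hi]; exact φ.fW_ne hi _

/-- Quasi-isomorphism classes. -/
def Cls (G : Gph I) : Type 1 := Quot fun X Y : Obj G => ∃ φ : Hom X Y, φ.QIso

/-- The class of an object. -/
def cls (X : Obj G) : Cls G := Quot.mk _ X

theorem cls_eq {X Y : Obj G} (φ : Hom X Y) (h : φ.QIso) : cls X = cls Y := Quot.sound ⟨φ, h⟩

/-- Iterated transition maps of a sequence. -/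
def fk (X : ℕ → Obj G) (f : ∀ n, Hom (X n) (X (n + 1))) (n : ℕ) : ∀ k, Hom (X n) (X (n + k + 1))
  | 0 => f n
  | k + 1 => (fk X f n k).comp (f (n + k + 1))

/-- `L` is the colimit of the sequence `X`. -/
structure IsColim (X : ℕ → Obj G) (f : ∀ n, Hom (X n) (X (n + 1))) (L : Obj G)
    (ι : ∀ n, Hom (X n) L) : Prop where
  compat : ∀ n i m x, x ∈ (X n).P i m → (ι (n + 1)).f i ((f n).f i x) + (ι n).f i x ∈ L.N i m
  surj : ∀ i m z, z ∈ L.P i m → ∃ n₀, ∀ n, n₀ ≤ n → ∃ y ∈ (X n).P i m, (ι n).f i y + z ∈ L.N i m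
  inj : ∀ n i m y, y ∈ (X n).P i m → (ι n).f i y ∈ L.N i m →
    ∃ k₀, ∀ k, k₀ ≤ k → (fk X f n k).f i y ∈ (X (n + k + 1)).N i m

/-- A morphism which commutes with the arrows only up to the homotopies `g`. -/
structure WHom (X Y : Obj G) where
  f : I → X.V →ₗ[K2] Y.V
  g : I → I → Bool → X.V →ₗ[K2] Y.V
  g0 : ∀ i j k, ¬ G.adj i j k → g i j k = 0
  d : ∀ i x, f i (X.d i x) = Y.d i (f i x)
  a : ∀ i j k x, f j (X.a i j k x) + Y.a i j k (f i x) = Y.d j (g i j k x) + g i j k (X.d i x)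
  t : ∀ i x, f i (X.t i x) + Y.t i (f i x) =
    ∑ e : I × Bool, (g e.1 i e.2 (X.a i e.1 e.2 x) + Y.a e.1 i e.2 (g i e.1 e.2 x))
  P : ∀ i n x, x ∈ X.P i n → f i x ∈ Y.P i n
  N : ∀ i n x, x ∈ X.N i n → f i x ∈ Y.N i n
  gP : ∀ i j k n x, x ∈ X.P i (n + 1) → g i j k x ∈ Y.P j n
  gN : ∀ i j k n x, x ∈ X.N i (n + 1) → g i j k x ∈ Y.N j n

/-- A weak morphism which is bijective on cohomology. -/
def WHom.QIso {X Y : Obj G} (φ : WHom X Y) : Prop :=
  ∀ i n, (∀ x ∈ X.Z i n, φ.f i x ∈ Y.Bd i n → x ∈ X.Bd i n) ∧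
    ∀ y ∈ Y.Z i n, ∃ x ∈ X.Z i n, φ.f i x + y ∈ Y.Bd i n

end Crest.Agent.R175
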