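import Crest.Agent.R175.PD7a

/-! Devissage along the socle filtration. -/

set_option autoImplicit false
set_option linter.unusedSectionVars false

open scoped Classical

noncomputable section

namespace Crest.Agent.R175

variable {I : Type} [Fintype I] [DecidableEq I] {G : Gph I}

theorem pd7b_ext {X : Obj G} {e : ℤ} {A B : X.SubM e} (h : ∀ i, A.A i = B.A i) : A = B := by
  obtain ⟨A, _, _, _⟩ := A
  obtain ⟨B, _, _, _⟩ := B
  obtain rfl : A = B := funext h
  rfl

theorem pd7b_cut {X : Obj G} {e : ℤ} {A B : X.SubM e} {i : I} {n : ℤ}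
    (h : n = e → A.A i ≤ B.A i) : A.cut i n ≤ B.cut i n := by
  rcases lt_trichotomy n e with h' | rfl | h'
  · rw [A.cut_lt i h', B.cut_lt i h']
  · rw [A.cut_eq, B.cut_eq]
    exact h rfl
  · rw [A.cut_gt i h', B.cut_gt i h']

/-- two submodules which differ at one vertex -/
theorem pd7b_step {X : Obj G} {e : ℤ} (A B : X.SubM e) (r : I) (h : ∀ i, A.A i ≤ B.A i)
    (h' : ∀ i, i ≠ r → B.A i ≤ A.A i) : ∃ φ : Hom A.sub B.sub,
      (∀ i n, ¬ (i = r ∧ n = e) → φ.cone.Acyc i n) ∧ (X.Acyc r e → φ.cone.Acyc r e) := by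
  let φ : Hom A.sub B.sub := X.reHom A.cl_cut X.clN A.N_le_cut B.cl_cut X.clN B.N_le_cut
    (fun i _ => pd7b_cut fun _ => h i) fun _ _ => le_rfl
  have key : ∀ i n, (n = e → B.A i ≤ A.A i) → φ.cone.Acyc i n := fun i n hi =>
    (φ.acyc_cone_iff i n).2 ⟨Hom.Inj.of_comp (ψ := B.incl) (A.incl_inj i (n + 1)), fun y hy =>
      ⟨y, ⟨pd7b_cut hi hy.1, hy.2⟩, (add_self2 y).symm ▸ zero_mem _⟩⟩
  exact ⟨φ, fun i n hn => key i n fun h1 => h' i fun h2 => hn ⟨h2, h1⟩,
    fun ha => key r e fun _ => (B.hi r).trans (le_trans ha (A.lo r))⟩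

/-- intermediate steps of the socle filtration -/
def pd7bM (X : Obj G) (e : ℤ) (m : ℕ) (K : Finset I) : X.SubM e where
  A := fun i => if i ∈ K then X.Soc (m + 1) i e else X.Soc m i e
  lo := fun i => by split_ifs <;> exact X.Bd_le_Soc _ i e
  hi := fun i => by split_ifs <;> exact X.Soc_le_Z _ i e
  cl := fun i j k x hx => by
    have h : X.a i j k x ∈ X.Soc m j e := by
      split_ifs at hx
      exacts [(X.mem_Soc_succ.1 hx).2 j k, X.a_mem_Soc j k hx]
    split_ifs
    exacts [X.Soc_mono (Nat.le_succ m) j e h, h]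

theorem pd7b_mem (X : Obj G) (e : ℤ) (m : ℕ) {K : Finset I} {i : I} (h : i ∈ K) :
    (pd7bM X e m K).A i = X.Soc (m + 1) i e := if_pos h

theorem pd7b_not_mem (X : Obj G) (e : ℤ) (m : ℕ) {K : Finset I} {i : I} (h : i ∉ K) :
    (pd7bM X e m K).A i = X.Soc m i e := if_neg h

theorem Obj.devissage (Pr : Obj G → Prop)
    (hext : ∀ (A B : Obj G) (φ : Hom A B), Pr A → Pr φ.cone → Pr B) (X : Obj G) (e : ℤ)
    (hnil : X.NilAt e)
    (hone : ∀ (K : Obj G) (r : I), (∀ i n, ¬ (i = r ∧ n = e) → K.Acyc i n) →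
      (X.Acyc r e → K.Acyc r e) → Pr K)
    (h0 : Pr (X.botM e).sub) : Pr (X.topM e).sub := by
  have h1 : ∀ m, Pr (pd7bM X e m ∅).sub → ∀ K, Pr (pd7bM X e m K).sub := fun m hm K => by
    induction K using Finset.induction_on with
    | empty => exact hm
    | insert r K hr ih =>
      obtain ⟨φ, a1, a2⟩ := pd7b_step (pd7bM X e m K) (pd7bM X e m (insert r K)) r (fun i => by
        by_cases hi : i ∈ K
        · rw [pd7b_mem X e m hi, pd7b_mem X e m (Finset.mem_insert_of_mem hi)]
        · rw [pd7b_not_mem X e m hi]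
          by_cases hi' : i ∈ insert r K
          · rw [pd7b_mem X e m hi']
            exact X.Soc_mono (Nat.le_succ m) i e
          · rw [pd7b_not_mem X e m hi']) fun i hir => by
        by_cases hi : i ∈ K
        · rw [pd7b_mem X e m hi, pd7b_mem X e m (Finset.mem_insert_of_mem hi)]
        · rw [pd7b_not_mem X e m hi, pd7b_not_mem X e m fun h => (Finset.mem_insert.1 h).elim hir hi]
      exact hext _ _ φ ih (hone _ r a1 a2)
  have h2 : ∀ m, Pr (pd7bM X e m ∅).sub := fun m => by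
    induction m with
    | zero =>
      rwa [pd7b_ext (B := X.botM e) fun i => pd7b_not_mem X e 0 (Finset.notMem_empty i)]
    | succ m ih =>
      rw [pd7b_ext (B := pd7bM X e m Finset.univ) fun i =>
        (pd7b_not_mem X e _ (Finset.notMem_empty i)).trans (pd7b_mem X e m (Finset.mem_univ i)).symm]
      exact h1 m ih _
  obtain ⟨m, hm⟩ := hnil
  rw [← pd7b_ext (B := X.topM e) fun i => (pd7b_not_mem X e m (Finset.notMem_empty i)).trans
    (le_antisymm (X.Soc_le_Z m i e) (hm i))]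
  exact h2 m

end Crest.Agent.R175
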