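import Crest.Agent.R175.PD9
import Crest.Agent.R175.PD7b

/-! A word which can be rewritten to begin with any letter of `K` shifts objects supported on `K`. -/

set_option autoImplicit false
set_option linter.unusedSectionVars false

open scoped Classical

noncomputable section

namespace Crest.Agent.R175

variable {I : Type} [Fintype I] [DecidableEq I] {G : Gph I}

theorem kill_core {K J : Set I} (hKJ : K ⊆ J) (hnb : ∀ i ∈ K, ∀ j k, G.adj i j k → j ∈ J)
    (W : List I) (hWK : ∀ i ∈ W, i ∈ K)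
    (hW : ∀ r ∈ K, ∃ W' : List I, ∀ A : Obj G, cls (Obj.Tw W A) = cls (Obj.Tw (r :: W') A))
    (X : Obj G) (e : ℤ) (hnil : X.NilAt e) (h1 : ∀ i ∈ J, ∀ n, e < n → X.Acyc i n)
    (h2 : ∀ i ∈ J, i ∉ K → X.Acyc i e) : ∀ i ∈ J, ∀ n, e ≤ n → (Obj.Tw W X).Acyc i n := by
  have hext : ∀ (A B : Obj G) (φ : Hom A B),
      (∀ i ∈ J, ∀ n, e ≤ n → (Obj.Tw W A).Acyc i n) →
      (∀ i ∈ J, ∀ n, e ≤ n → (Obj.Tw W φ.cone).Acyc i n) →
      ∀ i ∈ J, ∀ n, e ≤ n → (Obj.Tw W B).Acyc i n :=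
    fun A B φ hA hC i hi n hn => Hom.acyc_Gw_ext _ φ (hA i hi n hn) (hC i hi n hn)
  have huniv : ∀ (l : List I) (A : Obj G), (∀ i n, e ≤ n → A.Acyc i n) →
      ∀ i n, e ≤ n → (Obj.Tw l A).Acyc i n := fun l A hA i n hn =>
    A.Tw_acyc_ge (K := Set.univ) (J := Set.univ) le_rfl (fun _ _ _ _ _ => trivial) l
      (fun _ _ => trivial) (fun i _ n hn => hA i n hn) i trivial n hn
  refine hext _ _ (X.topM e).incl ?_ ?_
  · refine Obj.devissage (fun A => ∀ i ∈ J, ∀ n, e ≤ n → (Obj.Tw W A).Acyc i n) hext X e hnil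
      (fun L r hL hr => ?_) ?_
    · by_cases hrK : r ∈ K
      · obtain ⟨W', hW'⟩ := hW r hrK
        intro i _ n hn
        rw [cls_acyc (hW' L), Obj.Tw_cons]
        refine huniv W' _ (fun i n hn => ?_) i n hn
        by_cases hi : i = r
        · subst hi
          refine L.T_acyc (hL _ _ fun h => by omega) fun j k hj => hL _ _ fun h => ?_
          exact G.irr i k (h.1 ▸ hj)
        · exact (L.T_acyc_ne hi n).2 (hL _ _ fun h => hi h.1)
      · by_cases hrJ : r ∈ J
        · intro i _ n _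
          refine L.Gw_acyc_all _ (fun i n => ?_) i n
          by_cases h : i = r ∧ n = e
          · rw [h.1, h.2]; exact hr (h2 r hrJ hrK)
          · exact hL _ _ h
        · exact L.Tw_acyc_ge hKJ hnb W hWK fun i hi n _ => hL _ _ fun h => hrJ (h.1 ▸ hi)
    · intro i _ n hn
      refine huniv W _ (fun i n hn => ?_) i n hn
      rcases hn.eq_or_lt with rfl | hn
      · exact Obj.SubM.sub_acyc_bot _ i
      · exact (X.botM e).sub_acyc i hn
  · refine Obj.Tw_acyc_ge _ hKJ hnb W hWK fun i hi n hn => ?_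
    rw [Hom.acyc_cone_iff]
    refine ⟨(X.topM e).incl_inj i _, ?_⟩
    rcases hn.eq_or_lt with rfl | hn
    · exact Obj.SubM.incl_surj_top _ i
    · exact Hom.surj_of_acyc _ (h1 i hi n hn)

theorem raise_core {K : Set I} (W : List I)
    (hW : ∀ r ∈ K, ∃ W' : List I, ∀ A : Obj G, cls (Obj.Uw W A) = cls (Obj.Uw (r :: W') A))
    (X : Obj G) (e : ℤ) (hnil : X.NilAt e) (h1 : ∀ i n, n < e → X.Acyc i n)
    (h2 : ∀ i, i ∉ K → X.Acyc i e) : ∀ i n, n ≤ e → (Obj.Uw W X).Acyc i n := by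
  have hext : ∀ (A B : Obj G) (φ : Hom A B), (∀ i n, n ≤ e → (Obj.Uw W A).Acyc i n) →
      (∀ i n, n ≤ e → (Obj.Uw W φ.cone).Acyc i n) → ∀ i n, n ≤ e → (Obj.Uw W B).Acyc i n :=
    fun A B φ hA hC i n hn => Hom.acyc_Gw_ext _ φ (hA i n hn) (hC i n hn)
  refine hext _ _ (X.topM e).incl ?_ ?_
  · refine Obj.devissage (fun A => ∀ i n, n ≤ e → (Obj.Uw W A).Acyc i n) hext X e hnil
      (fun L r hL hr => ?_) ?_
    · by_cases hrK : r ∈ K
      · obtain ⟨W', hW'⟩ := hW r hrK
        intro i n hn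
        rw [cls_acyc (hW' L), Obj.Uw_cons]
        refine Obj.Uw_acyc_le _ W' (fun i n hn => ?_) i n hn
        by_cases hi : i = r
        · subst hi
          refine L.U_acyc (hL _ _ fun h => by omega) fun j k hj => hL _ _ fun h => ?_
          exact G.irr i k (h.1 ▸ hj)
        · exact (L.U_acyc_ne hi n).2 (hL _ _ fun h => hi h.1)
      · intro i n _
        refine L.Gw_acyc_all _ (fun i n => ?_) i n
        by_cases h : i = r ∧ n = e
        · rw [h.1, h.2]; exact hr (h2 r hrK)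
        · exact hL _ _ h
    · refine Obj.Uw_acyc_le _ W fun i n hn => ?_
      rcases hn.eq_or_lt with rfl | hn
      · exact Obj.SubM.sub_acyc_bot _ i
      · exact ((X.botM e).incl_inj i n).acyc (h1 i n hn)
  · refine Obj.Uw_acyc_le _ W fun i n hn => ?_
    rw [Hom.acyc_cone_iff]
    refine ⟨(X.topM e).incl_inj i _, ?_⟩
    rcases hn.eq_or_lt with rfl | hn
    · exact Obj.SubM.incl_surj_top _ i
    · exact (X.topM e).incl_surj i hn

/-- Iterating `raise_core`. -/
theorem raise_pow {K : Set I} (W : List I) (hWK : ∀ i ∈ W, i ∈ K)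
    (hW : ∀ r ∈ K, ∃ W' : List I, ∀ A : Obj G, cls (Obj.Uw W A) = cls (Obj.Uw (r :: W') A))
    (X : Obj G) (e : ℤ) (hnil : ∀ n, X.NilAt n) (h1 : ∀ i n, n < e → X.Acyc i n)
    (h2 : ∀ i, i ∉ K → ∀ n, X.Acyc i n) (k : ℕ) :
    ∀ i n, n < e + k → (Obj.Uw (List.replicate k W).flatten X).Acyc i n := by
  induction k generalizing X e with
  | zero => intro i n hn; exact h1 i n (by simpa using hn)
  | succ k ih =>
    intro i n hn
    rw [List.replicate_succ, List.flatten_cons, Obj.Uw_append]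
    refine ih (Obj.Uw W X) (e + 1) (fun n => (hnil n).Gw _)
      (fun i n hn => raise_core W hW X e (hnil e) h1 (fun i hi => h2 i hi e) i n (by omega))
      (fun i hi n => (X.Gw_acyc_ne _ (fun x hx => ?_) n).2 (h2 i hi n)) i n (by push_cast at hn; omega)
    obtain ⟨j, hj, rfl⟩ := List.mem_map.1 hx
    exact fun h => hi (h ▸ hWK j hj)

end Crest.Agent.R175
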