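import Crest.Agent.R175.PD8a

/-! The twists and the Koszul complexes commute with colimits. -/

set_option autoImplicit false
set_option linter.unusedSectionVars false

open scoped Classical

noncomputable section

namespace Crest.Agent.R175

variable {I : Type} [Fintype I] [DecidableEq I] {G : Gph I}

variable {X : ℕ → Obj G} {f : ∀ n, Hom (X n) (X (n + 1))} {L : Obj G} {ι : ∀ n, Hom (X n) L}

theorem PD8b_fk_U (s : I) (n k : ℕ) :
    fk (fun n => (X n).U s) (fun n => (f n).mapU s) n k = (fk X f n k).mapU s := by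
  induction k with
  | zero => rfl
  | succ k ih => rw [fk, fk, ih, Hom.mapU_comp]

theorem PD8b_fk_kos (s : I) (n k : ℕ) :
    fk (fun n => (X n).kos s) (fun n => (f n).kos s) n k = (fk X f n k).kos s := by
  induction k with
  | zero => rfl
  | succ k ih => rw [fk, fk, ih, Hom.kos_comp]

theorem PD8b_surjF (h : IsColim X f L ι) {s : I} {m : ℤ} {b : L.F}
    (hb : b ∈ L.slots s fun j => L.P j m) :
    ∀ᶠ n in Filter.atTop, ∃ y ∈ (X n).slots s fun j => (X n).P j m,
      (ι n).fF y + b ∈ L.slots s fun j => L.N j m := by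
  have key : ∀ e : I × Bool, ∀ᶠ n in Filter.atTop, ∃ y : (X n).V,
      (G.adj s e.1 e.2 → y ∈ (X n).P e.1 m ∧ (ι n).f e.1 y + b e ∈ L.N e.1 m) ∧
        (¬ G.adj s e.1 e.2 → y = 0) := by
    intro e
    by_cases he : G.adj s e.1 e.2
    · exact (Filter.eventually_atTop.2 (h.surj _ _ _ ((L.mem_slots.1 hb e).1 he))).mono
        fun n ⟨y, hy⟩ => ⟨y, fun _ => hy, fun h' => absurd he h'⟩
    · exact Filter.Eventually.of_forall fun n => ⟨0, fun h' => absurd h' he, fun _ => rfl⟩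
  refine (Filter.eventually_all.2 key).mono fun n hn => ?_
  choose y hy using hn
  refine ⟨y, (X n).mem_slots.2 fun e => ⟨fun he => ((hy e).1 he).1, (hy e).2⟩,
    L.mem_slots.2 fun e => ⟨fun he => ((hy e).1 he).2, fun he => ?_⟩⟩
  simp [(hy e).2 he, (L.mem_slots.1 hb e).2 he]

theorem PD8b_injF (h : IsColim X f L ι) {s : I} {m : ℤ} {n : ℕ} {y : (X n).F}
    (hy : y ∈ (X n).slots s fun j => (X n).P j m) (h0 : (ι n).fF y ∈ L.slots s fun j => L.N j m) :
    ∀ᶠ k in Filter.atTop,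
      (fk X f n k).fF y ∈ (X (n + k + 1)).slots s fun j => (X (n + k + 1)).N j m := by
  have key : ∀ e : I × Bool, ∀ᶠ k in Filter.atTop,
      G.adj s e.1 e.2 → (fk X f n k).f e.1 (y e) ∈ (X (n + k + 1)).N e.1 m := by
    intro e
    by_cases he : G.adj s e.1 e.2
    · exact (Filter.eventually_atTop.2 (h.inj _ _ _ _ (((X n).mem_slots.1 hy e).1 he)
        ((L.mem_slots.1 h0 e).1 he))).mono fun k hk _ => hk
    · exact Filter.Eventually.of_forall fun k h' => absurd h' he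
  refine (Filter.eventually_all.2 key).mono fun k hk =>
    (X (n + k + 1)).mem_slots.2 fun e => ⟨hk e, fun he => ?_⟩
  simp [((X n).mem_slots.1 hy e).2 he]

theorem IsColim.mapU (h : IsColim X f L ι) (s : I) :
    IsColim (fun n => (X n).U s) (fun n => (f n).mapU s) (L.U s) (fun n => (ι n).mapU s) := by
  refine ⟨fun n i m (x : (X n).W) (hx : x ∈ (X n).Tp s (-1) (X n).P i m) => ?_,
    fun i m (z : L.W) (hz : z ∈ L.Tp s (-1) L.P i m) => Filter.eventually_atTop.1 ?_,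
    fun n i m (y : (X n).W) (hy : y ∈ (X n).Tp s (-1) (X n).P i m)
      (h0 : (ι n).fW s i y ∈ L.Tp s (-1) L.N i m) => Filter.eventually_atTop.1 ?_⟩
  · show (ι (n + 1)).fW s i ((f n).fW s i x) + (ι n).fW s i x ∈ L.Tp s (-1) L.N i m
    by_cases hi : i = s
    · subst hi
      rw [Obj.mem_Tp_self] at hx ⊢
      simp only [Hom.fW_self]
      refine ⟨add_zero _, h.compat _ _ _ _ hx.2.1, L.mem_slots.2 fun e =>
        ⟨fun he => h.compat _ _ _ _ (((X n).mem_slots.1 hx.2.2 e).1 he), fun he => ?_⟩⟩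
      simp [((X n).mem_slots.1 hx.2.2 e).2 he]
    · rw [Obj.mem_Tp_ne _ hi] at hx ⊢
      simp only [Hom.fW_ne _ hi]
      exact ⟨h.compat _ _ _ _ hx.1, add_zero _⟩
  · show ∀ᶠ n in Filter.atTop, ∃ y : (X n).W, y ∈ (X n).Tp s (-1) (X n).P i m ∧
      (ι n).fW s i y + z ∈ L.Tp s (-1) L.N i m
    by_cases hi : i = s
    · subst hi
      rw [Obj.mem_Tp_self] at hz
      filter_upwards [Filter.eventually_atTop.2 (h.surj _ _ _ hz.2.1), PD8b_surjF h hz.2.2]
        with n ⟨u, hu, hu'⟩ ⟨b, hb, hb'⟩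
      refine ⟨(0, u, b), (X n).mem_Tp_self.2 ⟨rfl, hu, hb⟩, ?_⟩
      rw [Hom.fW_self, Obj.mem_Tp_self]
      exact ⟨(zero_add _).trans hz.1, hu', hb'⟩
    · rw [Obj.mem_Tp_ne _ hi] at hz
      filter_upwards [Filter.eventually_atTop.2 (h.surj _ _ _ hz.1)] with n ⟨u, hu, hu'⟩
      refine ⟨(u, 0), ((X n).mem_Tp_ne hi).2 ⟨hu, rfl⟩, ?_⟩
      rw [Hom.fW_ne _ hi, Obj.mem_Tp_ne _ hi]
      exact ⟨hu', (zero_add _).trans hz.2⟩
  · simp only [PD8b_fk_U]
    show ∀ᶠ k in Filter.atTop,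
      (fk X f n k).fW s i y ∈ (X (n + k + 1)).Tp s (-1) (X (n + k + 1)).N i m
    by_cases hi : i = s
    · subst hi
      rw [Hom.fW_self] at h0
      rw [Obj.mem_Tp_self] at hy h0
      filter_upwards [Filter.eventually_atTop.2 (h.inj _ _ _ _ hy.2.1 h0.2.1),
        PD8b_injF h hy.2.2 h0.2.2] with k h1 h2
      rw [Hom.fW_self, Obj.mem_Tp_self]
      exact ⟨rfl, h1, h2⟩
    · rw [Hom.fW_ne _ hi] at h0
      rw [Obj.mem_Tp_ne _ hi] at hy h0
      filter_upwards [Filter.eventually_atTop.2 (h.inj _ _ _ _ hy.1 h0.1)] with k h1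
      rw [Hom.fW_ne _ hi, Obj.mem_Tp_ne _ hi]
      exact ⟨h1, rfl⟩

theorem IsColim.mapUw (h : IsColim X f L ι) (l : List I) :
    IsColim (fun n => Obj.Uw l (X n)) (fun n => Hom.mapGw (l.map fun i => (i, false)) (f n))
      (Obj.Uw l L) (fun n => Hom.mapGw (l.map fun i => (i, false)) (ι n)) := by
  induction l generalizing X L with
  | nil => exact h
  | cons i l ih => exact ih (h.mapU i)

theorem IsColim.kos (h : IsColim X f L ι) (s : I) :
    IsColim (fun n => (X n).kos s) (fun n => (f n).kos s) (L.kos s) (fun n => (ι n).kos s) := by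
  have h' := h.mapU s
  refine ⟨fun n i m x hx => ⟨h.compat _ _ _ _ hx.1, h'.compat _ _ _ _ hx.2⟩,
    fun i m z hz => Filter.eventually_atTop.1 ?_,
    fun n i m y hy h0 => Filter.eventually_atTop.1 ?_⟩
  · filter_upwards [Filter.eventually_atTop.2 (h.surj _ _ _ hz.1),
      Filter.eventually_atTop.2 (h'.surj _ _ _ hz.2)] with n ⟨u, hu, hu'⟩ ⟨b, hb, hb'⟩
    exact ⟨(u, b), ⟨hu, hb⟩, hu', hb'⟩
  · filter_upwards [Filter.eventually_atTop.2 (h.inj _ _ _ _ hy.1 h0.1),
      Filter.eventually_atTop.2 (h'.inj _ _ _ _ hy.2 h0.2)] with k h1 h2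
    rw [PD8b_fk_U] at h2
    rw [PD8b_fk_kos]
    exact ⟨h1, h2⟩

/-- The natural map to the inverse twist kills the Koszul complex. -/
theorem Obj.etaH_kos_null (A : Obj G) (s : I) (m : ℤ) : ((A.etaH s).kos s).Null s m := by
  rintro ⟨v, y : A.W⟩ ⟨⟨-, hy : y ∈ A.Tp s (-1) A.P s m⟩, -, h2⟩
  have e : (A.U s).etaF s s y = (A.etaH s).fW s s y := by
    rw [Obj.etaF_self, Hom.fW_self, Obj.eta_apply]
    refine Prod.ext rfl (Prod.ext ((A.Ut_self s y).trans (A.etaF_self s _).symm) (funext fun e => ?_))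
    show A.Ua s s e.1 e.2 y = A.etaF s e.1 (y.2.2 e)
    by_cases he : G.adj s e.1 e.2
    · rw [A.Ua_out he, A.etaF_ne fun h : e.1 = s => G.irr s e.2 (h ▸ he)]
    · rw [A.Ua_zero he, (A.mem_slots.1 (A.mem_Tp_self.1 hy).2.2 e).2 he, map_zero,
        LinearMap.zero_apply]
  refine (Obj.mem_Bd _).2 ⟨(y, 0), ⟨?_, zero_mem _⟩, h2, ?_⟩
  · show y ∈ A.Tp s (-1) A.P s (m - 1 + 1)
    rwa [sub_add_cancel]
  · show (A.U s).Ud s s 0 + (A.U s).etaF s s y + (A.etaH s).fW s s y ∈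
      (A.U s).Tp s (-1) (A.U s).N s m
    rw [map_zero, zero_add, e, add_self2]
    exact zero_mem _

theorem Obj.etaW_kos_null (l : List I) (A : Obj G) {s : I} (hs : s ∈ l) (m : ℤ) :
    ((Obj.etaW l A).kos s).Null s m := by
  induction l generalizing A with
  | nil => cases hs
  | cons i l ih =>
    have e : (Obj.etaW (i :: l) A).kos s = ((A.etaH i).kos s).comp ((Obj.etaW l (A.U i)).kos s) :=
      Hom.kos_comp _ _ s
    rw [e]
    rcases List.mem_cons.1 hs with rfl | hs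
    · exact Hom.Null.comp_left _ (A.etaH_kos_null s m)
    · exact Hom.Null.comp_right _ (ih _ hs)

theorem IsColim.etaH_qiso (h : IsColim X f L ι) {s : I}
    (hn : ∀ N, ∃ n, N ≤ n ∧ ∀ m, ((f n).kos s).Null s m) : (L.etaH s).QIso := by
  intro i n
  by_cases hi : i = s
  · subst hi
    have key : ∀ m, (L.etaH i).Inj i (m + 1) ∧ (L.etaH i).Surj i m := fun m =>
      (Hom.acyc_cone_iff _ i m).1 ((h.kos i).acyc fun N =>
        (hn N).imp fun _ hn' => ⟨hn'.1, hn'.2 m⟩)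
    exact ⟨by simpa using (key (n - 1)).1, (key n).2⟩
  · exact L.etaH_bij_ne hi n

end Crest.Agent.R175
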