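import Crest.Agent.R175.PD10
import Crest.Agent.R175.PD8b

/-! An infinite descending chain inside an aisle forces the object to be fixed by the twists. -/

set_option autoImplicit false
set_option linter.unusedSectionVars false

open scoped Classical

noncomputable section

namespace Crest.Agent.R175

variable {I : Type} [Fintype I] [DecidableEq I] {G : Gph I}

/-- The sequence of objects along an infinite word. -/
def seqU (q : ℕ → List I) (X : Obj G) : ℕ → Obj G
  | 0 => X
  | n + 1 => Obj.Uw (q n) (seqU q X n)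

/-- After a high power of `W` the natural maps are bijective in low degrees. -/
theorem etaW_bij_pow {K : Set I} (W : List I) (hWK : ∀ i ∈ W, i ∈ K)
    (hW : ∀ r ∈ K, ∃ W' : List I, ∀ A : Obj G, cls (Obj.Uw W A) = cls (Obj.Uw (r :: W') A))
    (k : ℕ) (e : ℤ) (l : List I) (hl : ∀ i ∈ l, i ∈ K) (A : Obj G)
    (hA : ∀ i n, n < e → A.Acyc i n) (i : I) (m : ℤ) (hm : m < e - 1 + k) :
    (Hom.mapGw (((List.replicate k W).flatten).map fun i => (i, false)) (Obj.etaW l A)).Inj i m ∧
    (Hom.mapGw (((List.replicate k W).flatten).map fun i => (i, false)) (Obj.etaW l A)).Surj i m := by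
  induction l generalizing A with
  | nil => exact (Hom.qiso_id A).mapGw _ i m
  | cons j l ih =>
    have hU : ∀ i n, n < e → (A.U j).Acyc i n := fun i n hn =>
      A.Uw_acyc_le [j] (e := e - 1) (fun i n hn => hA i n (by omega)) i n (by omega)
    have hoff : ∀ i, i ≠ j → ∀ n, (A.etaH j).cone.Acyc i n := fun i hi n =>
      (Hom.acyc_cone_iff _ i n).2 ⟨(A.etaH_bij_ne hi _).1, (A.etaH_bij_ne hi _).2⟩
    have hc := raise_pow W hWK hW (A.etaH j).cone (e - 1)
      (fun n => Obj.nilAt_of_single fun i hi => hoff i hi n)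
      (fun i n hn => (Hom.acyc_cone_iff _ i n).2
        ⟨Hom.inj_of_acyc _ (hA i _ (by omega)), Hom.surj_of_acyc _ (hU i n (by omega))⟩)
      (fun i hi => hoff i fun h => hi (h ▸ hl j (by simp))) k
    have h1 := ((Hom.acyc_Gw_cone_iff _ (A.etaH j) i (m - 1)).1 (hc i _ (by omega))).1
    have h2 := ((Hom.acyc_Gw_cone_iff _ (A.etaH j) i m).1 (hc i _ hm)).2
    rw [sub_add_cancel] at h1
    have h3 := ih (fun i hi => hl i (by simp [hi])) (A.U j) hU
    have h4 := Hom.mapGw_comp (((List.replicate k W).flatten).map fun i => (i, false)) (A.etaH j)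
      (Obj.etaW l (A.U j))
    exact ⟨by have := h1.comp h3.1; rw [← h4] at this; exact this,
      by have := h2.comp h3.2; rw [← h4] at this; exact this⟩

theorem chain_core {K : Set I} {o : I} (ho : o ∉ K) (X : Obj G)
    (hbr : ∃ l : List (I × Bool), (∀ x ∈ l, x.1 ≠ o) ∧ ∀ i, i ≠ o → ∀ n, (Obj.Gw l X).Acyc i n)
    (e : ℤ) (hlow : ∀ i n, n < e → X.Acyc i n) (W : List I) (hWK : ∀ i ∈ W, i ∈ K)
    (hW : ∀ r ∈ K, ∃ W' : List I, ∀ A : Obj G, cls (Obj.Uw W A) = cls (Obj.Uw (r :: W') A))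
    (q : ℕ → List I) (hq : ∀ n, ∀ i ∈ q n, i ∈ K) (hfr : ∀ i ∈ K, ∀ N, ∃ n, N ≤ n ∧ i ∈ q n)
    (d : ℤ) (hd : ∀ n i m, d < m → (seqU q X n).Acyc i m) : ∀ r ∈ K, cls (X.U r) = cls X := by
  obtain ⟨l, hlo, hl⟩ := hbr
  obtain ⟨L, ι, hL⟩ := exists_colim (seqU q X) fun n => Obj.etaW (q n) (seqU q X n)
  have hU : ∀ r ∈ K, cls (L.U r) = cls L := fun r hr =>
    (cls_eq _ (hL.etaH_qiso fun N =>
      let ⟨n, hn, hm⟩ := hfr r hr N; ⟨n, hn, fun m => Obj.etaW_kos_null _ _ hm m⟩)).symm
  have hUw : ∀ V : List I, (∀ i ∈ V, i ∈ K) → cls (Obj.Uw V L) = cls L := by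
    intro V hV
    induction V with
    | nil => rfl
    | cons r V ih =>
      rw [Obj.Uw_cons, (cls_Gw_iff _).2 (hU r (hV r (by simp)))]
      exact ih fun i hi => hV i (by simp [hi])
  have hLd : ∀ i m, d < m → L.Acyc i m := fun i m hm =>
    hL.acyc fun N => ⟨N, le_rfl, Hom.null_of_acyc _ (hd N i m hm)⟩
  have hlo' : ∀ n i m, m < e → (seqU q X n).Acyc i m := by
    intro n
    induction n with
    | zero => exact hlow
    | succ n ih =>
      exact fun i m hm => Obj.Uw_acyc_le _ (q n) (e := e - 1) (fun i m hm => ih i m (by omega)) i m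
        (by omega)
  obtain ⟨k, hk⟩ : ∃ k : ℕ, d < e - 1 + k := ⟨(d - e + 2).toNat, by omega⟩
  obtain ⟨V, hV⟩ : ∃ V, V = (List.replicate k W).flatten := ⟨_, rfl⟩
  have hVK : ∀ i ∈ V, i ∈ K := by
    intro i hi
    rw [hV] at hi
    obtain ⟨W', hW', hi⟩ := List.mem_flatten.1 hi
    rw [List.eq_of_mem_replicate hW'] at hi
    exact hWK i hi
  have hb : ∀ n i m, m ≤ d →
      (Hom.mapGw (V.map fun i => (i, false)) (Obj.etaW (q n) (seqU q X n))).Inj i m ∧
      (Hom.mapGw (V.map fun i => (i, false)) (Obj.etaW (q n) (seqU q X n))).Surj i m := by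
    intro n i m hm
    rw [hV]
    exact etaW_bij_pow W hWK hW k e (q n) (hq n) _ (hlo' n) i m (by omega)
  have hVo : ∀ b : Bool, ∀ x ∈ V.map fun i => (i, b), x.1 ≠ o := by
    intro b x hx
    obtain ⟨j, hj, rfl⟩ := List.mem_map.1 hx
    exact fun h => ho (h ▸ hVK j hj)
  have hqo : ∀ n, o ∉ q n := fun n h => ho (hq n o h)
  have hXL : cls (Obj.Uw V X) = cls (Obj.Uw V L) := by
    refine cls_retract (o := o) ((V.reverse.map fun i => (i, true)) ++ l) ?_ ?_
      ((Obj.Uw V X).topM d).incl (Hom.mapGw (V.map fun i => (i, false)) (ι 0)) ?_ ?_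
    · intro x hx
      rcases List.mem_append.1 hx with hx | hx
      · rw [List.map_reverse, List.mem_reverse] at hx
        exact hVo true x hx
      · exact hlo x hx
    · intro i hi n
      have h1 := cls_Tw_Uw V.reverse X
      rw [List.reverse_reverse] at h1
      rw [Obj.Gw_append, cls_acyc ((cls_Gw_iff l).2 h1)]
      exact hl i hi n
    · intro i n
      rcases le_or_gt n d with hn | hn
      · refine ⟨(Obj.SubM.incl_inj _ i n).comp ((hL.mapUw V).inj0 fun n' => (hb n' i n hn).1),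
          Hom.Surj.comp ?_ ((hL.mapUw V).surj0 fun n' => (hb n' i n hn).2)⟩
        rcases hn.eq_or_lt with rfl | hn
        · exact Obj.SubM.incl_surj_top _ i
        · exact Obj.SubM.incl_surj _ i hn
      · exact ⟨Hom.inj_of_acyc _ (Obj.SubM.sub_acyc _ i hn),
          Hom.surj_of_acyc _ ((cls_acyc (hUw V hVK) i n).2 (hLd i n hn))⟩
    · intro n
      have h1 := Hom.mapGw_ne (V.map fun i => (i, false)) (ι 0) (hVo false) n
      exact ⟨h1.1.2 (hL.inj0 fun n' => (Obj.etaW_bij_ne _ _ (hqo n') n).1),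
        h1.2.2 (hL.surj0 fun n' => (Obj.etaW_bij_ne _ _ (hqo n') n).2)⟩
  have hXL' : cls X = cls L := (cls_Gw_iff _).1 hXL
  intro r hr
  exact ((cls_Gw_iff [(r, false)]).2 hXL').trans ((hU r hr).trans hXL'.symm)

end Crest.Agent.R175
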