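import Crest.Agent.R175.PD2o

/-! Truncations. -/

set_option autoImplicit false
set_option linter.unusedSectionVars false

open scoped Classical

noncomputable section

namespace Crest.Agent.R175

variable {I : Type} [Fintype I] [DecidableEq I] {G : Gph I}

namespace Obj

variable {X : Obj G}

theorem SubM.incl_inj {e : ℤ} (A : X.SubM e) (i : I) (n : ℤ) : A.incl.Inj i n := by
  intro x hx hb
  by_cases h : e < n
  · exact A.sub.N_le_Bd i n ((A.cut_gt i h).le hx.1)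
  · obtain ⟨y, hy, h'⟩ := X.mem_Bd.1 hb
    exact A.sub.mem_Bd.2 ⟨y, (A.cut_lt i (by omega)).ge hy, h'⟩

theorem SubM.incl_surj {e : ℤ} (A : X.SubM e) (i : I) {n : ℤ} (h : n < e) : A.incl.Surj i n := by
  intro y hy
  exact ⟨y, ⟨(A.cut_lt i h).ge hy.1, hy.2⟩, (add_self2 y).symm ▸ zero_mem (X.Bd i n)⟩

theorem SubM.incl_surj_top (e : ℤ) (i : I) : (X.topM e).incl.Surj i e := by
  intro y hy
  exact ⟨y, ⟨((X.topM e).cut_eq i).ge hy, hy.2⟩, (add_self2 y).symm ▸ zero_mem (X.Bd i e)⟩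

theorem SubM.sub_acyc {e : ℤ} (A : X.SubM e) (i : I) {n : ℤ} (h : e < n) : A.sub.Acyc i n := by
  intro x hx
  exact A.sub.N_le_Bd i n ((A.cut_gt i h).le hx.1)

theorem SubM.sub_acyc_bot (e : ℤ) (i : I) : (X.botM e).sub.Acyc i e := by
  intro x hx
  obtain ⟨y, hy, h'⟩ := X.mem_Bd.1 (((X.botM e).cut_eq i).le hx.1)
  exact (X.botM e).sub.mem_Bd.2 ⟨y, ((X.botM e).cut_lt i (by omega)).ge hy, h'⟩

theorem SubM.Z_quo {e : ℤ} (A : X.SubM e) (i : I) : A.quo.Z i e = X.Z i e := by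
  show X.P i e ⊓ (A.cut i (e + 1)).comap (X.d i) = _
  rw [A.cut_gt i (by omega)]
  rfl

theorem SubM.Bd_quo {e : ℤ} (A : X.SubM e) (i : I) : A.quo.Bd i e = A.A i := by
  show (X.P i (e - 1)).map (X.d i) ⊔ A.cut i e = _
  rw [A.cut_eq]
  exact sup_eq_right.2 (le_sup_left.trans (A.lo i))

theorem SubM.proj_surj {e : ℤ} (A : X.SubM e) (i : I) (n : ℤ) : A.proj.Surj i n := by
  intro y hy
  by_cases h : n < e
  · refine ⟨0, zero_mem _, ?_⟩
    rw [map_zero, zero_add]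
    exact A.quo.N_le_Bd i n ((A.cut_lt i h).ge hy.1)
  · refine ⟨y, ⟨hy.1, (A.cut_gt i (by omega)).le hy.2⟩, ?_⟩
    have : A.proj.f i y + y = 0 := add_self2 y
    rw [this]
    exact zero_mem _

theorem SubM.proj_inj {e : ℤ} (A : X.SubM e) (i : I) {n : ℤ} (h : e < n) : A.proj.Inj i n := by
  intro x _ hb
  obtain ⟨y, hy, h'⟩ := A.quo.mem_Bd.1 hb
  exact X.mem_Bd.2 ⟨y, hy, (A.cut_gt i h).le h'⟩

end Obj

end Crest.Agent.R175
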