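import Crest.Agent.R175.PD2a

/-! The twists commute with cones, so they preserve quasi-isomorphisms. -/

set_option autoImplicit false
set_option linter.unusedSectionVars false

open scoped Classical

noncomputable section

namespace Crest.Agent.R175

variable {I : Type} [Fintype I] [DecidableEq I] {G : Gph I}

namespace Hom

variable {X Y : Obj G}

/-- first components of the slots of the cone -/
def PD2b_b1 (φ : Hom X Y) (b : φ.cone.F) : X.F := fun e => (b e : X.V × Y.V).1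

/-- second components of the slots of the cone -/
def PD2b_b2 (φ : Hom X Y) (b : φ.cone.F) : Y.F := fun e => (b e : X.V × Y.V).2

/-- reordering of the ambient space -/
def PD2b_sw (φ : Hom X Y) : φ.cone.W →ₗ[K2] X.W × Y.W where
  toFun z := (((z.1 : X.V × Y.V).1, (z.2.1 : X.V × Y.V).1, φ.PD2b_b1 z.2.2),
    ((z.1 : X.V × Y.V).2, (z.2.1 : X.V × Y.V).2, φ.PD2b_b2 z.2.2))
  map_add' _ _ := rfl
  map_smul' _ _ := rfl

theorem PD2b_sw_apply (φ : Hom X Y) (z : φ.cone.W) : φ.PD2b_sw z =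
    (((z.1 : X.V × Y.V).1, (z.2.1 : X.V × Y.V).1, φ.PD2b_b1 z.2.2),
      ((z.1 : X.V × Y.V).2, (z.2.1 : X.V × Y.V).2, φ.PD2b_b2 z.2.2)) := rfl

theorem PD2b_surj (φ : Hom X Y) (w : X.W × Y.W) : ∃ z, φ.PD2b_sw z = w :=
  ⟨(((w.1.1, w.2.1) : X.V × Y.V), ((w.1.2.1, w.2.2.1) : X.V × Y.V),
    fun e => ((w.1.2.2 e, w.2.2.2 e) : X.V × Y.V)), rfl⟩

theorem PD2b_inn (φ : Hom X Y) (s : I) (b : φ.cone.F) :
    φ.cone.inn s b = ((X.inn s (φ.PD2b_b1 b), Y.inn s (φ.PD2b_b2 b)) : X.V × Y.V) := by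
  rw [Obj.inn_apply, Obj.inn_apply, Obj.inn_apply]
  exact Prod.ext Prod.fst_sum Prod.snd_sum

theorem PD2b_eps (φ : Hom X Y) (s : I) (z : φ.cone.W) :
    φ.cone.eps s z = ((X.eps s (φ.PD2b_sw z).1, Y.eps s (φ.PD2b_sw z).2) : X.V × Y.V) := by
  rw [Obj.eps_apply, PD2b_inn]
  rfl

theorem PD2b_single (φ : Hom X Y) (e : I × Bool) (x : φ.cone.V) :
    φ.PD2b_b1 (Pi.single e x) = Pi.single e (x : X.V × Y.V).1 ∧
      φ.PD2b_b2 (Pi.single e x) = Pi.single e (x : X.V × Y.V).2 := by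
  constructor <;> funext e' <;> by_cases h : e' = e
  · subst h
    simp only [PD2b_b1, Pi.single_eq_same]
  · simp only [PD2b_b1, Pi.single_eq_of_ne h]
    rfl
  · subst h
    simp only [PD2b_b2, Pi.single_eq_same]
  · simp only [PD2b_b2, Pi.single_eq_of_ne h]
    rfl

theorem PD2b_mem (φ : Hom X Y) (s : I) (δ : ℤ) (Q : I → ℤ → Submodule K2 X.V)
    (R : I → ℤ → Submodule K2 Y.V) (C : I → ℤ → Submodule K2 φ.cone.V)
    (hC : ∀ i n (z : φ.cone.V), z ∈ C i n ↔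
      (z : X.V × Y.V).1 ∈ Q i (n + 1) ∧ (z : X.V × Y.V).2 ∈ R i n) (i : I) (n : ℤ)
    (z : φ.cone.W) : z ∈ φ.cone.Tp s δ C i n ↔
      (φ.PD2b_sw z).1 ∈ X.Tp s δ Q i (n + 1) ∧ (φ.PD2b_sw z).2 ∈ Y.Tp s δ R i n := by
  by_cases hi : i = s
  · subst hi
    rw [Obj.mem_Tp_self, Obj.mem_Tp_self, Obj.mem_Tp_self, Obj.mem_slots, Obj.mem_slots,
      Obj.mem_slots, hC, add_right_comm n δ 1]
    constructor
    · rintro ⟨h1, ⟨h2, h3⟩, h4⟩
      exact ⟨⟨congrArg Prod.fst h1, h2, fun e => ⟨fun he => ((hC _ _ _).1 ((h4 e).1 he)).1,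
        fun he => congrArg Prod.fst ((h4 e).2 he)⟩⟩, congrArg Prod.snd h1, h3,
        fun e => ⟨fun he => ((hC _ _ _).1 ((h4 e).1 he)).2,
          fun he => congrArg Prod.snd ((h4 e).2 he)⟩⟩
    · rintro ⟨⟨h1, h2, h3⟩, h4, h5, h6⟩
      exact ⟨Prod.ext h1 h4, ⟨h2, h5⟩, fun e => ⟨fun he => (hC _ _ _).2 ⟨(h3 e).1 he, (h6 e).1 he⟩,
        fun he => Prod.ext ((h3 e).2 he) ((h6 e).2 he)⟩⟩
  · rw [Obj.mem_Tp_ne _ hi, Obj.mem_Tp_ne _ hi, Obj.mem_Tp_ne _ hi, hC]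
    constructor
    · rintro ⟨⟨h1, h2⟩, h3⟩
      refine ⟨⟨h1, ?_⟩, h2, ?_⟩ <;> rw [PD2b_sw_apply, h3] <;> rfl
    · rintro ⟨⟨h1, h2⟩, h3, h4⟩
      have a1 := congrArg Prod.fst h2
      have a2 := congrArg Prod.fst h4
      have a3 := congrArg Prod.snd h2
      have a4 := congrArg Prod.snd h4
      refine ⟨⟨h1, h3⟩, Prod.ext (Prod.ext a1 a2) ?_⟩
      funext e
      exact Prod.ext (congrFun a3 e) (congrFun a4 e)

/-- the twist of the cone is the cone of the twist -/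
def PD2b_T (φ : Hom X Y) (s : I) : Hom (φ.cone.T s) (φ.mapT s).cone where
  f := fun _ => φ.PD2b_sw
  d := fun i (z : φ.cone.W) => by
    show φ.PD2b_sw (φ.cone.Td s i z) = (X.Td s i (φ.PD2b_sw z).1,
      Y.Td s i (φ.PD2b_sw z).2 + φ.fW s i (φ.PD2b_sw z).1)
    by_cases hi : i = s
    · subst hi
      rw [Obj.Td_self, Obj.Td_self, Obj.Td_self, fW_self]
      refine Prod.ext rfl (Prod.ext (add_zero _).symm (Prod.ext rfl ?_))
      exact add_right_comm (Y.dF (φ.PD2b_b2 z.2.2)) (φ.fF (φ.PD2b_b1 z.2.2)) _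
    · rw [Obj.Td_ne _ hi, Obj.Td_ne _ hi, Obj.Td_ne _ hi, φ.fW_ne hi]
      exact Prod.ext rfl (Prod.ext rfl (add_zero _).symm)
  a := fun i j k (z : φ.cone.W) => by
    show φ.PD2b_sw (φ.cone.Ta s i j k z) =
      (X.Ta s i j k (φ.PD2b_sw z).1, Y.Ta s i j k (φ.PD2b_sw z).2)
    by_cases hij : G.adj i j k
    swap
    · rw [Obj.Ta_zero _ hij, Obj.Ta_zero _ hij, Obj.Ta_zero _ hij]
      rfl
    by_cases hi : i = s
    · subst hi
      rw [Obj.Ta_self, Obj.Ta_self, Obj.Ta_self, PD2b_eps]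
      rfl
    · by_cases hj : j = s
      · subst hj
        rw [Obj.Ta_in _ hij, Obj.Ta_in _ hij, Obj.Ta_in _ hij, PD2b_sw_apply,
          (φ.PD2b_single _ _).1, (φ.PD2b_single _ _).2]
        rfl
      · rw [Obj.Ta_ne _ hi hj, Obj.Ta_ne _ hi hj, Obj.Ta_ne _ hi hj]
        rfl
  t := fun i (z : φ.cone.W) => by
    show φ.PD2b_sw (φ.cone.Tt s i z) = (X.Tt s i (φ.PD2b_sw z).1, Y.Tt s i (φ.PD2b_sw z).2)
    by_cases hi : i = s
    · subst hi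
      rw [Obj.Tt_self, Obj.Tt_self, Obj.Tt_self, PD2b_eps]
      rfl
    · rw [Obj.Tt_ne _ hi, Obj.Tt_ne _ hi, Obj.Tt_ne _ hi]
      rfl
  P := fun i n z hz => (φ.PD2b_mem s 1 X.P Y.P _ (fun _ _ _ => Iff.rfl) i n z).1 hz
  N := fun i n z hz => (φ.PD2b_mem s 1 X.N Y.N _ (fun _ _ _ => Iff.rfl) i n z).1 hz

/-- the inverse twist of the cone is the cone of the inverse twist -/
def PD2b_U (φ : Hom X Y) (s : I) : Hom (φ.cone.U s) (φ.mapU s).cone where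
  f := fun _ => φ.PD2b_sw
  d := fun i (z : φ.cone.W) => by
    show φ.PD2b_sw (φ.cone.Ud s i z) = (X.Ud s i (φ.PD2b_sw z).1,
      Y.Ud s i (φ.PD2b_sw z).2 + φ.fW s i (φ.PD2b_sw z).1)
    by_cases hi : i = s
    · subst hi
      rw [Obj.Ud_self, Obj.Ud_self, Obj.Ud_self, fW_self, PD2b_inn]
      refine Prod.ext rfl (Prod.ext (add_zero _).symm (Prod.ext ?_ rfl))
      exact (add_assoc (Y.inn i (φ.PD2b_b2 z.2.2)) _ _).symm
    · rw [Obj.Ud_ne _ hi, Obj.Ud_ne _ hi, Obj.Ud_ne _ hi, φ.fW_ne hi]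
      exact Prod.ext rfl (Prod.ext rfl (add_zero _).symm)
  a := fun i j k (z : φ.cone.W) => by
    show φ.PD2b_sw (φ.cone.Ua s i j k z) =
      (X.Ua s i j k (φ.PD2b_sw z).1, Y.Ua s i j k (φ.PD2b_sw z).2)
    by_cases hij : G.adj i j k
    swap
    · rw [Obj.Ua_zero _ hij, Obj.Ua_zero _ hij, Obj.Ua_zero _ hij]
      rfl
    by_cases hi : i = s
    · subst hi
      rw [Obj.Ua_out _ hij, Obj.Ua_out _ hij, Obj.Ua_out _ hij]
      rfl
    · by_cases hj : j = s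
      · subst hj
        rw [Obj.Ua_in _ hi, Obj.Ua_in _ hi, Obj.Ua_in _ hi]
        rfl
      · rw [Obj.Ua_ne _ hi hj, Obj.Ua_ne _ hi hj, Obj.Ua_ne _ hi hj]
        rfl
  t := fun i (z : φ.cone.W) => by
    show φ.PD2b_sw (φ.cone.Ut s i z) = (X.Ut s i (φ.PD2b_sw z).1, Y.Ut s i (φ.PD2b_sw z).2)
    by_cases hi : i = s
    · subst hi
      rw [Obj.Ut_self, Obj.Ut_self, Obj.Ut_self]
      rfl
    · rw [Obj.Ut_ne _ hi, Obj.Ut_ne _ hi, Obj.Ut_ne _ hi]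
      rfl
  P := fun i n z hz => (φ.PD2b_mem s (-1) X.P Y.P _ (fun _ _ _ => Iff.rfl) i n z).1 hz
  N := fun i n z hz => (φ.PD2b_mem s (-1) X.N Y.N _ (fun _ _ _ => Iff.rfl) i n z).1 hz

theorem PD2b_acyc {ψ : Hom X Y} (h : ψ.QIso) (i : I) (n : ℤ) : X.Acyc i n ↔ Y.Acyc i n :=
  ⟨(h i n).2.acyc, (h i n).1.acyc⟩

theorem exists_coneT (φ : Hom X Y) (s : I) :
    ∃ ψ : Hom (φ.cone.T s) (φ.mapT s).cone, ψ.QIso := by
  refine ⟨φ.PD2b_T s, fun i => bij_of_pieces _ i (fun n y hy => ?_) fun n x _ hx => ?_⟩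
  · obtain ⟨z, rfl⟩ := φ.PD2b_surj y
    refine ⟨z, (φ.PD2b_mem s 1 X.P Y.P _ (fun _ _ _ => Iff.rfl) i n z).2 hy, ?_⟩
    have : (φ.PD2b_T s).f i z + (φ.PD2b_T s).f i z ∈ (φ.mapT s).cone.N i n := by
      rw [add_self2]
      exact zero_mem _
    exact this
  · exact (φ.PD2b_mem s 1 X.N Y.N _ (fun _ _ _ => Iff.rfl) i n x).2 hx

theorem exists_coneU (φ : Hom X Y) (s : I) :
    ∃ ψ : Hom (φ.cone.U s) (φ.mapU s).cone, ψ.QIso := by
  refine ⟨φ.PD2b_U s, fun i => bij_of_pieces _ i (fun n y hy => ?_) fun n x _ hx => ?_⟩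
  · obtain ⟨z, rfl⟩ := φ.PD2b_surj y
    refine ⟨z, (φ.PD2b_mem s (-1) X.P Y.P _ (fun _ _ _ => Iff.rfl) i n z).2 hy, ?_⟩
    have : (φ.PD2b_U s).f i z + (φ.PD2b_U s).f i z ∈ (φ.mapU s).cone.N i n := by
      rw [add_self2]
      exact zero_mem _
    exact this
  · exact (φ.PD2b_mem s (-1) X.N Y.N _ (fun _ _ _ => Iff.rfl) i n x).2 hx

theorem QIso.mapT {φ : Hom X Y} (h : φ.QIso) (s : I) : (φ.mapT s).QIso := by
  obtain ⟨ψ, hψ⟩ := φ.exists_coneT s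
  rw [qiso_iff_cone] at h ⊢
  exact fun i n => (PD2b_acyc hψ i n).1 (φ.cone.Gw_acyc_all [(s, true)] h i n)

theorem QIso.mapU {φ : Hom X Y} (h : φ.QIso) (s : I) : (φ.mapU s).QIso := by
  obtain ⟨ψ, hψ⟩ := φ.exists_coneU s
  rw [qiso_iff_cone] at h ⊢
  exact fun i n => (PD2b_acyc hψ i n).1 (φ.cone.Gw_acyc_all [(s, false)] h i n)

theorem QIso.mapGw {φ : Hom X Y} (h : φ.QIso) (l : List (I × Bool)) : (Hom.mapGw l φ).QIso := by
  induction l generalizing X Y with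
  | nil => exact h
  | cons x l ih =>
    obtain ⟨s, _ | _⟩ := x
    · exact ih (h.mapU s)
    · exact ih (h.mapT s)

theorem exists_coneGw (l : List (I × Bool)) (φ : Hom X Y) :
    ∃ ψ : Hom (Obj.Gw l φ.cone) (Hom.mapGw l φ).cone, ψ.QIso := by
  induction l generalizing X Y with
  | nil => exact ⟨Hom.id _, qiso_id _⟩
  | cons x l ih =>
    obtain ⟨s, _ | _⟩ := x
    · obtain ⟨ψ, hψ⟩ := φ.exists_coneU s
      obtain ⟨ψ', hψ'⟩ := ih (φ.mapU s)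
      exact ⟨(Hom.mapGw l ψ).comp ψ', (hψ.mapGw l).comp hψ'⟩
    · obtain ⟨ψ, hψ⟩ := φ.exists_coneT s
      obtain ⟨ψ', hψ'⟩ := ih (φ.mapT s)
      exact ⟨(Hom.mapGw l ψ).comp ψ', (hψ.mapGw l).comp hψ'⟩

theorem acyc_Gw_cone_iff (l : List (I × Bool)) (φ : Hom X Y) (i : I) (n : ℤ) :
    (Obj.Gw l φ.cone).Acyc i n ↔ (Hom.mapGw l φ).Inj i (n + 1) ∧ (Hom.mapGw l φ).Surj i n := by
  obtain ⟨ψ, hψ⟩ := exists_coneGw l φ
  rw [PD2b_acyc hψ, acyc_cone_iff]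

/-- Acyclicity after applying a word is closed under extensions. -/
theorem acyc_Gw_ext (l : List (I × Bool)) (φ : Hom X Y) {i : I} {n : ℤ}
    (h : (Obj.Gw l X).Acyc i n) (h' : (Obj.Gw l φ.cone).Acyc i n) : (Obj.Gw l Y).Acyc i n := by
  exact ((acyc_Gw_cone_iff l φ i n).1 h').2.acyc h

/-- Surjectivity in degree `d` together with bijectivity above is preserved by twists. -/
theorem surj_Tw (l : List I) (φ : Hom X Y) {d : ℤ} (h : ∀ i n, d ≤ n → φ.Surj i n)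
    (h' : ∀ i n, d < n → φ.Inj i n) (i : I) :
    (Hom.mapGw (l.map fun i => (i, true)) φ).Surj i d := by
  refine ((acyc_Gw_cone_iff _ φ i d).1 ?_).2
  exact φ.cone.Tw_acyc_ge (K := Set.univ) (J := Set.univ) le_rfl (fun _ _ _ _ _ => trivial) l
    (fun _ _ => trivial) (fun j _ n hn => (acyc_cone_iff φ j n).2
      ⟨h' j (n + 1) (by omega), h j n hn⟩) i trivial d le_rfl

end Hom

end Crest.Agent.R175
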