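import Crest.Agent.R175.PD1

/-! Elementary facts on maps in cohomology and the cone. -/

set_option autoImplicit false
set_option linter.unusedSectionVars false

open scoped Classical

noncomputable section

namespace Crest.Agent.R175

variable {I : Type} [Fintype I] [DecidableEq I] {G : Gph I}

namespace Hom

variable {X Y W : Obj G}

theorem PD2h_Bd {i : I} {n : ℤ} {x : X.V} :
    x ∈ X.Bd i (n + 1) ↔ ∃ y ∈ X.P i n, X.d i y + x ∈ X.N i (n + 1) := by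
  rw [X.mem_Bd, add_sub_cancel_right]

theorem PD2h_cZ (φ : Hom X Y) {i : I} {n : ℤ} {x : X.V} {y : Y.V} :
    (x, y) ∈ φ.cone.Z i n ↔ (x ∈ X.P i (n + 1) ∧ y ∈ Y.P i n) ∧
      X.d i x ∈ X.N i (n + 1 + 1) ∧ Y.d i y + φ.f i x ∈ Y.N i (n + 1) := Iff.rfl

theorem PD2h_cBd (φ : Hom X Y) {i : I} {n : ℤ} {x : X.V} {y : Y.V} :
    (x, y) ∈ φ.cone.Bd i n ↔ ∃ x' ∈ X.P i n, ∃ y' ∈ Y.P i (n - 1),
      X.d i x' + x ∈ X.N i (n + 1) ∧ Y.d i y' + φ.f i x' + y ∈ Y.N i n := by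
  refine φ.cone.mem_Bd.trans ⟨?_, ?_⟩
  · rintro ⟨z, ⟨h1, h2⟩, h3, h4⟩
    exact ⟨z.1, by simpa using h1, z.2, h2, h3, h4⟩
  · rintro ⟨x', h1, y', h2, h3, h4⟩
    exact ⟨(x', y'), φ.mem_cone_P.2 ⟨by simpa using h1, h2⟩, h3, h4⟩

/-- The long exact sequence of the cone. -/
theorem acyc_cone_iff (φ : Hom X Y) (i : I) (n : ℤ) :
    φ.cone.Acyc i n ↔ φ.Inj i (n + 1) ∧ φ.Surj i n := by
  constructor
  · intro h
    refine ⟨fun x hx hb => ?_, fun y hy => ?_⟩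
    · obtain ⟨y, h1, h2⟩ := PD2h_Bd.1 hb
      obtain ⟨x', h3, -, -, h4, -⟩ := (φ.PD2h_cBd (x := x) (y := y)).1 (h ⟨⟨hx.1, h1⟩, hx.2, h2⟩)
      exact PD2h_Bd.2 ⟨x', h3, h4⟩
    · obtain ⟨x', h3, y', h4, h5, h6⟩ := (φ.PD2h_cBd (x := 0) (y := y)).1
        (h (φ.PD2h_cZ.2 ⟨⟨zero_mem _, hy.1⟩, by simp, by simpa using (Y.mem_Z.1 hy).2⟩))
      exact ⟨x', X.mem_Z.2 ⟨h3, by simpa using h5⟩, Y.mem_Bd.2 ⟨y', h4, by rwa [← add_assoc]⟩⟩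
  · rintro ⟨h1, h2⟩ ⟨x, y⟩ hz
    obtain ⟨⟨a1, a2⟩, a3, a4⟩ := φ.PD2h_cZ.1 hz
    obtain ⟨x₁, b1, b2⟩ := PD2h_Bd.1 (h1 x ⟨a1, a3⟩ (PD2h_Bd.2 ⟨y, a2, a4⟩))
    obtain ⟨x₂, c1, c2⟩ := h2 (y + φ.f i x₁) (Y.mem_Z.2 ⟨add_mem a2 (φ.P _ _ _ b1), by
      have := add_mem a4 (φ.N _ _ _ b2)
      rwa [map_add, add_comm (φ.f i _) (φ.f i x), add_assoc, add_add_cancel2, φ.d,
        ← map_add] at this⟩)
    obtain ⟨y', d1, d2⟩ := Y.mem_Bd.1 c2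
    refine φ.PD2h_cBd.2 ⟨x₂ + x₁, add_mem c1.1 b1, y', d1, ?_, ?_⟩
    · rw [map_add, add_assoc]
      exact add_mem c1.2 b2
    · convert d2 using 1
      rw [map_add]
      abel

theorem inj_of_acyc (φ : Hom X Y) {i : I} {n : ℤ} (h : X.Acyc i n) : φ.Inj i n := by
  exact fun x hx _ => h hx

theorem surj_of_acyc (φ : Hom X Y) {i : I} {n : ℤ} (h : Y.Acyc i n) : φ.Surj i n := by
  exact fun y hy => ⟨0, zero_mem _, by simpa using h hy⟩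

theorem null_of_acyc (φ : Hom X Y) {i : I} {n : ℤ} (h : X.Acyc i n) : φ.Null i n := by
  exact fun x hx => φ.mem_Bd (h hx)

theorem Surj.acyc {φ : Hom X Y} {i : I} {n : ℤ} (h : φ.Surj i n) (hX : X.Acyc i n) : Y.Acyc i n := by
  intro y hy
  obtain ⟨x, h1, h2⟩ := h y hy
  exact (Submodule.add_mem_iff_right _ (φ.mem_Bd (hX h1))).1 h2

theorem Inj.acyc {φ : Hom X Y} {i : I} {n : ℤ} (h : φ.Inj i n) (hY : Y.Acyc i n) : X.Acyc i n := by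
  exact fun x hx => h x hx (hY (φ.mem_Z hx))

theorem Inj.comp {φ : Hom X Y} {ψ : Hom Y W} {i : I} {n : ℤ} (h : φ.Inj i n) (h' : ψ.Inj i n) :
    (φ.comp ψ).Inj i n := by
  exact fun x hx hb => h x hx (h' _ (φ.mem_Z hx) hb)

theorem Surj.comp {φ : Hom X Y} {ψ : Hom Y W} {i : I} {n : ℤ} (h : φ.Surj i n) (h' : ψ.Surj i n) :
    (φ.comp ψ).Surj i n := by
  intro w hw
  obtain ⟨y, h1, h2⟩ := h' w hw
  obtain ⟨x, h3, h4⟩ := h y h1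
  have := add_mem (ψ.mem_Bd h4) h2
  rw [map_add, add_assoc, add_add_cancel2] at this
  exact ⟨x, h3, this⟩

theorem Inj.of_comp {φ : Hom X Y} {ψ : Hom Y W} {i : I} {n : ℤ} (h : (φ.comp ψ).Inj i n) :
    φ.Inj i n := by
  exact fun x hx hb => h x hx (ψ.mem_Bd hb)

theorem Surj.of_comp {φ : Hom X Y} {ψ : Hom Y W} {i : I} {n : ℤ} (h : (φ.comp ψ).Surj i n) :
    ψ.Surj i n := by
  intro w hw
  obtain ⟨x, h1, h2⟩ := h w hw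
  exact ⟨_, φ.mem_Z h1, h2⟩

theorem Null.comp_left {φ : Hom X Y} (ψ : Hom Y W) {i : I} {n : ℤ} (h : φ.Null i n) :
    (φ.comp ψ).Null i n := by
  exact fun x hx => ψ.mem_Bd (h x hx)

theorem Null.comp_right (φ : Hom X Y) {ψ : Hom Y W} {i : I} {n : ℤ} (h : ψ.Null i n) :
    (φ.comp ψ).Null i n := by
  exact fun x hx => h _ (φ.mem_Z hx)

theorem qiso_id (X : Obj G) : (Hom.id X).QIso := by
  exact fun i n => ⟨fun x _ h => h, fun y hy => ⟨y, hy, by simp [add_self2]⟩⟩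

theorem QIso.comp {φ : Hom X Y} {ψ : Hom Y W} (h : φ.QIso) (h' : ψ.QIso) : (φ.comp ψ).QIso := by
  exact fun i n => ⟨(h i n).1.comp (h' i n).1, (h i n).2.comp (h' i n).2⟩

theorem qiso_iff_cone (φ : Hom X Y) : φ.QIso ↔ ∀ i n, φ.cone.Acyc i n := by
  simp only [acyc_cone_iff]
  refine ⟨fun h i n => ⟨(h i _).1, (h i n).2⟩, fun h i n => ⟨?_, (h i n).2⟩⟩
  simpa using (h i (n - 1)).1

/-- A morphism which is bijective on the graded pieces at `i` is bijective on cohomology at `i`. -/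
theorem bij_of_pieces (φ : Hom X Y) (i : I)
    (h1 : ∀ n y, y ∈ Y.P i n → ∃ x ∈ X.P i n, φ.f i x + y ∈ Y.N i n)
    (h2 : ∀ n x, x ∈ X.P i n → φ.f i x ∈ Y.N i n → x ∈ X.N i n) (n : ℤ) :
    φ.Inj i n ∧ φ.Surj i n := by
  have key : ∀ n x y, x ∈ X.P i n → φ.f i x + y ∈ Y.N i n → ∀ x', x' ∈ X.P i (n + 1) →
      Y.d i y + φ.f i x' ∈ Y.N i (n + 1) → X.d i x + x' ∈ X.N i (n + 1) := by
    intro n x y a1 a2 x' a3 a4
    refine h2 _ _ (add_mem (X.dP _ _ _ a1) a3) ?_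
    have := add_mem (Y.dN _ _ _ a2) a4
    rwa [map_add, add_assoc, add_add_cancel2, ← φ.d, ← map_add] at this
  refine ⟨fun x hx hb => ?_, fun y hy => ?_⟩
  · obtain ⟨n, rfl⟩ : ∃ m, n = m + 1 := ⟨n - 1, by ring⟩
    obtain ⟨y, a1, a2⟩ := PD2h_Bd.1 hb
    obtain ⟨x', a3, a4⟩ := h1 n y a1
    exact PD2h_Bd.2 ⟨x', a3, key n x' y a3 a4 x hx.1 a2⟩
  · obtain ⟨x, a1, a2⟩ := h1 n y hy.1
    refine ⟨x, X.mem_Z.2 ⟨a1, ?_⟩, Y.N_le_Bd _ _ a2⟩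
    simpa using key n x y a1 a2 0 (zero_mem _) (by simpa using (Y.mem_Z.1 hy).2)

/-- If source and cone are acyclic then so is the target. -/
theorem acyc_of_cone (φ : Hom X Y) {i : I} {n : ℤ} (h : X.Acyc i n) (h' : φ.cone.Acyc i n) :
    Y.Acyc i n := by
  exact ((φ.acyc_cone_iff i n).1 h').2.acyc h

theorem PD2h_fW (φ : Hom X Y) (ψ : Hom Y W) (s i : I) (z : X.W) :
    (φ.comp ψ).fW s i z = ψ.fW s i (φ.fW s i z) := by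
  by_cases hi : i = s
  · subst hi
    simp only [fW_self]
    rfl
  · simp only [fW_ne _ hi]
    rfl

theorem mapT_comp (φ : Hom X Y) (ψ : Hom Y W) (s : I) :
    (φ.comp ψ).mapT s = (φ.mapT s).comp (ψ.mapT s) := by
  exact Hom.ext (funext fun i => LinearMap.ext fun z => PD2h_fW φ ψ s i z)

theorem mapU_comp (φ : Hom X Y) (ψ : Hom Y W) (s : I) :
    (φ.comp ψ).mapU s = (φ.mapU s).comp (ψ.mapU s) := by
  exact Hom.ext (funext fun i => LinearMap.ext fun z => PD2h_fW φ ψ s i z)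

theorem mapGw_comp (l : List (I × Bool)) (φ : Hom X Y) (ψ : Hom Y W) :
    Hom.mapGw l (φ.comp ψ) = (Hom.mapGw l φ).comp (Hom.mapGw l ψ) := by
  induction l generalizing X Y W with
  | nil => rfl
  | cons x l ih =>
    obtain ⟨s, _ | _⟩ := x
    · exact (congrArg (Hom.mapGw l) (mapU_comp φ ψ s)).trans (ih _ _)
    · exact (congrArg (Hom.mapGw l) (mapT_comp φ ψ s)).trans (ih _ _)

theorem kos_comp (φ : Hom X Y) (ψ : Hom Y W) (s : I) :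
    (φ.comp ψ).kos s = (φ.kos s).comp (ψ.kos s) := by
  exact Hom.ext (funext fun i => LinearMap.ext fun z => Prod.ext rfl (PD2h_fW φ ψ s i z.2))

theorem PD2h_Z {s i : I} (h : i ≠ s) (δ : ℤ) {D : X.W →ₗ[K2] X.W}
    (hD : ∀ z, D z = (X.d i z.1, 0, 0)) {n : ℤ} {z : X.W} :
    z ∈ X.Tp s δ X.P i n ⊓ (X.Tp s δ X.N i (n + 1)).comap D ↔ z.1 ∈ X.Z i n ∧ z.2 = 0 := by
  rw [Submodule.mem_inf, Submodule.mem_comap, X.mem_Tp_ne h, X.mem_Tp_ne h, hD, X.mem_Z]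
  exact ⟨fun h => ⟨⟨h.1.1, h.2.1⟩, h.1.2⟩, fun h => ⟨⟨h.1.1, h.2⟩, h.1.2, rfl⟩⟩

theorem PD2h_B {s i : I} (h : i ≠ s) (δ : ℤ) {D : X.W →ₗ[K2] X.W}
    (hD : ∀ z, D z = (X.d i z.1, 0, 0)) {n : ℤ} {z : X.W} :
    z ∈ (X.Tp s δ X.P i (n - 1)).map D ⊔ X.Tp s δ X.N i n ↔ z.1 ∈ X.Bd i n ∧ z.2 = 0 := by
  constructor
  · intro hz
    obtain ⟨_, ⟨y, hy, rfl⟩, w, hw, rfl⟩ := Submodule.mem_sup.1 hz
    obtain ⟨a1, a2⟩ := (X.mem_Tp_ne h).1 hw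
    rw [hD]
    exact ⟨Submodule.add_mem_sup ⟨_, ((X.mem_Tp_ne h).1 hy).1, rfl⟩ a1, (zero_add w.2).trans a2⟩
  · rintro ⟨h1, h2⟩
    obtain ⟨y, a1, a2⟩ := X.mem_Bd.1 h1
    refine Submodule.mem_sup.2 ⟨_, ⟨(y, 0), (X.mem_Tp_ne h).2 ⟨a1, rfl⟩, rfl⟩, D (y, 0) + z,
      (X.mem_Tp_ne h).2 ?_, add_add_cancel2 _ _⟩
    rw [hD]
    exact ⟨a2, (zero_add z.2).trans h2⟩

theorem PD2h_ne (φ : Hom X Y) {s i : I} (h : i ≠ s) (δ : ℤ) {D : X.W →ₗ[K2] X.W}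
    {D' : Y.W →ₗ[K2] Y.W} (hD : ∀ z, D z = (X.d i z.1, 0, 0)) (hD' : ∀ z, D' z = (Y.d i z.1, 0, 0))
    (n : ℤ) :
    ((∀ x ∈ X.Tp s δ X.P i n ⊓ (X.Tp s δ X.N i (n + 1)).comap D,
      φ.fW s i x ∈ (Y.Tp s δ Y.P i (n - 1)).map D' ⊔ Y.Tp s δ Y.N i n →
        x ∈ (X.Tp s δ X.P i (n - 1)).map D ⊔ X.Tp s δ X.N i n) ↔ φ.Inj i n) ∧
    ((∀ y ∈ Y.Tp s δ Y.P i n ⊓ (Y.Tp s δ Y.N i (n + 1)).comap D',
      ∃ x ∈ X.Tp s δ X.P i n ⊓ (X.Tp s δ X.N i (n + 1)).comap D,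
        φ.fW s i x + y ∈ (Y.Tp s δ Y.P i (n - 1)).map D' ⊔ Y.Tp s δ Y.N i n) ↔ φ.Surj i n) := by
  simp only [PD2h_Z h δ hD, PD2h_Z h δ hD', PD2h_B h δ hD, PD2h_B h δ hD', φ.fW_ne h]
  refine ⟨⟨fun H x hx hb => (H (x, 0) ⟨hx, rfl⟩ ⟨hb, rfl⟩).1,
    fun H x hx hb => ⟨H _ hx.1 hb.1, hx.2⟩⟩, fun H y hy => ?_, fun H y hy => ?_⟩
  · obtain ⟨x, h1, h2⟩ := H (y, 0) ⟨hy, rfl⟩
    exact ⟨x.1, h1.1, h2.1⟩
  · obtain ⟨x, h1, h2⟩ := H y.1 hy.1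
    exact ⟨(x, 0), ⟨h1, rfl⟩, h2, (zero_add y.2).trans hy.2⟩

/-- Away from the letters of the word nothing changes. -/
theorem mapGw_ne (l : List (I × Bool)) (φ : Hom X Y) {i : I} (h : ∀ x ∈ l, x.1 ≠ i) (n : ℤ) :
    ((Hom.mapGw l φ).Inj i n ↔ φ.Inj i n) ∧ ((Hom.mapGw l φ).Surj i n ↔ φ.Surj i n) := by
  induction l generalizing X Y with
  | nil => exact ⟨Iff.rfl, Iff.rfl⟩
  | cons x l ih =>
    have h1 := ih (φ.maptw x) fun y hy => h y (List.mem_cons_of_mem _ hy)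
    have h2 : i ≠ x.1 := (h x List.mem_cons_self).symm
    obtain ⟨s, _ | _⟩ := x
    · have h3 := PD2h_ne φ h2 (-1) (X.Ud_ne h2) (Y.Ud_ne h2) n
      exact ⟨h1.1.trans h3.1, h1.2.trans h3.2⟩
    · have h3 := PD2h_ne φ h2 1 (X.Td_ne h2) (Y.Td_ne h2) n
      exact ⟨h1.1.trans h3.1, h1.2.trans h3.2⟩

end Hom

end Crest.Agent.R175
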