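import Crest.Agent.R175.PD2h

/-! Acyclicity of the twists. -/

set_option autoImplicit false
set_option linter.unusedSectionVars false

open scoped Classical

noncomputable section

namespace Crest.Agent.R175

variable {I : Type} [Fintype I] [DecidableEq I] {G : Gph I}

namespace Obj

variable (X : Obj G)

theorem mem_Z_T_ne {s i : I} (h : i ≠ s) {n : ℤ} {z : X.W} :
    z ∈ (X.T s).Z i n ↔ z.1 ∈ X.Z i n ∧ z.2 = 0 := by
  show (z ∈ X.Tp s 1 X.P i n ∧ X.Td s i z ∈ X.Tp s 1 X.N i (n + 1)) ↔ _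
  rw [X.mem_Tp_ne h, X.mem_Tp_ne h, X.Td_ne h, mem_Z]
  constructor
  · rintro ⟨⟨h1, h2⟩, h3, _⟩
    exact ⟨⟨h1, h3⟩, h2⟩
  · rintro ⟨⟨h1, h3⟩, h2⟩
    exact ⟨⟨h1, h2⟩, h3, rfl⟩

theorem mem_Bd_T_ne {s i : I} (h : i ≠ s) {n : ℤ} {z : X.W} :
    z ∈ (X.T s).Bd i n ↔ z.1 ∈ X.Bd i n ∧ z.2 = 0 := by
  refine ((X.T s).mem_Bd (x := z)).trans ?_
  rw [X.mem_Bd]
  show (∃ y : X.W, y ∈ X.Tp s 1 X.P i (n - 1) ∧ X.Td s i y + z ∈ X.Tp s 1 X.N i n) ↔ _
  simp only [X.mem_Tp_ne h, X.Td_ne h]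
  constructor
  · rintro ⟨y, ⟨h1, _⟩, h3, h4⟩
    refine ⟨⟨y.1, h1, h3⟩, ?_⟩
    have h5 : ((0, 0) : X.V × X.F) + z.2 = 0 := h4
    rwa [Prod.mk_zero_zero, zero_add] at h5
  · rintro ⟨⟨y, h1, h3⟩, h4⟩
    refine ⟨(y, 0, 0), ⟨h1, rfl⟩, h3, ?_⟩
    show ((0, 0) : X.V × X.F) + z.2 = 0
    rw [h4, Prod.mk_zero_zero, zero_add]

theorem mem_Z_U_ne {s i : I} (h : i ≠ s) {n : ℤ} {z : X.W} :
    z ∈ (X.U s).Z i n ↔ z.1 ∈ X.Z i n ∧ z.2 = 0 := by
  show (z ∈ X.Tp s (-1) X.P i n ∧ X.Ud s i z ∈ X.Tp s (-1) X.N i (n + 1)) ↔ _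
  rw [X.mem_Tp_ne h, X.mem_Tp_ne h, X.Ud_ne h, mem_Z]
  constructor
  · rintro ⟨⟨h1, h2⟩, h3, _⟩
    exact ⟨⟨h1, h3⟩, h2⟩
  · rintro ⟨⟨h1, h3⟩, h2⟩
    exact ⟨⟨h1, h2⟩, h3, rfl⟩

theorem mem_Bd_U_ne {s i : I} (h : i ≠ s) {n : ℤ} {z : X.W} :
    z ∈ (X.U s).Bd i n ↔ z.1 ∈ X.Bd i n ∧ z.2 = 0 := by
  refine ((X.U s).mem_Bd (x := z)).trans ?_
  rw [X.mem_Bd]
  show (∃ y : X.W, y ∈ X.Tp s (-1) X.P i (n - 1) ∧ X.Ud s i y + z ∈ X.Tp s (-1) X.N i n) ↔ _
  simp only [X.mem_Tp_ne h, X.Ud_ne h]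
  constructor
  · rintro ⟨y, ⟨h1, _⟩, h3, h4⟩
    refine ⟨⟨y.1, h1, h3⟩, ?_⟩
    have h5 : ((0, 0) : X.V × X.F) + z.2 = 0 := h4
    rwa [Prod.mk_zero_zero, zero_add] at h5
  · rintro ⟨⟨y, h1, h3⟩, h4⟩
    refine ⟨(y, 0, 0), ⟨h1, rfl⟩, h3, ?_⟩
    show ((0, 0) : X.V × X.F) + z.2 = 0
    rw [h4, Prod.mk_zero_zero, zero_add]

theorem epsH_bij_ne {s i : I} (h : i ≠ s) (n : ℤ) : (X.epsH s).Inj i n ∧ (X.epsH s).Surj i n := by
  constructor
  · intro z hz hb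
    have hb' : X.epsF s i z ∈ X.Bd i n := hb
    rw [X.epsF_ne h] at hb'
    exact (X.mem_Bd_T_ne h).2 ⟨hb', ((X.mem_Z_T_ne h).1 hz).2⟩
  · intro y hy
    refine ⟨((y, 0, 0) : X.W), (X.mem_Z_T_ne h).2 ⟨hy, rfl⟩, ?_⟩
    show X.epsF s i (y, 0, 0) + y ∈ X.Bd i n
    rw [X.epsF_ne h, add_self2]
    exact zero_mem _

theorem etaH_bij_ne {s i : I} (h : i ≠ s) (n : ℤ) : (X.etaH s).Inj i n ∧ (X.etaH s).Surj i n := by
  constructor
  · intro x _ hb
    have hb' : X.etaF s i x ∈ (X.U s).Bd i n := hb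
    rw [X.etaF_ne h] at hb'
    exact ((X.mem_Bd_U_ne h).1 hb').1
  · intro (z : X.W) hz
    obtain ⟨h1, h2⟩ := (X.mem_Z_U_ne h).1 hz
    refine ⟨z.1, h1, ?_⟩
    show X.etaF s i z.1 + z ∈ (X.U s).Bd i n
    have e : X.etaF s i z.1 = z := by
      rw [X.etaF_ne h]
      exact Prod.ext rfl h2.symm
    rw [e, add_self2]
    exact zero_mem _

theorem etaW_bij_ne (l : List I) {i : I} (h : i ∉ l) (n : ℤ) :
    (etaW l X).Inj i n ∧ (etaW l X).Surj i n := by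
  induction l generalizing X with
  | nil => exact Hom.qiso_id X i n
  | cons j l ih =>
    have hj : i ≠ j := fun e => h (e ▸ List.mem_cons_self)
    have hl : i ∉ l := fun e => h (List.mem_cons_of_mem _ e)
    exact ⟨(X.etaH_bij_ne hj n).1.comp (ih (X.U j) hl).1, (X.etaH_bij_ne hj n).2.comp (ih (X.U j) hl).2⟩

theorem T_acyc_ne {s i : I} (h : i ≠ s) (n : ℤ) : (X.T s).Acyc i n ↔ X.Acyc i n := by
  exact ⟨(X.epsH_bij_ne h n).2.acyc, (X.epsH_bij_ne h n).1.acyc⟩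

theorem U_acyc_ne {s i : I} (h : i ≠ s) (n : ℤ) : (X.U s).Acyc i n ↔ X.Acyc i n := by
  exact ⟨(X.etaH_bij_ne h n).1.acyc, (X.etaH_bij_ne h n).2.acyc⟩

theorem Gw_acyc_ne (l : List (I × Bool)) {i : I} (h : ∀ x ∈ l, x.1 ≠ i) (n : ℤ) :
    (Gw l X).Acyc i n ↔ X.Acyc i n := by
  induction l generalizing X with
  | nil => exact Iff.rfl
  | cons x l ih =>
    rw [Gw_cons, ih _ fun y hy => h y (List.mem_cons_of_mem _ hy)]
    have hx : i ≠ x.1 := (h x List.mem_cons_self).symm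
    obtain ⟨j, b⟩ := x
    cases b
    · exact X.U_acyc_ne hx n
    · exact X.T_acyc_ne hx n

/-- If all neighbours are acyclic then slots of cocycles are slots of coboundaries. -/
theorem slots_Bd {s : I} {n : ℤ} {b : X.F} (hb : b ∈ X.slots s fun j => X.Bd j n) :
    ∃ b' ∈ X.slots s fun j => X.P j (n - 1), X.dF b' + b ∈ X.slots s fun j => X.N j n := by
  have key : ∀ e : I × Bool, ∃ y : X.V, (G.adj s e.1 e.2 → y ∈ X.P e.1 (n - 1) ∧
      X.d e.1 y + b e ∈ X.N e.1 n) ∧ (¬ G.adj s e.1 e.2 → y = 0) := by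
    intro e
    by_cases he : G.adj s e.1 e.2
    · obtain ⟨y, h1, h2⟩ := X.mem_Bd.1 ((X.mem_slots.1 hb e).1 he)
      exact ⟨y, fun _ => ⟨h1, h2⟩, fun h => absurd he h⟩
    · exact ⟨0, fun h => absurd h he, fun _ => rfl⟩
  choose b' hb' using key
  refine ⟨b', X.mem_slots.2 fun e => ⟨fun he => ((hb' e).1 he).1, (hb' e).2⟩,
    X.mem_slots.2 fun e => ⟨fun he => ((hb' e).1 he).2, fun he => ?_⟩⟩
  simp [(hb' e).2 he, (X.mem_slots.1 hb e).2 he]

theorem T_acyc {s : I} {n : ℤ} (h : X.Acyc s (n + 1)) (h' : ∀ j k, G.adj s j k → X.Acyc j n) :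
    (X.T s).Acyc s n := by
  intro (z : X.W) hz
  have hz' : z ∈ X.Tp s 1 X.P s n ∧ X.Td s s z ∈ X.Tp s 1 X.N s (n + 1) := hz
  rw [mem_Tp_self, mem_Tp_self, Td_self] at hz'
  obtain ⟨⟨h0, hu, hb⟩, -, hdu, hdb⟩ := hz'
  obtain ⟨u', hu', hN⟩ := X.mem_Bd.1 (h (X.mem_Z.2 ⟨hu, hdu⟩))
  have e1 : n + 1 - 1 = n := by ring
  rw [e1] at hu'
  -- the corrected slot vector
  have hc : z.2.2 + X.out s u' ∈ X.slots s fun j => X.Bd j n := by
    have hP : z.2.2 + X.out s u' ∈ X.slots s fun j => X.P j n :=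
      add_mem hb (X.out_mem fun j k => X.aP _ _ _ _ _ hu')
    have hD : X.dF (z.2.2 + X.out s u') ∈ X.slots s fun j => X.N j (n + 1) := by
      have h1 : X.out s (X.d s u' + z.2.1) ∈ X.slots s fun j => X.N j (n + 1) :=
        X.out_mem fun j k => X.aN _ _ _ _ _ hN
      have h2 := add_mem hdb h1
      have e : X.dF z.2.2 + X.out s z.2.1 + X.out s (X.d s u' + z.2.1) =
          X.dF (z.2.2 + X.out s u') := by
        rw [map_add, map_add, dF_out, add_comm (X.out s (X.d s u')), add_assoc, add_add_cancel2]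
      rwa [e] at h2
    refine X.mem_slots.2 fun e => ⟨fun he => h' _ _ he (X.mem_Z.2 ⟨(X.mem_slots.1 hP e).1 he,
      (X.mem_slots.1 hD e).1 he⟩), (X.mem_slots.1 hP e).2⟩
  obtain ⟨b', hb', hN'⟩ := X.slots_Bd hc
  refine (X.T s).mem_Bd.2 ⟨((0, u', b') : X.W), ?_, ?_⟩
  · show ((0, u', b') : X.W) ∈ X.Tp s 1 X.P s (n - 1)
    rw [mem_Tp_self]
    exact ⟨rfl, by simpa using hu', hb'⟩
  · show X.Td s s (0, u', b') + z ∈ X.Tp s 1 X.N s n
    rw [mem_Tp_self, Td_self]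
    refine ⟨by simpa using h0, hN, ?_⟩
    show X.dF b' + X.out s u' + z.2.2 ∈ _
    rwa [add_assoc, add_comm (X.out s u')]

theorem U_acyc {s : I} {n : ℤ} (h : X.Acyc s (n - 1)) (h' : ∀ j k, G.adj s j k → X.Acyc j n) :
    (X.U s).Acyc s n := by
  intro (z : X.W) hz
  have hz' : z ∈ X.Tp s (-1) X.P s n ∧ X.Ud s s z ∈ X.Tp s (-1) X.N s (n + 1) := hz
  rw [mem_Tp_self, mem_Tp_self, Ud_self] at hz'
  obtain ⟨⟨h0, hu, hb⟩, -, hdu, hdb⟩ := hz'
  have e1 : n + 1 + -1 = n := by ring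
  have e2 : n + -1 = n - 1 := by ring
  rw [e1] at hdu
  rw [e2] at hu
  have hc : z.2.2 ∈ X.slots s fun j => X.Bd j n :=
    X.mem_slots.2 fun e => ⟨fun he => h' _ _ he (X.mem_Z.2 ⟨(X.mem_slots.1 hb e).1 he,
      (X.mem_slots.1 hdb e).1 he⟩), (X.mem_slots.1 hb e).2⟩
  obtain ⟨b', hb', hN'⟩ := X.slots_Bd hc
  have hZ : z.2.1 + X.inn s b' ∈ X.Z s (n - 1) := by
    refine X.mem_Z.2 ⟨add_mem hu (X.inn_mem hb' fun j k x hx => X.aP _ _ _ _ _ hx), ?_⟩
    have h1 : X.inn s (X.dF b' + z.2.2) ∈ X.N s n :=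
      X.inn_mem hN' fun j k x hx => X.aN _ _ _ _ _ hx
    have h2 := add_mem hdu h1
    have e : X.inn s z.2.2 + X.d s z.2.1 + X.inn s (X.dF b' + z.2.2) =
        X.d s (z.2.1 + X.inn s b') := by
      rw [map_add, map_add, d_inn, add_comm (X.inn s z.2.2), add_comm (X.inn s (X.dF b')), add_assoc,
        add_add_cancel2]
    rw [e] at h2
    simpa using h2
  obtain ⟨u', hu', hN⟩ := X.mem_Bd.1 (h hZ)
  refine (X.U s).mem_Bd.2 ⟨((0, u', b') : X.W), ?_, ?_⟩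
  · show ((0, u', b') : X.W) ∈ X.Tp s (-1) X.P s (n - 1)
    rw [mem_Tp_self]
    exact ⟨rfl, hu', hb'⟩
  · show X.Ud s s (0, u', b') + z ∈ X.Tp s (-1) X.N s n
    rw [mem_Tp_self, Ud_self]
    refine ⟨by simpa using h0, ?_, hN'⟩
    show X.inn s b' + X.d s u' + z.2.1 ∈ X.N s (n + -1)
    rw [e2, add_comm (X.inn s b'), add_assoc, add_comm (X.inn s b')]
    exact hN

/-- Twists at vertices of `K` preserve upper bounds on a set `J` containing `K` and its neighbours. -/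
theorem Tw_acyc_ge {K J : Set I} (hKJ : K ⊆ J) (hnb : ∀ i ∈ K, ∀ j k, G.adj i j k → j ∈ J)
    (l : List I) (hl : ∀ i ∈ l, i ∈ K) {e : ℤ} (h : ∀ i ∈ J, ∀ n, e ≤ n → X.Acyc i n) :
    ∀ i ∈ J, ∀ n, e ≤ n → (Tw l X).Acyc i n := by
  induction l generalizing X with
  | nil => exact h
  | cons s l ih =>
    rw [Tw_cons]
    refine ih (X.T s) (fun i hi => hl i (List.mem_cons_of_mem _ hi)) fun i hi n hn => ?_
    have hs : s ∈ K := hl s List.mem_cons_self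
    by_cases his : i = s
    · subst his
      exact X.T_acyc (h i hi _ (by omega)) fun j k hj => h j (hnb i hs j k hj) n hn
    · exact (X.T_acyc_ne his n).2 (h i hi n hn)

/-- Inverse twists preserve lower bounds. -/
theorem Uw_acyc_le (l : List I) {e : ℤ} (h : ∀ i n, n ≤ e → X.Acyc i n) :
    ∀ i n, n ≤ e → (Uw l X).Acyc i n := by
  induction l generalizing X with
  | nil => exact h
  | cons s l ih =>
    rw [Uw_cons]
    refine ih (X.U s) fun i n hn => ?_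
    by_cases his : i = s
    · subst his
      exact X.U_acyc (h i _ (by omega)) fun j k _ => h j n hn
    · exact (X.U_acyc_ne his n).2 (h i n hn)

theorem Gw_acyc_all (l : List (I × Bool)) (h : ∀ i n, X.Acyc i n) : ∀ i n, (Gw l X).Acyc i n := by
  induction l generalizing X with
  | nil => exact h
  | cons x l ih =>
    rw [Gw_cons]
    refine ih _ fun i n => ?_
    obtain ⟨s, b⟩ := x
    cases b
    · by_cases his : i = s
      · subst his
        exact X.U_acyc (h i _) fun j k _ => h j n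
      · exact (X.U_acyc_ne his n).2 (h i n)
    · by_cases his : i = s
      · subst his
        exact X.T_acyc (h i _) fun j k _ => h j n
      · exact (X.T_acyc_ne his n).2 (h i n)

theorem Gw_bdd_above (l : List (I × Bool)) (h : ∃ N : ℤ, ∀ i n, N < n → X.Acyc i n) :
    ∃ N : ℤ, ∀ i n, N < n → (Gw l X).Acyc i n := by
  induction l generalizing X with
  | nil => exact h
  | cons x l ih =>
    rw [Gw_cons]
    obtain ⟨N, h⟩ := h
    refine ih _ ⟨N + 1, fun i n hn => ?_⟩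
    obtain ⟨s, b⟩ := x
    cases b
    · by_cases his : i = s
      · subst his
        exact X.U_acyc (h i _ (by omega)) fun j k _ => h j n (by omega)
      · exact (X.U_acyc_ne his n).2 (h i n (by omega))
    · by_cases his : i = s
      · subst his
        exact X.T_acyc (h i _ (by omega)) fun j k _ => h j n (by omega)
      · exact (X.T_acyc_ne his n).2 (h i n (by omega))

theorem Gw_bdd_below (l : List (I × Bool)) (h : ∃ N : ℤ, ∀ i n, n < N → X.Acyc i n) :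
    ∃ N : ℤ, ∀ i n, n < N → (Gw l X).Acyc i n := by
  induction l generalizing X with
  | nil => exact h
  | cons x l ih =>
    rw [Gw_cons]
    obtain ⟨N, h⟩ := h
    refine ih _ ⟨N - 1, fun i n hn => ?_⟩
    obtain ⟨s, b⟩ := x
    cases b
    · by_cases his : i = s
      · subst his
        exact X.U_acyc (h i _ (by omega)) fun j k _ => h j n (by omega)
      · exact (X.U_acyc_ne his n).2 (h i n (by omega))
    · by_cases his : i = s
      · subst his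
        exact X.T_acyc (h i _ (by omega)) fun j k _ => h j n (by omega)
      · exact (X.T_acyc_ne his n).2 (h i n (by omega))

end Obj

end Crest.Agent.R175
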