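import Crest.Agent.R175.PD1

/-! Relative dimensions. -/

set_option autoImplicit false
set_option linter.unusedSectionVars false

open scoped Classical

noncomputable section

namespace Crest.Agent.R175

section Lin

variable {V V' V'' : Type} [AddCommGroup V] [Module K2 V] [AddCommGroup V'] [Module K2 V']
  [AddCommGroup V''] [Module K2 V'']

/-- The induced map on the subquotients. -/
def PD3a_ind (f : V →ₗ[K2] V') {A B : Submodule K2 V} {A' B' : Submodule K2 V'}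
    (hA : ∀ x ∈ A, f x ∈ A') (hB : ∀ x ∈ B, f x ∈ B') : A.map B.mkQ →ₗ[K2] A'.map B'.mkQ :=
  (B.mapQ B' f fun x hx => hB x hx).restrict (by
    rintro _ ⟨x, hx, rfl⟩
    exact ⟨f x, hA x hx, rfl⟩)

/-- The class of an element. -/
def PD3a_cl {A : Submodule K2 V} (B : Submodule K2 V) {x : V} (hx : x ∈ A) : A.map B.mkQ :=
  ⟨B.mkQ x, x, hx, rfl⟩

theorem PD3a_cl_surj {A B : Submodule K2 V} (z : A.map B.mkQ) :
    ∃ x, ∃ hx : x ∈ A, z = PD3a_cl B hx := by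
  obtain ⟨_, x, hx, rfl⟩ := z
  exact ⟨x, hx, rfl⟩

theorem PD3a_ind_cl (f : V →ₗ[K2] V') {A B : Submodule K2 V} {A' B' : Submodule K2 V'}
    (hA : ∀ x ∈ A, f x ∈ A') (hB : ∀ x ∈ B, f x ∈ B') {x : V} (hx : x ∈ A) :
    PD3a_ind f hA hB (PD3a_cl B hx) = PD3a_cl B' (hA x hx) := rfl

theorem PD3a_cl_eq {A B : Submodule K2 V} {x y : V} (hx : x ∈ A) (hy : y ∈ A) :
    PD3a_cl B hx = PD3a_cl B hy ↔ x + y ∈ B := by
  rw [← sub_eq_add2, ← Submodule.Quotient.eq]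
  exact Subtype.ext_iff

theorem PD3a_cl_zero {A B : Submodule K2 V} {x : V} (hx : x ∈ A) : PD3a_cl B hx = 0 ↔ x ∈ B := by
  rw [← Submodule.Quotient.mk_eq_zero]
  exact Subtype.ext_iff

theorem PD3a_surj (f : V →ₗ[K2] V') {A B : Submodule K2 V} {A' B' : Submodule K2 V'}
    (hA : ∀ x ∈ A, f x ∈ A') (hB : ∀ x ∈ B, f x ∈ B') (hs : ∀ y ∈ A', ∃ x ∈ A, f x + y ∈ B') :
    Function.Surjective (PD3a_ind f hA hB) := by
  intro z
  obtain ⟨y, hy, rfl⟩ := PD3a_cl_surj z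
  obtain ⟨x, hx, h⟩ := hs y hy
  exact ⟨PD3a_cl B hx, (PD3a_cl_eq (hA x hx) hy).2 h⟩

theorem PD3a_inj (f : V →ₗ[K2] V') {A B : Submodule K2 V} {A' B' : Submodule K2 V'}
    (hA : ∀ x ∈ A, f x ∈ A') (hB : ∀ x ∈ B, f x ∈ B') (hi : ∀ x ∈ A, f x ∈ B' → x ∈ B) :
    Function.Injective (PD3a_ind f hA hB) := by
  rw [injective_iff_map_eq_zero]
  intro z hz
  obtain ⟨x, hx, rfl⟩ := PD3a_cl_surj z
  exact (PD3a_cl_zero hx).2 (hi x hx ((PD3a_cl_zero (hA x hx)).1 hz))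

theorem PD3a_exact (φ : V →ₗ[K2] V') (ψ : V' →ₗ[K2] V'') [Module.Finite K2 V]
    [Module.Finite K2 V''] (h : LinearMap.ker ψ ≤ LinearMap.range φ) :
    Module.Finite K2 V' ∧ Module.finrank K2 V' ≤ Module.finrank K2 V + Module.finrank K2 V'' := by
  have h1 : Module.Finite K2 (LinearMap.ker ψ) := Submodule.finiteDimensional_of_le h
  have h2 : Module.Finite K2 (V' ⧸ LinearMap.ker ψ) := Module.Finite.equiv ψ.quotKerEquivRange.symm
  have h3 : Module.Finite K2 V' := Module.Finite.of_submodule_quotient (LinearMap.ker ψ)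
  refine ⟨h3, ?_⟩
  have h4 := ψ.finrank_range_add_finrank_ker
  have h5 := Submodule.finrank_mono h
  have h6 := φ.finrank_range_le
  have h7 := Submodule.finrank_le (LinearMap.range ψ)
  omega

theorem PD3a_short (φ : V →ₗ[K2] V') (ψ : V' →ₗ[K2] V'') [Module.Finite K2 V']
    (hφ : Function.Injective φ) (h : LinearMap.range φ ≤ LinearMap.ker ψ)
    (hψ : Function.Surjective ψ) :
    Module.finrank K2 V + Module.finrank K2 V'' ≤ Module.finrank K2 V' := by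
  have h4 := ψ.finrank_range_add_finrank_ker
  have h5 := Submodule.finrank_mono h
  rw [LinearMap.finrank_range_of_inj hφ] at h5
  rw [LinearMap.range_eq_top.2 hψ, finrank_top] at h4
  omega

theorem PD3a_map_bot {A B : Submodule K2 V} : A.map B.mkQ = ⊥ ↔ A ≤ B := by
  rw [← le_bot_iff, Submodule.map_le_iff_le_comap, Submodule.comap_bot, Submodule.ker_mkQ]

theorem PD3a_rdim_exact (f : V →ₗ[K2] V') (g : V' →ₗ[K2] V'') {A B : Submodule K2 V}
    {A' B' : Submodule K2 V'} {A'' B'' : Submodule K2 V''}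
    (hA : ∀ x ∈ A, f x ∈ A') (hB : ∀ x ∈ B, f x ∈ B') (hA' : ∀ y ∈ A', g y ∈ A'')
    (hB' : ∀ y ∈ B', g y ∈ B'') (hex : ∀ y ∈ A', g y ∈ B'' → ∃ x ∈ A, f x + y ∈ B')
    (h : FinR A B) (h'' : FinR A'' B'') :
    FinR A' B' ∧ rdim A' B' ≤ rdim A B + rdim A'' B'' := by
  unfold FinR at h h''
  refine PD3a_exact (PD3a_ind f hA hB) (PD3a_ind g hA' hB') fun z hz => ?_
  obtain ⟨y, hy, rfl⟩ := PD3a_cl_surj z
  obtain ⟨x, hx, hxy⟩ := hex y hy ((PD3a_cl_zero (hA' y hy)).1 hz)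
  exact ⟨PD3a_cl B hx, (PD3a_cl_eq (hA x hx) hy).2 hxy⟩

theorem PD3a_rdim_short (f : V →ₗ[K2] V') (g : V' →ₗ[K2] V'') {A B : Submodule K2 V}
    {A' B' : Submodule K2 V'} {A'' B'' : Submodule K2 V''}
    (hA : ∀ x ∈ A, f x ∈ A') (hB : ∀ x ∈ B, f x ∈ B') (hA' : ∀ y ∈ A', g y ∈ A'')
    (hB' : ∀ y ∈ B', g y ∈ B'') (hi : ∀ x ∈ A, f x ∈ B' → x ∈ B)
    (hc : ∀ x ∈ A, g (f x) ∈ B'') (hs : ∀ z ∈ A'', ∃ y ∈ A', g y + z ∈ B'') (h' : FinR A' B') :
    rdim A B + rdim A'' B'' ≤ rdim A' B' := by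
  unfold FinR at h'
  refine PD3a_short (PD3a_ind f hA hB) (PD3a_ind g hA' hB') (PD3a_inj f hA hB hi) ?_
    (PD3a_surj g hA' hB' hs)
  rintro _ ⟨z, rfl⟩
  obtain ⟨x, hx, rfl⟩ := PD3a_cl_surj z
  exact (PD3a_cl_zero (hA' _ (hA x hx))).2 (hc x hx)

theorem PD3a_rdim_surj (f : V →ₗ[K2] V') {A B : Submodule K2 V} {A' B' : Submodule K2 V'}
    (hA : ∀ x ∈ A, f x ∈ A') (hB : ∀ x ∈ B, f x ∈ B') (hs : ∀ y ∈ A', ∃ x ∈ A, f x + y ∈ B')
    (h : FinR A B) : FinR A' B' ∧ rdim A' B' ≤ rdim A B := by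
  unfold FinR at h
  exact ⟨Module.Finite.of_surjective _ (PD3a_surj f hA hB hs),
    LinearMap.finrank_le_finrank_of_surjective (PD3a_surj f hA hB hs)⟩

theorem PD3a_pi {ι : Type} [Fintype ι] (Q R : ι → Submodule K2 V) :
    Nonempty (((Submodule.pi Set.univ Q).map (Submodule.pi Set.univ R).mkQ) ≃ₗ[K2]
      ∀ i, (Q i).map (R i).mkQ) := by
  let φ : ((Submodule.pi Set.univ Q).map (Submodule.pi Set.univ R).mkQ) →ₗ[K2]
      ∀ i, (Q i).map (R i).mkQ :=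
    LinearMap.pi fun i => PD3a_ind (LinearMap.proj i) (fun x hx => hx i trivial)
      fun x hx => hx i trivial
  refine ⟨LinearEquiv.ofBijective φ ⟨?_, ?_⟩⟩
  · rw [injective_iff_map_eq_zero]
    intro z hz
    obtain ⟨x, hx, rfl⟩ := PD3a_cl_surj z
    exact (PD3a_cl_zero hx).2 fun i _ => (PD3a_cl_zero (hx i trivial)).1 (congrFun hz i)
  · intro z
    choose x hx hz using fun i => PD3a_cl_surj (z i)
    exact ⟨PD3a_cl _ (x := x) fun i _ => hx i, funext fun i => (hz i).symm⟩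

theorem finR_of_le {A B : Submodule K2 V} (h : A ≤ B) : FinR A B := by
  unfold FinR
  rw [PD3a_map_bot.2 h]
  infer_instance

theorem rdim_of_le {A B : Submodule K2 V} (h : A ≤ B) : rdim A B = 0 := by
  unfold rdim
  rw [PD3a_map_bot.2 h, finrank_bot]

theorem FinR.le_of_rdim {A B : Submodule K2 V} (h : FinR A B) (h0 : rdim A B = 0) : A ≤ B := by
  unfold FinR at h
  exact PD3a_map_bot.1 (Submodule.finrank_eq_zero.1 h0)

theorem FinR.mono {A A' B : Submodule K2 V} (h : FinR A' B) (hA : A ≤ A') :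
    FinR A B ∧ rdim A B ≤ rdim A' B := by
  unfold FinR at h
  exact ⟨Submodule.finiteDimensional_of_le (Submodule.map_mono hA),
    Submodule.finrank_mono (Submodule.map_mono hA)⟩

theorem FinR.lt {A A' B : Submodule K2 V} (h : FinR A' B) (hB : B ≤ A) (hA : A ≤ A')
    (hne : ¬ A' ≤ A) : rdim A B < rdim A' B := by
  unfold FinR at h
  refine Submodule.finrank_lt_finrank_of_lt (lt_of_le_of_ne (Submodule.map_mono hA) fun e => hne ?_)
  intro x hx
  have h1 : B.mkQ x ∈ A.map B.mkQ := e ▸ Submodule.mem_map_of_mem hx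
  obtain ⟨y, hy, hxy⟩ := h1
  have h2 : y - x ∈ B := (Submodule.Quotient.eq B).1 hxy
  have h3 := A.sub_mem hy (hB h2)
  rwa [sub_sub_cancel] at h3

theorem finR_tower {A B C : Submodule K2 V} (hCB : C ≤ B) (hBA : B ≤ A) :
    FinR A C ↔ FinR A B ∧ FinR B C := by
  constructor
  · intro h
    refine ⟨(PD3a_rdim_surj LinearMap.id (fun _ hx => hx) (fun _ hx => hCB hx)
      (fun y hy => ⟨y, hy, ?_⟩) h).1, (h.mono hBA).1⟩
    rw [LinearMap.id_apply, add_self2]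
    exact B.zero_mem
  · rintro ⟨h1, h2⟩
    refine (PD3a_rdim_exact LinearMap.id LinearMap.id (fun _ hx => hBA hx) (fun _ hx => hx)
      (fun _ hx => hx) (fun _ hx => hCB hx) (fun y _ hy => ⟨y, hy, ?_⟩) h2 h1).1
    rw [LinearMap.id_apply, add_self2]
    exact C.zero_mem

theorem rdim_tower {A B C : Submodule K2 V} (hCB : C ≤ B) (hBA : B ≤ A) (h : FinR A C) :
    rdim A C = rdim A B + rdim B C := by
  obtain ⟨h1, h2⟩ := (finR_tower hCB hBA).1 h
  have h3 := (PD3a_rdim_exact LinearMap.id LinearMap.id (fun _ hx => hBA hx) (fun _ hx => hx)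
      (fun _ hx => hx) (fun _ hx => hCB hx) (fun y _ hy => ⟨y, hy, by
        rw [LinearMap.id_apply, add_self2]
        exact C.zero_mem⟩) h2 h1).2
  have h4 := PD3a_rdim_short (A := B) (B := C) (A'' := A) (B'' := B) LinearMap.id LinearMap.id
    (fun _ hx => hBA hx) (fun _ hx => hx) (fun _ hx => hx) (fun _ hx => hCB hx)
    (fun _ _ hx => hx) (fun _ hx => hx) (fun y hy => ⟨y, hy, by
      rw [LinearMap.id_apply, add_self2]
      exact B.zero_mem⟩) h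
  omega

theorem rdim_surj (f : V →ₗ[K2] V') {A B : Submodule K2 V} {A' B' : Submodule K2 V'}
    (hA : ∀ x ∈ A, f x ∈ A') (hB : ∀ x ∈ B, f x ∈ B') (hs : ∀ y ∈ A', ∃ x ∈ A, f x + y ∈ B')
    (h : FinR A B) : FinR A' B' ∧ rdim A' B' ≤ rdim A B := by
  exact PD3a_rdim_surj f hA hB hs h

theorem rdim_inj (f : V →ₗ[K2] V') {A B : Submodule K2 V} {A' B' : Submodule K2 V'}
    (hA : ∀ x ∈ A, f x ∈ A') (hB : ∀ x ∈ B, f x ∈ B') (hi : ∀ x ∈ A, f x ∈ B' → x ∈ B)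
    (h : FinR A' B') : FinR A B ∧ rdim A B ≤ rdim A' B' := by
  unfold FinR at h
  exact ⟨Module.Finite.of_injective _ (PD3a_inj f hA hB hi),
    LinearMap.finrank_le_finrank_of_injective (PD3a_inj f hA hB hi)⟩

theorem rdim_bij (f : V →ₗ[K2] V') {A B : Submodule K2 V} {A' B' : Submodule K2 V'}
    (hA : ∀ x ∈ A, f x ∈ A') (hB : ∀ x ∈ B, f x ∈ B') (hs : ∀ y ∈ A', ∃ x ∈ A, f x + y ∈ B')
    (hi : ∀ x ∈ A, f x ∈ B' → x ∈ B) : (FinR A B ↔ FinR A' B') ∧ rdim A B = rdim A' B' := by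
  let e := LinearEquiv.ofBijective _ ⟨PD3a_inj f hA hB hi, PD3a_surj f hA hB hs⟩
  exact ⟨Module.Finite.equiv_iff e, e.finrank_eq⟩

/-- Exactness in the middle bounds the middle term. -/
theorem rdim_exact (f : V →ₗ[K2] V') (g : V' →ₗ[K2] V'') {A B : Submodule K2 V}
    {A' B' : Submodule K2 V'} {A'' B'' : Submodule K2 V''}
    (hA : ∀ x ∈ A, f x ∈ A') (hB : ∀ x ∈ B, f x ∈ B') (hA' : ∀ y ∈ A', g y ∈ A'')
    (hB' : ∀ y ∈ B', g y ∈ B'') (hex : ∀ y ∈ A', g y ∈ B'' → ∃ x ∈ A, f x + y ∈ B')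
    (h : FinR A B) (h'' : FinR A'' B'') :
    FinR A' B' ∧ rdim A' B' ≤ rdim A B + rdim A'' B'' := by
  exact PD3a_rdim_exact f g hA hB hA' hB' hex h h''

/-- A complex which is exact at both ends. -/
theorem rdim_short (f : V →ₗ[K2] V') (g : V' →ₗ[K2] V'') {A B : Submodule K2 V}
    {A' B' : Submodule K2 V'} {A'' B'' : Submodule K2 V''}
    (hA : ∀ x ∈ A, f x ∈ A') (hB : ∀ x ∈ B, f x ∈ B') (hA' : ∀ y ∈ A', g y ∈ A'')
    (hB' : ∀ y ∈ B', g y ∈ B'') (hi : ∀ x ∈ A, f x ∈ B' → x ∈ B)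
    (hc : ∀ x ∈ A, g (f x) ∈ B'') (hs : ∀ z ∈ A'', ∃ y ∈ A', g y + z ∈ B'') (h' : FinR A' B') :
    rdim A B + rdim A'' B'' ≤ rdim A' B' := by
  exact PD3a_rdim_short f g hA hB hA' hB' hi hc hs h'

end Lin

variable {I : Type} [Fintype I] [DecidableEq I] {G : Gph I}

theorem Obj.rdim_slots (X : Obj G) (s : I) {Q R : I → Submodule K2 X.V}
    (h : ∀ j k, G.adj s j k → FinR (Q j) (R j)) :
    FinR (X.slots s Q) (X.slots s R) ∧ rdim (X.slots s Q) (X.slots s R) =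
      ∑ e : I × Bool, if G.adj s e.1 e.2 then rdim (Q e.1) (R e.1) else 0 := by
  obtain ⟨e⟩ := PD3a_pi (fun e : I × Bool => if G.adj s e.1 e.2 then Q e.1 else ⊥)
    fun e : I × Bool => if G.adj s e.1 e.2 then R e.1 else ⊥
  have hf : ∀ i : I × Bool, Module.Finite K2 ((if G.adj s i.1 i.2 then Q i.1 else ⊥).map
      (if G.adj s i.1 i.2 then R i.1 else ⊥).mkQ) := fun i => by
    show FinR _ _
    split_ifs with hi
    · exact h _ _ hi
    · exact finR_of_le le_rfl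
  refine ⟨Module.Finite.equiv e.symm, e.finrank_eq.trans ?_⟩
  rw [Module.finrank_pi_fintype]
  refine Finset.sum_congr rfl fun i _ => ?_
  show rdim _ _ = _
  split_ifs with hi
  · rfl
  · exact rdim_of_le le_rfl

end Crest.Agent.R175
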