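import Crest.Agent.R175.PD2a
import Crest.Agent.R175.PD3a

/-! Dimensions of the cohomology of the twists. -/

set_option autoImplicit false
set_option linter.unusedSectionVars false

open scoped Classical

noncomputable section

namespace Crest.Agent.R175

variable {I : Type} [Fintype I] [DecidableEq I] {G : Gph I}

namespace Hom

variable {X Y : Obj G}

theorem Surj.hd_le {φ : Hom X Y} {i : I} {n : ℤ} (h : φ.Surj i n) (hf : FinR (X.Z i n) (X.Bd i n)) :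
    FinR (Y.Z i n) (Y.Bd i n) ∧ Y.hd i n ≤ X.hd i n := by
  exact rdim_surj (φ.f i) (fun _ hx => φ.mem_Z hx) (fun _ hx => φ.mem_Bd hx) h hf

theorem hd_eq_of_bij {φ : Hom X Y} {i : I} {n : ℤ} (h : φ.Inj i n) (h' : φ.Surj i n) :
    (FinR (X.Z i n) (X.Bd i n) ↔ FinR (Y.Z i n) (Y.Bd i n)) ∧ X.hd i n = Y.hd i n := by
  exact rdim_bij (φ.f i) (fun _ hx => φ.mem_Z hx) (fun _ hx => φ.mem_Bd hx) h' h

end Hom

namespace Obj

variable {X : Obj G}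

section Aux

/-- `u ↦ (0, u, 0)` -/
def PD3b_j1 (X : Obj G) : X.V →ₗ[K2] X.W := X.i1.comp (LinearMap.inl K2 _ _)
/-- `b ↦ (0, 0, b)` -/
def PD3b_j2 (X : Obj G) : X.F →ₗ[K2] X.W := X.i1.comp (LinearMap.inr K2 _ _)
/-- `z ↦ z.2.1` -/
def PD3b_p1 (X : Obj G) : X.W →ₗ[K2] X.V := (LinearMap.fst K2 _ _).comp (LinearMap.snd K2 _ _)
/-- `z ↦ z.2.2` -/
def PD3b_p2 (X : Obj G) : X.W →ₗ[K2] X.F := (LinearMap.snd K2 _ _).comp (LinearMap.snd K2 _ _)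

variable {s : I} {n : ℤ} {z : X.W} {b : X.F} {u : X.V}

theorem PD3b_sZ : (b ∈ X.slots s fun j => X.Z j n) ↔
    (b ∈ X.slots s fun j => X.P j n) ∧ X.dF b ∈ X.slots s fun j => X.N j (n + 1) := by
  refine ⟨fun h => ⟨X.slots_mono (fun j => X.Z_le_P j n) h, X.dF_mem h fun j x hx => hx.2⟩,
    fun h => X.mem_slots.2 fun e => ⟨fun he => ⟨(X.mem_slots.1 h.1 e).1 he,
      (X.mem_slots.1 h.2 e).1 he⟩, (X.mem_slots.1 h.1 e).2⟩⟩

theorem PD3b_sB {b' : X.F} (h1 : b' ∈ X.slots s fun j => X.P j (n - 1))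
    (h2 : X.dF b' + b ∈ X.slots s fun j => X.N j n) : b ∈ X.slots s fun j => X.Bd j n := by
  refine X.mem_slots.2 fun e => ⟨fun he => X.mem_Bd.2 ⟨b' e, (X.mem_slots.1 h1 e).1 he,
    (X.mem_slots.1 h2 e).1 he⟩, fun he => ?_⟩
  simpa [(X.mem_slots.1 h1 e).2 he] using (X.mem_slots.1 h2 e).2 he

theorem PD3b_ZT : z ∈ (X.T s).Z s n ↔ z.1 = 0 ∧ z.2.1 ∈ X.P s (n + 1) ∧
    (z.2.2 ∈ X.slots s fun j => X.P j n) ∧ X.d s z.2.1 ∈ X.N s (n + 1 + 1) ∧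
      X.dF z.2.2 + X.out s z.2.1 ∈ X.slots s fun j => X.N j (n + 1) := by
  show z ∈ X.Tp s 1 X.P s n ∧ X.Td s s z ∈ X.Tp s 1 X.N s (n + 1) ↔ _
  rw [mem_Tp_self, mem_Tp_self, Td_self]
  simp only [true_and, and_assoc]

theorem PD3b_BT : z ∈ (X.T s).Bd s n ↔ z.1 = 0 ∧ ∃ u ∈ X.P s n,
    ∃ b ∈ X.slots s fun j => X.P j (n - 1), X.d s u + z.2.1 ∈ X.N s (n + 1) ∧
      X.dF b + X.out s u + z.2.2 ∈ X.slots s fun j => X.N j n := by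
  refine (X.T s).mem_Bd.trans ?_
  show (∃ y ∈ X.Tp s 1 X.P s (n - 1), X.Td s s y + z ∈ X.Tp s 1 X.N s n) ↔ _
  simp only [mem_Tp_self, Td_self, sub_add_cancel, Prod.fst_add, Prod.snd_add, zero_add]
  constructor
  · rintro ⟨y, ⟨-, h1, h2⟩, h3, h4, h5⟩
    exact ⟨h3, _, h1, _, h2, h4, h5⟩
  · rintro ⟨h3, u, h1, b, h2, h4, h5⟩
    exact ⟨(0, u, b), ⟨rfl, h1, h2⟩, h3, h4, h5⟩

theorem PD3b_ZU : z ∈ (X.U s).Z s n ↔ z.1 = 0 ∧ z.2.1 ∈ X.P s (n - 1) ∧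
    (z.2.2 ∈ X.slots s fun j => X.P j n) ∧ X.inn s z.2.2 + X.d s z.2.1 ∈ X.N s n ∧
      X.dF z.2.2 ∈ X.slots s fun j => X.N j (n + 1) := by
  show z ∈ X.Tp s (-1) X.P s n ∧ X.Ud s s z ∈ X.Tp s (-1) X.N s (n + 1) ↔ _
  rw [mem_Tp_self, mem_Tp_self, Ud_self, add_neg_cancel_right, ← sub_eq_add_neg]
  simp only [true_and, and_assoc]

theorem PD3b_BU : z ∈ (X.U s).Bd s n ↔ z.1 = 0 ∧ ∃ u ∈ X.P s (n - 1 - 1),
    ∃ b ∈ X.slots s fun j => X.P j (n - 1), X.inn s b + X.d s u + z.2.1 ∈ X.N s (n - 1) ∧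
      X.dF b + z.2.2 ∈ X.slots s fun j => X.N j n := by
  refine (X.U s).mem_Bd.trans ?_
  show (∃ y ∈ X.Tp s (-1) X.P s (n - 1), X.Ud s s y + z ∈ X.Tp s (-1) X.N s n) ↔ _
  simp only [mem_Tp_self, Ud_self, ← sub_eq_add_neg, Prod.fst_add, Prod.snd_add, zero_add]
  constructor
  · rintro ⟨y, ⟨-, h1, h2⟩, h3, h4, h5⟩
    exact ⟨h3, _, h1, _, h2, h4, h5⟩
  · rintro ⟨h3, u, h1, b, h2, h4, h5⟩
    exact ⟨(0, u, b), ⟨rfl, h1, h2⟩, h3, h4, h5⟩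

theorem PD3b_T1 (h : b ∈ X.slots s fun j => X.Z j n) : X.PD3b_j2 b ∈ (X.T s).Z s n :=
  PD3b_ZT.2 (show _ ∧ (0 : X.V) ∈ _ ∧ b ∈ _ ∧ X.d s 0 ∈ _ ∧ X.dF b + X.out s 0 ∈ _ from
    ⟨rfl, zero_mem _, (PD3b_sZ.1 h).1, by simp, by simpa using (PD3b_sZ.1 h).2⟩)

theorem PD3b_T2 (h : b ∈ X.slots s fun j => X.Bd j n) : X.PD3b_j2 b ∈ (X.T s).Bd s n := by
  obtain ⟨b', h1, h2⟩ := X.slots_Bd h
  refine PD3b_BT.2 ⟨rfl, 0, zero_mem _, b', h1, ?_, ?_⟩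
  · show X.d s 0 + 0 ∈ _
    simp
  · show X.dF b' + X.out s 0 + b ∈ _
    simpa using h2

theorem PD3b_T3 (h : z ∈ (X.T s).Z s n) : X.PD3b_p1 z ∈ X.Z s (n + 1) :=
  ⟨(PD3b_ZT.1 h).2.1, (PD3b_ZT.1 h).2.2.2.1⟩

theorem PD3b_T4 (h : z ∈ (X.T s).Bd s n) : X.PD3b_p1 z ∈ X.Bd s (n + 1) := by
  obtain ⟨-, u, h1, b, -, h2, -⟩ := PD3b_BT.1 h
  exact X.mem_Bd.2 ⟨u, by rwa [add_sub_cancel_right], h2⟩

theorem PD3b_T5 (h : z ∈ (X.T s).Z s n) (h' : X.PD3b_p1 z ∈ X.Bd s (n + 1)) :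
    ∃ b ∈ X.slots s fun j => X.Z j n, X.PD3b_j2 b + z ∈ (X.T s).Bd s n := by
  obtain ⟨h0, h1, h2, h3, h4⟩ := PD3b_ZT.1 h
  obtain ⟨u, hu, h5⟩ := X.mem_Bd.1 h'
  rw [add_sub_cancel_right] at hu
  replace h5 : X.d s u + z.2.1 ∈ X.N s (n + 1) := h5
  refine ⟨X.out s u + z.2.2, PD3b_sZ.2 ⟨add_mem (X.out_mem fun j k => X.aP _ _ _ _ _ hu) h2, ?_⟩,
    PD3b_BT.2 ⟨?_, u, hu, 0, zero_mem _, ?_, ?_⟩⟩
  · have := add_mem (X.out_mem (s := s) (Q := fun j => X.N j (n + 1))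
      fun j k => X.aN _ _ _ _ _ h5) h4
    rw [map_add, add_comm (X.dF _), add_assoc, add_add_cancel2] at this
    rwa [map_add, dF_out]
  · show 0 + z.1 = 0
    rw [h0, add_zero]
  · show X.d s u + (0 + z.2.1) ∈ _
    rwa [zero_add]
  · show X.dF 0 + X.out s u + (X.out s u + z.2.2 + z.2.2) ∈ _
    rw [map_zero, zero_add, add_assoc, add_self2, add_zero, add_self2]
    exact zero_mem _

theorem PD3b_T6 (h : X.PD3b_j2 b ∈ (X.T s).Bd s n) :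
    ∃ x ∈ X.Z s n, X.out s x + b ∈ X.slots s fun j => X.Bd j n := by
  obtain ⟨-, u, h1, b', h2, h3, h4⟩ := PD3b_BT.1 h
  replace h3 : X.d s u + 0 ∈ X.N s (n + 1) := h3
  rw [add_zero] at h3
  rw [add_assoc] at h4
  exact ⟨u, ⟨h1, h3⟩, PD3b_sB h2 h4⟩

theorem PD3b_T7 (h : u ∈ X.Z s n) : X.out s u ∈ X.slots s fun j => X.Z j n :=
  X.out_mem fun j k => X.a_mem_Z j k h

theorem PD3b_T7' (h : u ∈ X.Bd s n) : X.out s u ∈ X.slots s fun j => X.Bd j n :=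
  X.out_mem fun j k => X.a_mem_Bd j k h

theorem PD3b_T8 (h : u ∈ X.Z s n) : X.PD3b_j2 (X.out s u) ∈ (X.T s).Bd s n := by
  refine PD3b_BT.2 ⟨rfl, u, h.1, 0, zero_mem _, ?_, ?_⟩
  · show X.d s u + 0 ∈ _
    rw [add_zero]
    exact h.2
  · show X.dF 0 + X.out s u + X.out s u ∈ _
    rw [map_zero, zero_add, add_self2]
    exact zero_mem _

theorem PD3b_U1 (h : u ∈ X.Z s (n - 1)) : X.PD3b_j1 u ∈ (X.U s).Z s n := by
  have h2 := (X.mem_Z.1 h).2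
  rw [sub_add_cancel] at h2
  exact PD3b_ZU.2 (show _ ∧ u ∈ _ ∧ (0 : X.F) ∈ _ ∧ X.inn s 0 + X.d s u ∈ _ ∧ X.dF 0 ∈ _ from
    ⟨rfl, h.1, zero_mem _, by simpa using h2, by simp⟩)

theorem PD3b_U2 (h : u ∈ X.Bd s (n - 1)) : X.PD3b_j1 u ∈ (X.U s).Bd s n := by
  obtain ⟨y, h1, h2⟩ := X.mem_Bd.1 h
  refine PD3b_BU.2 ⟨rfl, y, h1, 0, zero_mem _, ?_, ?_⟩
  · show X.inn s 0 + X.d s y + u ∈ _
    simpa using h2
  · show X.dF 0 + 0 ∈ _
    simp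

theorem PD3b_U3 (h : z ∈ (X.U s).Z s n) : X.PD3b_p2 z ∈ X.slots s fun j => X.Z j n :=
  PD3b_sZ.2 ⟨(PD3b_ZU.1 h).2.2.1, (PD3b_ZU.1 h).2.2.2.2⟩

theorem PD3b_U4 (h : z ∈ (X.U s).Bd s n) : X.PD3b_p2 z ∈ X.slots s fun j => X.Bd j n := by
  obtain ⟨-, u, -, b, h1, -, h2⟩ := PD3b_BU.1 h
  exact PD3b_sB h1 h2

theorem PD3b_U5 (h : z ∈ (X.U s).Z s n) (h' : X.PD3b_p2 z ∈ X.slots s fun j => X.Bd j n) :
    ∃ u ∈ X.Z s (n - 1), X.PD3b_j1 u + z ∈ (X.U s).Bd s n := by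
  obtain ⟨h0, h1, h2, h3, h4⟩ := PD3b_ZU.1 h
  obtain ⟨b, hb, h5⟩ := X.slots_Bd h'
  replace h5 : X.dF b + z.2.2 ∈ X.slots s fun j => X.N j n := h5
  refine ⟨X.inn s b + z.2.1, X.mem_Z.2 ⟨add_mem (X.inn_mem hb fun j k x hx => X.aP _ _ _ _ _ hx) h1,
    ?_⟩, PD3b_BU.2 ⟨?_, 0, zero_mem _, b, hb, ?_, ?_⟩⟩
  · have := add_mem (X.inn_mem h5 fun j k x hx => X.aN _ _ _ _ _ hx) h3
    rw [map_add, add_assoc, add_add_cancel2] at this
    rwa [map_add, d_inn, sub_add_cancel]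
  · show 0 + z.1 = 0
    rw [h0, add_zero]
  · show X.inn s b + X.d s 0 + (X.inn s b + z.2.1 + z.2.1) ∈ _
    rw [map_zero, add_zero, add_assoc, add_self2, add_zero, add_self2]
    exact zero_mem _
  · show X.dF b + (0 + z.2.2) ∈ _
    rwa [zero_add]

/-- the pieces of the pull back -/
def PD3b_B {e : ℤ} (A : X.SubM e) (s i : I) : Submodule K2 X.W :=
  if i = s then (X.U s).Z s e ⊓ (X.slots s A.A).comap X.PD3b_p2 else (A.A i).prod ⊥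

theorem PD3b_B_self {e : ℤ} (A : X.SubM e) :
    z ∈ PD3b_B A s s ↔ z ∈ (X.U s).Z s e ∧ z.2.2 ∈ X.slots s A.A := by
  rw [PD3b_B, if_pos rfl]
  rfl

theorem PD3b_B_ne {e : ℤ} (A : X.SubM e) {i : I} (h : i ≠ s) :
    z ∈ PD3b_B A s i ↔ z.1 ∈ A.A i ∧ z.2 = 0 := by
  rw [PD3b_B, if_neg h]
  rfl

theorem PD3b_B_hi {e : ℤ} (A : X.SubM e) {i : I} (hz : z ∈ PD3b_B A s i) : z ∈ (X.U s).Z i e := by
  by_cases hi : i = s
  · subst hi
    exact ((PD3b_B_self A).1 hz).1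
  · exact (X.mem_Z_U_ne hi).2 ⟨A.hi i ((PD3b_B_ne A hi).1 hz).1, ((PD3b_B_ne A hi).1 hz).2⟩

/-- the pull back -/
def PD3b_pull {e : ℤ} (A : X.SubM e) (s : I) : (X.U s).SubM e where
  A := PD3b_B A s
  lo := fun i (z : X.W) hz => by
    by_cases hi : i = s
    · subst hi
      exact (PD3b_B_self A).2 ⟨(X.U i).Bd_le_Z _ _ hz, X.slots_mono A.lo (PD3b_U4 hz)⟩
    · exact (PD3b_B_ne A hi).2 ⟨A.lo i ((X.mem_Bd_U_ne hi).1 hz).1, ((X.mem_Bd_U_ne hi).1 hz).2⟩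
  hi := fun _ _ hz => PD3b_B_hi A hz
  cl := fun i j k (z : X.W) hz => by
    have h0 : X.Ua s i j k z ∈ (X.U s).Z j e := (X.U s).a_mem_Z j k (PD3b_B_hi A hz)
    show X.Ua s i j k z ∈ PD3b_B A s j
    by_cases hij : G.adj i j k
    swap
    · simp [X.Ua_zero hij]
    by_cases hi : i = s
    · subst hi
      have hj : j ≠ i := fun e => G.irr i k (e ▸ hij)
      rw [X.Ua_out hij, PD3b_B_ne A hj]
      exact ⟨(X.mem_slots.1 ((PD3b_B_self A).1 hz).2 (j, k)).1 hij, rfl⟩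
    · have h1 := ((PD3b_B_ne A hi).1 hz).1
      by_cases hj : j = s
      · subst hj
        refine (PD3b_B_self A).2 ⟨h0, ?_⟩
        rw [X.Ua_in hi]
        exact X.out_mem fun j' k' => A.cl _ _ _ _ (A.cl _ _ _ _ h1)
      · rw [X.Ua_ne hi hj, PD3b_B_ne A hj]
        exact ⟨A.cl _ _ _ _ h1, rfl⟩

end Aux

theorem Acyc.hd {i : I} {n : ℤ} (h : X.Acyc i n) : X.hd i n = 0 := by
  exact rdim_of_le h

theorem Fin.acyc_iff (h : X.Fin) (i : I) (n : ℤ) : X.Acyc i n ↔ X.hd i n = 0 := by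
  exact ⟨Acyc.hd, (h i n).le_of_rdim⟩

theorem hd_T_ne (X : Obj G) {s i : I} (h : i ≠ s) (n : ℤ) : (X.T s).hd i n = X.hd i n := by
  exact (Hom.hd_eq_of_bij (X.epsH_bij_ne h n).1 (X.epsH_bij_ne h n).2).2

theorem hd_U_ne (X : Obj G) {s i : I} (h : i ≠ s) (n : ℤ) : (X.U s).hd i n = X.hd i n := by
  exact (Hom.hd_eq_of_bij (X.etaH_bij_ne h n).1 (X.etaH_bij_ne h n).2).2.symm

theorem hd_Gw_ne (X : Obj G) (l : List (I × Bool)) {i : I} (h : ∀ x ∈ l, x.1 ≠ i) (n : ℤ) :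
    (Gw l X).hd i n = X.hd i n := by
  induction l generalizing X with
  | nil => rfl
  | cons x l ih =>
    rw [Gw_cons, ih _ fun y hy => h y (List.mem_cons_of_mem _ hy)]
    have hx := (h x List.mem_cons_self).symm
    obtain ⟨j, _ | _⟩ := x
    · exact X.hd_U_ne hx n
    · exact X.hd_T_ne hx n

theorem Fin.T (h : X.Fin) (s : I) : (X.T s).Fin := by
  intro i n
  by_cases hi : i = s
  · subst hi
    exact (rdim_exact X.PD3b_j2 X.PD3b_p1 (fun _ => PD3b_T1) (fun _ => PD3b_T2) (fun _ => PD3b_T3)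
      (fun _ => PD3b_T4) (fun _ => PD3b_T5) (X.rdim_slots i fun j _ _ => h j n).1 (h i (n + 1))).1
  · exact (Hom.hd_eq_of_bij (X.epsH_bij_ne hi n).1 (X.epsH_bij_ne hi n).2).1.2 (h i n)

theorem Fin.U (h : X.Fin) (s : I) : (X.U s).Fin := by
  intro i n
  by_cases hi : i = s
  · subst hi
    exact (rdim_exact X.PD3b_j1 X.PD3b_p2 (fun _ => PD3b_U1) (fun _ => PD3b_U2) (fun _ => PD3b_U3)
      (fun _ => PD3b_U4) (fun _ => PD3b_U5) (h i (n - 1)) (X.rdim_slots i fun j _ _ => h j n).1).1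
  · exact (Hom.hd_eq_of_bij (X.etaH_bij_ne hi n).1 (X.etaH_bij_ne hi n).2).1.1 (h i n)

theorem Fin.Gw (h : X.Fin) (l : List (I × Bool)) : (Gw l X).Fin := by
  induction l generalizing X with
  | nil => exact h
  | cons x l ih =>
    rw [Gw_cons]
    obtain ⟨j, _ | _⟩ := x
    · exact ih (h.U j)
    · exact ih (h.T j)

theorem Fin.quo (h : X.Fin) {e : ℤ} (A : X.SubM e) : A.quo.Fin := by
  exact fun i n => ((A.proj_surj i n).hd_le (h i n)).1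

theorem Fin.hd_quo (h : X.Fin) {e : ℤ} (A : X.SubM e) (i : I) :
    A.quo.hd i e + rdim (A.A i) (X.Bd i e) = X.hd i e := by
  unfold hd
  rw [A.Z_quo, A.Bd_quo]
  exact (rdim_tower (A.lo i) (A.hi i) (h i e)).symm

/-- Exactness of `H(X_s) → ⨁ H(X_j) → H((T X)_s)`. -/
theorem Fin.T_up (h : X.Fin) (s : I) (n : ℤ) :
    (∑ e : I × Bool, if G.adj s e.1 e.2 then X.hd e.1 n else 0) ≤ (X.T s).hd s n + X.hd s n := by
  have h1 := (rdim_exact (X.out s) X.PD3b_j2 (fun _ => PD3b_T7) (fun _ => PD3b_T7')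
    (fun _ => PD3b_T1) (fun _ => PD3b_T2) (fun _ _ => PD3b_T6) (h s n) (h.T s s n)).2
  rw [(X.rdim_slots s fun j _ _ => h j n).2, add_comm] at h1
  exact h1

/-- Without socle at `s` the sequence is short exact. -/
theorem Fin.T_up_eq (h : X.Fin) {s : I} {n : ℤ} (h1 : X.Acyc s (n + 1))
    (h2 : X.Soc 1 s n ≤ X.Bd s n) :
    (X.T s).hd s n + X.hd s n ≤ ∑ e : I × Bool, if G.adj s e.1 e.2 then X.hd e.1 n else 0 := by
  have h3 := rdim_short (X.out s) X.PD3b_j2 (fun _ => PD3b_T7) (fun _ => PD3b_T7')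
    (fun _ => PD3b_T1) (fun _ => PD3b_T2)
    (fun x hx hb => h2 (X.mem_Soc_succ.2 ⟨hx, fun j k => by
      by_cases hj : G.adj s j k
      · exact (X.mem_slots.1 hb (j, k)).1 hj
      · rw [X.a0 _ _ _ hj]
        exact zero_mem _⟩))
    (fun _ => PD3b_T8) (fun _ hz => PD3b_T5 hz (h1 (PD3b_T3 hz)))
    (X.rdim_slots s fun j _ _ => h j n).1
  rw [(X.rdim_slots s fun j _ _ => h j n).2, add_comm] at h3
  exact h3

/-- Pull back of a submodule along the inverse twist. -/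
theorem Fin.pullU (h : X.Fin) {e : ℤ} (A : X.SubM e) (s : I) : ∃ B : (X.U s).SubM e,
    (∀ j, j ≠ s → rdim (B.A j) ((X.U s).Bd j e) = rdim (A.A j) (X.Bd j e)) ∧
    (∑ x : I × Bool, if G.adj s x.1 x.2 then rdim (A.A x.1) (X.Bd x.1 e) else 0) ≤
      rdim (B.A s) ((X.U s).Bd s e) + rdim (A.A s) (X.Bd s e) := by
  have hf : ∀ j, FinR (A.A j) (X.Bd j e) := fun j => ((h j e).mono (A.hi j)).1
  refine ⟨PD3b_pull A s, fun j hj => ?_, ?_⟩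
  · refine (rdim_bij (LinearMap.fst K2 X.V (X.V × X.F)) (fun z hz => ?_) (fun z hz => ?_)
      (fun y hy => ?_) fun z hz hb => ?_).2
    · exact ((PD3b_B_ne A hj).1 hz).1
    · exact ((X.mem_Bd_U_ne hj).1 hz).1
    · exact ⟨(y, 0), (PD3b_B_ne A hj).2 ⟨hy, rfl⟩, by simp [add_self2]⟩
    · exact (X.mem_Bd_U_ne hj).2 ⟨hb, ((PD3b_B_ne A hj).1 hz).2⟩
  · rw [← (X.rdim_slots s fun j _ _ => hf j).2]
    refine (rdim_exact X.PD3b_p2 (X.inn s) (fun z hz => ((PD3b_B_self A).1 hz).2)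
      (fun _ => PD3b_U4) (fun b hb => X.inn_mem hb fun j k x hx => A.cl _ _ _ _ hx)
      (fun b hb => X.inn_mem hb fun j k x hx => X.a_mem_Bd _ _ hx) (fun b hb hb' => ?_)
      ((h.U s s e).mono ((PD3b_pull A s).hi s)).1 (hf s)).2
    obtain ⟨u, hu, h1⟩ := X.mem_Bd.1 hb'
    have h2 := PD3b_sZ.1 (X.slots_mono A.hi hb)
    refine ⟨(0, u, b), (PD3b_B_self A).2 ⟨PD3b_ZU.2 ⟨rfl, hu, h2.1, ?_, h2.2⟩, hb⟩, ?_⟩
    · rwa [add_comm]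
    · show b + b ∈ _
      rw [add_self2]
      exact zero_mem _

end Obj

theorem PD3b_simple_Z (o i : I) (n : ℤ) :
    (simple G o).Z i n = if i = o ∧ n = 0 then ⊤ else ⊥ :=
  inf_eq_left.2 fun _ _ => zero_mem ((simple G o).N i (n + 1))

theorem PD3b_simple_Bd (o i : I) (n : ℤ) : (simple G o).Bd i n = ⊥ := by
  refine le_bot_iff.1 (sup_le ?_ le_rfl)
  rintro _ ⟨y, -, rfl⟩
  exact zero_mem _

theorem simple_hd (o i : I) (n : ℤ) : (simple G o).hd i n = if i = o ∧ n = 0 then 1 else 0 := by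
  unfold Obj.hd
  rw [PD3b_simple_Z, PD3b_simple_Bd]
  split_ifs with h
  · unfold rdim
    rw [← (Submodule.equivMapOfInjective _
      (LinearMap.ker_eq_bot.1 (Submodule.ker_mkQ _)) _).finrank_eq, finrank_top]
    exact Module.finrank_self K2
  · exact rdim_of_le le_rfl

theorem simple_fin (o : I) : (simple G o).Fin := by
  intro i n
  have : Module.Finite K2 (simple G o).V := Module.Finite.self K2
  unfold FinR
  infer_instance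

theorem simple_acyc {o i : I} {n : ℤ} (h : ¬ (i = o ∧ n = 0)) : (simple G o).Acyc i n := by
  unfold Obj.Acyc
  rw [PD3b_simple_Z, if_neg h]
  exact bot_le

theorem simple_nil (o : I) (n : ℤ) : (simple G o).NilAt n := by
  exact ⟨1, fun i x hx => (simple G o).mem_Soc_succ.2 ⟨hx, fun _ _ => zero_mem _⟩⟩

end Crest.Agent.R175
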