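import Crest.Agent.R175.PDB4

/-! The comparison morphism is a quasi-isomorphism. -/

set_option autoImplicit false
set_option linter.unusedSectionVars false

open scoped Classical

noncomputable section

namespace Crest.Agent.R175

variable {I : Type} [Fintype I] [DecidableEq I] {G : Gph I}

/-- A criterion for one component of a chain map: every element `y` of the target has a preimage
`x` up to the homotopy `H`. -/
theorem qis_of_section {X Y : Obj G} (p : I) (f : X.V →ₗ[K2] Y.V)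
    (h : ∀ n, ∀ y ∈ Y.P p n, ∃ x ∈ X.P p n, ∃ H ∈ Y.P p (n - 1),
      (∀ x' ∈ X.P p (n + 1), Y.d p y + f x' ∈ Y.N p (n + 1) → X.d p x + x' ∈ X.N p (n + 1)) ∧
      (Y.d p y ∈ Y.N p (n + 1) → Y.d p H + (f x + y) ∈ Y.N p n)) (n : ℤ) :
    (∀ x ∈ X.Z p n, f x ∈ Y.Bd p n → x ∈ X.Bd p n) ∧
      ∀ y ∈ Y.Z p n, ∃ x ∈ X.Z p n, f x + y ∈ Y.Bd p n := by
  constructor
  · intro x hx hf
    obtain ⟨y, hy, h1⟩ := Y.mem_Bd.1 hf
    obtain ⟨x', hx', H, -, h2, -⟩ := h _ y hy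
    rw [sub_add_cancel] at h2
    exact X.mem_Bd.2 ⟨x', hx', h2 x hx.1 h1⟩
  · intro y hy
    obtain ⟨x, hx, H, hH, h2, h3⟩ := h _ y hy.1
    refine ⟨x, ⟨hx, ?_⟩, Y.mem_Bd.2 ⟨H, hH, h3 hy.2⟩⟩
    simpa using h2 0 (zero_mem _) (by simpa using hy.2)

namespace Obj

variable (X : Obj G) {i j : I} {k : Bool} (E : Edge G i j k)
include E

theorem sW_qiso : (X.sW E).QIso := by
  have hij := E.ne
  intro p
  refine qis_of_section (X := X.BM E) (Y := ((X.T i).T j).T i) p (X.sF i j k p) ?_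
  change ∀ n, ∀ y ∈ ((X.T i).T j).TQ i ((X.T i).TQ j (X.TQ i X.P)) p n, ∃ x ∈ X.Bp i j X.P p n,
    ∃ H ∈ ((X.T i).T j).TQ i ((X.T i).TQ j (X.TQ i X.P)) p (n - 1),
      (∀ x' ∈ X.Bp i j X.P p (n + 1), (((X.T i).T j).T i).d p y + X.sF i j k p x' ∈
        ((X.T i).T j).TQ i ((X.T i).TQ j (X.TQ i X.N)) p (n + 1) →
        X.Md i j k p x + x' ∈ X.Bp i j X.N p (n + 1)) ∧
      ((((X.T i).T j).T i).d p y ∈ ((X.T i).T j).TQ i ((X.T i).TQ j (X.TQ i X.N)) p (n + 1) →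
        (((X.T i).T j).T i).d p H + (X.sF i j k p x + y) ∈
          ((X.T i).T j).TQ i ((X.T i).TQ j (X.TQ i X.N)) p n)
  intro n y hy
  by_cases hi : p = i
  · subst hi
    obtain ⟨z, u, b, hz, hu, hb, rfl⟩ := X.nf3 E hy
    obtain ⟨w, z', c, hw, hz', hc, rfl⟩ := X.nf2 E hu
    refine ⟨(0, w, b + X.oo p j (X.ep p z'), c), X.mem_Bp_i.2
      ⟨rfl, hw, add_mem hb (X.clP.oo (X.clP.ep hz')), hc⟩, X.z3 p j k z' 0 0,
      (X.mem_z3 E).2 ⟨by simpa using hz', zero_mem _, by simp⟩, ?_, ?_⟩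
    · rintro ⟨x0, v', b', c'⟩ hx' h
      rw [mem_Bp_i] at hx'
      obtain ⟨rfl, h1, h2, h3⟩ := hx'
      rw [X.d_z3 E, X.d_z2 E, sF_i, z3_add, z2_add, z2_add, X.mem_z3 E, X.mem_z2 E] at h
      obtain ⟨-, ⟨a1, a2, a3⟩, a4⟩ := h
      simp only [map_add, ← dF_mu, mu_oo, X.mu_eq hb, X.mu_eq hc, X.mu_eq h2, X.mu_eq h3,
        add_zero] at a1 a2 a3 a4
      rw [Md_i, mem_Bp_i]
      refine ⟨add_zero _, a1, ?_, a3⟩
      have a5 := add_mem a4 (X.clN.oo (j := j) (X.clN.ep a2))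
      simp only [map_add, ep_d, X.ep_z1 E, pp_zero, add_zero] at a5
      convert a5 using 1
      simp only [Prod.snd_add, Prod.fst_add, map_add, dF_oo]
      have := add_self2 (X.oo p j (X.ep p z))
      grind
    · intro h
      rw [X.d_z3 E, X.d_z2 E, z2_add, X.mem_z3 E, X.mem_z2 E] at h
      obtain ⟨-, ⟨-, a2, -⟩, -⟩ := h
      rw [X.d_z3 E, sF_i, z3_add, z3_add, map_zero, zero_add, z2_add, z2_add, X.mem_z3 E,
        X.mem_z2 E]
      refine ⟨by rwa [← add_assoc], ⟨by simp [add_self2], by simp [add_self2], ?_⟩, ?_⟩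
      · simp [add_self2]
      · have : X.dF 0 + X.oo p j (X.ep p z') + (b + X.oo p j (X.ep p z') + b) = 0 := by
          have := add_self2 (X.oo p j (X.ep p z'))
          have := add_self2 b
          rw [map_zero]
          grind
        rw [this, map_zero]; exact zero_mem _
  · by_cases hj : p = j
    · subst hj
      obtain ⟨e, hu⟩ := (mem_TQ_o _ hi).1 hy
      obtain ⟨w', z, c, hw', hz, hc, e'⟩ := X.nf2 E hu
      obtain ⟨v, w, b, hv, hw, hb, rfl⟩ := X.nf1 E hz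
      rw [e'] at e
      subst e
      refine ⟨(0, v, b, c + X.oo p i w), (X.mem_Bp_j hij).2
        ⟨rfl, hv, hb, add_mem hc (X.clP.oo hw)⟩, ((X.T i).T p).up i (X.z2 i p k w 0 0),
        (up_mem_iff _ hi).2 ((X.mem_z2 E).2 ⟨by simpa using hw, zero_mem _, by simp⟩), ?_, ?_⟩
      · rintro ⟨x0, v', b', c'⟩ hx' h
        rw [X.mem_Bp_j hij] at hx'
        obtain ⟨rfl, h1, h2, h3⟩ := hx'
        rw [Td_o _ hi, p0_up, X.d_z2 E, X.d_z1 E, X.sF_j hij, ← map_add, z2_add, z1_add, z1_add,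
          up_mem_iff _ hi, X.mem_z2 E, X.mem_z1 E] at h
        obtain ⟨-, ⟨a1, a2, a3⟩, a4⟩ := h
        simp only [map_add, ← dF_mu, mu_oo, X.mu_eq hb, X.mu_eq hc, X.mu_eq h2, X.mu_eq h3,
          add_zero] at a1 a2 a3 a4
        rw [X.Md_j hij, X.mem_Bp_j hij]
        refine ⟨add_zero _, a1, a3, ?_⟩
        have a5 := add_mem a4 (X.clN.oo (j := i) a2)
        simp only [map_add] at a5
        convert a5 using 1
        simp only [Prod.snd_add, map_add, dF_oo]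
        have := add_self2 (X.oo p i w')
        grind
      · intro h
        rw [Td_o _ hi, p0_up, X.d_z2 E, X.d_z1 E, z1_add, up_mem_iff _ hi, X.mem_z2 E,
          X.mem_z1 E] at h
        obtain ⟨-, ⟨-, a2, -⟩, -⟩ := h
        rw [Td_o _ hi, p0_up, X.d_z2 E, X.sF_j hij, ← map_add, ← map_add, z2_add, z2_add, map_zero,
          zero_add, z1_add, z1_add, up_mem_iff _ hi, X.mem_z2 E, X.mem_z1 E]
        refine ⟨by rwa [← add_assoc], ⟨by simp [add_self2], by simp [add_self2], ?_⟩, ?_⟩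
        · simp [add_self2]
        · have : X.dF 0 + X.oo p i w + (c + X.oo p i w + c) = 0 := by
            have := add_self2 (X.oo p i w)
            have := add_self2 c
            rw [map_zero]
            grind
          rw [this, map_zero]; exact zero_mem _
    · obtain ⟨e1, h1⟩ := (mem_TQ_o _ hi).1 hy
      obtain ⟨e2, h2⟩ := (mem_TQ_o _ hj).1 h1
      obtain ⟨e3, h3⟩ := (mem_TQ_o _ hi).1 h2
      rw [e3] at e2
      rw [e2] at e1
      generalize X.p0 i ((X.T i).p0 j (((X.T i).T j).p0 i y)) = x at e1 h3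
      subst e1
      refine ⟨(x, 0, 0, 0), (X.mem_Bp_o hi hj).2 ⟨h3, rfl⟩, 0, zero_mem _, ?_, fun _ => ?_⟩
      · intro x' hx' h
        rw [X.mem_Bp_o hi hj] at hx'
        rw [Td_o _ hi, p0_up, Td_o _ hj, p0_up, Td_o _ hi, p0_up, X.sF_o hi hj, ← map_add,
          ← map_add, ← map_add, up_mem_iff _ hi, up_mem_iff _ hj, up_mem_iff _ hi] at h
        rw [X.Md_o hi hj, X.mem_Bp_o hi hj]
        exact ⟨h, by simp [hx'.2]⟩
      · simp [X.sF_o hi hj, add_self2]

/-- The exchange of the two families of slots. -/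
def swH : Hom (X.BM E) (X.BM E.symm) where
  f := fun _ => X.sw
  d := X.sw_Md E.ne k
  a := X.sw_Ba E.ne k
  t := X.sw_Bt E.ne
  P := X.sw_Bp E.ne X.P
  N := X.sw_Bp E.ne X.N

theorem swH_qiso : (X.swH E).QIso := fun p n =>
  ⟨fun _ _ h => (X.swH E.symm).mem_Bd h,
    fun y hy => ⟨X.sw y, (X.swH E.symm).mem_Z hy, by
      have : (X.swH E).f p (X.sw y) + y = 0 := add_self2 y
      rw [this]
      exact zero_mem _⟩⟩

end Obj

end Crest.Agent.R175
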