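import Crest.Agent.R175.PDB2

/-! Typed interface of the inverse twist. -/

set_option autoImplicit false
set_option linter.unusedSectionVars false

open scoped Classical

noncomputable section

namespace Crest.Agent.R175

variable {I : Type} [Fintype I] [DecidableEq I] {G : Gph I}

namespace Obj

variable (X : Obj G)

/-- Inclusion of the old space. -/
def uq (s : I) : X.V →ₗ[K2] (X.U s).V := X.i0

/-- Inclusion of the new part. -/
def un (s : I) : X.V × X.F →ₗ[K2] (X.U s).V := X.i1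

/-- The unit. -/
def et (s : I) : X.V →ₗ[K2] (X.U s).V := X.eta s

/-- Old coordinate. -/
def q0 (s : I) : (X.U s).V →ₗ[K2] X.V := LinearMap.fst K2 X.V (X.V × X.F)

/-- Shifted coordinate. -/
def q1 (s : I) : (X.U s).V →ₗ[K2] X.V :=
  (LinearMap.fst K2 X.V X.F).comp (LinearMap.snd K2 X.V (X.V × X.F))

/-- Slot coordinate. -/
def q2 (s : I) : (X.U s).V →ₗ[K2] X.F :=
  (LinearMap.snd K2 X.V X.F).comp (LinearMap.snd K2 X.V (X.V × X.F))

variable {s : I}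

@[simp] theorem un_zero : X.un s (0, 0) = 0 := map_zero _
@[simp] theorem q0_uq (x : X.V) : X.q0 s (X.uq s x) = x := rfl
@[simp] theorem q1_uq (x : X.V) : X.q1 s (X.uq s x) = 0 := rfl
@[simp] theorem q2_uq (x : X.V) : X.q2 s (X.uq s x) = 0 := rfl
@[simp] theorem q0_un (y : X.V × X.F) : X.q0 s (X.un s y) = 0 := rfl
@[simp] theorem q1_un (y : X.V × X.F) : X.q1 s (X.un s y) = y.1 := rfl
@[simp] theorem q2_un (y : X.V × X.F) : X.q2 s (X.un s y) = y.2 := rfl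
theorem et_eq (x : X.V) : X.et s x = X.un s (X.t s x, X.out s x) := rfl
@[simp] theorem q0_et (x : X.V) : X.q0 s (X.et s x) = 0 := rfl
@[simp] theorem q1_et (x : X.V) : X.q1 s (X.et s x) = X.t s x := rfl
@[simp] theorem q2_et (x : X.V) : X.q2 s (X.et s x) = X.out s x := rfl
theorem Ud_s (z : (X.U s).V) : (X.U s).d s z =
    X.un s (X.inn s (X.q2 s z) + X.d s (X.q1 s z), X.dF (X.q2 s z)) := X.Ud_self s z
theorem Ud_o {p : I} (h : p ≠ s) (z : (X.U s).V) :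
    (X.U s).d p z = X.uq s (X.d p (X.q0 s z)) := X.Ud_ne h z
theorem Ua_s {q : I} {k : Bool} (h : G.adj s q k) (z : (X.U s).V) :
    (X.U s).a s q k z = X.uq s (X.q2 s z (q, k)) := X.Ua_out h z
theorem Ua_i {p : I} (h : p ≠ s) (k : Bool) (z : (X.U s).V) :
    (X.U s).a p s k z = X.et s (X.a p s k (X.q0 s z)) := X.Ua_in h k z
theorem Ua_o {p q : I} (hp : p ≠ s) (hq : q ≠ s) (k : Bool) (z : (X.U s).V) :
    (X.U s).a p q k z = X.uq s (X.a p q k (X.q0 s z)) := X.Ua_ne hp hq k z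
theorem Ut_s (z : (X.U s).V) : (X.U s).t s z = X.et s (X.q1 s z) := X.Ut_self s z
theorem Ut_o {p : I} (h : p ≠ s) (z : (X.U s).V) :
    (X.U s).t p z = X.uq s (X.t p (X.q0 s z)) := X.Ut_ne h z
theorem d_et (x : X.V) : (X.U s).d s (X.et s x) = X.et s (X.d s x) := X.Ud_eta s x

/-- The graded pieces of the inverse twist, typed. -/
def UQ (s : I) (Q : I → ℤ → Submodule K2 X.V) : I → ℤ → Submodule K2 (X.U s).V := X.Tp s (-1) Q

theorem mem_UQ_s {Q : I → ℤ → Submodule K2 X.V} {n : ℤ} {z : (X.U s).V} :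
    z ∈ X.UQ s Q s n ↔ z = X.un s (X.q1 s z, X.q2 s z) ∧ X.q1 s z ∈ Q s (n + -1) ∧
      X.q2 s z ∈ X.slots s fun j => Q j n := by
  refine X.mem_Tp_self.trans (and_congr_left' ⟨fun h => Prod.ext h rfl, fun h => ?_⟩)
  exact congrArg Prod.fst h

theorem mem_UQ_o {p : I} (hp : p ≠ s) {Q : I → ℤ → Submodule K2 X.V} {n : ℤ} {z : (X.U s).V} :
    z ∈ X.UQ s Q p n ↔ z = X.uq s (X.q0 s z) ∧ X.q0 s z ∈ Q p n := by
  refine (X.mem_Tp_ne hp).trans (and_comm.trans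
    (and_congr_left' ⟨fun h => Prod.ext rfl h, fun h => ?_⟩))
  exact congrArg Prod.snd h

theorem un_mem {Q : I → ℤ → Submodule K2 X.V} {n : ℤ} {v : X.V} {b : X.F} (hv : v ∈ Q s (n + -1))
    (hb : b ∈ X.slots s fun j => Q j n) : X.un s (v, b) ∈ X.UQ s Q s n :=
  X.mem_UQ_s.2 ⟨rfl, hv, hb⟩

theorem uq_mem {p : I} (hp : p ≠ s) {Q : I → ℤ → Submodule K2 X.V} {n : ℤ} {v : X.V}
    (hv : v ∈ Q p n) : X.uq s v ∈ X.UQ s Q p n :=
  (X.mem_UQ_o hp).2 ⟨rfl, hv⟩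

variable {X} in
theorem Cl.UQ {Q : I → ℤ → Submodule K2 X.V} (h : X.Cl Q) (s : I) : (X.U s).Cl (X.UQ s Q) :=
  ⟨h.Ud s, h.Ua s, h.Ut s⟩

end Obj

end Crest.Agent.R175
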