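import Crest.Agent.R175.PD2a
import Crest.Agent.R175.PDB5
import Crest.Agent.R175.PDB6

/-! The twist of the inverse twist. -/

set_option autoImplicit false
set_option linter.unusedSectionVars false

open scoped Classical

noncomputable section

namespace Crest.Agent.R175

variable {I : Type} [Fintype I] [DecidableEq I] {G : Gph I}

namespace Obj

variable (X : Obj G) (s : I)

/-- Components of the counit. -/
def muF (p : I) : ((X.U s).T s).V →ₗ[K2] X.V :=
  if p = s then (X.q1 s).comp ((X.U s).p1 s) + (X.inn s).comp ((mF (X.q0 s)).comp ((X.U s).p2 s))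
  else (X.q0 s).comp ((X.U s).p0 s)

theorem muF_s (z : ((X.U s).T s).V) :
    X.muF s s z = X.q1 s ((X.U s).p1 s z) + X.inn s (mF (X.q0 s) ((X.U s).p2 s z)) := by
  rw [muF, if_pos rfl]; rfl

theorem muF_o {p : I} (h : p ≠ s) (z : ((X.U s).T s).V) :
    X.muF s p z = X.q0 s ((X.U s).p0 s z) := by
  rw [muF, if_neg h]; rfl

theorem inn_congr {b b' : X.F} (h : ∀ e : I × Bool, G.adj s e.1 e.2 → b e = b' e) :
    X.inn s b = X.inn s b' := by
  rw [inn_apply, inn_apply]
  refine Finset.sum_congr rfl fun e _ => ?_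
  by_cases he : G.adj s e.1 e.2
  · rw [h e he]
  · simp [X.a0 _ _ _ fun h' => he (G.symm _ _ _ h')]

theorem ep_U (z : ((X.U s).T s).V) : (X.U s).ep s z = X.et s (X.muF s s z) := by
  rw [ep_eq, muF_s, map_add, Ut_s, add_comm, inn_apply, inn_apply, map_sum]
  congr 1
  refine Finset.sum_congr rfl fun e _ => ?_
  by_cases he : e.1 = s
  · rw [(X.U s).a0 _ _ _ (he ▸ G.irr _ _), X.a0 _ _ _ (he ▸ G.irr _ _)]; simp
  · rw [X.Ua_i he]; rfl

theorem muF_d (p : I) (z : ((X.U s).T s).V) :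
    X.muF s p (((X.U s).T s).d p z) = X.d p (X.muF s p z) := by
  by_cases hp : p = s
  · subst hp
    have h : X.inn p (mF (X.q0 p) ((X.U p).dF ((X.U p).p2 p z) + (X.U p).out p ((X.U p).p1 p z))) =
        X.inn p (X.dF (mF (X.q0 p) ((X.U p).p2 p z)) + X.q2 p ((X.U p).p1 p z)) := by
      refine X.inn_congr p fun e he => ?_
      have h1 : e.1 ≠ p := fun h => G.irr p e.2 (h ▸ he)
      simp [X.Ud_o h1, X.Ua_s he]
    rw [muF_s, muF_s, Td_s, p1_nw, p2_nw, h, Ud_s, q1_un, map_add, map_add, d_inn]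
    simp only
    linear_combination (norm := abel1) add_self2 (X.inn p (X.q2 p ((X.U p).p1 p z)))
  · rw [X.muF_o s hp, X.muF_o s hp, Td_o _ hp, p0_up, Ud_o _ hp, q0_uq]

theorem muF_mem {Q : I → ℤ → Submodule K2 X.V} (h : X.Cl Q) (p : I) (n : ℤ) (z : ((X.U s).T s).V)
    (hz : z ∈ (X.U s).TQ s (X.UQ s Q) p n) : X.muF s p z ∈ Q p n := by
  by_cases hp : p = s
  · subst hp
    obtain ⟨-, h1, h2⟩ := (X.U p).mem_TQ_s.1 hz
    rw [muF_s]
    refine add_mem (by simpa using (X.mem_UQ_s.1 h1).2.1) (h.inn (X.mem_slots.2 fun e =>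
      ⟨fun he => ?_, fun he => ?_⟩))
    · have h3 : e.1 ≠ p := fun h => G.irr p e.2 (h ▸ he)
      exact ((X.mem_UQ_o h3).1 (((X.U p).mem_slots.1 h2 e).1 he)).2
    · rw [mF_apply, ((X.U p).mem_slots.1 h2 e).2 he, map_zero]
  · rw [X.muF_o s hp]
    exact ((X.mem_UQ_o hp).1 (((X.U s).mem_TQ_o hp).1 hz).2).2

/-- The counit. -/
def muH : Hom ((X.U s).T s) X where
  f := X.muF s
  d := X.muF_d s
  a := fun p q k z => by
    by_cases hpq : G.adj p q k
    swap
    · simp [Obj.a0 _ _ _ _ hpq]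
    by_cases hp : p = s
    · subst hp
      have hq : q ≠ p := fun e => G.irr p k (e ▸ hpq)
      rw [X.muF_o p hq, Ta_s, p0_up, ep_U, X.Ua_s hpq, q0_uq, q2_et, out_apply]
    · by_cases hq : q = s
      · subst hq
        rw [muF_s, X.muF_o q hp, Ta_i _ hpq, p1_nw, p2_nw, mF_single, inn_single]
        simp
      · rw [X.muF_o s hp, X.muF_o s hq, Ta_o _ hp hq, p0_up, Ua_o _ hp hq, q0_uq]
  t := fun p z => by
    by_cases hp : p = s
    · subst hp
      rw [Tt_s, muF_s, p1_nw, p2_nw, ep_U]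
      simp
    · rw [X.muF_o s hp, X.muF_o s hp, Tt_o _ hp, p0_up, Ut_o _ hp, q0_uq]
  P := X.muF_mem s X.clP
  N := X.muF_mem s X.clN

theorem muH_qiso : (X.muH s).QIso := by
  intro p n
  by_cases hp : p = s
  · subst hp
    have hm : ∀ {Q : I → ℤ → Submodule K2 X.V} {m : ℤ} {v : X.V} {b c : X.F}, v ∈ Q p m →
        b ∈ X.slots p (fun l => Q l (m + 1)) → c ∈ X.slots p (fun l => Q l m) →
        (X.U p).nw p (X.un p (v, b), mF (X.uq p) c) ∈ (X.U p).TQ p (X.UQ p Q) p m := by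
      intro Q m v b c hv hb hc
      refine (X.U p).nw_mem (X.un_mem (by simpa using hv) hb) ((X.U p).mem_slots.2 fun e =>
        ⟨fun he => X.uq_mem (fun h : e.1 = p => G.irr p e.2 (h ▸ he)) ((X.mem_slots.1 hc e).1 he),
          fun he => by rw [mF_apply, (X.mem_slots.1 hc e).2 he, map_zero]⟩)
    have hd : ∀ {Q : I → ℤ → Submodule K2 X.V} {Q' : I → Submodule K2 X.V} (v : X.V) {b c : X.F},
        b ∈ X.slots p Q' → ∀ m, c ∈ X.slots p (fun l => Q l m) →
        ((X.U p).T p).d p ((X.U p).nw p (X.un p (v, b), mF (X.uq p) c)) =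
        (X.U p).nw p (X.un p (X.inn p b + X.d p v, X.dF b), mF (X.uq p) (X.dF c + b)) := by
      intro Q Q' v b c hb m hc
      rw [Td_s, p1_nw, p2_nw, Ud_s, q1_un, q2_un]
      congr 2
      ext1 e
      by_cases he : G.adj p e.1 e.2
      · have h1 : e.1 ≠ p := fun h => G.irr p e.2 (h ▸ he)
        simp [X.Ud_o h1, X.Ua_s he]
      · simp [(X.mem_slots.1 hc e).2 he, (X.mem_slots.1 hb e).2 he, (X.U p).a0 _ _ _ he]
    have hf : ∀ (v : X.V) (b c : X.F),
        (X.muH p).f p ((X.U p).nw p (X.un p (v, b), mF (X.uq p) c)) = v + X.inn p c :=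
      fun v b c => X.muF_s p _
    have nf : ∀ {Q : I → ℤ → Submodule K2 X.V} {m : ℤ} {z : ((X.U p).T p).V},
        z ∈ (X.U p).TQ p (X.UQ p Q) p m → ∃ v b c, v ∈ Q p m ∧
        b ∈ X.slots p (fun l => Q l (m + 1)) ∧ c ∈ X.slots p (fun l => Q l m) ∧
        z = (X.U p).nw p (X.un p (v, b), mF (X.uq p) c) := by
      intro Q m z hz
      obtain ⟨e1, h1, h2⟩ := (X.U p).mem_TQ_s.1 hz
      obtain ⟨e2, h3, h4⟩ := X.mem_UQ_s.1 h1
      have h5 : ∀ e : I × Bool, G.adj p e.1 e.2 → _ := fun e he =>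
        (X.mem_UQ_o fun h : e.1 = p => G.irr p e.2 (h ▸ he)).1 (((X.U p).mem_slots.1 h2 e).1 he)
      refine ⟨_, _, mF (X.q0 p) ((X.U p).p2 p z), by simpa using h3, h4, X.mem_slots.2 fun e =>
        ⟨fun he => (h5 e he).2, fun he => by
          rw [mF_apply, ((X.U p).mem_slots.1 h2 e).2 he, map_zero]⟩, ?_⟩
      rw [← e2]
      convert e1 using 3
      ext1 e
      by_cases he : G.adj p e.1 e.2
      · exact (h5 e he).1.symm
      · rw [mF_apply, mF_apply, ((X.U p).mem_slots.1 h2 e).2 he, map_zero, map_zero]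
    constructor
    · intro z hz hb
      obtain ⟨v, b, c, hv, hb', hc, rfl⟩ := nf hz.1
      have h1 := (((X.U p).T p).mem_Z.1 hz).2
      rw [hd v hb' n hc] at h1
      obtain ⟨v', b', c', -, -, hc', e⟩ := nf h1
      have e' : X.dF c + b = c' := by
        have := congrArg (fun z => mF (X.q0 p) ((X.U p).p2 p z)) e
        exact this
      rw [hf] at hb
      obtain ⟨y, hy, h2⟩ := X.mem_Bd.1 hb
      have hc2 : c ∈ X.slots p fun l => X.P l (n - 1 + 1) := by rwa [sub_add_cancel]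
      refine ((X.U p).T p).mem_Bd.2 ⟨_, hm hy hc2 (zero_mem _), ?_⟩
      rw [hd y hc (n - 1) (zero_mem (X.slots p fun l => X.P l (n - 1))), ← map_add, Prod.mk_add_mk,
        ← map_add, ← map_add, Prod.mk_add_mk]
      refine hm ?_ (e' ▸ hc') (by simp [add_self2])
      convert h2 using 1
      abel
    · intro x hx
      refine ⟨(X.U p).nw p (X.un p (x, 0), mF (X.uq p) 0), (mem_Z _).2
        ⟨hm hx.1 (zero_mem _) (zero_mem _), ?_⟩, ?_⟩
      · rw [hd x (zero_mem (X.slots p fun l => X.P l n)) n (zero_mem (X.slots p fun l => X.P l n))]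
        exact hm (by simpa using (X.mem_Z.1 hx).2) (by simp) (by simp)
      · rw [hf, map_zero, add_zero, add_self2]; exact zero_mem _
  · have hf : ∀ x, (X.muH s).f p ((X.U s).up s (X.uq s x)) = x := fun x => X.muF_o s hp _
    have hd : ∀ x, ((X.U s).T s).d p ((X.U s).up s (X.uq s x)) = (X.U s).up s (X.uq s (X.d p x)) :=
      fun x => by rw [Td_o _ hp, p0_up, Ud_o _ hp, q0_uq]
    constructor
    · intro z hz hb
      obtain ⟨e1, h1⟩ := ((X.U s).mem_TQ_o hp).1 hz.1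
      rw [((X.mem_UQ_o hp).1 h1).1] at e1
      rw [e1, hf] at hb
      obtain ⟨y, hy, h2⟩ := X.mem_Bd.1 hb
      refine ((X.U s).T s).mem_Bd.2 ⟨_, (X.U s).up_mem hp (X.uq_mem hp hy), ?_⟩
      rw [hd, e1, ← map_add, ← map_add]
      exact (X.U s).up_mem hp (X.uq_mem hp h2)
    · intro x hx
      refine ⟨(X.U s).up s (X.uq s x), (mem_Z _).2 ⟨(X.U s).up_mem hp (X.uq_mem hp hx.1), ?_⟩, ?_⟩
      · rw [hd]
        exact (X.U s).up_mem hp (X.uq_mem hp hx.2)
      · simp [hf, add_self2]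

end Obj

theorem exists_mu (X : Obj G) (s : I) : ∃ φ : Hom ((X.U s).T s) X, φ.QIso := by
  exact ⟨X.muH s, X.muH_qiso s⟩

end Crest.Agent.R175
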