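import Crest.Agent.R175.PD2a
import Crest.Agent.R175.PDB5
import Crest.Agent.R175.PDB6

/-! The inverse twist of the twist. -/

set_option autoImplicit false
set_option linter.unusedSectionVars false

open scoped Classical

noncomputable section

namespace Crest.Agent.R175

variable {I : Type} [Fintype I] [DecidableEq I] {G : Gph I}

namespace Obj

variable (X : Obj G) (s : I)

/-- Elements of the inverse twist of the twist at `s`. -/
def y3 (v : X.V) (b c : X.F) : ((X.T s).U s).V := (X.T s).un s (X.nw s (v, b), mF (X.up s) c)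

theorem y3_add (v v' : X.V) (b b' c c' : X.F) :
    X.y3 s v b c + X.y3 s v' b' c' = X.y3 s (v + v') (b + b') (c + c') := by
  rw [y3, y3, y3, ← map_add, Prod.mk_add_mk, ← map_add, ← map_add, Prod.mk_add_mk]

theorem d_y3 (v : X.V) (b : X.F) {c : X.F} (hc : ∀ e : I × Bool, ¬ G.adj s e.1 e.2 → c e = 0) :
    ((X.T s).U s).d s (X.y3 s v b c) = X.y3 s (X.d s v) (X.dF b + X.out s v + c) (X.dF c) := by
  have h1 : (X.T s).inn s (mF (X.up s) c) = X.nw s (0, c) := by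
    have h0 : X.nw s (0, c) = ∑ e, X.nw s (0, Pi.single e (c e)) := by
      rw [← map_sum]
      congr 1
      ext <;> simp [Prod.fst_sum, Prod.snd_sum]
    rw [inn_apply, h0]
    refine Finset.sum_congr rfl fun e _ => ?_
    by_cases he : G.adj s e.1 e.2
    · rw [X.Ta_i (G.symm _ _ _ he)]; rfl
    · simp [hc e he]
  have h2 : (X.T s).dF (mF (X.up s) c) = mF (X.up s) (X.dF c) := by
    ext1 e
    by_cases he : G.adj s e.1 e.2
    · have h1 : e.1 ≠ s := fun h => G.irr s e.2 (h ▸ he)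
      simp [X.Td_o h1]
    · simp [hc e he]
  rw [y3, y3, Ud_s, q1_un, q2_un, h1, h2, Td_s, p1_nw, p2_nw, ← map_add, Prod.mk_add_mk, zero_add,
    add_comm c]

theorem mem_y3 {Q : I → ℤ → Submodule K2 X.V} {n : ℤ} {v : X.V} {b c : X.F} :
    X.y3 s v b c ∈ (X.T s).UQ s (X.TQ s Q) s n ↔ v ∈ Q s n ∧
      b ∈ X.slots s (fun l => Q l (n + -1)) ∧ c ∈ X.slots s fun l => Q l n := by
  have h1 : mF (X.up s) c ∈ (X.T s).slots s (fun l => X.TQ s Q l n) ↔
      c ∈ X.slots s fun l => Q l n := by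
    rw [mem_slots, mem_slots]
    refine forall_congr' fun e => and_congr (imp_congr_right fun he => ?_)
      (imp_congr_right fun _ => ⟨fun h => congrArg (X.p0 s) h, fun h => by
        rw [mF_apply, h, map_zero]⟩)
    exact X.up_mem_iff fun h : e.1 = s => G.irr s e.2 (h ▸ he)
  rw [mem_UQ_s, y3, q1_un, q2_un, nw_mem_iff, h1, neg_add_cancel_right, and_assoc]
  exact and_iff_right rfl

theorem nf_y3 {Q : I → ℤ → Submodule K2 X.V} {n : ℤ} {z : ((X.T s).U s).V}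
    (hz : z ∈ (X.T s).UQ s (X.TQ s Q) s n) : ∃ v b c, z = X.y3 s v b c := by
  obtain ⟨e1, h1, h2⟩ := (X.T s).mem_UQ_s.1 hz
  refine ⟨X.p1 s ((X.T s).q1 s z), X.p2 s ((X.T s).q1 s z), mF (X.p0 s) ((X.T s).q2 s z), ?_⟩
  rw [y3, ← (X.mem_TQ_s.1 h1).1]
  convert e1 using 3
  ext1 e
  by_cases he : G.adj s e.1 e.2
  · exact ((X.mem_TQ_o fun h : e.1 = s => G.irr s e.2 (h ▸ he)).1
      (((X.T s).mem_slots.1 h2 e).1 he)).1.symm
  · rw [mF_apply, mF_apply, ((X.T s).mem_slots.1 h2 e).2 he, map_zero, map_zero]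

/-- Components of the unit. -/
def nuF (p : I) : X.V →ₗ[K2] ((X.T s).U s).V :=
  if p = s then ((X.T s).un s).comp (LinearMap.prod ((X.nw s).comp (LinearMap.inl K2 _ _))
    ((mF (X.up s)).comp (X.out s)))
  else ((X.T s).uq s).comp (X.up s)

theorem nuF_s (v : X.V) : X.nuF s s v = X.y3 s v 0 (X.out s v) := by
  rw [nuF, if_pos rfl]; rfl

theorem nuF_o {p : I} (h : p ≠ s) (v : X.V) : X.nuF s p v = (X.T s).uq s (X.up s v) := by
  rw [nuF, if_neg h]; rfl

theorem et_T (z : (X.T s).V) : (X.T s).et s z = X.nuF s s (X.ep s z) := by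
  rw [et_eq, nuF_s, y3, Tt_s]
  congr 2
  ext1 e
  exact X.Ta_s _ _ _

theorem nuF_mem {Q : I → ℤ → Submodule K2 X.V} (h : X.Cl Q) (p : I) (n : ℤ) (v : X.V)
    (hv : v ∈ Q p n) : X.nuF s p v ∈ (X.T s).UQ s (X.TQ s Q) p n := by
  by_cases hp : p = s
  · subst hp
    rw [nuF_s, mem_y3]
    exact ⟨hv, zero_mem _, X.out_mem fun _ _ => h.a _ _ _ _ _ hv⟩
  · rw [X.nuF_o s hp]
    exact (X.T s).uq_mem hp (X.up_mem hp hv)

/-- The unit. -/
def nuH : Hom X ((X.T s).U s) where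
  f := X.nuF s
  d := fun p v => by
    by_cases hp : p = s
    · subst hp
      rw [nuF_s, nuF_s, X.d_y3 p _ _ fun e he => by simp [X.a0 _ _ _ he], map_zero, zero_add,
        add_self2, dF_out]
    · rw [X.nuF_o s hp, X.nuF_o s hp, Ud_o _ hp, q0_uq, Td_o _ hp, p0_up]
  a := fun p q k v => by
    by_cases hpq : G.adj p q k
    swap
    · simp [Obj.a0 _ _ _ _ hpq]
    by_cases hp : p = s
    · subst hp
      have hq : q ≠ p := fun e => G.irr p k (e ▸ hpq)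
      rw [X.nuF_o p hq, nuF_s, Ua_s _ hpq]
      rfl
    · by_cases hq : q = s
      · subst hq
        rw [X.nuF_o q hp, Ua_i _ hp, q0_uq, et_T, Ta_i _ hpq, ep_eq, p1_nw, p2_nw, inn_single]
        simp
      · rw [X.nuF_o s hp, X.nuF_o s hq, Ua_o _ hp hq, q0_uq, Ta_o _ hp hq, p0_up]
  t := fun p v => by
    by_cases hp : p = s
    · subst hp
      rw [Ut_s, et_T, X.nuF_s p v, y3, q1_un, ep_eq]
      simp
    · rw [X.nuF_o s hp, X.nuF_o s hp, Ut_o _ hp, q0_uq, Tt_o _ hp, p0_up]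
  P := X.nuF_mem s X.clP
  N := X.nuF_mem s X.clN

theorem nuH_qiso : (X.nuH s).QIso := by
  intro p
  refine qis_of_section (X := X) (Y := (X.T s).U s) p (X.nuF s p) ?_
  change ∀ n, ∀ y ∈ (X.T s).UQ s (X.TQ s X.P) p n, ∃ x ∈ X.P p n,
    ∃ H ∈ (X.T s).UQ s (X.TQ s X.P) p (n - 1),
      (∀ x' ∈ X.P p (n + 1), ((X.T s).U s).d p y + X.nuF s p x' ∈
        (X.T s).UQ s (X.TQ s X.N) p (n + 1) → X.d p x + x' ∈ X.N p (n + 1)) ∧
      (((X.T s).U s).d p y ∈ (X.T s).UQ s (X.TQ s X.N) p (n + 1) →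
        ((X.T s).U s).d p H + (X.nuF s p x + y) ∈ (X.T s).UQ s (X.TQ s X.N) p n)
  intro n y hy
  by_cases hp : p = s
  · subst hp
    obtain ⟨v, b, c, rfl⟩ := X.nf_y3 p hy
    obtain ⟨hv, hb, hc⟩ := (X.mem_y3 p).1 hy
    have hb' := fun e => (X.mem_slots.1 hb e).2
    have hc' := fun e => (X.mem_slots.1 hc e).2
    refine ⟨v, hv, X.y3 p 0 0 b, (X.mem_y3 p).2 ⟨zero_mem _, zero_mem _, hb⟩, fun x' _ h => ?_,
      fun h => ?_⟩
    · rw [X.d_y3 p _ _ hc', nuF_s, y3_add, mem_y3] at h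
      exact h.1
    · rw [X.d_y3 p _ _ hc', mem_y3, add_neg_cancel_right] at h
      rw [X.d_y3 p _ _ hb', nuF_s, y3_add, y3_add, mem_y3]
      exact ⟨by simp [add_self2], by simp [add_self2], by rw [← add_assoc]; exact h.2.1⟩
  · obtain ⟨e1, h1⟩ := (mem_UQ_o _ hp).1 hy
    obtain ⟨e2, h2⟩ := (mem_TQ_o _ hp).1 h1
    rw [e2] at e1
    generalize X.p0 s ((X.T s).q0 s y) = x at e1 h2
    subst e1
    refine ⟨x, h2, 0, zero_mem _, fun x' _ h => ?_, fun _ => ?_⟩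
    · rw [Ud_o _ hp, q0_uq, Td_o _ hp, p0_up, X.nuF_o s hp, ← map_add, ← map_add] at h
      exact (X.up_mem_iff hp).1 ((mem_UQ_o _ hp).1 h).2
    · simp [X.nuF_o s hp, add_self2]

end Obj

theorem exists_nu (X : Obj G) (s : I) : ∃ φ : Hom X ((X.T s).U s), φ.QIso := by
  exact ⟨X.nuH s, X.nuH_qiso s⟩

end Crest.Agent.R175
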