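import Crest.Agent.R175.PD2a
import Crest.Agent.R175.PDB5

/-! Twists at non-adjacent vertices commute. -/

set_option autoImplicit false
set_option linter.unusedSectionVars false

open scoped Classical

noncomputable section

namespace Crest.Agent.R175

variable {I : Type} [Fintype I] [DecidableEq I] {G : Gph I}

theorem Hom.qiso_of_inv {X Y : Obj G} (φ : Hom X Y) (ψ : Hom Y X)
    (h1 : ∀ p n, ∀ x ∈ X.P p n, ψ.f p (φ.f p x) = x)
    (h2 : ∀ p n, ∀ y ∈ Y.P p n, φ.f p (ψ.f p y) = y) : φ.QIso := fun p n =>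
  ⟨fun x hx h => h1 p n x hx.1 ▸ ψ.mem_Bd h, fun y hy => ⟨ψ.f p y, ψ.mem_Z hy, by
    rw [h2 p n y hy.1, add_self2]; exact zero_mem _⟩⟩

namespace Obj

variable (X : Obj G) (s t : I)

/-- Components of the commutation morphism. -/
def cmF (p : I) : ((X.T t).T s).V →ₗ[K2] ((X.T s).T t).V :=
  if p = s then ((X.T s).up t).comp ((X.nw s).comp (LinearMap.prod ((X.p0 t).comp ((X.T t).p1 s))
    ((X.msk t).comp ((mF (X.p0 t)).comp ((X.T t).p2 s)))))
  else if p = t then ((X.T s).nw t).comp ((LinearMap.prod ((X.up s).comp (X.p1 t))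
    ((mF (X.up s)).comp ((X.msk s).comp (X.p2 t)))).comp ((X.T t).p0 s))
  else ((X.T s).up t).comp ((X.up s).comp ((X.p0 t).comp ((X.T t).p0 s)))

theorem cmF_s (z : ((X.T t).T s).V) : X.cmF s t s z = (X.T s).up t (X.nw s
    (X.p0 t ((X.T t).p1 s z), X.msk t (mF (X.p0 t) ((X.T t).p2 s z)))) := by
  rw [cmF, if_pos rfl]; rfl

variable {s t}

theorem cmF_t (h : s ≠ t) (z : ((X.T t).T s).V) : X.cmF s t t z = (X.T s).nw t
    (X.up s (X.p1 t ((X.T t).p0 s z)), mF (X.up s) (X.msk s (X.p2 t ((X.T t).p0 s z)))) := by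
  rw [cmF, if_neg h.symm, if_pos rfl]; rfl

theorem cmF_o {p : I} (hs : p ≠ s) (ht : p ≠ t) (z : ((X.T t).T s).V) :
    X.cmF s t p z = (X.T s).up t (X.up s (X.p0 t ((X.T t).p0 s z))) := by
  rw [cmF, if_neg hs, if_neg ht]; rfl

variable (hst : s ≠ t) (h : ∀ k, ¬ G.adj s t k)
include hst h

theorem msk_out (v : X.V) : X.msk t (X.out s v) = X.out s v := by
  ext e
  rw [msk_apply]
  split_ifs with he
  · rw [out_apply, he, X.a0 _ _ _ (h _)]; rfl
  · rfl

theorem inn_msk (b : X.F) : X.inn s (X.msk t b) = X.inn s b := by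
  rw [inn_apply, inn_apply]
  refine Finset.sum_congr rfl fun e _ => ?_
  rw [msk_apply]
  split_ifs with he
  · rw [he, X.a0 _ _ _ fun h' => h _ (G.symm _ _ _ h')]; rfl
  · rfl

theorem ep_T (z : ((X.T t).T s).V) : (X.T t).ep s z = X.up t (X.ep s (X.nw s
    (X.p0 t ((X.T t).p1 s z), X.msk t (mF (X.p0 t) ((X.T t).p2 s z))))) := by
  rw [ep_eq, ep_eq, p1_nw, p2_nw, map_add, Tt_o _ hst, inn_apply, inn_apply, map_sum]
  congr 1
  refine Finset.sum_congr rfl fun e _ => ?_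
  simp only [msk_apply]
  split_ifs with he
  · rw [(X.T t).a0 _ _ _ fun h' => h e.2 (G.symm _ _ _ (he ▸ h'))]; simp
  · rw [Ta_o _ he hst]; rfl

theorem ep_T' (v : X.V) (b : X.F) :
    (X.T t).ep s ((X.T t).nw s (X.up t v, mF (X.up t) (X.msk t b))) =
      X.up t (X.inn s b + X.t s v) := by
  rw [X.ep_T hst h, ep_eq, p1_nw, p2_nw, p1_nw, p2_nw, X.inn_msk hst h]
  exact congrArg (fun c => X.up t (c + X.t s v)) (X.inn_msk hst h b)

theorem cmF_d (p : I) (z : ((X.T t).T s).V) :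
    X.cmF s t p (((X.T t).T s).d p z) = ((X.T s).T t).d p (X.cmF s t p z) := by
  have h' : ∀ k, ¬ G.adj t s k := fun k h' => h k (G.symm _ _ _ h')
  by_cases hs : p = s
  · subst hs
    rw [cmF_s, cmF_s, Td_s, p1_nw, p2_nw, Td_o _ hst, Td_o _ hst, p0_up, p0_up, Td_s, p1_nw, p2_nw,
      dF_msk, ← X.msk_out hst h, ← map_add]
    congr 3
    ext e
    rw [msk_apply, msk_apply]
    split_ifs with he
    · rfl
    · simp [X.Td_o he, X.Ta_o hst he]
  · by_cases ht : p = t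
    · subst ht
      rw [X.cmF_t hst, X.cmF_t hst, Td_o _ hs, p0_up, Td_s, Td_s, p1_nw, p2_nw, p1_nw, p2_nw,
        Td_o _ hs, p0_up]
      congr 2
      ext1 e
      simp only [mF_apply, msk_apply, Pi.add_apply, dF_apply, out_apply]
      split_ifs with he
      · rw [he, (X.T s).a0 _ _ _ (h' _)]; simp
      · simp [X.Td_o he, X.Ta_o hs he]
    · rw [X.cmF_o hs ht, X.cmF_o hs ht, Td_o _ hs, p0_up, Td_o _ ht, p0_up, Td_o _ ht, p0_up,
        Td_o _ hs, p0_up]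

theorem cmF_mem {Q : I → ℤ → Submodule K2 X.V} (p : I) (n : ℤ) (z : ((X.T t).T s).V)
    (hz : z ∈ (X.T t).TQ s (X.TQ t Q) p n) : X.cmF s t p z ∈ (X.T s).TQ t (X.TQ s Q) p n := by
  by_cases hs : p = s
  · subst hs
    obtain ⟨-, h1, h2⟩ := (mem_TQ_s _).1 hz
    rw [cmF_s]
    refine up_mem _ hst (X.nw_mem ((mem_TQ_o _ hst).1 h1).2 (X.mem_slots.2 fun e =>
      ⟨fun he => ?_, fun he => ?_⟩))
    · have h3 : e.1 ≠ t := fun h3 => h e.2 (h3 ▸ he)
      rw [msk_apply, if_neg h3]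
      exact ((mem_TQ_o _ h3).1 (((mem_slots _).1 h2 e).1 he)).2
    · rw [msk_apply, mF_apply, ((mem_slots _).1 h2 e).2 he]; simp
  · by_cases ht : p = t
    · subst ht
      obtain ⟨-, h1, h2⟩ := (mem_TQ_s _).1 ((mem_TQ_o _ hs).1 hz).2
      rw [X.cmF_t hst]
      refine nw_mem _ (X.up_mem hs h1) ((mem_slots _).2 fun e => ⟨fun he => ?_, fun he => ?_⟩)
      · have h3 : e.1 ≠ s := fun h3 => h e.2 (G.symm _ _ _ (h3 ▸ he))
        rw [mF_apply, msk_apply, if_neg h3]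
        exact X.up_mem h3 ((X.mem_slots.1 h2 e).1 he)
      · rw [mF_apply, msk_apply, (X.mem_slots.1 h2 e).2 he]; simp
    · rw [X.cmF_o hs ht]
      exact up_mem _ ht (X.up_mem hs ((mem_TQ_o _ ht).1 ((mem_TQ_o _ hs).1 hz).2).2)

/-- The commutation morphism. -/
def cmH : Hom ((X.T t).T s) ((X.T s).T t) where
  f := X.cmF s t
  d := X.cmF_d hst h
  a := fun p q k z => by
    have h' : ∀ k, ¬ G.adj t s k := fun k h' => h k (G.symm _ _ _ h')
    by_cases hpq : G.adj p q k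
    swap
    · simp [Obj.a0 _ _ _ _ hpq]
    have hne : q ≠ p := fun e => G.irr p k (e ▸ hpq)
    by_cases hs : p = s
    · subst hs
      have hq : q ≠ t := fun e => h k (e ▸ hpq)
      rw [X.cmF_o hne hq, cmF_s, Ta_s, p0_up, X.ep_T hst h, Ta_o _ hst hq, p0_up, p0_up,
        Ta_o _ hst hq, p0_up, Ta_s]
    · by_cases ht : p = t
      · subst ht
        have hq : q ≠ s := fun e => h' k (e ▸ hpq)
        rw [X.cmF_o hq hne, X.cmF_t hst, Ta_o _ hs hq, p0_up, Ta_s, p0_up, Ta_s,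
          X.ep_T' hst.symm h', Ta_o _ hs hq, p0_up, ep_eq]
      · by_cases hq : q = s
        · subst hq
          rw [cmF_s, X.cmF_o hs ht, Ta_i _ hpq, p1_nw, p2_nw, mF_single, X.msk_single_ne ht,
            Ta_o _ ht hst, p0_up, Ta_i _ hpq, p0_up, map_zero]
        · by_cases hq' : q = t
          · subst hq'
            rw [X.cmF_t hst, X.cmF_o hs ht, Ta_o _ hs hq, p0_up, Ta_i _ hpq, p1_nw, p2_nw,
              X.msk_single_ne hs, mF_single, Ta_i _ hpq, p0_up, map_zero]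
          · rw [X.cmF_o hs ht, X.cmF_o hq hq', Ta_o _ hs hq, p0_up, Ta_o _ ht hq', p0_up,
              Ta_o _ ht hq', p0_up, Ta_o _ hs hq, p0_up]
  t := fun p z => by
    have h' : ∀ k, ¬ G.adj t s k := fun k h' => h k (G.symm _ _ _ h')
    by_cases hs : p = s
    · subst hs
      rw [cmF_s, cmF_s, Tt_s, p1_nw, p2_nw, X.ep_T hst h, p0_up, Tt_o _ hst, p0_up, Tt_s,
        map_zero, map_zero]
    · by_cases ht : p = t
      · subst ht
        rw [X.cmF_t hst, X.cmF_t hst, Tt_o _ hs, p0_up, Tt_s, Tt_s, p1_nw, p2_nw,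
          X.ep_T' hst.symm h', ep_eq, map_zero, map_zero]
      · rw [X.cmF_o hs ht, X.cmF_o hs ht, Tt_o _ hs, p0_up, Tt_o _ ht, p0_up, Tt_o _ ht, p0_up,
          Tt_o _ hs, p0_up]
  P := X.cmF_mem hst h
  N := X.cmF_mem hst h

theorem cmF_cmF (p : I) (n : ℤ) (z : ((X.T t).T s).V) (hz : z ∈ (X.T t).TQ s (X.TQ t X.P) p n) :
    X.cmF t s p (X.cmF s t p z) = z := by
  by_cases hs : p = s
  · subst hs
    obtain ⟨e1, h1, h2⟩ := (mem_TQ_s _).1 hz
    rw [X.cmF_t hst.symm, cmF_s, p0_up, p1_nw, p2_nw, msk_msk, ← ((mem_TQ_o _ hst).1 h1).1]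
    convert e1.symm using 3
    ext1 e
    by_cases he : G.adj p e.1 e.2
    · have h3 : e.1 ≠ t := fun h3 => h e.2 (h3 ▸ he)
      rw [mF_apply, msk_apply, if_neg h3]
      exact ((mem_TQ_o _ h3).1 (((mem_slots _).1 h2 e).1 he)).1.symm
    · rw [mF_apply, msk_apply, mF_apply, ((mem_slots _).1 h2 e).2 he]; simp
  · by_cases ht : p = t
    · subst ht
      obtain ⟨e0, h0⟩ := (mem_TQ_o _ hs).1 hz
      obtain ⟨e1, -, h2⟩ := (mem_TQ_s _).1 h0
      have h3 : X.msk s (mF (X.p0 s) (mF (X.up s) (X.msk s (X.p2 p ((X.T p).p0 s z))))) =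
          X.p2 p ((X.T p).p0 s z) := by
        ext e
        simp only [mF_apply, msk_apply, p0_up]
        split_ifs with he
        · exact ((X.mem_slots.1 h2 e).2 fun h' => h e.2 (G.symm _ _ _ (he ▸ h'))).symm
        · rfl
      rw [cmF_s, X.cmF_t hst, p1_nw, p2_nw, p0_up, h3, ← e1, ← e0]
    · obtain ⟨e0, h0⟩ := (mem_TQ_o _ hs).1 hz
      rw [X.cmF_o ht hs, X.cmF_o hs ht, p0_up, p0_up, ← ((mem_TQ_o _ ht).1 h0).1, ← e0]

end Obj

theorem exists_comm (X : Obj G) {s t : I} (hst : s ≠ t) (h : ∀ k, ¬ G.adj s t k) :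
    ∃ φ : Hom ((X.T t).T s) ((X.T s).T t), φ.QIso := by
  have h' : ∀ k, ¬ G.adj t s k := fun k h' => h k (G.symm _ _ _ h')
  exact ⟨X.cmH hst h, (X.cmH hst h).qiso_of_inv (X.cmH hst.symm h') (X.cmF_cmF hst h)
    (X.cmF_cmF hst.symm h')⟩

end Crest.Agent.R175
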