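import Crest.Agent.R175.PD2a

/-! A weak quasi-isomorphism identifies the classes (mapping cylinder). -/

set_option autoImplicit false
set_option linter.unusedSectionVars false

open scoped Classical

noncomputable section

namespace Crest.Agent.R175

variable {I : Type} [Fintype I] [DecidableEq I] {G : Gph I}

namespace WHom

variable {X Y : Obj G} (φ : WHom X Y)

/-- Differential of the cylinder. -/
def cd (i : I) : X.V × X.V × Y.V →ₗ[K2] X.V × X.V × Y.V where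
  toFun z := (X.d i z.1 + z.2.1, X.d i z.2.1, Y.d i z.2.2 + φ.f i z.2.1)
  map_add' z z' := by simp [add_add_add_comm]
  map_smul' r z := by simp

/-- Arrows of the cylinder. -/
def ca (i j : I) (k : Bool) : X.V × X.V × Y.V →ₗ[K2] X.V × X.V × Y.V where
  toFun z := (X.a i j k z.1, X.a i j k z.2.1, Y.a i j k z.2.2 + φ.g i j k z.2.1)
  map_add' z z' := by simp [add_add_add_comm]
  map_smul' r z := by simp

theorem cd_apply (i : I) (z : X.V × X.V × Y.V) :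
    φ.cd i z = (X.d i z.1 + z.2.1, X.d i z.2.1, Y.d i z.2.2 + φ.f i z.2.1) := rfl

theorem ca_apply (i j : I) (k : Bool) (z : X.V × X.V × Y.V) :
    φ.ca i j k z = (X.a i j k z.1, X.a i j k z.2.1, Y.a i j k z.2.2 + φ.g i j k z.2.1) := rfl

/-- The mapping cylinder. -/
def cyl : Obj G where
  V := X.V × X.V × Y.V
  d := φ.cd
  a := φ.ca
  t := fun i => (X.t i).prodMap ((X.t i).prodMap (Y.t i))
  P := fun i n => (X.P i n).prod ((X.P i (n + 1)).prod (Y.P i n))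
  N := fun i n => (X.N i n).prod ((X.N i (n + 1)).prod (Y.N i n))
  NP := fun i n => Submodule.prod_mono (X.NP _ _) (Submodule.prod_mono (X.NP _ _) (Y.NP _ _))
  a0 := fun i j k h => LinearMap.ext fun z => by
    simp [ca_apply, X.a0 i j k h, Y.a0 i j k h, φ.g0 i j k h]
  dd := fun i z => by simp [cd_apply, X.dd, Y.dd, φ.d, add_self2]
  da := fun i j k z => by
    simp only [cd_apply, ca_apply, map_add, X.da, Y.da, Prod.mk.injEq, true_and]
    linear_combination (norm := abel1) φ.a i j k z.2.1 + add_self2 (Y.d j (φ.g i j k z.2.1)) -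
      add_self2 (Y.a i j k (φ.f i z.2.1))
  dt := fun i z => by
    refine Prod.ext ?_ (Prod.ext ?_ ?_)
    · simp only [Prod.fst_sum, cd_apply, ca_apply, ← X.dt, LinearMap.prodMap_apply, Prod.fst_add,
        map_add]
      have := add_self2 (X.t i z.2.1)
      grind
    · simp only [Prod.fst_sum, Prod.snd_sum, cd_apply, ca_apply, ← X.dt, LinearMap.prodMap_apply,
        Prod.fst_add, Prod.snd_add]
    · have h := φ.t i z.2.1
      simp only [Prod.snd_sum, cd_apply, ca_apply, LinearMap.prodMap_apply, Prod.snd_add, map_add,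
        Finset.sum_add_distrib, ← Y.dt] at h ⊢
      rw [add_assoc _ (∑ e : I × Bool, _), add_comm (∑ e : I × Bool, _), ← h]
      abel
  dP := fun i n z h => ⟨add_mem (X.dP _ _ _ h.1) h.2.1, X.dP _ _ _ h.2.1,
    add_mem (Y.dP _ _ _ h.2.2) (φ.P _ _ _ h.2.1)⟩
  dN := fun i n z h => ⟨add_mem (X.dN _ _ _ h.1) h.2.1, X.dN _ _ _ h.2.1,
    add_mem (Y.dN _ _ _ h.2.2) (φ.N _ _ _ h.2.1)⟩
  aP := fun i j k n z h => ⟨X.aP _ _ _ _ _ h.1, X.aP _ _ _ _ _ h.2.1,
    add_mem (Y.aP _ _ _ _ _ h.2.2) (φ.gP _ _ _ _ _ h.2.1)⟩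
  aN := fun i j k n z h => ⟨X.aN _ _ _ _ _ h.1, X.aN _ _ _ _ _ h.2.1,
    add_mem (Y.aN _ _ _ _ _ h.2.2) (φ.gN _ _ _ _ _ h.2.1)⟩
  tP := fun i n z h => ⟨X.tP _ _ _ h.1, X.tP _ _ _ h.2.1, Y.tP _ _ _ h.2.2⟩
  tN := fun i n z h => ⟨X.tN _ _ _ h.1, X.tN _ _ _ h.2.1, Y.tN _ _ _ h.2.2⟩

/-- The source end. -/
def inX : Hom X φ.cyl where
  f := fun _ => LinearMap.inl K2 X.V (X.V × Y.V)
  d := fun i x => by
    change ((X.d i x, 0, 0) : X.V × X.V × Y.V) = φ.cd i (x, 0, 0)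
    simp [cd_apply]
  a := fun i j k x => by
    change ((X.a i j k x, 0, 0) : X.V × X.V × Y.V) = φ.ca i j k (x, 0, 0)
    simp [ca_apply]
  t := fun i x => by
    change ((X.t i x, 0, 0) : X.V × X.V × Y.V) = (X.t i).prodMap ((X.t i).prodMap (Y.t i)) (x, 0, 0)
    simp
  P := fun _ _ _ h => ⟨h, zero_mem _, zero_mem _⟩
  N := fun _ _ _ h => ⟨h, zero_mem _, zero_mem _⟩

/-- The target end. -/
def inY : Hom Y φ.cyl where
  f := fun _ => (LinearMap.inr K2 X.V (X.V × Y.V)).comp (LinearMap.inr K2 X.V Y.V)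
  d := fun i y => by
    change ((0, 0, Y.d i y) : X.V × X.V × Y.V) = φ.cd i (0, 0, y)
    simp [cd_apply]
  a := fun i j k y => by
    change ((0, 0, Y.a i j k y) : X.V × X.V × Y.V) = φ.ca i j k (0, 0, y)
    simp [ca_apply]
  t := fun i y => by
    change ((0, 0, Y.t i y) : X.V × X.V × Y.V) = (X.t i).prodMap ((X.t i).prodMap (Y.t i)) (0, 0, y)
    simp
  P := fun _ _ _ h => ⟨zero_mem _, zero_mem _, h⟩
  N := fun _ _ _ h => ⟨zero_mem _, zero_mem _, h⟩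

theorem mem_cyl_Z {i : I} {n : ℤ} {x x' : X.V} {y : Y.V} :
    ((x, x', y) : X.V × X.V × Y.V) ∈ φ.cyl.Z i n ↔
      (x ∈ X.P i n ∧ x' ∈ X.P i (n + 1) ∧ y ∈ Y.P i n) ∧ X.d i x + x' ∈ X.N i (n + 1) ∧
        X.d i x' ∈ X.N i (n + 1 + 1) ∧ Y.d i y + φ.f i x' ∈ Y.N i (n + 1) := Iff.rfl

theorem mem_cyl_Bd {i : I} {n : ℤ} {x x' : X.V} {y : Y.V} :
    ((x, x', y) : X.V × X.V × Y.V) ∈ φ.cyl.Bd i n ↔ ∃ u ∈ X.P i (n - 1), ∃ u' ∈ X.P i n,
      ∃ w ∈ Y.P i (n - 1), X.d i u + u' + x ∈ X.N i n ∧ X.d i u' + x' ∈ X.N i (n + 1) ∧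
        Y.d i w + φ.f i u' + y ∈ Y.N i n := by
  refine φ.cyl.mem_Bd.trans ⟨?_, ?_⟩
  · rintro ⟨⟨u, u', w⟩, ⟨h1, h2, h3⟩, h4, h5, h6⟩
    exact ⟨u, h1, u', by simpa using h2, w, h3, h4, h5, h6⟩
  · rintro ⟨u, h1, u', h2, w, h3, h4, h5, h6⟩
    exact ⟨(u, u', w), ⟨h1, by simpa using h2, h3⟩, h4, h5, h6⟩

theorem inY_qiso : φ.inY.QIso := by
  intro i n
  constructor
  · intro y _ h
    obtain ⟨u, h1, u', -, w, h3, h4, -, h6⟩ := (φ.mem_cyl_Bd (x := 0) (x' := 0) (y := y)).1 h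
    refine Y.mem_Bd.2 ⟨w + φ.f i u, add_mem h3 (φ.P _ _ _ h1), ?_⟩
    have h7 := add_mem h6 (φ.N _ _ _ h4)
    convert h7 using 1
    simp only [map_add, φ.d, map_zero]
    have := add_self2 (φ.f i u')
    grind
  · rintro ⟨x, x', y⟩ h
    obtain ⟨⟨h1, -, h3⟩, h4, -, h6⟩ := φ.mem_cyl_Z.1 h
    refine ⟨y + φ.f i x, ⟨add_mem h3 (φ.P _ _ _ h1), ?_⟩, ?_⟩
    · have h7 := add_mem h6 (φ.N _ _ _ h4)
      change Y.d i (y + φ.f i x) ∈ Y.N i (n + 1)
      convert h7 using 1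
      simp only [map_add, φ.d]
      have := add_self2 (φ.f i x')
      grind
    · refine (φ.mem_cyl_Bd (x := 0 + x) (x' := 0 + x') (y := y + φ.f i x + y)).2
        ⟨0, zero_mem _, x, h1, 0, zero_mem _, by simp [add_self2], by simpa using h4, ?_⟩
      have : Y.d i 0 + φ.f i x + (y + φ.f i x + y) = 0 := by
        have := add_self2 (φ.f i x)
        have := add_self2 y
        rw [map_zero]
        grind
      rw [this]
      exact zero_mem _

theorem inX_qiso (h : φ.QIso) : φ.inX.QIso := by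
  intro i n
  constructor
  · intro x _ hx
    obtain ⟨u, h1, u', h2, w, h3, h4, h5, h6⟩ := (φ.mem_cyl_Bd (x := x) (x' := 0) (y := 0)).1 hx
    have h7 : u' ∈ X.Bd i n := (h i n).1 u' ⟨h2, by simpa using h5⟩
      (Y.mem_Bd.2 ⟨w, h3, by simpa using h6⟩)
    have h8 : u' + x ∈ X.Bd i n := X.mem_Bd.2 ⟨u, h1, by rwa [← add_assoc]⟩
    have := add_mem h7 h8
    rwa [add_add_cancel2] at this
  · rintro ⟨x, x', y⟩ hz
    obtain ⟨⟨h1, -, h3⟩, h4, -, h6⟩ := φ.mem_cyl_Z.1 hz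
    have h7 : y + φ.f i x ∈ Y.Z i n := by
      refine ⟨add_mem h3 (φ.P _ _ _ h1), ?_⟩
      have h7 := add_mem h6 (φ.N _ _ _ h4)
      change Y.d i (y + φ.f i x) ∈ Y.N i (n + 1)
      convert h7 using 1
      simp only [map_add, φ.d]
      have := add_self2 (φ.f i x')
      grind
    obtain ⟨x₀, h8, h9⟩ := (h i n).2 _ h7
    obtain ⟨w, h10, h11⟩ := Y.mem_Bd.1 h9
    refine ⟨x₀, h8, (φ.mem_cyl_Bd (x := x₀ + x) (x' := 0 + x') (y := 0 + y)).2
      ⟨0, zero_mem _, x₀ + x, add_mem h8.1 h1, w, h10, by simp [add_self2], ?_, ?_⟩⟩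
    · have := add_mem (X.mem_Z.1 h8).2 h4
      rw [map_add, zero_add, add_assoc]
      exact this
    · convert h11 using 1
      rw [map_add]
      abel

end WHom

theorem WHom.cls_eq {X Y : Obj G} (φ : WHom X Y) (h : φ.QIso) : cls X = cls Y := by
  rw [Crest.Agent.R175.cls_eq φ.inX (φ.inX_qiso h), Crest.Agent.R175.cls_eq φ.inY φ.inY_qiso]

end Crest.Agent.R175
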