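import Crest.Agent.R175.PD5
import Crest.Agent.R175.PDB5

/-! The braid relation for a single edge. -/

set_option autoImplicit false
set_option linter.unusedSectionVars false

open scoped Classical

noncomputable section

namespace Crest.Agent.R175

variable {I : Type} [Fintype I] [DecidableEq I] {G : Gph I}

theorem cls_braid (X : Obj G) {s t : I} {k : Bool} (h : G.adj s t k) (h' : ¬ G.adj s t (!k)) :
    cls (((X.T s).T t).T s) = cls (((X.T t).T s).T t) := by
  have E : Obj.Edge G s t k := ⟨h, h'⟩
  rw [← (X.sW E).cls_eq (X.sW_qiso E), ← (X.sW E.symm).cls_eq (X.sW_qiso E.symm)]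
  exact cls_eq (X.swH E) (X.swH_qiso E)

end Crest.Agent.R175
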