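import Crest.Agent.R175.PD2a

/-! Nilpotency of the cohomology, heads. -/

set_option autoImplicit false
set_option linter.unusedSectionVars false

open scoped Classical

noncomputable section

namespace Crest.Agent.R175

variable {I : Type} [Fintype I] [DecidableEq I] {G : Gph I}

namespace Obj

variable {X Y : Obj G}

theorem Bd_le_Soc (X : Obj G) (m : ℕ) (i : I) (n : ℤ) : X.Bd i n ≤ X.Soc m i n := by
  induction m generalizing i with
  | zero => exact le_rfl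
  | succ m ih =>
    intro x hx
    exact X.mem_Soc_succ.2 ⟨X.Bd_le_Z i n hx, fun j k => ih j (X.a_mem_Bd j k hx)⟩

theorem Soc_le_Z (X : Obj G) (m : ℕ) (i : I) (n : ℤ) : X.Soc m i n ≤ X.Z i n := by
  cases m with
  | zero => exact X.Bd_le_Z i n
  | succ m => exact fun x hx => (X.mem_Soc_succ.1 hx).1

theorem pd7a_Soc_le_succ (X : Obj G) (m : ℕ) (i : I) (n : ℤ) :
    X.Soc m i n ≤ X.Soc (m + 1) i n := by
  induction m generalizing i with
  | zero => exact X.Bd_le_Soc 1 i n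
  | succ m ih =>
    intro x hx
    obtain ⟨h1, h2⟩ := X.mem_Soc_succ.1 hx
    exact X.mem_Soc_succ.2 ⟨h1, fun j k => ih j (h2 j k)⟩

theorem Soc_mono (X : Obj G) {m m' : ℕ} (h : m ≤ m') (i : I) (n : ℤ) :
    X.Soc m i n ≤ X.Soc m' i n := by
  induction h with
  | refl => exact le_rfl
  | step _ ih => exact ih.trans (X.pd7a_Soc_le_succ _ i n)

theorem a_mem_Soc (X : Obj G) {m : ℕ} {i : I} {n : ℤ} {x : X.V} (j : I) (k : Bool)
    (hx : x ∈ X.Soc m i n) : X.a i j k x ∈ X.Soc m j n := by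
  exact (X.mem_Soc_succ.1 (X.pd7a_Soc_le_succ m i n hx)).2 j k

theorem pd7a_map_Soc (φ : Hom X Y) {m : ℕ} {i : I} {n : ℤ} {x : X.V} (hx : x ∈ X.Soc m i n) :
    φ.f i x ∈ Y.Soc m i n := by
  induction m generalizing i x with
  | zero => exact φ.mem_Bd hx
  | succ m ih =>
    obtain ⟨h1, h2⟩ := X.mem_Soc_succ.1 hx
    refine Y.mem_Soc_succ.2 ⟨φ.mem_Z h1, fun j k => ?_⟩
    rw [← φ.a]
    exact ih (h2 j k)

theorem pd7a_Z_le_of_surj (φ : Hom X Y) {m : ℕ} {i : I} {n : ℤ} (h : X.Z i n ≤ X.Soc m i n)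
    (hφ : φ.Surj i n) : Y.Z i n ≤ Y.Soc m i n := by
  intro y hy
  obtain ⟨x, hx, hb⟩ := hφ y hy
  have := add_mem (pd7a_map_Soc φ (h hx)) (Y.Bd_le_Soc m i n hb)
  rwa [add_add_cancel2] at this

theorem NilAt.of_surj {n : ℤ} (h : X.NilAt n) (φ : Hom X Y) (hφ : ∀ i, φ.Surj i n) : Y.NilAt n := by
  obtain ⟨m, hm⟩ := h
  exact ⟨m, fun i => pd7a_Z_le_of_surj φ (hm i) (hφ i)⟩

theorem NilAt.of_inj {n : ℤ} (h : Y.NilAt n) (φ : Hom X Y) (hφ : ∀ i, φ.Inj i n) : X.NilAt n := by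
  obtain ⟨m, hm⟩ := h
  have key : ∀ (m : ℕ) (i : I) (x : X.V), x ∈ X.Z i n → φ.f i x ∈ Y.Soc m i n → x ∈ X.Soc m i n := by
    intro m
    induction m with
    | zero => exact fun i x hx h => hφ i x hx h
    | succ m ih =>
      intro i x hx h
      refine X.mem_Soc_succ.2 ⟨hx, fun j k => ih j _ (X.a_mem_Z j k hx) ?_⟩
      rw [φ.a]
      exact (Y.mem_Soc_succ.1 h).2 j k
  exact ⟨m, fun i x hx => key m i x hx (hm i (φ.mem_Z hx))⟩

theorem pd7a_of_inj_ne {n : ℤ} (h : Y.NilAt n) (φ : Hom X Y) (s : I)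
    (hφ : ∀ i, i ≠ s → φ.Inj i n) : X.NilAt n := by
  obtain ⟨m, hm⟩ := h
  have key : ∀ (m : ℕ) (i : I) (x : X.V), x ∈ X.Z i n → φ.f i x ∈ Y.Soc m i n →
      x ∈ X.Soc (m + 1) i n := by
    intro m
    induction m with
    | zero =>
      intro i x hx h
      by_cases hi : i = s
      · refine X.mem_Soc_succ.2 ⟨hx, fun j k => ?_⟩
        by_cases hj : j = s
        · rw [X.a0 i j k (by rw [hi, hj]; exact G.irr s k)]
          exact zero_mem _
        · refine hφ j hj _ (X.a_mem_Z j k hx) ?_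
          rw [φ.a]
          exact Y.a_mem_Bd j k h
      · exact X.Bd_le_Soc 1 i n (hφ i hi x hx h)
    | succ m ih =>
      intro i x hx h
      refine X.mem_Soc_succ.2 ⟨hx, fun j k => ih j _ (X.a_mem_Z j k hx) ?_⟩
      rw [φ.a]
      exact (Y.mem_Soc_succ.1 h).2 j k
  exact ⟨m + 1, fun i x hx => key m i x hx (hm i (φ.mem_Z hx))⟩

theorem pd7a_of_ne {n : ℤ} {m : ℕ} (s : I) (h : ∀ i, i ≠ s → X.Z i n ≤ X.Soc m i n) :
    X.NilAt n := by
  refine ⟨m + 1, fun i x hx => ?_⟩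
  by_cases hi : i = s
  · refine X.mem_Soc_succ.2 ⟨hx, fun j k => ?_⟩
    by_cases hj : j = s
    · rw [X.a0 i j k (by rw [hi, hj]; exact G.irr s k)]
      exact zero_mem _
    · exact h j hj (X.a_mem_Z j k hx)
  · exact X.pd7a_Soc_le_succ m i n (h i hi hx)

theorem NilAt.T {n : ℤ} (h : X.NilAt n) (s : I) : (X.T s).NilAt n := by
  exact pd7a_of_inj_ne h (X.epsH s) s fun i hi => (X.epsH_bij_ne hi n).1

theorem NilAt.U {n : ℤ} (h : X.NilAt n) (s : I) : (X.U s).NilAt n := by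
  obtain ⟨m, hm⟩ := h
  exact pd7a_of_ne s fun i hi => pd7a_Z_le_of_surj (X.etaH s) (hm i) (X.etaH_bij_ne hi n).2

theorem NilAt.Gw {n : ℤ} (h : X.NilAt n) (l : List (I × Bool)) : (Gw l X).NilAt n := by
  induction l generalizing X with
  | nil => exact h
  | cons x l ih =>
    rw [Gw_cons]
    obtain ⟨i, _ | _⟩ := x
    · exact ih (h.U i)
    · exact ih (h.T i)

/-- Cohomology concentrated at one vertex is nilpotent. -/
theorem nilAt_of_single {r : I} {n : ℤ} (h : ∀ i, i ≠ r → X.Acyc i n) : X.NilAt n := by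
  exact pd7a_of_ne (m := 0) r h

theorem Acyc.inSurj {i : I} {n : ℤ} (h : X.Acyc i n) : X.InSurj i n := by
  intro z hz
  refine ⟨0, zero_mem _, ?_⟩
  rw [map_zero, zero_add]
  exact h hz

/-- A nilpotent module without head vanishes. -/
theorem NilAt.acyc_of_inSurj {n : ℤ} (h : X.NilAt n) (h' : ∀ i, X.InSurj i n) (i : I) :
    X.Acyc i n := by
  obtain ⟨m, hm⟩ := h
  induction m with
  | zero => exact hm i
  | succ m ih =>
    refine ih fun j z hz => ?_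
    obtain ⟨b, hb, hz'⟩ := h' j z hz
    have h1 : X.inn j b ∈ X.Soc m j n :=
      X.inn_mem hb fun j' k x hx => (X.mem_Soc_succ.1 (hm j' hx)).2 j k
    have := add_mem h1 (X.Bd_le_Soc m j n hz')
    rwa [add_add_cancel2] at this

theorem pd7b_slots_Z (X : Obj G) {s : I} {n : ℤ} {b : X.F} :
    (b ∈ X.slots s fun j => X.Z j n) ↔ (b ∈ X.slots s fun j => X.P j n) ∧
      X.dF b ∈ X.slots s fun j => X.N j (n + 1) := by
  refine ⟨fun h => ⟨X.slots_mono (fun j => X.Z_le_P j n) h, X.dF_mem h fun j x hx => hx.2⟩,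
    fun h => X.mem_slots.2 fun e => ⟨fun he => ⟨(X.mem_slots.1 h.1 e).1 he,
      (X.mem_slots.1 h.2 e).1 he⟩, (X.mem_slots.1 h.1 e).2⟩⟩

theorem pd7b_four {V : Type} [AddCommGroup V] [Module K2 V] (a b c : V) :
    (a + b) + (b + c) = a + c := by
  rw [add_assoc, add_add_cancel2]

theorem pd7b_T_slots {s i : I} {n : ℤ} {b : X.F} (hb : b ∈ X.slots i fun j => X.Z j n)
    (h : ∀ j k, G.adj i j k → j ≠ s) :
    ((fun e => X.i0 (b e) : (X.T s).F)) ∈ (X.T s).slots i fun j => (X.T s).Z j n := by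
  refine (X.T s).mem_slots.2 fun e => ⟨fun he => ?_, fun he => ?_⟩
  · exact (X.mem_Z_T_ne (h _ _ he)).2 ⟨(X.mem_slots.1 hb e).1 he, rfl⟩
  · show X.i0 (b e) = 0
    rw [(X.mem_slots.1 hb e).2 he, map_zero]

theorem InSurj.of_surj {i : I} {n : ℤ} (h : X.InSurj i n) (φ : Hom X Y) (hφ : φ.Surj i n) :
    Y.InSurj i n := by
  intro y hy
  obtain ⟨x, hx, h1⟩ := hφ y hy
  obtain ⟨b, hb, h2⟩ := h x hx
  refine ⟨φ.fF b, φ.fF_mem hb fun j x hx => φ.mem_Z hx, ?_⟩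
  have h3 := add_mem (φ.mem_Bd h2) h1
  rwa [map_add, pd7b_four, φ.f_inn] at h3

theorem inSurj_T_self {i : I} {n : ℤ} (h : X.Acyc i (n + 1)) : (X.T i).InSurj i n := by
  intro (z : X.W) hz
  obtain ⟨hz1, hz2⟩ := (X.T i).mem_Z.1 hz
  have hz1' := X.mem_Tp_self.1 hz1
  have hz2' : X.Td i i z ∈ X.Tp i 1 X.N i (n + 1) := hz2
  rw [Td_self, mem_Tp_self] at hz2'
  obtain ⟨u', hu', h1⟩ := X.mem_Bd.1 (h (X.mem_Z.2 ⟨hz1'.2.1, hz2'.2.1⟩))
  have hu'' : u' ∈ X.P i n := by simpa using hu'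
  have hb : (z.2.2 + X.out i u') ∈ X.slots i fun j => X.Z j n := by
    refine (pd7b_slots_Z X).2 ⟨add_mem hz1'.2.2 (X.out_mem fun j k => X.aP _ _ _ _ _ hu''), ?_⟩
    have h2 := add_mem hz2'.2.2 (X.out_mem (s := i) (Q := fun j => X.N j (n + 1))
      fun j k => X.aN _ j k _ _ h1)
    rw [map_add, add_comm (X.out i (X.d i u')), pd7b_four] at h2
    rw [map_add, dF_out]
    exact h2
  refine ⟨_, pd7b_T_slots hb (fun j k he e => G.irr i k (e ▸ he)), ?_⟩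
  have h3 : (X.T i).inn i (fun e => X.i0 ((z.2.2 + X.out i u') e)) =
      X.i1 (0, z.2.2 + X.out i u') := by
    rw [inn_apply]
    have h4 : ∀ e : I × Bool, (X.T i).a e.1 i e.2 (X.i0 ((z.2.2 + X.out i u') e)) =
        (X.i1.comp (LinearMap.inr K2 _ _)) (Pi.single e ((z.2.2 + X.out i u') e)) := by
      intro e
      show X.Ta i e.1 i e.2 _ = _
      by_cases he : G.adj e.1 i e.2
      · rw [X.Ta_in he]; rfl
      · rw [X.Ta_zero he, (X.mem_slots.1 hb e).2 fun h' => he (G.symm _ _ _ h'), Pi.single_zero,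
          map_zero]
        rfl
    rw [Finset.sum_congr rfl fun e _ => h4 e]
    refine (map_sum (X.i1.comp (LinearMap.inr K2 _ _)) _ _).symm.trans ?_
    rw [Finset.univ_sum_single]
    rfl
  rw [h3]
  refine (X.T i).mem_Bd.2 ⟨((0, u', 0) : X.W), X.mem_Tp_self.2 ⟨rfl, by simpa using hu'',
    zero_mem _⟩, ?_⟩
  show X.Td i i (0, u', 0) + (X.i1 (0, z.2.2 + X.out i u') + z) ∈ X.Tp i 1 X.N i n
  rw [Td_self, mem_Tp_self]
  refine ⟨?_, ?_, ?_⟩
  · simp [hz1'.1]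
  · simpa using h1
  · have h5 : X.dF 0 + X.out i u' + (z.2.2 + X.out i u' + z.2.2) = 0 := by
      rw [map_zero, zero_add, add_comm z.2.2, add_assoc, add_self2, add_zero, add_self2]
    show X.dF 0 + X.out i u' + (z.2.2 + X.out i u' + z.2.2) ∈ _
    rw [h5]
    exact zero_mem _

theorem InSurj.T_ne {s i : I} {n : ℤ} (h : X.InSurj i n) (hs : i ≠ s) (hadj : ∀ k, ¬ G.adj i s k) :
    (X.T s).InSurj i n := by
  intro (z : X.W) hz
  obtain ⟨hz1, hz2⟩ := (X.mem_Z_T_ne hs).1 hz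
  obtain ⟨b, hb, h1⟩ := h _ hz1
  refine ⟨_, pd7b_T_slots hb (fun j k he e => hadj k (e ▸ he)), ?_⟩
  have h3 : (X.T s).inn i (fun e => X.i0 (b e)) = X.i0 (X.inn i b) := by
    rw [inn_apply, inn_apply, map_sum]
    refine Finset.sum_congr rfl fun e _ => ?_
    show X.Ta s e.1 i e.2 _ = _
    by_cases he : e.1 = s
    · rw [(X.mem_slots.1 hb e).2 (he ▸ hadj e.2), map_zero, map_zero, map_zero, map_zero]
    · rw [X.Ta_ne he hs]; rfl
  rw [h3]
  refine (X.mem_Bd_T_ne hs).2 ⟨h1, ?_⟩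
  show (0 : X.V × X.F) + z.2 = 0
  rw [hz2, add_zero]

theorem InSurj.epsH_surj {i : I} {n : ℤ} (h : X.InSurj i n) : (X.epsH i).Surj i n := by
  intro y hy
  obtain ⟨b, hb, h1⟩ := h y hy
  obtain ⟨h2, h3⟩ := (pd7b_slots_Z X).1 hb
  refine ⟨((0, 0, b) : X.W), (X.T i).mem_Z.2 ⟨X.mem_Tp_self.2 ⟨rfl, zero_mem _, h2⟩, ?_⟩, ?_⟩
  · show X.Td i i (0, 0, b) ∈ X.Tp i 1 X.N i (n + 1)
    rw [Td_self, mem_Tp_self]
    exact ⟨rfl, by simp, by simpa using h3⟩
  · show X.epsF i i (0, 0, b) + y ∈ _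
    rw [epsF_self, eps_apply]
    simpa using h1

theorem inSurj_of_U_acyc {i : I} {n : ℤ} (h : (X.U i).Acyc i (n + 1)) : X.InSurj i n := by
  intro z hz
  have hw : ((0, z, 0) : X.W) ∈ (X.U i).Z i (n + 1) := by
    refine (X.U i).mem_Z.2 ⟨X.mem_Tp_self.2 ⟨rfl, by simpa using hz.1, zero_mem _⟩, ?_⟩
    show X.Ud i i (0, z, 0) ∈ X.Tp i (-1) X.N i (n + 1 + 1)
    rw [Ud_self, mem_Tp_self]
    exact ⟨rfl, by simpa using (X.mem_Z.1 hz).2, by simp⟩
  obtain ⟨y, hy, h1⟩ := (X.U i).mem_Bd.1 (h hw)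
  revert hy h1
  revert y
  intro (y : X.W) hy h1
  have hy' := X.mem_Tp_self.1 hy
  have h2 : X.Ud i i y + (0, z, 0) ∈ X.Tp i (-1) X.N i (n + 1) := h1
  rw [Ud_self, mem_Tp_self] at h2
  refine ⟨y.2.2, (pd7b_slots_Z X).2 ⟨by simpa using hy'.2.2, by simpa using h2.2.2⟩,
    X.mem_Bd.2 ⟨y.2.1, by simpa [sub_eq_add_neg] using hy'.2.1, ?_⟩⟩
  have h3 : X.inn i y.2.2 + X.d i y.2.1 + z ∈ X.N i n := by simpa using h2.2.1
  rwa [add_comm (X.inn i y.2.2), add_assoc] at h3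

theorem InSurj.U_acyc {i : I} {n : ℤ} (h : X.InSurj i n)
    (h' : ∀ j k, G.adj i j k → X.Acyc j (n + 1)) : (X.U i).Acyc i (n + 1) := by
  intro (w : X.W) hw
  obtain ⟨hw1, hw2⟩ := (X.U i).mem_Z.1 hw
  have hw1' := X.mem_Tp_self.1 hw1
  have hw2' : X.Ud i i w ∈ X.Tp i (-1) X.N i (n + 1 + 1) := hw2
  rw [Ud_self, mem_Tp_self] at hw2'
  have hu : w.2.1 ∈ X.P i n := by simpa using hw1'.2.1
  have h0 : X.inn i w.2.2 + X.d i w.2.1 ∈ X.N i (n + 1) := by simpa using hw2'.2.1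
  have hb := (pd7b_slots_Z X).2 ⟨hw1'.2.2, hw2'.2.2⟩
  obtain ⟨b', hb', h1⟩ := slots_Bd (X := X) (s := i) (n := n + 1) (b := w.2.2)
    (X.mem_slots.2 fun e => ⟨fun he => h' _ _ he ((X.mem_slots.1 hb e).1 he),
      (X.mem_slots.1 hb e).2⟩)
  have hb'' : b' ∈ X.slots i fun j => X.P j n := by simpa using hb'
  have hz : X.inn i b' + w.2.1 ∈ X.Z i n := by
    refine X.mem_Z.2 ⟨add_mem (X.inn_mem hb'' fun j k x hx => X.aP _ _ _ _ _ hx) hu, ?_⟩
    have h2 := add_mem (X.inn_mem h1 fun j k x hx => X.aN _ i k _ _ hx) h0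
    rw [map_add, pd7b_four] at h2
    rw [map_add, d_inn]
    exact h2
  obtain ⟨c, hc, h2⟩ := h _ hz
  obtain ⟨hc1, hc2⟩ := (pd7b_slots_Z X).1 hc
  obtain ⟨v, hv, h3⟩ := X.mem_Bd.1 h2
  refine (X.U i).mem_Bd.2 ⟨((0, v, c + b') : X.W), X.mem_Tp_self.2
    ⟨rfl, by simpa [sub_eq_add_neg] using hv, by simpa using add_mem hc1 hb''⟩, ?_⟩
  show X.Ud i i (0, v, c + b') + w ∈ X.Tp i (-1) X.N i (n + 1)
  rw [Ud_self, mem_Tp_self]
  refine ⟨by simp [hw1'.1], ?_, ?_⟩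
  · have h4 : X.inn i (c + b') + X.d i v + w.2.1 =
        X.d i v + (X.inn i c + (X.inn i b' + w.2.1)) := by
      rw [map_add]; abel
    show X.inn i (c + b') + X.d i v + w.2.1 ∈ _
    rw [h4]
    simpa using h3
  · show X.dF (c + b') + w.2.2 ∈ _
    rw [map_add, add_assoc]
    exact add_mem hc2 h1

/-- A head at `r`: a submodule with quotient concentrated at `r`. -/
theorem exists_head {r : I} {n : ℤ} (h : ¬ X.InSurj r n) :
    ∃ A : X.SubM n, (∀ i, i ≠ r → A.A i = X.Z i n) ∧ ¬ X.Z r n ≤ A.A r := by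
  have hle : ∀ i, (if i = r then X.Bd r n ⊔ (X.slots r fun j => X.Z j n).map (X.inn r)
      else X.Z i n) ≤ X.Z i n := by
    intro i
    split_ifs with hi
    · subst hi
      refine sup_le (X.Bd_le_Z _ _) ?_
      rintro _ ⟨b, hb, rfl⟩
      exact X.inn_mem hb fun j k x hx => X.a_mem_Z _ _ hx
    · exact le_rfl
  refine ⟨⟨fun i => if i = r then X.Bd r n ⊔ (X.slots r fun j => X.Z j n).map (X.inn r)
    else X.Z i n, fun i => ?_, hle, fun i j k x hx => ?_⟩, fun i hi => if_neg hi, fun h1 => h ?_⟩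
  · split_ifs with hi
    · subst hi; exact le_sup_left
    · exact X.Bd_le_Z _ _
  · have hx' := hle i hx
    split_ifs with hj
    · subst hj
      by_cases he : G.adj i j k
      · exact Submodule.mem_sup_right ⟨_, X.single_mem (G.symm _ _ _ he) hx', X.inn_single j (i, k) x⟩
      · rw [X.a0 _ _ _ he]
        exact zero_mem _
    · exact X.a_mem_Z _ _ hx'
  · intro z hz
    have h2 := h1 hz
    simp only [if_true] at h2
    obtain ⟨x, hx, _, ⟨b, hb, rfl⟩, rfl⟩ := Submodule.mem_sup.1 h2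
    refine ⟨b, hb, ?_⟩
    rwa [add_comm x, add_add_cancel2]

/-- A socle at `r`: a submodule concentrated at `r`. -/
theorem exists_socle (X : Obj G) (r : I) (n : ℤ) :
    ∃ A : X.SubM n, (∀ i, i ≠ r → A.A i = X.Bd i n) ∧ A.A r = X.Soc 1 r n := by
  have hlo : ∀ i, X.Bd i n ≤ if i = r then X.Soc 1 r n else X.Bd i n := by
    intro i
    split_ifs with hi
    · subst hi; exact X.Bd_le_Soc _ _ _
    · exact le_rfl
  refine ⟨⟨fun i => if i = r then X.Soc 1 r n else X.Bd i n, hlo, fun i => ?_,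
    fun i j k x hx => hlo j ?_⟩, fun i hi => if_neg hi, if_pos rfl⟩
  · split_ifs with hi
    · subst hi; exact X.Soc_le_Z _ _ _
    · exact X.Bd_le_Z _ _
  · split_ifs at hx with hi
    · subst hi; exact (X.mem_Soc_succ.1 hx).2 j k
    · exact X.a_mem_Bd _ _ hx

/-- A step of the socle filtration inside a submodule. -/
theorem NilAt.exists_step {n : ℤ} (h : X.NilAt n) (A : X.SubM n) {r : I} (hr : ¬ A.A r ≤ X.Bd r n) :
    ∃ B C : X.SubM n, (∀ i, B.A i ≤ A.A i) ∧ (∀ i, C.A i ≤ A.A i) ∧ (∀ i, i ≠ r → C.A i = B.A i) ∧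
      B.A r ≤ C.A r ∧ ¬ C.A r ≤ B.A r := by
  obtain ⟨m₀, hm₀⟩ := h
  have hex : ∃ m, ¬ A.A r ⊓ X.Soc (m + 1) r n ≤ A.A r ⊓ X.Soc m r n := by
    by_contra hc
    push Not at hc
    have h1 : ∀ m, A.A r ⊓ X.Soc m r n ≤ X.Bd r n := by
      intro m
      induction m with
      | zero => exact inf_le_right
      | succ m ih => exact (hc m).trans ih
    exact hr ((le_inf le_rfl ((A.hi r).trans (hm₀ r))).trans (h1 m₀))
  obtain ⟨m, hm⟩ := hex
  have h1 : ∀ i, A.A i ⊓ X.Soc m i n ≤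
      if i = r then A.A r ⊓ X.Soc (m + 1) r n else A.A i ⊓ X.Soc m i n := by
    intro i
    split_ifs with hi
    · subst hi; exact inf_le_inf_left _ (X.Soc_mono (Nat.le_succ m) _ _)
    · exact le_rfl
  have h2 : ∀ i, (if i = r then A.A r ⊓ X.Soc (m + 1) r n else A.A i ⊓ X.Soc m i n) ≤
      A.A i ⊓ X.Soc (m + 1) i n := by
    intro i
    split_ifs with hi
    · subst hi; exact le_rfl
    · exact inf_le_inf_left _ (X.Soc_mono (Nat.le_succ m) _ _)
  have h3 : ∀ i, X.Bd i n ≤ A.A i ⊓ X.Soc m i n := fun i => le_inf (A.lo i) (X.Bd_le_Soc _ _ _)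
  refine ⟨⟨fun i => A.A i ⊓ X.Soc m i n, h3, fun i => inf_le_left.trans (A.hi i),
      fun i j k x hx => ⟨A.cl _ _ _ _ hx.1, X.a_mem_Soc j k hx.2⟩⟩,
    ⟨fun i => if i = r then A.A r ⊓ X.Soc (m + 1) r n else A.A i ⊓ X.Soc m i n,
      fun i => (h3 i).trans (h1 i), fun i => (h2 i).trans (inf_le_left.trans (A.hi i)),
      fun i j k x hx => h1 j ⟨A.cl _ _ _ _ (h2 i hx).1, (X.mem_Soc_succ.1 (h2 i hx).2).2 j k⟩⟩,
    fun i => inf_le_left, fun i => (h2 i).trans inf_le_left, fun i hi => if_neg hi, h1 r, ?_⟩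
  simpa only [if_true] using hm

end Obj

end Crest.Agent.R175
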