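import Crest.Agent.R175.PD2a

/-! Existence of colimits of sequences and their cohomology. -/

set_option autoImplicit false
set_option linter.unusedSectionVars false

open scoped Classical

noncomputable section

namespace Crest.Agent.R175

variable {I : Type} [Fintype I] [DecidableEq I] {G : Gph I}

/-- The zero morphism. -/
def pd8a_zero (X Y : Obj G) : Hom X Y :=
  ⟨fun _ => 0, fun _ _ => by simp, fun _ _ _ _ => by simp, fun _ _ => by simp,
    fun _ _ _ _ => zero_mem _, fun _ _ _ _ => zero_mem _⟩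

section Constr

variable (X : ℕ → Obj G) (f : ∀ n, Hom (X n) (X (n + 1)))

/-- Transition maps, zero below the start. -/
def pd8a_tr (n : ℕ) : ∀ k, Hom (X n) (X k)
  | 0 => if h : n = 0 then h ▸ Hom.id (X n) else pd8a_zero _ _
  | k + 1 => if h : n = k + 1 then h ▸ Hom.id (X n) else (pd8a_tr n k).comp (f k)

theorem pd8a_tr_self (n : ℕ) : pd8a_tr X f n n = Hom.id (X n) := by
  cases n <;> simp [pd8a_tr]

theorem pd8a_tr_succ {n k : ℕ} (h : n ≤ k) :
    pd8a_tr X f n (k + 1) = (pd8a_tr X f n k).comp (f k) := by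
  rw [pd8a_tr, dif_neg (by omega)]

theorem pd8a_tr_fk (n k : ℕ) : pd8a_tr X f n (n + k + 1) = fk X f n k := by
  induction k with
  | zero =>
    refine (pd8a_tr_succ X f (le_refl n)).trans ?_
    rw [pd8a_tr_self]; rfl
  | succ k ih =>
    refine (pd8a_tr_succ X f (show n ≤ n + k + 1 by omega)).trans ?_
    rw [ih]; rfl

/-- Eventually compatible sequences with values eventually in `Q`. -/
def pd8a_ev (i : I) (Q : ∀ n, Submodule K2 (X n).V) : Submodule K2 (∀ n, (X n).V) where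
  carrier := {z | ∀ᶠ n in Filter.atTop, z n ∈ Q n ∧ (f n).f i (z n) = z (n + 1)}
  zero_mem' := Filter.Eventually.of_forall fun n => ⟨zero_mem _, map_zero _⟩
  add_mem' := fun {a b} ha hb => (Filter.Eventually.and ha hb).mono fun n h =>
    ⟨add_mem h.1.1 h.2.1, by rw [Pi.add_apply, map_add, h.1.2, h.2.2]; rfl⟩
  smul_mem' := fun c a ha => Filter.Eventually.mono ha fun n h =>
    ⟨Submodule.smul_mem _ c h.1, by rw [Pi.smul_apply, map_smul, h.2]; rfl⟩

/-- A diagonal operator. -/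
def pd8a_op (u : ∀ n, (X n).V →ₗ[K2] (X n).V) : (∀ n, (X n).V) →ₗ[K2] (∀ n, (X n).V) :=
  LinearMap.pi fun n => (u n).comp (LinearMap.proj n)

theorem pd8a_op_mem {i j : I} {Q R : ∀ n, Submodule K2 (X n).V}
    {u : ∀ n, (X n).V →ₗ[K2] (X n).V} (h1 : ∀ n x, x ∈ Q n → u n x ∈ R n)
    (h2 : ∀ n x, (f n).f j (u n x) = u (n + 1) ((f n).f i x)) {z : ∀ n, (X n).V}
    (hz : z ∈ pd8a_ev X f i Q) : pd8a_op X u z ∈ pd8a_ev X f j R :=
  Filter.Eventually.mono hz fun n h => ⟨h1 n _ h.1, (h2 n _).trans (congrArg (u (n + 1)) h.2)⟩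

theorem pd8a_mem_zero (i : I) (Q : ∀ n, Submodule K2 (X n).V) {z : ∀ n, (X n).V} (n₀ : ℕ)
    (h : ∀ n, n₀ ≤ n → z n = 0) : z ∈ pd8a_ev X f i Q :=
  Filter.eventually_atTop.2 ⟨n₀, fun n hn => by
    rw [h n hn, h (n + 1) (by omega)]
    exact ⟨zero_mem _, map_zero _⟩⟩

/-- The colimit. -/
def pd8a_L : Obj G where
  V := ∀ n, (X n).V
  d := fun i => pd8a_op X fun n => (X n).d i
  a := fun i j k => pd8a_op X fun n => (X n).a i j k
  t := fun i => pd8a_op X fun n => (X n).t i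
  P := fun i m => pd8a_ev X f i fun n => (X n).P i m
  N := fun i m => pd8a_ev X f i fun n => (X n).N i m
  NP := fun i m z hz => Filter.Eventually.mono hz fun n h => ⟨(X n).NP _ _ h.1, h.2⟩
  a0 := fun i j k h => LinearMap.ext fun z => funext fun n => by
    show (X n).a i j k (z n) = 0
    rw [(X n).a0 i j k h]; rfl
  dd := fun i z => funext fun n => (X n).dd i (z n)
  da := fun i j k z => funext fun n => (X n).da i j k (z n)
  dt := fun i z => funext fun n => by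
    rw [Finset.sum_apply]
    exact (X n).dt i (z n)
  dP := fun i m z hz => pd8a_op_mem X f (fun n => (X n).dP i m) (fun n => (f n).d i) hz
  dN := fun i m z hz => pd8a_op_mem X f (fun n => (X n).dN i m) (fun n => (f n).d i) hz
  aP := fun i j k m z hz => pd8a_op_mem X f (fun n => (X n).aP i j k m) (fun n => (f n).a i j k) hz
  aN := fun i j k m z hz => pd8a_op_mem X f (fun n => (X n).aN i j k m) (fun n => (f n).a i j k) hz
  tP := fun i m z hz => pd8a_op_mem X f (fun n => (X n).tP i m) (fun n => (f n).t i) hz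
  tN := fun i m z hz => pd8a_op_mem X f (fun n => (X n).tN i m) (fun n => (f n).t i) hz

/-- The structure maps. -/
def pd8a_i (n : ℕ) : Hom (X n) (pd8a_L X f) where
  f := fun i => LinearMap.pi fun k => (pd8a_tr X f n k).f i
  d := fun i x => funext fun k => (pd8a_tr X f n k).d i x
  a := fun i j l x => funext fun k => (pd8a_tr X f n k).a i j l x
  t := fun i x => funext fun k => (pd8a_tr X f n k).t i x
  P := fun i m x hx => Filter.eventually_atTop.2 ⟨n, fun k hk =>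
    ⟨(pd8a_tr X f n k).P i m x hx, by
      show _ = (pd8a_tr X f n (k + 1)).f i x
      rw [pd8a_tr_succ X f hk]; rfl⟩⟩
  N := fun i m x hx => Filter.eventually_atTop.2 ⟨n, fun k hk =>
    ⟨(pd8a_tr X f n k).N i m x hx, by
      show _ = (pd8a_tr X f n (k + 1)).f i x
      rw [pd8a_tr_succ X f hk]; rfl⟩⟩

end Constr

theorem exists_colim (X : ℕ → Obj G) (f : ∀ n, Hom (X n) (X (n + 1))) :
    ∃ (L : Obj G) (ι : ∀ n, Hom (X n) L), IsColim X f L ι := by
  refine ⟨pd8a_L X f, pd8a_i X f, fun n i m x _ => ?_, fun i m z hz => ?_, fun n i m y _ h => ?_⟩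
  · refine pd8a_mem_zero X f i _ (n + 1) fun k hk => ?_
    show (pd8a_tr X f (n + 1) k).f i ((f n).f i x) + (pd8a_tr X f n k).f i x = 0
    induction k, hk using Nat.le_induction with
    | base =>
      rw [pd8a_tr_self, pd8a_tr_succ X f (le_refl n), pd8a_tr_self]
      exact add_self2 _
    | succ k hk ih =>
      rw [pd8a_tr_succ X f hk, pd8a_tr_succ X f (show n ≤ k by omega), Hom.comp_f, Hom.comp_f,
        ← map_add, ih, map_zero]
  · obtain ⟨n₀, h⟩ := Filter.eventually_atTop.1 hz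
    refine ⟨n₀, fun n hn => ⟨z n, (h n hn).1, pd8a_mem_zero X f i _ n fun k hk => ?_⟩⟩
    show (pd8a_tr X f n k).f i (z n) + z k = 0
    induction k, hk using Nat.le_induction with
    | base =>
      rw [pd8a_tr_self]
      exact add_self2 _
    | succ k hk ih =>
      rw [pd8a_tr_succ X f hk, Hom.comp_f, ← (h k (hn.trans hk)).2, ← map_add, ih, map_zero]
  · obtain ⟨k₀, h⟩ := Filter.eventually_atTop.1 h
    refine ⟨k₀, fun k hk => ?_⟩
    rw [← pd8a_tr_fk]
    exact (h (n + k + 1) (by omega)).1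

variable {X : ℕ → Obj G} {f : ∀ n, Hom (X n) (X (n + 1))} {L : Obj G} {ι : ∀ n, Hom (X n) L}

theorem IsColim.pd8a_fk (h : IsColim X f L ι) (n : ℕ) (i : I) (m : ℤ) {y : (X n).V}
    (hy : y ∈ (X n).P i m) (k : ℕ) :
    (ι (n + k + 1)).f i ((fk X f n k).f i y) + (ι n).f i y ∈ L.N i m := by
  induction k with
  | zero => exact h.compat n i m y hy
  | succ k ih =>
    have h1 := add_mem (h.compat (n + k + 1) i m _ ((fk X f n k).P i m y hy)) ih
    rw [add_assoc, add_add_cancel2] at h1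
    exact h1

theorem IsColim.pd8a_lift (h : IsColim X f L ι) {i : I} {m : ℤ} {z : L.V} (hz : z ∈ L.Z i m) :
    ∃ n₀, ∀ n, n₀ ≤ n → ∃ y ∈ (X n).Z i m, (ι n).f i y + z ∈ L.N i m := by
  obtain ⟨n, h1⟩ := h.surj i m z hz.1
  obtain ⟨y, hy, h2⟩ := h1 n le_rfl
  have h3 : (ι n).f i ((X n).d i y) ∈ L.N i (m + 1) := by
    have h4 := add_mem (L.dN _ _ _ h2) ((L.mem_Z).1 hz).2
    rwa [map_add, add_assoc, add_self2, add_zero, ← (ι n).d] at h4
  obtain ⟨k₀, h4⟩ := h.inj n i (m + 1) _ ((X n).dP _ _ _ hy) h3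
  refine ⟨n + k₀ + 1, fun n' hn => ?_⟩
  obtain ⟨k, rfl⟩ : ∃ k, n' = n + k + 1 := ⟨n' - n - 1, by omega⟩
  refine ⟨(fk X f n k).f i y, (Obj.mem_Z _).2 ⟨(fk X f n k).P _ _ _ hy, ?_⟩, ?_⟩
  · rw [← (fk X f n k).d]
    exact h4 k (by omega)
  · have h5 := add_mem (h.pd8a_fk n i m hy k) h2
    rwa [add_assoc, add_add_cancel2] at h5

theorem pd8a_fk_inj {i : I} {m : ℤ} (hn : ∀ n, (f n).Inj i m) (n k : ℕ) :
    (fk X f n k).Inj i m := by
  induction k with
  | zero => exact hn n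
  | succ k ih => exact ih.comp (hn _)

theorem pd8a_fk_surj {i : I} {m : ℤ} (hn : ∀ n, (f n).Surj i m) (n k : ℕ) :
    (fk X f n k).Surj i m := by
  induction k with
  | zero => exact hn n
  | succ k ih => exact ih.comp (hn _)

theorem IsColim.acyc (h : IsColim X f L ι) {i : I} {m : ℤ}
    (hn : ∀ N, ∃ n, N ≤ n ∧ (f n).Null i m) : L.Acyc i m := by
  intro z hz
  obtain ⟨n₀, h1⟩ := h.pd8a_lift hz
  obtain ⟨n, hn1, hn2⟩ := hn n₀
  obtain ⟨y, hy, h2⟩ := h1 n hn1
  have h3 := add_mem ((ι (n + 1)).mem_Bd (hn2 y hy))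
    (L.N_le_Bd i m (add_mem (h.compat n i m y hy.1) h2))
  rwa [add_assoc, add_add_cancel2, add_add_cancel2] at h3

theorem IsColim.inj0 (h : IsColim X f L ι) {i : I} {m : ℤ} (hn : ∀ n, (f n).Inj i m) :
    (ι 0).Inj i m := by
  intro x hx hb
  obtain ⟨w, hw, h1⟩ := L.mem_Bd.1 hb
  obtain ⟨k, h2⟩ := h.surj i (m - 1) w hw
  obtain ⟨y, hy, h3⟩ := h2 (0 + k + 1) (by omega)
  have h4 : L.d i ((ι (0 + k + 1)).f i y + w) ∈ L.N i m := by
    simpa using L.dN _ _ _ h3
  have h5 := add_mem (add_mem h4 h1) (h.pd8a_fk 0 i m hx.1 k)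
  rw [map_add, add_assoc (L.d i _), add_add_cancel2, add_assoc, add_comm _ ((ι 0).f i x),
    add_add_cancel2, ← (ι _).d, ← map_add] at h5
  obtain ⟨k', h6⟩ := h.inj _ i m _
    (add_mem ((X _).d_mem_P hy) ((fk X f 0 k).P _ _ _ hx.1)) h5
  have h7 := h6 k' le_rfl
  rw [map_add, (fk X f _ k').d] at h7
  exact pd8a_fk_inj hn 0 k x hx (pd8a_fk_inj hn _ k' _ ((fk X f 0 k).mem_Z hx)
    ((Obj.mem_Bd _).2 ⟨_, (fk X f _ k').P _ _ _ hy, h7⟩))

theorem IsColim.surj0 (h : IsColim X f L ι) {i : I} {m : ℤ} (hn : ∀ n, (f n).Surj i m) :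
    (ι 0).Surj i m := by
  intro z hz
  obtain ⟨k, h1⟩ := h.pd8a_lift hz
  obtain ⟨y, hy, h2⟩ := h1 (0 + k + 1) (by omega)
  obtain ⟨x, hx, h3⟩ := pd8a_fk_surj hn 0 k y hy
  refine ⟨x, hx, ?_⟩
  have h4 := add_mem (add_mem (L.N_le_Bd i m (h.pd8a_fk 0 i m hx.1 k)) ((ι _).mem_Bd h3))
    (L.N_le_Bd i m h2)
  rwa [map_add, add_comm _ ((ι 0).f i x), add_assoc ((ι 0).f i x), add_add_cancel2, add_assoc,
    add_add_cancel2] at h4

end Crest.Agent.R175
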