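import Crest.Agent.R175.PD2b
import Crest.Agent.R175.PD3b
import Crest.Agent.R175.PD4a
import Crest.Agent.R175.PD4b
import Crest.Agent.R175.PD4c
import Crest.Agent.R175.PD6
import Crest.Agent.R175.PD7a

/-! The twists act on quasi-isomorphism classes. -/

set_option autoImplicit false
set_option linter.unusedSectionVars false

open scoped Classical

noncomputable section

namespace Crest.Agent.R175

variable {I : Type} [Fintype I] [DecidableEq I] {G : Gph I}

/-- The twist on classes. -/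
def Cls.T (s : I) : Cls G → Cls G :=
  Quot.map (fun X => X.T s) fun _ _ ⟨φ, h⟩ => ⟨φ.mapT s, h.mapT s⟩

/-- The inverse twist on classes. -/
def Cls.U (s : I) : Cls G → Cls G :=
  Quot.map (fun X => X.U s) fun _ _ ⟨φ, h⟩ => ⟨φ.mapU s, h.mapU s⟩

theorem Cls.T_cls (s : I) (X : Obj G) : Cls.T s (cls X) = cls (X.T s) := rfl
theorem Cls.U_cls (s : I) (X : Obj G) : Cls.U s (cls X) = cls (X.U s) := rfl

theorem cls_T_U (X : Obj G) (s : I) : cls ((X.T s).U s) = cls X :=
  let ⟨φ, h⟩ := exists_nu X s; (cls_eq φ h).symm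

theorem cls_U_T (X : Obj G) (s : I) : cls ((X.U s).T s) = cls X :=
  let ⟨φ, h⟩ := exists_mu X s; cls_eq φ h

/-- The twist as a permutation of the classes. -/
def permT (s : I) : Equiv.Perm (Cls G) where
  toFun := Cls.T s
  invFun := Cls.U s
  left_inv := fun ω => Quot.inductionOn ω fun X => cls_T_U X s
  right_inv := fun ω => Quot.inductionOn ω fun X => cls_U_T X s

theorem cls_out (ω : Cls G) : cls (Quot.out ω) = ω := Quot.out_eq ω

variable {X Y : Obj G}

theorem PD9_inv {α : Type} (F : Obj G → α) (hF : ∀ (X Y : Obj G) (φ : Hom X Y), φ.QIso → F X = F Y)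
    (h : cls X = cls Y) : F X = F Y :=
  congrArg (Quot.lift F fun X Y ⟨φ, h⟩ => hF X Y φ h) h

theorem cls_hd (h : cls X = cls Y) (i : I) (n : ℤ) : X.hd i n = Y.hd i n :=
  PD9_inv (fun X => X.hd i n) (fun _ _ _ h => (Hom.hd_eq_of_bij (h i n).1 (h i n).2).2) h

theorem cls_acyc (h : cls X = cls Y) (i : I) (n : ℤ) : X.Acyc i n ↔ Y.Acyc i n :=
  (PD9_inv (fun X => X.Acyc i n) (fun _ _ _ h => propext ⟨(h i n).2.acyc, (h i n).1.acyc⟩) h).to_iff

theorem cls_fin (h : cls X = cls Y) : X.Fin ↔ Y.Fin :=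
  (PD9_inv (fun X => X.Fin) (fun _ _ _ h => propext (forall₂_congr fun i n =>
    (Hom.hd_eq_of_bij (h i n).1 (h i n).2).1)) h).to_iff

theorem cls_nil (h : cls X = cls Y) (n : ℤ) : X.NilAt n ↔ Y.NilAt n :=
  (PD9_inv (fun X => X.NilAt n) (fun _ _ φ h => propext
    ⟨fun a => a.of_surj φ fun i => (h i n).2, fun a => a.of_inj φ fun i => (h i n).1⟩) h).to_iff

theorem PD9_tw_iff (x : I × Bool) : cls (X.tw x) = cls (Y.tw x) ↔ cls X = cls Y := by
  obtain ⟨i, _ | _⟩ := x
  · exact (permT i).symm.apply_eq_iff_eq (x := cls X) (y := cls Y)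
  · exact (permT i).apply_eq_iff_eq (x := cls X) (y := cls Y)

theorem cls_Gw_iff (l : List (I × Bool)) : cls (Obj.Gw l X) = cls (Obj.Gw l Y) ↔ cls X = cls Y := by
  induction l generalizing X Y with
  | nil => rfl
  | cons x l ih => rw [Obj.Gw_cons, Obj.Gw_cons, ih, PD9_tw_iff]

theorem cls_Tw_Uw (l : List I) (X : Obj G) : cls (Obj.Tw l (Obj.Uw l.reverse X)) = cls X := by
  induction l with
  | nil => rfl
  | cons i l ih =>
    rw [List.reverse_cons, Obj.Uw_append, Obj.Tw_cons]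
    exact ((cls_Gw_iff _).2 (cls_U_T _ i)).trans ih

theorem cls_Uw_Tw (l : List I) (X : Obj G) : cls (Obj.Uw l.reverse (Obj.Tw l X)) = cls X := by
  induction l generalizing X with
  | nil => rfl
  | cons i l ih =>
    rw [List.reverse_cons, Obj.Uw_append, Obj.Tw_cons]
    exact (congrArg (Cls.U i) (ih (X.T i))).trans (cls_T_U X i)

theorem PD9_TT {i j : I} (h : ∀ k, ¬ G.adj i j k) (X : Obj G) :
    cls ((X.T j).T i) = cls ((X.T i).T j) := by
  by_cases e : i = j
  · rw [e]
  · obtain ⟨φ, hφ⟩ := exists_comm X e h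
    exact cls_eq φ hφ

theorem PD9_comm {i j : I} (h : ∀ k, ¬ G.adj i j k) :
    (permT i : Equiv.Perm (Cls G)) * permT j = permT j * permT i :=
  Equiv.ext fun ω => Quot.inductionOn ω fun X => PD9_TT h X

theorem PD9_UU {i j : I} (h : ∀ k, ¬ G.adj i j k) (X : Obj G) :
    cls ((X.U j).U i) = cls ((X.U i).U j) := by
  have h1 : Commute (permT i : Equiv.Perm (Cls G)) (permT j) := PD9_comm h
  exact congrArg (fun σ : Equiv.Perm (Cls G) => σ (cls X)) h1.inv_inv.eq

theorem cls_Tw_perm {l l' : List I} (h : l.Perm l') (hl : ∀ i ∈ l, ∀ j ∈ l, ∀ k, ¬ G.adj i j k)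
    (X : Obj G) : cls (Obj.Tw l X) = cls (Obj.Tw l' X) := by
  induction h generalizing X with
  | nil => rfl
  | cons i _ ih =>
    exact ih (fun a ha b hb => hl a (List.mem_cons_of_mem _ ha) b (List.mem_cons_of_mem _ hb)) (X.T i)
  | swap i j l => exact (cls_Gw_iff _).2 (PD9_TT (hl i (by simp) j (by simp)) X)
  | trans h1 _ ih1 ih2 =>
    exact (ih1 hl X).trans (ih2 (fun a ha b hb => hl a (h1.mem_iff.2 ha) b (h1.mem_iff.2 hb)) X)

theorem cls_Uw_perm {l l' : List I} (h : l.Perm l') (hl : ∀ i ∈ l, ∀ j ∈ l, ∀ k, ¬ G.adj i j k)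
    (X : Obj G) : cls (Obj.Uw l X) = cls (Obj.Uw l' X) := by
  induction h generalizing X with
  | nil => rfl
  | cons i _ ih =>
    exact ih (fun a ha b hb => hl a (List.mem_cons_of_mem _ ha) b (List.mem_cons_of_mem _ hb)) (X.U i)
  | swap i j l => exact (cls_Gw_iff _).2 (PD9_UU (hl i (by simp) j (by simp)) X)
  | trans h1 _ ih1 ih2 =>
    exact (ih1 hl X).trans (ih2 (fun a ha b hb => hl a (h1.mem_iff.2 ha) b (h1.mem_iff.2 hb)) X)

theorem permT_comm {i j : I} (h : ∀ k, ¬ G.adj i j k) :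
    (permT i : Equiv.Perm (Cls G)) * permT j = permT j * permT i :=
  PD9_comm h

theorem permT_braid {i j : I} {k : Bool} (h : G.adj i j k) (h' : ¬ G.adj i j (!k)) :
    (permT i : Equiv.Perm (Cls G)) * permT j * permT i = permT j * permT i * permT j :=
  Equiv.ext fun ω => Quot.inductionOn ω fun X => cls_braid X h h'

theorem prod_permT (l : List I) (X : Obj G) :
    ((l.map fun i => MulOpposite.op (permT i : Equiv.Perm (Cls G))).prod).unop (cls X) =
      cls (Obj.Tw l X) := by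
  induction l generalizing X with
  | nil => rfl
  | cons i l ih =>
    rw [List.map_cons, List.prod_cons, MulOpposite.unop_mul, Equiv.Perm.mul_apply]
    exact ih (X.T i)

/-- A retract of an object of the orbit of the simple object. -/
theorem cls_retract {o : I} (l : List (I × Bool)) (hl : ∀ x ∈ l, x.1 ≠ o)
    (hX : ∀ i, i ≠ o → ∀ n, (Obj.Gw l X).Acyc i n) {A : Obj G} (φ : Hom A X) (ψ : Hom X Y)
    (h : (φ.comp ψ).QIso) (ho : ∀ n, ψ.Inj o n ∧ ψ.Surj o n) : cls X = cls Y := by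
  refine (cls_Gw_iff l).1 (cls_eq (Hom.mapGw l ψ) fun i n => ⟨?_, ?_⟩)
  · by_cases e : i = o
    · subst e
      exact (Hom.mapGw_ne l ψ hl n).1.2 (ho n).1
    · exact Hom.inj_of_acyc _ (hX i e n)
  · have h1 := (h.mapGw l i n).2
    rw [Hom.mapGw_comp] at h1
    exact h1.of_comp

end Crest.Agent.R175
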