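import Crest.Agent.R175.PD1

/-! The symmetric reduced model of `T i T j T i X` for a single edge `i - j`. -/

set_option autoImplicit false
set_option linter.unusedSectionVars false

open scoped Classical

noncomputable section

namespace Crest.Agent.R175

variable {I : Type} [Fintype I] [DecidableEq I] {G : Gph I}

namespace Obj

variable (X : Obj G)

/-- Erase the slots of the vertex `j`. -/
def msk (j : I) : X.F →ₗ[K2] X.F :=
  LinearMap.pi fun e => if e.1 = j then 0 else LinearMap.proj e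

theorem msk_apply (j : I) (b : X.F) (e : I × Bool) :
    X.msk j b e = if e.1 = j then 0 else b e := by
  simp only [msk, LinearMap.pi_apply]
  split_ifs <;> rfl

theorem msk_msk (j : I) (b : X.F) : X.msk j (X.msk j b) = X.msk j b := by
  ext e; simp only [msk_apply]; split_ifs <;> rfl

theorem dF_msk (j : I) (b : X.F) : X.dF (X.msk j b) = X.msk j (X.dF b) := by
  ext e; simp only [msk_apply, dF_apply]; split_ifs <;> simp

theorem msk_single_ne {j l : I} (h : l ≠ j) (k : Bool) (x : X.V) :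
    X.msk j (Pi.single (l, k) x) = Pi.single (l, k) x := by
  ext e
  rw [msk_apply]
  split_ifs with he
  · rw [Pi.single_eq_of_ne (by rintro rfl; exact h he)]
  · rfl

theorem msk_single_self (j : I) (k : Bool) (x : X.V) : X.msk j (Pi.single (j, k) x) = 0 := by
  ext e
  rw [msk_apply]
  split_ifs with he
  · rfl
  · rw [Pi.single_eq_of_ne (by rintro rfl; exact he rfl)]; rfl

/-- A single edge. -/
structure Edge (G : Gph I) (i j : I) (k : Bool) : Prop where
  adj : G.adj i j k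
  nadj : ¬ G.adj i j (!k)

theorem Edge.symm {i j : I} {k : Bool} (h : Edge G i j k) : Edge G j i k :=
  ⟨G.symm _ _ _ h.adj, fun h' => h.nadj (G.symm _ _ _ h')⟩

theorem Edge.ne {i j : I} {k : Bool} (h : Edge G i j k) : i ≠ j := fun e =>
  G.irr i k (by simpa [e] using h.adj)

theorem Edge.eq {i j : I} {k k' : Bool} (h : Edge G i j k) (h' : G.adj i j k') : k' = k := by
  by_contra hk
  exact h.nadj (by rwa [show (!k) = k' by cases k <;> cases k' <;> simp_all])

theorem out_eq {i j : I} {k : Bool} (h : Edge G i j k) (v : X.V) :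
    X.out i v = Pi.single (j, k) (X.a i j k v) + X.msk j (X.out i v) := by
  ext ⟨l, k'⟩
  rw [Pi.add_apply, msk_apply]
  by_cases hl : l = j
  · subst hl
    by_cases hk : k' = k
    · simp [hk]
    · simp [hk, X.a0 _ _ _ fun h' => hk (h.eq h')]
  · simp [hl]

theorem inn_eq {i j : I} {k : Bool} (h : Edge G i j k) (b : X.F) :
    X.inn i b = X.a j i k (b (j, k)) + X.inn i (X.msk j b) := by
  rw [← X.inn_single i (j, k), ← map_add, inn_apply, inn_apply]
  refine Finset.sum_congr rfl ?_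
  rintro ⟨l, k'⟩ _
  rw [Pi.add_apply, msk_apply]
  by_cases hl : l = j
  · subst hl
    by_cases hk : k' = k
    · simp [hk]
    · simp [X.a0 _ _ _ fun h' => hk (h.symm.eq h')]
  · simp [hl]

/-- Arrows out of `i`, except those to `j`. -/
def oo (i j : I) : X.V →ₗ[K2] X.F := (X.msk j).comp (X.out i)

/-- `(v, b) ↦ in' b + t v`, where `in'` omits the arrows from `j`. -/
def pp (i j : I) : X.V × X.F →ₗ[K2] X.V :=
  (X.inn i).comp ((X.msk j).comp (LinearMap.snd K2 _ _)) + (X.t i).comp (LinearMap.fst K2 _ _)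

theorem oo_apply (i j : I) (v : X.V) : X.oo i j v = X.msk j (X.out i v) := rfl

theorem pp_apply (i j : I) (v : X.V) (b : X.F) :
    X.pp i j (v, b) = X.inn i (X.msk j b) + X.t i v := rfl

theorem dF_oo (i j : I) (v : X.V) : X.dF (X.oo i j v) = X.oo i j (X.d i v) := by
  rw [oo_apply, dF_msk, dF_out, oo_apply]

theorem msk_oo (i j : I) (v : X.V) : X.msk j (X.oo i j v) = X.oo i j v := X.msk_msk j _

theorem d_pp {i j : I} {k : Bool} (h : Edge G i j k) (v : X.V) (b : X.F) :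
    X.d i (X.pp i j (v, b)) =
      X.pp i j (X.d i v, X.dF b + X.oo i j v) + X.a j i k (X.a i j k v) := by
  have h1 := X.inn_eq h (X.out i v)
  rw [inn_out, out_apply] at h1
  simp only [pp_apply, map_add, d_inn, dF_msk, msk_oo]
  rw [oo_apply, ← add_add_cancel2 (X.a j i k _) (X.inn i (X.msk j (X.out i v))), ← h1]
  have := add_self2 (X.t i (X.d i v))
  have := add_self2 (X.a j i k (X.a i j k v))
  grind

/-- Ambient space of the model. -/
abbrev BV := X.V × X.V × X.F × X.F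

/-- The class in `X` at `i` which determines the arrows from `i` to the outside. -/
def om (i j : I) (k : Bool) : X.V × X.F × X.F →ₗ[K2] X.V :=
  (X.a j i k).comp ((X.pp j i).comp (LinearMap.prod (LinearMap.fst K2 _ _)
    ((LinearMap.snd K2 _ _).comp (LinearMap.snd K2 _ _)))) +
  (X.pp i j).comp (LinearMap.prod ((X.a j i k).comp (LinearMap.fst K2 _ _))
    ((LinearMap.fst K2 _ _).comp (LinearMap.snd K2 _ _)))

theorem om_apply (i j : I) (k : Bool) (v : X.V) (b c : X.F) :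
    X.om i j k (v, b, c) = X.a j i k (X.pp j i (v, c)) + X.pp i j (X.a j i k v, b) := rfl

theorem d_om {i j : I} {k : Bool} (h : Edge G i j k) (v : X.V) (b c : X.F) :
    X.d i (X.om i j k (v, b, c)) =
      X.om i j k (X.d j v, X.dF b + X.oo i j (X.a j i k v), X.dF c + X.oo j i v) := by
  rw [om_apply, om_apply, map_add, X.da, X.d_pp h, X.d_pp h.symm, map_add, X.da]
  have := add_self2 (X.a j i k (X.a i j k (X.a j i k v)))
  grind

/-- Exchange of the two families of slots. -/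
def sw : X.BV →ₗ[K2] X.BV :=
  LinearMap.prodMap LinearMap.id (LinearMap.prodMap LinearMap.id
    (LinearEquiv.prodComm K2 X.F X.F).toLinearMap)

@[simp] theorem sw_apply (z : X.BV) : X.sw z = (z.1, z.2.1, z.2.2.2, z.2.2.1) := rfl

/-- Differential at `i`. -/
def Md0 (i j : I) (k : Bool) : X.BV →ₗ[K2] X.BV where
  toFun z := (0, X.d j z.2.1, X.dF z.2.2.1 + X.oo i j (X.a j i k z.2.1), X.dF z.2.2.2 + X.oo j i z.2.1)
  map_add' z z' := by simp [add_add_add_comm]
  map_smul' r z := by simp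

/-- Loop at `i`. -/
def Bt0 (i j : I) : X.BV →ₗ[K2] X.BV where
  toFun z := (0, X.pp j i (z.2.1, z.2.2.2), 0, 0)
  map_add' z z' := by simp [← map_add]
  map_smul' r z := by simp [← map_smul]

/-- Arrow from `i` to `j`. -/
def Bx0 (i j : I) (k : Bool) : X.BV →ₗ[K2] X.BV where
  toFun z := (0, X.a j i k z.2.1, z.2.2.1, X.oo j i (X.pp j i (z.2.1, z.2.2.2)))
  map_add' z z' := by simp [pp_apply, add_add_add_comm]
  map_smul' r z := by simp [pp_apply]

/-- Arrow from `i` to the outside. -/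
def Bo0 (i j : I) (k : Bool) (q : I) (k' : Bool) : X.BV →ₗ[K2] X.BV where
  toFun z := (X.a i q k' (X.om i j k z.2), 0, 0, 0)
  map_add' z z' := by simp
  map_smul' r z := by simp

/-- Arrow from the outside to `i`. -/
def Bn0 (p : I) (k' : Bool) : X.BV →ₗ[K2] X.BV where
  toFun z := (0, 0, Pi.single (p, k') z.1, 0)
  map_add' z z' := by simp [Pi.single_add]
  map_smul' r z := by simp [Pi.single_smul]

/-- Operator on the old part. -/
def Bold (f : X.V →ₗ[K2] X.V) : X.BV →ₗ[K2] X.BV where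
  toFun z := (f z.1, 0, 0, 0)
  map_add' z z' := by simp
  map_smul' r z := by simp

/-- Conjugation by the exchange. -/
def cj (f : X.BV →ₗ[K2] X.BV) : X.BV →ₗ[K2] X.BV := X.sw.comp (f.comp X.sw)

def Md (i j : I) (k : Bool) (p : I) : X.BV →ₗ[K2] X.BV :=
  if p = i then X.Md0 i j k else if p = j then X.cj (X.Md0 j i k) else X.Bold (X.d p)

def Bt (i j : I) (p : I) : X.BV →ₗ[K2] X.BV :=
  if p = i then X.Bt0 i j else if p = j then X.cj (X.Bt0 j i) else X.Bold (X.t p)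

def Ba (i j : I) (k : Bool) (p q : I) (k' : Bool) : X.BV →ₗ[K2] X.BV :=
  if G.adj p q k' then
    if p = i then (if q = j then X.Bx0 i j k else X.Bo0 i j k q k')
    else if p = j then (if q = i then X.cj (X.Bx0 j i k) else X.cj (X.Bo0 j i k q k'))
    else if q = i then X.Bn0 p k' else if q = j then X.cj (X.Bn0 p k') else X.Bold (X.a p q k')
  else 0

/-- Slots of the neighbours of `i` other than `j`. -/
def slots' (i j : I) (Q : I → Submodule K2 X.V) : Submodule K2 X.F :=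
  X.slots i fun l => if l = j then ⊥ else Q l

def Bp (i j : I) (Q : I → ℤ → Submodule K2 X.V) (p : I) (n : ℤ) : Submodule K2 X.BV :=
  if p = i then (⊥ : Submodule K2 X.V).prod ((Q j (n + 1)).prod
    ((X.slots' i j fun l => Q l n).prod (X.slots' j i fun l => Q l n)))
  else if p = j then (⊥ : Submodule K2 X.V).prod ((Q i (n + 1)).prod
    ((X.slots' i j fun l => Q l n).prod (X.slots' j i fun l => Q l n)))
  else (Q p n).prod ⊥

section Eqs

variable {i j : I} {k : Bool}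

theorem Md_i (z : X.BV) : X.Md i j k i z =
    (0, X.d j z.2.1, X.dF z.2.2.1 + X.oo i j (X.a j i k z.2.1), X.dF z.2.2.2 + X.oo j i z.2.1) := by
  rw [Md, if_pos rfl]; rfl
theorem Md_j (h : i ≠ j) (z : X.BV) : X.Md i j k j z =
    (0, X.d i z.2.1, X.dF z.2.2.1 + X.oo i j z.2.1, X.dF z.2.2.2 + X.oo j i (X.a i j k z.2.1)) := by
  rw [Md, if_neg h.symm, if_pos rfl]; rfl
theorem Md_o {p : I} (hi : p ≠ i) (hj : p ≠ j) (z : X.BV) :
    X.Md i j k p z = (X.d p z.1, 0, 0, 0) := by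
  rw [Md, if_neg hi, if_neg hj]; rfl
theorem Bt_i (z : X.BV) : X.Bt i j i z = (0, X.pp j i (z.2.1, z.2.2.2), 0, 0) := by
  rw [Bt, if_pos rfl]; rfl
theorem Bt_j (h : i ≠ j) (z : X.BV) : X.Bt i j j z = (0, X.pp i j (z.2.1, z.2.2.1), 0, 0) := by
  rw [Bt, if_neg h.symm, if_pos rfl]; rfl
theorem Bt_o {p : I} (hi : p ≠ i) (hj : p ≠ j) (z : X.BV) :
    X.Bt i j p z = (X.t p z.1, 0, 0, 0) := by
  rw [Bt, if_neg hi, if_neg hj]; rfl
theorem Ba_zero {p q : I} {k' : Bool} (h : ¬ G.adj p q k') : X.Ba i j k p q k' = 0 := by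
  rw [Ba, if_neg h]
theorem Ba_ij (h : Edge G i j k) (z : X.BV) : X.Ba i j k i j k z =
    (0, X.a j i k z.2.1, z.2.2.1, X.oo j i (X.pp j i (z.2.1, z.2.2.2))) := by
  rw [Ba, if_pos h.adj, if_pos rfl, if_pos rfl]; rfl
theorem Ba_ji (h : Edge G i j k) (z : X.BV) : X.Ba i j k j i k z =
    (0, X.a i j k z.2.1, X.oo i j (X.pp i j (z.2.1, z.2.2.1)), z.2.2.2) := by
  rw [Ba, if_pos h.symm.adj, if_neg h.ne.symm, if_pos rfl, if_pos rfl]; rfl
theorem Ba_io {q : I} (hj : q ≠ j) (k' : Bool) (z : X.BV) : X.Ba i j k i q k' z =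
    (X.a i q k' (X.om i j k z.2), 0, 0, 0) := by
  by_cases h : G.adj i q k'
  · rw [Ba, if_pos h, if_pos rfl, if_neg hj]; rfl
  · simp [X.Ba_zero h, X.a0 _ _ _ h]; rfl
theorem Ba_jo (hij : i ≠ j) {q : I} (hi : q ≠ i) (k' : Bool) (z : X.BV) : X.Ba i j k j q k' z =
    (X.a j q k' (X.om j i k (z.2.1, z.2.2.2, z.2.2.1)), 0, 0, 0) := by
  by_cases h : G.adj j q k'
  · rw [Ba, if_pos h, if_neg hij.symm, if_pos rfl, if_neg hi]; rfl
  · simp [X.Ba_zero h, X.a0 _ _ _ h]; rfl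
theorem Ba_oi {p : I} (hj : p ≠ j) {k' : Bool} (h : G.adj p i k') (z : X.BV) :
    X.Ba i j k p i k' z = (0, 0, Pi.single (p, k') z.1, 0) := by
  have hi : p ≠ i := fun e => G.irr i k' (e ▸ h)
  rw [Ba, if_pos h, if_neg hi, if_neg hj, if_pos rfl]; rfl
theorem Ba_oj (hij : i ≠ j) {p : I} (hi : p ≠ i) {k' : Bool} (h : G.adj p j k') (z : X.BV) :
    X.Ba i j k p j k' z = (0, 0, 0, Pi.single (p, k') z.1) := by
  have hj : p ≠ j := fun e => G.irr j k' (e ▸ h)
  rw [Ba, if_pos h, if_neg hi, if_neg hj, if_neg hij.symm, if_pos rfl]; rfl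
theorem Ba_oo {p q : I} (hi : p ≠ i) (hj : p ≠ j) (hi' : q ≠ i) (hj' : q ≠ j) (k' : Bool)
    (z : X.BV) : X.Ba i j k p q k' z = (X.a p q k' z.1, 0, 0, 0) := by
  by_cases h : G.adj p q k'
  · rw [Ba, if_pos h, if_neg hi, if_neg hj, if_neg hi', if_neg hj']; rfl
  · simp [X.Ba_zero h, X.a0 _ _ _ h]; rfl

theorem mem_Bp_i {Q : I → ℤ → Submodule K2 X.V} {n : ℤ} {z : X.BV} : z ∈ X.Bp i j Q i n ↔
    z.1 = 0 ∧ z.2.1 ∈ Q j (n + 1) ∧ z.2.2.1 ∈ X.slots' i j (fun l => Q l n) ∧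
      z.2.2.2 ∈ X.slots' j i fun l => Q l n := by
  simp [Bp, Submodule.mem_prod]
theorem mem_Bp_j (h : i ≠ j) {Q : I → ℤ → Submodule K2 X.V} {n : ℤ} {z : X.BV} :
    z ∈ X.Bp i j Q j n ↔ z.1 = 0 ∧ z.2.1 ∈ Q i (n + 1) ∧
      z.2.2.1 ∈ X.slots' i j (fun l => Q l n) ∧ z.2.2.2 ∈ X.slots' j i fun l => Q l n := by
  simp [Bp, Submodule.mem_prod, h.symm]
theorem mem_Bp_o {p : I} (hi : p ≠ i) (hj : p ≠ j) {Q : I → ℤ → Submodule K2 X.V} {n : ℤ}
    {z : X.BV} : z ∈ X.Bp i j Q p n ↔ z.1 ∈ Q p n ∧ z.2 = 0 := by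
  simp [Bp, Submodule.mem_prod, hi, hj]

end Eqs

/-- The exchange conjugates the model for `(i, j)` to the model for `(j, i)`. -/
theorem sw_Md {i j : I} (h : i ≠ j) (k : Bool) (p : I) (z : X.BV) :
    X.sw (X.Md i j k p z) = X.Md j i k p (X.sw z) := by
  by_cases hi : p = i
  · subst hi; rw [Md_i, X.Md_j h.symm]; rfl
  · by_cases hj : p = j
    · subst hj; rw [Md_i, X.Md_j h]; rfl
    · rw [X.Md_o hi hj, X.Md_o hj hi]; rfl

theorem sw_Bt {i j : I} (h : i ≠ j) (p : I) (z : X.BV) :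
    X.sw (X.Bt i j p z) = X.Bt j i p (X.sw z) := by
  by_cases hi : p = i
  · subst hi; rw [Bt_i, X.Bt_j h.symm]; rfl
  · by_cases hj : p = j
    · subst hj; rw [Bt_i, X.Bt_j h]; rfl
    · rw [X.Bt_o hi hj, X.Bt_o hj hi]; rfl

theorem sw_Ba {i j : I} (h : i ≠ j) (k : Bool) (p q : I) (k' : Bool) (z : X.BV) :
    X.sw (X.Ba i j k p q k' z) = X.Ba j i k p q k' (X.sw z) := by
  unfold Ba
  by_cases hi : p = i <;> by_cases hj : p = j <;> by_cases hi' : q = i <;> by_cases hj' : q = j <;>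
    simp only [hi, hj, hi', hj', h, h.symm, if_true, if_false] <;> (try split_ifs) <;>
    rfl

theorem sw_Bp {i j : I} (h : i ≠ j) (Q : I → ℤ → Submodule K2 X.V) (p : I) (n : ℤ) (z : X.BV)
    (hz : z ∈ X.Bp i j Q p n) : X.sw z ∈ X.Bp j i Q p n := by
  by_cases hi : p = i
  · subst hi
    rw [mem_Bp_i] at hz
    exact (X.mem_Bp_j h.symm).2 ⟨hz.1, hz.2.1, hz.2.2.2, hz.2.2.1⟩
  · by_cases hj : p = j
    · subst hj
      rw [X.mem_Bp_j h] at hz
      exact X.mem_Bp_i.2 ⟨hz.1, hz.2.1, hz.2.2.2, hz.2.2.1⟩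
    · rw [X.mem_Bp_o hi hj] at hz
      refine (X.mem_Bp_o hj hi).2 ⟨hz.1, ?_⟩
      simp [hz.2]

end Obj

end Crest.Agent.R175
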