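import Crest.Agent.R175.PDB0

/-! The symmetric reduced model is a dg representation. -/

set_option autoImplicit false
set_option linter.unusedSectionVars false

open scoped Classical

noncomputable section

namespace Crest.Agent.R175

variable {I : Type} [Fintype I] [DecidableEq I] {G : Gph I}

namespace Obj

variable (X : Obj G) {i j : I} {k : Bool}

theorem mem_slots' {Q : I → Submodule K2 X.V} {b : X.F} :
    b ∈ X.slots' i j Q ↔ b ∈ X.slots i Q ∧ X.msk j b = b := by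
  rw [slots', mem_slots, mem_slots]
  constructor
  · intro h
    refine ⟨fun e => ⟨fun he => ?_, (h e).2⟩, funext fun e => ?_⟩
    · have := (h e).1 he
      split_ifs at this with h1
      · rw [(Submodule.mem_bot _).1 this]; exact zero_mem _
      · exact this
    · rw [msk_apply]
      split_ifs with h1
      · by_cases he : G.adj i e.1 e.2
        · have := (h e).1 he
          rw [if_pos h1] at this
          exact ((Submodule.mem_bot _).1 this).symm
        · exact ((h e).2 he).symm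
      · rfl
  · rintro ⟨h1, h2⟩ e
    refine ⟨fun he => ?_, (h1 e).2⟩
    split_ifs with h3
    · rw [← h2, msk_apply, if_pos h3]; exact zero_mem _
    · exact (h1 e).1 he

theorem msk_mem {Q : I → Submodule K2 X.V} {b : X.F} (hb : b ∈ X.slots i Q) :
    X.msk j b ∈ X.slots i Q := by
  rw [mem_slots] at hb ⊢
  intro e
  rw [msk_apply]
  split_ifs
  · simp
  · exact hb e

theorem msk_mem' {Q : I → Submodule K2 X.V} {b : X.F} (hb : b ∈ X.slots i Q) :
    X.msk j b ∈ X.slots' i j Q := X.mem_slots'.2 ⟨X.msk_mem hb, X.msk_msk j b⟩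

section Cl

variable {X} {Q : I → ℤ → Submodule K2 X.V} (h : X.Cl Q)
include h

theorem Cl.oo {n : ℤ} {v : X.V} (hv : v ∈ Q i n) : X.oo i j v ∈ X.slots' i j fun l => Q l n :=
  X.msk_mem' (X.out_mem fun _ _ => h.a _ _ _ _ _ hv)

theorem Cl.inn {n : ℤ} {b : X.F} (hb : b ∈ X.slots i fun l => Q l n) : X.inn i b ∈ Q i n :=
  X.inn_mem hb fun _ _ _ hx => h.a _ _ _ _ _ hx

theorem Cl.pp {n : ℤ} {v : X.V} {b : X.F} (hv : v ∈ Q i (n + 1))
    (hb : b ∈ X.slots' i j fun l => Q l n) : X.pp i j (v, b) ∈ Q i n :=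
  add_mem (h.inn (X.msk_mem (X.mem_slots'.1 hb).1)) (h.t _ _ _ hv)

theorem Cl.om {n : ℤ} {v : X.V} {b c : X.F} (hv : v ∈ Q j (n + 1))
    (hb : b ∈ X.slots' i j fun l => Q l n) (hc : c ∈ X.slots' j i fun l => Q l n) :
    X.om i j k (v, b, c) ∈ Q i n :=
  add_mem (h.a _ _ _ _ _ (h.pp hv hc)) (h.pp (h.a _ _ _ _ _ hv) hb)

theorem Cl.dF' {n : ℤ} {b : X.F} (hb : b ∈ X.slots' i j fun l => Q l n) :
    X.dF b ∈ X.slots' i j fun l => Q l (n + 1) := by
  rw [mem_slots'] at hb ⊢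
  exact ⟨X.dF_mem hb.1 fun l x hx => h.d _ _ _ hx, by rw [← dF_msk, hb.2]⟩

theorem Cl.Md (hij : i ≠ j) (p : I) (n : ℤ) (z : X.BV) (hz : z ∈ X.Bp i j Q p n) :
    X.Md i j k p z ∈ X.Bp i j Q p (n + 1) := by
  by_cases hi : p = i
  · subst hi
    rw [mem_Bp_i] at hz ⊢
    rw [Md_i]
    exact ⟨rfl, h.d _ _ _ hz.2.1, add_mem (h.dF' hz.2.2.1) (h.oo (h.a _ _ _ _ _ hz.2.1)),
      add_mem (h.dF' hz.2.2.2) (h.oo hz.2.1)⟩
  · by_cases hj : p = j
    · subst hj
      rw [X.mem_Bp_j hij] at hz ⊢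
      rw [X.Md_j hij]
      exact ⟨rfl, h.d _ _ _ hz.2.1, add_mem (h.dF' hz.2.2.1) (h.oo hz.2.1),
        add_mem (h.dF' hz.2.2.2) (h.oo (h.a _ _ _ _ _ hz.2.1))⟩
    · rw [X.mem_Bp_o hi hj] at hz ⊢
      rw [X.Md_o hi hj]
      exact ⟨h.d _ _ _ hz.1, rfl⟩

theorem Cl.Bt (hij : i ≠ j) (p : I) (n : ℤ) (z : X.BV) (hz : z ∈ X.Bp i j Q p (n + 1)) :
    X.Bt i j p z ∈ X.Bp i j Q p n := by
  by_cases hi : p = i
  · subst hi
    rw [mem_Bp_i] at hz ⊢
    rw [Bt_i]
    exact ⟨rfl, h.pp hz.2.1 hz.2.2.2, zero_mem _, zero_mem _⟩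
  · by_cases hj : p = j
    · subst hj
      rw [X.mem_Bp_j hij] at hz ⊢
      rw [X.Bt_j hij]
      exact ⟨rfl, h.pp hz.2.1 hz.2.2.1, zero_mem _, zero_mem _⟩
    · rw [X.mem_Bp_o hi hj] at hz ⊢
      rw [X.Bt_o hi hj]
      exact ⟨h.t _ _ _ hz.1, rfl⟩

theorem Cl.Ba (E : Edge G i j k) (p q : I) (k' : Bool) (n : ℤ) (z : X.BV)
    (hz : z ∈ X.Bp i j Q p n) : X.Ba i j k p q k' z ∈ X.Bp i j Q q n := by
  have hij := E.ne
  by_cases hpq : G.adj p q k'
  swap
  · simp [X.Ba_zero hpq]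
  have hne : q ≠ p := fun e => G.irr p k' (e ▸ hpq)
  by_cases hi : p = i
  · subst hi
    rw [mem_Bp_i] at hz
    by_cases hj : q = j
    · subst hj
      rw [E.eq hpq, X.Ba_ij E, X.mem_Bp_j hij]
      exact ⟨rfl, h.a _ _ _ _ _ hz.2.1, hz.2.2.1, h.oo (h.pp hz.2.1 hz.2.2.2)⟩
    · rw [X.Ba_io hj, X.mem_Bp_o hne hj]
      exact ⟨h.a _ _ _ _ _ (h.om hz.2.1 hz.2.2.1 hz.2.2.2), rfl⟩
  · by_cases hj : p = j
    · subst hj
      rw [X.mem_Bp_j hij] at hz
      by_cases hq : q = i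
      · subst hq
        rw [E.symm.eq hpq, X.Ba_ji E, X.mem_Bp_i]
        exact ⟨rfl, h.a _ _ _ _ _ hz.2.1, h.oo (h.pp hz.2.1 hz.2.2.1), hz.2.2.2⟩
      · rw [X.Ba_jo hij hq, X.mem_Bp_o hq hne]
        exact ⟨h.a _ _ _ _ _ (h.om hz.2.1 hz.2.2.2 hz.2.2.1), rfl⟩
    · rw [X.mem_Bp_o hi hj] at hz
      by_cases hq : q = i
      · subst hq
        rw [X.Ba_oi hj hpq, mem_Bp_i]
        exact ⟨rfl, zero_mem _, X.mem_slots'.2 ⟨X.single_mem (G.symm _ _ _ hpq) hz.1,
          X.msk_single_ne hj _ _⟩, zero_mem _⟩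
      · by_cases hq' : q = j
        · subst hq'
          rw [X.Ba_oj hij hi hpq, X.mem_Bp_j hij]
          exact ⟨rfl, zero_mem _, zero_mem _, X.mem_slots'.2 ⟨X.single_mem (G.symm _ _ _ hpq) hz.1,
            X.msk_single_ne hi _ _⟩⟩
        · rw [X.Ba_oo hi hj hq hq', X.mem_Bp_o hq hq']
          exact ⟨h.a _ _ _ _ _ hz.1, rfl⟩

end Cl

theorem Bp_mono {Q R : I → ℤ → Submodule K2 X.V} (h : ∀ i n, Q i n ≤ R i n) (p : I) (n : ℤ) :
    X.Bp i j Q p n ≤ X.Bp i j R p n := by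
  have h' : ∀ i j : I, (X.slots' i j fun l => Q l n) ≤ X.slots' i j fun l => R l n :=
    fun i j b hb => X.mem_slots'.2 ⟨X.slots_mono (fun l => h l n) (X.mem_slots'.1 hb).1,
      (X.mem_slots'.1 hb).2⟩
  unfold Bp
  split_ifs
  · exact Submodule.prod_mono le_rfl (Submodule.prod_mono (h _ _)
      (Submodule.prod_mono (h' _ _) (h' _ _)))
  · exact Submodule.prod_mono le_rfl (Submodule.prod_mono (h _ _)
      (Submodule.prod_mono (h' _ _) (h' _ _)))
  · exact Submodule.prod_mono (h _ _) le_rfl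

theorem B_dd (hij : i ≠ j) (p : I) (z : X.BV) : X.Md i j k p (X.Md i j k p z) = 0 := by
  by_cases hi : p = i
  · subst hi; simp [Md_i, X.dd, dF_dF, dF_oo, X.da, add_self2]
  · by_cases hj : p = j
    · subst hj; simp [X.Md_j hij, X.dd, dF_dF, dF_oo, X.da, add_self2]
    · simp [X.Md_o hi hj, X.dd]

theorem B_da (E : Edge G i j k) (p q : I) (k' : Bool) (z : X.BV) :
    X.Md i j k q (X.Ba i j k p q k' z) = X.Ba i j k p q k' (X.Md i j k p z) := by
  have hij := E.ne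
  by_cases hpq : G.adj p q k'
  swap
  · simp [X.Ba_zero hpq]
  have hne : q ≠ p := fun e => G.irr p k' (e ▸ hpq)
  by_cases hi : p = i
  · subst hi
    by_cases hj : q = j
    · subst hj
      rw [E.eq hpq, X.Ba_ij E, X.Ba_ij E, X.Md_j hij, Md_i]
      simp only [dF_oo, X.d_pp E.symm, X.da, map_add, add_assoc, add_self2, add_zero]
    · rw [X.Ba_io hj, X.Ba_io hj, X.Md_o hne hj, Md_i, X.da]
      exact congrArg (fun x => (X.a p q k' x, 0, 0, 0)) (X.d_om E _ _ _)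
  · by_cases hj : p = j
    · subst hj
      by_cases hq : q = i
      · subst hq
        rw [E.symm.eq hpq, X.Ba_ji E, X.Ba_ji E, X.Md_j hij, Md_i]
        simp only [dF_oo, X.d_pp E, X.da, map_add, add_assoc, add_self2, add_zero]
      · rw [X.Ba_jo hij hq, X.Ba_jo hij hq, X.Md_o hq hne, X.Md_j hij, X.da]
        exact congrArg (fun x => (X.a p q k' x, 0, 0, 0)) (X.d_om E.symm _ _ _)
    · by_cases hq : q = i
      · subst hq
        rw [X.Ba_oi hj hpq, X.Ba_oi hj hpq, Md_i, X.Md_o hi hj]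
        simp [dF_single]
      · by_cases hq' : q = j
        · subst hq'
          rw [X.Ba_oj hij hi hpq, X.Ba_oj hij hi hpq, X.Md_j hij, X.Md_o hi hj]
          simp [dF_single]
        · rw [X.Ba_oo hi hj hq hq', X.Ba_oo hi hj hq hq', X.Md_o hq hq', X.Md_o hi hj, X.da]

theorem B_dt_i (E : Edge G i j k) (z : X.BV) :
    X.Md i j k i (X.Bt i j i z) + X.Bt i j i (X.Md i j k i z) =
      ∑ e : I × Bool, X.Ba i j k e.1 i e.2 (X.Ba i j k i e.1 e.2 z) := by
  have h : ∀ e : I × Bool, X.Ba i j k e.1 i e.2 (X.Ba i j k i e.1 e.2 z) =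
      (if e = (j, k) then X.Ba i j k j i k (X.Ba i j k i j k z) else 0) +
      (LinearMap.inr K2 _ _) ((LinearMap.inr K2 _ _) ((LinearMap.inl K2 _ _)
        (Pi.single e (X.oo i j (X.om i j k z.2) e) : X.F))) := by
    rintro ⟨l, k'⟩
    rw [oo_apply, msk_apply]
    by_cases hl : l = j
    · subst hl
      by_cases hk : k' = k
      · subst hk; simp
      · simp [hk, X.Ba_zero fun h' => hk (E.eq h')]; rfl
    · by_cases he : G.adj l i k'
      · rw [X.Ba_oi hl he, X.Ba_io hl]; simp [hl]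
      · have he' : ¬ G.adj i l k' := fun h => he (G.symm _ _ _ h)
        simp [hl, X.Ba_zero he, X.a0 _ _ _ he']; rfl
  rw [Finset.sum_congr rfl fun e _ => h e, Finset.sum_add_distrib, ← map_sum, ← map_sum, ← map_sum,
    Finset.univ_sum_single, Finset.sum_ite_eq', if_pos (Finset.mem_univ _), X.Ba_ji E, X.Ba_ij E,
    Md_i, Bt_i, Bt_i, Md_i, X.d_pp E.symm]
  obtain ⟨z0, v, b, c⟩ := z
  simp only [om_apply, map_add, map_zero, LinearMap.inr_apply, LinearMap.inl_apply, Prod.mk_add_mk,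
    zero_add, add_zero, Prod.mk.injEq, true_and, and_true]
  constructor
  · rw [add_comm, add_add_cancel2]
  · rw [add_comm (X.oo i j (X.a j i k _)), add_add_cancel2]

theorem B_dt (E : Edge G i j k) (p : I) (z : X.BV) :
    X.Md i j k p (X.Bt i j p z) + X.Bt i j p (X.Md i j k p z) =
      ∑ e : I × Bool, X.Ba i j k e.1 p e.2 (X.Ba i j k p e.1 e.2 z) := by
  have hij := E.ne
  by_cases hi : p = i
  · rw [hi]; exact X.B_dt_i E z
  by_cases hj : p = j
  · subst hj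
    have h := congrArg X.sw (X.B_dt_i E.symm (X.sw z))
    rw [map_add, map_sum] at h
    simp only [X.sw_Md hi, X.sw_Bt hi, X.sw_Ba hi] at h
    exact h
  have h : ∀ e : I × Bool, X.Ba i j k e.1 p e.2 (X.Ba i j k p e.1 e.2 z) =
      LinearMap.inl K2 _ _ (X.a e.1 p e.2 (X.a p e.1 e.2 z.1)) := by
    rintro ⟨l, k'⟩
    by_cases he : G.adj p l k'
    · by_cases hl : l = i
      · subst hl
        simp [X.Ba_io hj, X.Ba_oi hj he, om_apply, pp_apply, X.msk_single_ne hj, inn_single]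
      · by_cases hl' : l = j
        · subst hl'
          simp [X.Ba_jo hij hi, X.Ba_oj hij hi he, om_apply, pp_apply, X.msk_single_ne hi,
            inn_single]
        · simp [X.Ba_oo hi hj hl hl', X.Ba_oo hl hl' hi hj]
    · simp [X.Ba_zero he, X.a0 _ _ _ he]; rfl
  rw [Finset.sum_congr rfl fun e _ => h e, ← map_sum, ← X.dt, X.Bt_o hi hj, X.Bt_o hi hj,
    X.Md_o hi hj, X.Md_o hi hj]
  simp

/-- The symmetric model of the triple twist. -/
def BM (E : Edge G i j k) : Obj G where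
  V := X.BV
  d := X.Md i j k
  a := X.Ba i j k
  t := X.Bt i j
  P := X.Bp i j X.P
  N := X.Bp i j X.N
  NP := X.Bp_mono X.NP
  a0 := fun _ _ _ h => X.Ba_zero h
  dd := X.B_dd E.ne
  da := X.B_da E
  dt := X.B_dt E
  dP := X.clP.Md E.ne
  dN := X.clN.Md E.ne
  aP := X.clP.Ba E
  aN := X.clN.Ba E
  tP := X.clP.Bt E.ne
  tN := X.clN.Bt E.ne

end Obj

end Crest.Agent.R175
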