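import Crest.Agent.R175.PDB1

/-! Coordinates on the triple twist `T i T j T i X`. -/

set_option autoImplicit false
set_option linter.unusedSectionVars false

open scoped Classical

noncomputable section

namespace Crest.Agent.R175

variable {I : Type} [Fintype I] [DecidableEq I] {G : Gph I}

namespace Obj

variable (X : Obj G)

/-- Keep only the slots of the neighbours of `i` other than `j`. -/
def mu (i j : I) : X.F →ₗ[K2] X.F :=
  LinearMap.pi fun e => if G.adj i e.1 e.2 ∧ e.1 ≠ j then LinearMap.proj e else 0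

theorem mu_apply (i j : I) (b : X.F) (e : I × Bool) :
    X.mu i j b e = if G.adj i e.1 e.2 ∧ e.1 ≠ j then b e else 0 := by
  simp only [mu, LinearMap.pi_apply]
  split_ifs <;> rfl

theorem dF_mu (i j : I) (b : X.F) : X.dF (X.mu i j b) = X.mu i j (X.dF b) := by
  ext e; simp only [mu_apply, dF_apply]; split_ifs <;> simp

theorem mu_mu (i j : I) (b : X.F) : X.mu i j (X.mu i j b) = X.mu i j b := by
  ext e; simp only [mu_apply]; split_ifs <;> rfl

theorem mu_out (i j : I) (v : X.V) : X.mu i j (X.out i v) = X.oo i j v := by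
  ext e
  rw [mu_apply, oo_apply, msk_apply, out_apply]
  by_cases h1 : G.adj i e.1 e.2 <;> by_cases h2 : e.1 = j <;> simp [h1, h2, X.a0]

theorem mu_oo (i j : I) (v : X.V) : X.mu i j (X.oo i j v) = X.oo i j v := by
  rw [← mu_out, mu_mu]

theorem inn_mu (i j : I) (b : X.F) : X.inn i (X.mu i j b) = X.inn i (X.msk j b) := by
  rw [inn_apply, inn_apply]
  refine Finset.sum_congr rfl fun e _ => ?_
  rw [mu_apply, msk_apply]
  by_cases h1 : G.adj i e.1 e.2
  · by_cases h2 : e.1 = j <;> simp [h1, h2]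
  · simp [X.a0 _ _ _ fun h => h1 (G.symm _ _ _ h)]

theorem mu_single_self (i j : I) (k : Bool) (x : X.V) : X.mu i j (Pi.single (j, k) x) = 0 := by
  ext e
  rw [mu_apply]
  split_ifs with he
  · rw [Pi.single_eq_of_ne (by rintro rfl; exact he.2 rfl)]; rfl
  · rfl

theorem mu_single_ne {i j l : I} {k : Bool} (h : G.adj i l k) (hl : l ≠ j) (x : X.V) :
    X.mu i j (Pi.single (l, k) x) = Pi.single (l, k) x := by
  ext e
  rw [mu_apply]
  split_ifs with he
  · rfl
  · rw [Pi.single_eq_of_ne (by rintro rfl; exact he ⟨h, hl⟩)]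

theorem mu_self (i j : I) (k : Bool) (b : X.F) : X.mu i j b (j, k) = 0 := by
  simp [mu_apply]

theorem mu_mem {i j : I} {Q : I → Submodule K2 X.V} {b : X.F}
    (hb : ∀ e : I × Bool, G.adj i e.1 e.2 → e.1 ≠ j → b e ∈ Q e.1) :
    X.mu i j b ∈ X.slots' i j Q := by
  rw [slots', mem_slots]
  intro e
  rw [mu_apply]
  refine ⟨fun h1 => ?_, fun h1 => by simp [h1]⟩
  by_cases h2 : e.1 = j
  · simp [h2]
  · simpa [h1, h2] using hb e h1 h2

theorem mu_eq {i j : I} {Q : I → Submodule K2 X.V} {b : X.F} (hb : b ∈ X.slots' i j Q) :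
    X.mu i j b = b := by
  rw [slots', mem_slots] at hb
  ext e
  rw [mu_apply]
  split_ifs with h
  · rfl
  · by_cases h1 : G.adj i e.1 e.2
    · have h2 : e.1 = j := by by_contra h2; exact h ⟨h1, h2⟩
      have := (hb e).1 h1
      rw [if_pos h2] at this
      exact ((Submodule.mem_bot _).1 this).symm
    · exact ((hb e).2 h1).symm

theorem mem_of_slots' {i j : I} {Q : I → Submodule K2 X.V} {b : X.F} (hb : b ∈ X.slots' i j Q)
    {e : I × Bool} (h1 : G.adj i e.1 e.2) : b e ∈ Q e.1 :=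
  (X.mem_slots.1 (X.mem_slots'.1 hb).1 e).1 h1

/-! ### Typed interface of the twist -/

/-- Inclusion of the old space. -/
def up (s : I) : X.V →ₗ[K2] (X.T s).V := X.i0

/-- Inclusion of the new part. -/
def nw (s : I) : X.V × X.F →ₗ[K2] (X.T s).V := X.i1

/-- The counit. -/
def ep (s : I) : (X.T s).V →ₗ[K2] X.V := X.eps s

/-- Old coordinate. -/
def p0 (s : I) : (X.T s).V →ₗ[K2] X.V := LinearMap.fst K2 X.V (X.V × X.F)

/-- Shifted coordinate. -/
def p1 (s : I) : (X.T s).V →ₗ[K2] X.V :=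
  (LinearMap.fst K2 X.V X.F).comp (LinearMap.snd K2 X.V (X.V × X.F))

/-- Slot coordinate. -/
def p2 (s : I) : (X.T s).V →ₗ[K2] X.F :=
  (LinearMap.snd K2 X.V X.F).comp (LinearMap.snd K2 X.V (X.V × X.F))

/-- A linear map applied in every slot. -/
def mF {X Y : Obj G} (f : X.V →ₗ[K2] Y.V) : X.F →ₗ[K2] Y.F := f.compLeft _

@[simp] theorem mF_apply {X Y : Obj G} (f : X.V →ₗ[K2] Y.V) (b : X.F) (e : I × Bool) :
    mF f b e = f (b e) := rfl

section Api

variable {s : I}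

@[simp] theorem nw_zero : X.nw s (0, 0) = 0 := map_zero _
@[simp] theorem p0_up (x : X.V) : X.p0 s (X.up s x) = x := rfl
@[simp] theorem p1_up (x : X.V) : X.p1 s (X.up s x) = 0 := rfl
@[simp] theorem p2_up (x : X.V) : X.p2 s (X.up s x) = 0 := rfl
@[simp] theorem p0_nw (y : X.V × X.F) : X.p0 s (X.nw s y) = 0 := rfl
@[simp] theorem p1_nw (y : X.V × X.F) : X.p1 s (X.nw s y) = y.1 := rfl
@[simp] theorem p2_nw (y : X.V × X.F) : X.p2 s (X.nw s y) = y.2 := rfl
theorem ep_eq (z : (X.T s).V) : X.ep s z = X.inn s (X.p2 s z) + X.t s (X.p1 s z) := rfl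
theorem Td_s (z : (X.T s).V) : (X.T s).d s z =
    X.nw s (X.d s (X.p1 s z), X.dF (X.p2 s z) + X.out s (X.p1 s z)) := X.Td_self s z
theorem Td_o {p : I} (h : p ≠ s) (z : (X.T s).V) :
    (X.T s).d p z = X.up s (X.d p (X.p0 s z)) := X.Td_ne h z
theorem Ta_s (q : I) (k : Bool) (z : (X.T s).V) :
    (X.T s).a s q k z = X.up s (X.a s q k (X.ep s z)) := X.Ta_self s q k z
theorem Ta_i {p : I} {k : Bool} (h : G.adj p s k) (z : (X.T s).V) :
    (X.T s).a p s k z = X.nw s (0, Pi.single (p, k) (X.p0 s z)) := X.Ta_in h z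
theorem Ta_o {p q : I} (hp : p ≠ s) (hq : q ≠ s) (k : Bool) (z : (X.T s).V) :
    (X.T s).a p q k z = X.up s (X.a p q k (X.p0 s z)) := X.Ta_ne hp hq k z
theorem Tt_s (z : (X.T s).V) : (X.T s).t s z = X.nw s (X.ep s z, 0) := X.Tt_self s z
theorem Tt_o {p : I} (h : p ≠ s) (z : (X.T s).V) :
    (X.T s).t p z = X.up s (X.t p (X.p0 s z)) := X.Tt_ne h z
theorem ep_d (z : (X.T s).V) : X.ep s ((X.T s).d s z) = X.d s (X.ep s z) := X.eps_Td s z

/-- The graded pieces of the twist, typed. -/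
def TQ (s : I) (Q : I → ℤ → Submodule K2 X.V) : I → ℤ → Submodule K2 (X.T s).V := X.Tp s 1 Q

theorem mem_TQ_s {Q : I → ℤ → Submodule K2 X.V} {n : ℤ} {z : (X.T s).V} :
    z ∈ X.TQ s Q s n ↔ z = X.nw s (X.p1 s z, X.p2 s z) ∧ X.p1 s z ∈ Q s (n + 1) ∧
      X.p2 s z ∈ X.slots s fun j => Q j n := by
  refine X.mem_Tp_self.trans (and_congr_left' ⟨fun h => Prod.ext h rfl, fun h => ?_⟩)
  exact congrArg Prod.fst h

theorem mem_TQ_o {p : I} (hp : p ≠ s) {Q : I → ℤ → Submodule K2 X.V} {n : ℤ} {z : (X.T s).V} :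
    z ∈ X.TQ s Q p n ↔ z = X.up s (X.p0 s z) ∧ X.p0 s z ∈ Q p n := by
  refine (X.mem_Tp_ne hp).trans (and_comm.trans
    (and_congr_left' ⟨fun h => Prod.ext rfl h, fun h => ?_⟩))
  exact congrArg Prod.snd h

theorem nw_mem {Q : I → ℤ → Submodule K2 X.V} {n : ℤ} {v : X.V} {b : X.F} (hv : v ∈ Q s (n + 1))
    (hb : b ∈ X.slots s fun j => Q j n) : X.nw s (v, b) ∈ X.TQ s Q s n :=
  X.mem_TQ_s.2 ⟨rfl, hv, hb⟩

theorem up_mem {p : I} (hp : p ≠ s) {Q : I → ℤ → Submodule K2 X.V} {n : ℤ} {v : X.V}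
    (hv : v ∈ Q p n) : X.up s v ∈ X.TQ s Q p n :=
  (X.mem_TQ_o hp).2 ⟨rfl, hv⟩

variable {X} in
theorem Cl.TQ {Q : I → ℤ → Submodule K2 X.V} (h : X.Cl Q) (s : I) : (X.T s).Cl (X.TQ s Q) :=
  ⟨h.Td s, h.Ta s, h.Tt s⟩

variable {X} in
theorem Cl.ep {Q : I → ℤ → Submodule K2 X.V} (h : X.Cl Q) {n : ℤ} {z : (X.T s).V}
    (hz : z ∈ X.TQ s Q s n) : X.ep s z ∈ Q s n := h.eps hz

end Api

variable (i j : I) (k : Bool)

/-- Elements of `T i X` at `i`. -/
def z1 (v w : X.V) (b : X.F) : (X.T i).V := X.nw i (v, Pi.single (j, k) w + X.mu i j b)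

/-- Elements of `T j T i X` at `j`. -/
def z2 (w : X.V) (z : (X.T i).V) (c : X.F) : ((X.T i).T j).V :=
  (X.T i).nw j (X.up i w, Pi.single (i, k) z + mF (X.up i) (X.mu j i c))

/-- Elements of `T i T j T i X` at `i`. -/
def z3 (z : (X.T i).V) (u : ((X.T i).T j).V) (b : X.F) : (((X.T i).T j).T i).V :=
  ((X.T i).T j).nw i ((X.T i).up j z,
    Pi.single (j, k) u + mF ((X.T i).up j) (mF (X.up i) (X.mu i j b)))

theorem z1_add (v w v' w' : X.V) (b b' : X.F) :
    X.z1 i j k v w b + X.z1 i j k v' w' b' = X.z1 i j k (v + v') (w + w') (b + b') := by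
  rw [z1, z1, z1, ← map_add, Prod.mk_add_mk, Pi.single_add, map_add, add_add_add_comm]

theorem z1_smul (r : K2) (v w : X.V) (b : X.F) :
    r • X.z1 i j k v w b = X.z1 i j k (r • v) (r • w) (r • b) := by
  rw [z1, z1, ← map_smul, Prod.smul_mk, Pi.single_smul, map_smul, smul_add]

theorem z1_zero : X.z1 i j k 0 0 0 = 0 := by
  simp [z1]

theorem z2_add (w w' : X.V) (z z' : (X.T i).V) (c c' : X.F) :
    X.z2 i j k w z c + X.z2 i j k w' z' c' = X.z2 i j k (w + w') (z + z') (c + c') := by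
  rw [z2, z2, z2, ← map_add, Prod.mk_add_mk, Pi.single_add, map_add, map_add, map_add,
    add_add_add_comm]

theorem z2_smul (r : K2) (w : X.V) (z : (X.T i).V) (c : X.F) :
    r • X.z2 i j k w z c = X.z2 i j k (r • w) (r • z) (r • c) := by
  rw [z2, z2, ← map_smul, Prod.smul_mk, Pi.single_smul, map_smul, map_smul, map_smul, smul_add]

theorem z2_zero : X.z2 i j k 0 0 0 = 0 := by
  simp [z2]

theorem z3_add (z z' : (X.T i).V) (u u' : ((X.T i).T j).V) (b b' : X.F) :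
    X.z3 i j k z u b + X.z3 i j k z' u' b' = X.z3 i j k (z + z') (u + u') (b + b') := by
  rw [z3, z3, z3, ← map_add, Prod.mk_add_mk, Pi.single_add, map_add, map_add, map_add, map_add,
    add_add_add_comm]

theorem z3_smul (r : K2) (z : (X.T i).V) (u : ((X.T i).T j).V) (b : X.F) :
    r • X.z3 i j k z u b = X.z3 i j k (r • z) (r • u) (r • b) := by
  rw [z3, z3, ← map_smul, Prod.smul_mk, Pi.single_smul, map_smul, map_smul, map_smul, map_smul,
    smul_add]

theorem z3_zero : X.z3 i j k 0 0 0 = 0 := by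
  simp [z3]

variable {i j k} (E : Edge G i j k)
include E

theorem d_z1 (v w : X.V) (b : X.F) : (X.T i).d i (X.z1 i j k v w b) =
    X.z1 i j k (X.d i v) (X.d j w + X.a i j k v) (X.dF b + X.oo i j v) := by
  rw [Td_s, z1, z1, p1_nw, p2_nw]
  simp only [map_add, dF_single, dF_mu, mu_oo, Pi.single_add]
  rw [X.out_eq E, oo_apply]
  congr 2
  abel

theorem ep_z1 (v w : X.V) (b : X.F) :
    X.ep i (X.z1 i j k v w b) = X.a j i k w + X.pp i j (v, b) := by
  simp only [z1, ep_eq, p1_nw, p2_nw, map_add, inn_single, inn_mu, pp_apply, add_assoc]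

theorem out_T_j (w : X.V) : (X.T i).out j (X.up i w) =
    Pi.single (i, k) (X.z1 i j k 0 w 0) + mF (X.up i) (X.oo j i w) := by
  ext1 ⟨l, k'⟩
  rw [out_apply, Pi.add_apply, mF_apply, oo_apply, msk_apply]
  by_cases hl : l = i
  · subst hl
    by_cases hk : k' = k
    · subst hk
      rw [X.Ta_i E.symm.adj]
      simp [z1]
    · rw [(X.T l).a0 _ _ _ fun h => hk (E.symm.eq h)]
      simp [hk]
  · rw [X.Ta_o E.ne.symm hl]
    simp [hl]

theorem d_z2 (w : X.V) (z : (X.T i).V) (c : X.F) : ((X.T i).T j).d j (X.z2 i j k w z c) =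
    X.z2 i j k (X.d j w) ((X.T i).d i z + X.z1 i j k 0 w 0) (X.dF c + X.oo j i w) := by
  have h : (X.T i).dF (mF (X.up i) (X.mu j i c)) = mF (X.up i) (X.mu j i (X.dF c)) := by
    ext1 e
    rw [dF_apply, mF_apply, mF_apply, mu_apply, mu_apply]
    split_ifs with he
    · rw [X.Td_o he.2, p0_up, dF_apply]
    · simp only [map_zero]
  rw [Td_s, z2, z2, p1_nw, p2_nw]
  simp only [map_add, dF_single, h, X.out_T_j E, mu_oo, Pi.single_add, X.Td_o E.ne.symm, p0_up]
  congr 2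
  abel

theorem ep_z2 (w : X.V) (z : (X.T i).V) (c : X.F) : (X.T i).ep j (X.z2 i j k w z c) =
    X.up i (X.a i j k (X.ep i z) + X.pp j i (w, c)) := by
  have h : (X.T i).inn j (mF (X.up i) (X.mu j i c)) = X.up i (X.inn j (X.mu j i c)) := by
    rw [inn_apply, inn_apply, map_sum]
    refine Finset.sum_congr rfl fun e _ => ?_
    rw [mF_apply, mu_apply]
    split_ifs with he
    · rw [X.Ta_o he.2 E.ne.symm, p0_up]
    · simp only [map_zero]
  simp only [z2, ep_eq (X.T i), p1_nw, p2_nw, map_add, inn_single, h, pp_apply, inn_mu, Ta_s,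
    X.Tt_o E.ne.symm, p0_up, add_assoc]

theorem a_ij_2 (z : (X.T i).V) :
    ((X.T i).T j).a i j k ((X.T i).up j z) = X.z2 i j k 0 z 0 := by
  simp [(X.T i).Ta_i E.adj, z2]

theorem a_ji_2 (u : ((X.T i).T j).V) :
    ((X.T i).T j).a j i k u = (X.T i).up j (X.z1 i j k 0 (X.p0 i ((X.T i).ep j u)) 0) := by
  simp [Ta_s, X.Ta_i E.symm.adj, z1]

theorem out_TT_i (z : (X.T i).V) : ((X.T i).T j).out i ((X.T i).up j z) =
    Pi.single (j, k) (X.z2 i j k 0 z 0) +
      mF ((X.T i).up j) (mF (X.up i) (X.oo i j (X.ep i z))) := by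
  ext1 ⟨l, k'⟩
  rw [out_apply, Pi.add_apply, mF_apply, mF_apply, oo_apply, msk_apply]
  by_cases hl : l = j
  · subst hl
    by_cases hk : k' = k
    · subst hk
      rw [X.a_ij_2 E]
      simp
    · rw [((X.T i).T l).a0 _ _ _ fun h => hk (E.eq h)]
      simp [hk]
  · rw [(X.T i).Ta_o E.ne hl, p0_up, Ta_s]
    simp [hl]

theorem d_z3 (z : (X.T i).V) (u : ((X.T i).T j).V) (b : X.F) :
    (((X.T i).T j).T i).d i (X.z3 i j k z u b) =
      X.z3 i j k ((X.T i).d i z) (((X.T i).T j).d j u + X.z2 i j k 0 z 0)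
        (X.dF b + X.oo i j (X.ep i z)) := by
  have h : ((X.T i).T j).dF (mF ((X.T i).up j) (mF (X.up i) (X.mu i j b))) =
      mF ((X.T i).up j) (mF (X.up i) (X.mu i j (X.dF b))) := by
    ext1 e
    simp only [dF_apply, mF_apply, mu_apply]
    split_ifs with he
    · have h1 : e.1 ≠ i := fun h => G.irr i e.2 (h ▸ he.1)
      rw [(X.T i).Td_o he.2, p0_up, X.Td_o h1, p0_up]
    · simp only [map_zero]
  rw [Td_s, z3, z3, p1_nw, p2_nw]
  simp only [map_add, dF_single, h, X.out_TT_i E, mu_oo, Pi.single_add, (X.T i).Td_o E.ne, p0_up]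
  congr 2
  abel

theorem ep_z3 (z : (X.T i).V) (u : ((X.T i).T j).V) (b : X.F) :
    ((X.T i).T j).ep i (X.z3 i j k z u b) =
      (X.T i).up j (X.z1 i j k (X.ep i z) (X.p0 i ((X.T i).ep j u)) b) := by
  have h : ((X.T i).T j).inn i (mF ((X.T i).up j) (mF (X.up i) (X.mu i j b))) =
      (X.T i).up j (X.z1 i j k 0 0 b) := by
    have h0 : X.z1 i j k 0 0 b = ∑ e, X.nw i (0, Pi.single e (X.mu i j b e)) := by
      rw [← map_sum, z1, Pi.single_zero, zero_add]
      congr 1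
      ext <;> simp [Prod.fst_sum, Prod.snd_sum]
    rw [inn_apply, h0, map_sum]
    refine Finset.sum_congr rfl fun e _ => ?_
    rw [mF_apply, mF_apply, mu_apply]
    split_ifs with he
    · rw [(X.T i).Ta_o he.2 E.ne, p0_up, X.Ta_i (G.symm _ _ _ he.1), p0_up]
    · simp
  have h2 : ((X.T i).T j).t i ((X.T i).up j z) = (X.T i).up j (X.z1 i j k (X.ep i z) 0 0) := by
    simp [(X.T i).Tt_o E.ne, Tt_s, z1]
  rw [ep_eq, z3, p1_nw, p2_nw, map_add, inn_single, h, h2, X.a_ji_2 E, ← map_add, ← map_add,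
    z1_add, z1_add]
  simp

end Obj

end Crest.Agent.R175
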