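import Crest.Agent.R175.PDB2

/-! The weak morphism from the symmetric model to the triple twist. -/

set_option autoImplicit false
set_option linter.unusedSectionVars false

open scoped Classical

noncomputable section

namespace Crest.Agent.R175

variable {I : Type} [Fintype I] [DecidableEq I] {G : Gph I}

namespace Obj

variable (X : Obj G) (i j : I) (k : Bool)

theorem mF_single {X Y : Obj G} (f : X.V →ₗ[K2] Y.V) (e : I × Bool) (x : X.V) :
    mF f (Pi.single e x) = Pi.single e (f x) := by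
  ext e'
  by_cases h : e' = e
  · subst h; simp
  · simp [Pi.single_eq_of_ne h]

theorem pp_zero (i j : I) : X.pp i j (0, 0) = 0 := map_zero _

/-- Component at `i`. -/
def sI : X.BV →ₗ[K2] (((X.T i).T j).T i).V where
  toFun z := X.z3 i j k (X.z1 i j k 0 z.2.1 0) (X.z2 i j k z.2.1 0 z.2.2.2) z.2.2.1
  map_add' z z' := by simp [z1_add, z2_add, z3_add]
  map_smul' r z := by simp [z1_smul, z2_smul, z3_smul]

/-- Component at `j`. -/
def sJ : X.BV →ₗ[K2] (((X.T i).T j).T i).V where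
  toFun z := ((X.T i).T j).up i (X.z2 i j k (X.a i j k z.2.1) (X.z1 i j k z.2.1 0 z.2.2.1) z.2.2.2)
  map_add' z z' := by rw [← map_add]; simp [z1_add, z2_add]
  map_smul' r z := by rw [RingHom.id_apply, ← map_smul]; simp [z1_smul, z2_smul]

/-- Component at the other vertices. -/
def sO : X.BV →ₗ[K2] (((X.T i).T j).T i).V :=
  (((X.T i).T j).up i).comp (((X.T i).up j).comp ((X.up i).comp (LinearMap.fst K2 _ _)))

/-- Homotopy for the arrow from `i` to `j`. -/
def gI : X.BV →ₗ[K2] (((X.T i).T j).T i).V where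
  toFun z := ((X.T i).T j).up i (X.z2 i j k (X.pp j i (z.2.1, z.2.2.2)) 0 0)
  map_add' z z' := by rw [← map_add, z2_add, ← map_add]; simp
  map_smul' r z := by rw [RingHom.id_apply, ← map_smul, z2_smul, ← map_smul]; simp

/-- Homotopy for the arrow from `j` to `i`. -/
def gJ : X.BV →ₗ[K2] (((X.T i).T j).T i).V where
  toFun z := X.z3 i j k (X.z1 i j k z.2.1 0 z.2.2.1) 0 0
  map_add' z z' := by simp [z1_add, z3_add]
  map_smul' r z := by simp [z1_smul, z3_smul]

def sF (p : I) : X.BV →ₗ[K2] (((X.T i).T j).T i).V :=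
  if p = i then X.sI i j k else if p = j then X.sJ i j k else X.sO i j

def sG (p q : I) (k' : Bool) : X.BV →ₗ[K2] (((X.T i).T j).T i).V :=
  if p = i ∧ q = j ∧ k' = k then X.gI i j k else if p = j ∧ q = i ∧ k' = k then X.gJ i j k else 0

variable {i j k}

theorem sF_i (z : X.BV) : X.sF i j k i z =
    X.z3 i j k (X.z1 i j k 0 z.2.1 0) (X.z2 i j k z.2.1 0 z.2.2.2) z.2.2.1 := by
  rw [sF, if_pos rfl]; rfl
theorem sF_j (h : i ≠ j) (z : X.BV) : X.sF i j k j z = ((X.T i).T j).up i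
    (X.z2 i j k (X.a i j k z.2.1) (X.z1 i j k z.2.1 0 z.2.2.1) z.2.2.2) := by
  rw [sF, if_neg h.symm, if_pos rfl]; rfl
theorem sF_o {p : I} (hi : p ≠ i) (hj : p ≠ j) (z : X.BV) :
    X.sF i j k p z = ((X.T i).T j).up i ((X.T i).up j (X.up i z.1)) := by
  rw [sF, if_neg hi, if_neg hj]; rfl
theorem sG_ij (z : X.BV) : X.sG i j k i j k z =
    ((X.T i).T j).up i (X.z2 i j k (X.pp j i (z.2.1, z.2.2.2)) 0 0) := by
  rw [sG, if_pos ⟨rfl, rfl, rfl⟩]; rfl
theorem sG_ji (h : i ≠ j) (z : X.BV) : X.sG i j k j i k z =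
    X.z3 i j k (X.z1 i j k z.2.1 0 z.2.2.1) 0 0 := by
  rw [sG, if_neg fun h' => h h'.2.1, if_pos ⟨rfl, rfl, rfl⟩]; rfl
theorem sG_zero {p q : I} {k' : Bool} (h1 : ¬ (p = i ∧ q = j ∧ k' = k))
    (h2 : ¬ (p = j ∧ q = i ∧ k' = k)) : X.sG i j k p q k' = 0 := by
  rw [sG, if_neg h1, if_neg h2]

theorem z1_oo (v w u : X.V) (b : X.F) :
    X.z1 i j k v w (b + X.oo i j u) = X.z1 i j k v w b + X.z1 i j k 0 0 (X.oo i j u) := by
  simp [z1_add]

variable (E : Edge G i j k)
include E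

theorem s_d (p : I) (z : X.BV) :
    X.sF i j k p (X.Md i j k p z) = (((X.T i).T j).T i).d p (X.sF i j k p z) := by
  have hij := E.ne
  by_cases hi : p = i
  · subst hi
    rw [sF_i, sF_i, Md_i, X.d_z3 E, X.d_z1 E, X.d_z2 E, X.ep_z1 E, z2_add]
    simp [add_self2, pp_zero]
  · by_cases hj : p = j
    · subst hj
      rw [X.sF_j hij, X.sF_j hij, X.Md_j hij, Td_o _ hi, p0_up, X.d_z2 E, X.d_z1 E, z1_add]
      simp [add_self2, X.da]
    · rw [X.sF_o hi hj, X.sF_o hi hj, X.Md_o hi hj, Td_o _ hi, p0_up, Td_o _ hj, p0_up, Td_o _ hi,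
        p0_up]

theorem s_a (p q : I) (k' : Bool) (z : X.BV) :
    X.sF i j k q (X.Ba i j k p q k' z) + (((X.T i).T j).T i).a p q k' (X.sF i j k p z) =
      (((X.T i).T j).T i).d q (X.sG i j k p q k' z) + X.sG i j k p q k' (X.Md i j k p z) := by
  have hij := E.ne
  by_cases hpq : G.adj p q k'
  swap
  · have h0 : X.sG i j k p q k' = 0 := X.sG_zero (by rintro ⟨rfl, rfl, rfl⟩; exact hpq E.adj)
      (by rintro ⟨rfl, rfl, rfl⟩; exact hpq E.symm.adj)
    simp [X.Ba_zero hpq, Obj.a0 _ _ _ _ hpq, h0]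
  have hne : q ≠ p := fun e => G.irr p k' (e ▸ hpq)
  by_cases hi : p = i
  · subst hi
    by_cases hj : q = j
    · subst hj
      rw [E.eq hpq, X.Ba_ij E, X.sF_j hij, sF_i, Ta_s, X.ep_z3 E, X.a_ij_2 E, sG_ij, sG_ij, Md_i,
        Td_o _ hne, p0_up, X.d_z2 E, ← map_add, ← map_add, z2_add, z2_add, z1_add, X.ep_z1 E,
        X.ep_z2 E, X.d_pp E.symm]
      congr 2
      · simp only [add_zero]
        rw [add_comm, add_comm (X.pp q p _), add_comm (X.pp q p _), add_assoc, add_self2, add_zero]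
      · have : X.z1 p q k (X.a q p k z.2.1 + X.a q p k z.2.1) (X.pp q p (z.2.1, z.2.2.2))
            (z.2.2.1 + z.2.2.1) = X.z1 p q k 0 (X.pp q p (z.2.1, z.2.2.2)) 0 := by
          rw [add_self2, add_self2]
        simpa [pp_zero] using this
      · simp
    · rw [X.sG_zero (by simp [hj]) (by simp [hij]), X.Ba_io hj, X.sF_o hne hj, sF_i, Ta_s,
        X.ep_z3 E, Ta_o _ hij hj, p0_up, Ta_s, X.ep_z1 E, X.ep_z1 E, X.ep_z2 E]
      obtain ⟨z0, v, b, c⟩ := z
      simp [om_apply, pp_zero, add_self2]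
  · by_cases hj : p = j
    · subst hj
      by_cases hq : q = i
      · subst hq
        rw [E.symm.eq hpq, X.Ba_ji E, X.sF_j hij, sF_i, Ta_i _ E.symm.adj, p0_up, X.sG_ji hij,
          X.sG_ji hij, X.Md_j hij, X.d_z3 E, X.d_z1 E, X.ep_z1 E, z3_add, z1_add]
        have h1 : ∀ u : ((X.T q).T p).V, ((X.T q).T p).nw q (0, Pi.single (p, k) u) =
            X.z3 q p k 0 u 0 := fun u => by simp [z3]
        rw [h1, z3_add, z2_add]
        simp [add_self2]
      · rw [X.sG_zero (by simp [hi]) (by simp [hq]), X.Ba_jo hij hq, X.sF_o hq hne, X.sF_j hij,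
          Ta_o _ hi hq, p0_up, Ta_s, X.ep_z2 E, Ta_o _ hi hq, p0_up, X.ep_z1 E]
        simp [om_apply, add_self2]
    · rw [X.sG_zero (by simp [hi]) (by simp [hj]), X.sF_o hi hj]
      by_cases hq : q = i
      · subst hq
        rw [X.Ba_oi hj hpq, sF_i, Ta_i _ hpq, p0_up]
        simp [z1_zero, z2_zero, z3, X.mu_single_ne (G.symm _ _ _ hpq) hj, mF_single, add_self2]
      · by_cases hq' : q = j
        · subst hq'
          rw [X.Ba_oj hij hi hpq, X.sF_j hij, Ta_o _ hi hq, p0_up, Ta_i _ hpq, p0_up]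
          simp [z1_zero, z2, X.mu_single_ne (G.symm _ _ _ hpq) hi, mF_single, add_self2]
        · rw [X.Ba_oo hi hj hq hq', X.sF_o hq hq', Ta_o _ hi hq, p0_up, Ta_o _ hj hq', p0_up,
            Ta_o _ hi hq, p0_up]
          simp [add_self2]

theorem s_t (p : I) (z : X.BV) :
    X.sF i j k p (X.Bt i j p z) + (((X.T i).T j).T i).t p (X.sF i j k p z) =
      ∑ e : I × Bool, (X.sG i j k e.1 p e.2 (X.Ba i j k p e.1 e.2 z) +
        (((X.T i).T j).T i).a e.1 p e.2 (X.sG i j k p e.1 e.2 z)) := by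
  have hij := E.ne
  by_cases hi : p = i
  · subst hi
    rw [Finset.sum_eq_single (j, k), X.sG_ji hij, sG_ij, X.Ba_ij E, Ta_i _ E.symm.adj, p0_up, sF_i,
      sF_i, Bt_i, Tt_s, X.ep_z3 E, X.ep_z1 E, X.ep_z2 E]
    · have h1 : ∀ u : ((X.T p).T j).V, ((X.T p).T j).nw p (0, Pi.single (j, k) u) =
          X.z3 p j k 0 u 0 := fun u => by simp [z3]
      have h2 : ∀ u : (X.T p).V, ((X.T p).T j).nw p ((X.T p).up j u, 0) =
          X.z3 p j k u 0 0 := fun u => by simp [z3]
      rw [h1, h2, z3_add, z3_add, z1_add]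
      simp [add_self2, pp_zero]
    · rintro ⟨l, k'⟩ _ h
      rw [X.sG_zero (by simp [hij]) (by simpa using h), X.sG_zero (by simpa using h) (by simp [hij])]
      simp
    · simp
  · by_cases hj : p = j
    · subst hj
      rw [Finset.sum_eq_single (i, k), X.sG_ji hij, sG_ij, X.Ba_ji E, Ta_s, X.ep_z3 E, X.a_ij_2 E,
        X.sF_j hij, X.sF_j hij, X.Bt_j hij, Tt_o _ hi, p0_up, Tt_s, X.ep_z2 E, X.ep_z1 E]
      · have h2 : ∀ u : X.V, (X.T i).nw p (X.up i u, 0) = X.z2 i p k u 0 0 := fun u => by simp [z2]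
        rw [h2, ← map_add, ← map_add, z2_add, z2_add]
        simp [add_add_cancel2]
      · rintro ⟨l, k'⟩ _ h
        rw [X.sG_zero (by simpa using h) (by simp [hi]), X.sG_zero (by simp [hi]) (by simpa using h)]
        simp
      · simp
    · rw [Finset.sum_eq_zero, X.sF_o hi hj, X.sF_o hi hj, X.Bt_o hi hj, Tt_o _ hi, p0_up, Tt_o _ hj,
        p0_up, Tt_o _ hi, p0_up, add_self2]
      intro e _
      rw [X.sG_zero (by simp [hj]) (by simp [hi]), X.sG_zero (by simp [hi]) (by simp [hj])]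
      simp

end Obj

end Crest.Agent.R175
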