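import Crest.Agent.R175.PDB3

/-! The weak morphism from the symmetric model to the triple twist is a quasi-isomorphism. -/

set_option autoImplicit false
set_option linter.unusedSectionVars false

open scoped Classical

noncomputable section

namespace Crest.Agent.R175

variable {I : Type} [Fintype I] [DecidableEq I] {G : Gph I}

namespace Obj

variable (X : Obj G) {i j : I} {k : Bool}

theorem single_add_mem (E : Edge G i j k) {Q : I → Submodule K2 X.V} {w : X.V} {b : X.F}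
    (hb : ∀ e : I × Bool, ¬ (G.adj i e.1 e.2 ∧ e.1 ≠ j) → b e = 0) :
    Pi.single (j, k) w + b ∈ X.slots i Q ↔
      w ∈ Q j ∧ ∀ e : I × Bool, G.adj i e.1 e.2 → e.1 ≠ j → b e ∈ Q e.1 := by
  rw [mem_slots]
  constructor
  · intro h
    refine ⟨by simpa [hb (j, k) (by simp)] using (h (j, k)).1 E.adj, fun e h1 h2 => ?_⟩
    have := (h e).1 h1
    rwa [Pi.add_apply, Pi.single_eq_of_ne (by rintro rfl; exact h2 rfl), zero_add] at this
  · rintro ⟨h1, h2⟩ ⟨l, k'⟩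
    refine ⟨fun h3 => ?_, fun h3 => ?_⟩
    · by_cases hl : l = j
      · subst hl
        obtain rfl : k' = k := E.eq h3
        simpa [hb (l, k') (by simp)] using h1
      · rw [Pi.add_apply, Pi.single_eq_of_ne (by simp [hl]), zero_add]
        exact h2 _ h3 hl
    · rw [Pi.add_apply, Pi.single_eq_of_ne (by rintro ⟨⟩; exact h3 E.adj), zero_add]
      exact hb _ fun h => h3 h.1

theorem mu_mem_iff {Q : I → Submodule K2 X.V} {b : X.F} : X.mu i j b ∈ X.slots' i j Q ↔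
    ∀ e : I × Bool, G.adj i e.1 e.2 → e.1 ≠ j → b e ∈ Q e.1 :=
  ⟨fun h e h1 h2 => by simpa [mu_apply, h1, h2] using X.mem_of_slots' h h1, X.mu_mem⟩

theorem eq_single_add_mu (E : Edge G i j k) {Q : I → Submodule K2 X.V} {b : X.F}
    (hb : b ∈ X.slots i Q) : b = Pi.single (j, k) (b (j, k)) + X.mu i j b := by
  ext ⟨l, k'⟩
  rw [Pi.add_apply, mu_apply]
  by_cases h : G.adj i l k'
  · by_cases hl : l = j
    · subst hl
      simp [E.eq h]
    · simp [h, hl]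
  · have : (l, k') ≠ (j, k) := by rintro ⟨⟩; exact h E.adj
    simp [h, this, (X.mem_slots.1 hb (l, k')).2 h]

theorem up_mem_iff {s p : I} (hp : p ≠ s) {Q : I → ℤ → Submodule K2 X.V} {n : ℤ} {v : X.V} :
    X.up s v ∈ X.TQ s Q p n ↔ v ∈ Q p n :=
  ⟨fun h => ((X.mem_TQ_o hp).1 h).2, X.up_mem hp⟩

theorem nw_mem_iff {s : I} {Q : I → ℤ → Submodule K2 X.V} {n : ℤ} {v : X.V} {b : X.F} :
    X.nw s (v, b) ∈ X.TQ s Q s n ↔ v ∈ Q s (n + 1) ∧ b ∈ X.slots s fun j => Q j n :=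
  ⟨fun h => (X.mem_TQ_s.1 h).2, fun h => X.nw_mem h.1 h.2⟩

variable (E : Edge G i j k) {Q : I → ℤ → Submodule K2 X.V} {n : ℤ}
include E

theorem mem_z1 {v w : X.V} {b : X.F} : X.z1 i j k v w b ∈ X.TQ i Q i n ↔
    v ∈ Q i (n + 1) ∧ w ∈ Q j n ∧ X.mu i j b ∈ X.slots' i j fun l => Q l n := by
  rw [z1, nw_mem_iff, X.single_add_mem E fun e he => by rw [mu_apply, if_neg he], mu_mem_iff]
  refine and_congr_right' (and_congr_right' (forall₃_congr fun e h1 h2 => ?_))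
  rw [mu_apply, if_pos ⟨h1, h2⟩]

theorem mem_z2 {w : X.V} {z : (X.T i).V} {c : X.F} :
    X.z2 i j k w z c ∈ (X.T i).TQ j (X.TQ i Q) j n ↔
      w ∈ Q j (n + 1) ∧ z ∈ X.TQ i Q i n ∧ X.mu j i c ∈ X.slots' j i fun l => Q l n := by
  rw [z2, nw_mem_iff, (X.T i).single_add_mem E.symm fun e he => by
    rw [mF_apply, mu_apply, if_neg he, map_zero], X.up_mem_iff E.ne.symm, mu_mem_iff]
  refine and_congr_right' (and_congr_right' (forall₃_congr fun e h1 h2 => ?_))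
  rw [mF_apply, X.up_mem_iff h2, mu_apply, if_pos ⟨h1, h2⟩]

theorem mem_z3 {z : (X.T i).V} {u : ((X.T i).T j).V} {b : X.F} :
    X.z3 i j k z u b ∈ ((X.T i).T j).TQ i ((X.T i).TQ j (X.TQ i Q)) i n ↔
      z ∈ X.TQ i Q i (n + 1) ∧ u ∈ (X.T i).TQ j (X.TQ i Q) j n ∧
        X.mu i j b ∈ X.slots' i j fun l => Q l n := by
  rw [z3, nw_mem_iff, ((X.T i).T j).single_add_mem E fun e he => by
    rw [mF_apply, mF_apply, mu_apply, if_neg he, map_zero, map_zero], (X.T i).up_mem_iff E.ne,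
    mu_mem_iff]
  refine and_congr_right' (and_congr_right' (forall₃_congr fun e h1 h2 => ?_))
  have h3 : e.1 ≠ i := fun h => G.irr i e.2 (h ▸ h1)
  rw [mF_apply, mF_apply, (X.T i).up_mem_iff h2, X.up_mem_iff h3, mu_apply, if_pos ⟨h1, h2⟩]

theorem nf1 {z : (X.T i).V} (hz : z ∈ X.TQ i Q i n) : ∃ v w b, v ∈ Q i (n + 1) ∧ w ∈ Q j n ∧
    b ∈ X.slots' i j (fun l => Q l n) ∧ z = X.z1 i j k v w b := by
  obtain ⟨h1, -, h3⟩ := X.mem_TQ_s.1 hz
  have e : z = X.z1 i j k (X.p1 i z) (X.p2 i z (j, k)) (X.mu i j (X.p2 i z)) := by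
    rw [z1, mu_mu, ← X.eq_single_add_mu E h3, ← h1]
  have := (X.mem_z1 E).1 (e ▸ hz)
  rw [mu_mu] at this
  exact ⟨_, _, _, this.1, this.2.1, this.2.2, e⟩

theorem nf2 {u : ((X.T i).T j).V} (hu : u ∈ (X.T i).TQ j (X.TQ i Q) j n) :
    ∃ w z c, w ∈ Q j (n + 1) ∧ z ∈ X.TQ i Q i n ∧ c ∈ X.slots' j i (fun l => Q l n) ∧
      u = X.z2 i j k w z c := by
  obtain ⟨h1, h2, h3⟩ := (X.T i).mem_TQ_s.1 hu
  have e : u = X.z2 i j k (X.p0 i ((X.T i).p1 j u)) ((X.T i).p2 j u (i, k))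
      (X.mu j i (mF (X.p0 i) ((X.T i).p2 j u))) := by
    have h4 : mF (X.up i) (X.mu j i (mF (X.p0 i) ((X.T i).p2 j u))) =
        (X.T i).mu j i ((X.T i).p2 j u) := by
      ext1 e
      rw [mF_apply, mu_apply, mu_apply]
      split_ifs with he
      · exact ((X.mem_TQ_o he.2).1 (((X.T i).mem_slots.1 h3 e).1 he.1)).1.symm
      · exact map_zero _
    rw [z2, mu_mu, h4, ← (X.T i).eq_single_add_mu E.symm h3, ← ((X.mem_TQ_o E.ne.symm).1 h2).1, ← h1]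
  have := (X.mem_z2 E).1 (e ▸ hu)
  rw [mu_mu] at this
  exact ⟨_, _, _, this.1, this.2.1, this.2.2, e⟩

theorem nf3 {y : (((X.T i).T j).T i).V}
    (hy : y ∈ ((X.T i).T j).TQ i ((X.T i).TQ j (X.TQ i Q)) i n) :
    ∃ z u b, z ∈ X.TQ i Q i (n + 1) ∧ u ∈ (X.T i).TQ j (X.TQ i Q) j n ∧
      b ∈ X.slots' i j (fun l => Q l n) ∧ y = X.z3 i j k z u b := by
  obtain ⟨h1, h2, h3⟩ := ((X.T i).T j).mem_TQ_s.1 hy
  have e : y = X.z3 i j k ((X.T i).p0 j (((X.T i).T j).p1 i y)) (((X.T i).T j).p2 i y (j, k))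
      (X.mu i j (mF (X.p0 i) (mF ((X.T i).p0 j) (((X.T i).T j).p2 i y)))) := by
    have h4 : mF ((X.T i).up j) (mF (X.up i)
        (X.mu i j (mF (X.p0 i) (mF ((X.T i).p0 j) (((X.T i).T j).p2 i y))))) =
        ((X.T i).T j).mu i j (((X.T i).T j).p2 i y) := by
      ext1 e
      rw [mF_apply, mF_apply, mu_apply, mu_apply]
      split_ifs with he
      · have h5 : e.1 ≠ i := fun h => G.irr i e.2 (h ▸ he.1)
        have h6 := ((X.T i).mem_TQ_o he.2).1 ((((X.T i).T j).mem_slots.1 h3 e).1 he.1)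
        rw [mF_apply, mF_apply, ← ((X.mem_TQ_o h5).1 h6.2).1, ← h6.1]
      · rw [map_zero, map_zero]
    rw [z3, mu_mu, h4, ← ((X.T i).T j).eq_single_add_mu E h3,
      ← (((X.T i).mem_TQ_o E.ne).1 h2).1, ← h1]
  have := (X.mem_z3 E).1 (e ▸ hy)
  rw [mu_mu] at this
  exact ⟨_, _, _, this.1, this.2.1, this.2.2, e⟩

theorem sF_mem (h : X.Cl Q) (p : I) (n : ℤ) (z : X.BV) (hz : z ∈ X.Bp i j Q p n) :
    X.sF i j k p z ∈ ((X.T i).T j).TQ i ((X.T i).TQ j (X.TQ i Q)) p n := by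
  have hij := E.ne
  by_cases hi : p = i
  · subst hi
    rw [mem_Bp_i] at hz
    rw [sF_i, X.mem_z3 E, X.mem_z1 E, X.mem_z2 E, X.mu_eq hz.2.2.1, X.mu_eq hz.2.2.2, map_zero]
    exact ⟨⟨zero_mem _, hz.2.1, zero_mem _⟩, ⟨hz.2.1, zero_mem _, hz.2.2.2⟩, hz.2.2.1⟩
  · by_cases hj : p = j
    · subst hj
      rw [X.mem_Bp_j hij] at hz
      rw [X.sF_j hij, up_mem_iff _ hi, X.mem_z2 E, X.mem_z1 E, X.mu_eq hz.2.2.1, X.mu_eq hz.2.2.2]
      exact ⟨h.a _ _ _ _ _ hz.2.1, ⟨hz.2.1, zero_mem _, hz.2.2.1⟩, hz.2.2.2⟩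
    · rw [X.mem_Bp_o hi hj] at hz
      rw [X.sF_o hi hj, up_mem_iff _ hi, up_mem_iff _ hj, up_mem_iff _ hi]
      exact hz.1

theorem sG_mem (h : X.Cl Q) (p q : I) (k' : Bool) (n : ℤ) (z : X.BV)
    (hz : z ∈ X.Bp i j Q p (n + 1)) :
    X.sG i j k p q k' z ∈ ((X.T i).T j).TQ i ((X.T i).TQ j (X.TQ i Q)) q n := by
  have hij := E.ne
  by_cases h1 : p = i ∧ q = j ∧ k' = k
  · obtain ⟨rfl, rfl, rfl⟩ := h1
    rw [mem_Bp_i] at hz
    rw [sG_ij, up_mem_iff _ hij.symm, X.mem_z2 E, map_zero]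
    exact ⟨h.pp hz.2.1 hz.2.2.2, zero_mem _, zero_mem _⟩
  · by_cases h2 : p = j ∧ q = i ∧ k' = k
    · obtain ⟨rfl, rfl, rfl⟩ := h2
      rw [X.mem_Bp_j hij] at hz
      rw [X.sG_ji hij, X.mem_z3 E, X.mem_z1 E, X.mu_eq hz.2.2.1, map_zero]
      exact ⟨⟨hz.2.1, zero_mem _, hz.2.2.1⟩, zero_mem _, zero_mem _⟩
    · simp [X.sG_zero h1 h2]

/-- The comparison morphism. -/
def sW : WHom (X.BM E) (((X.T i).T j).T i) where
  f := X.sF i j k
  g := X.sG i j k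
  g0 := fun _ _ _ h => X.sG_zero (by rintro ⟨rfl, rfl, rfl⟩; exact h E.adj)
    (by rintro ⟨rfl, rfl, rfl⟩; exact h E.symm.adj)
  d := X.s_d E
  a := X.s_a E
  t := X.s_t E
  P := X.sF_mem E X.clP
  N := X.sF_mem E X.clN
  gP := X.sG_mem E X.clP
  gN := X.sG_mem E X.clN

end Obj

end Crest.Agent.R175
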