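import Crest.Agent.R175.PDU2
import Crest.Agent.R175.PD10

/-! The elementary height axioms. -/

set_option autoImplicit false
set_option linter.unusedSectionVars false

open Crest.GroupTheory
open scoped Classical

noncomputable section

namespace Crest.Agent.R175

variable {S : Type} [Fintype S] [DecidableEq S] {M : CoxeterMatrix S} {Y : Finset S}

namespace Unfold

variable (u : Unfold M Y)

theorem v_ne (c : ArtinGroup M) (s : S) (n : ℤ) (t : S) (h : t ≠ s) :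
    u.vv (c * artinGen M s) n t = u.vv c n t := by
  rw [((u.rep_ob c).gen s).vv_eq n, (u.rep_ob c).vv_eq n]
  exact u.wd_Tw_ne _ h n

theorem PDF1_ne_o {i : u.I} {s : S} (hi : u.typ i = some s) : i ≠ u.o := by
  intro e
  rw [(u.typ_none i).2 e] at hi
  cases hi

theorem PDF1_T {s : S} (hs : s ∈ Y) {i : u.I} (hi : u.typ i = some s) :
    cls (u.E.T i) = cls u.E := by
  refine cls_eq (u.E.epsH i) fun j n => ?_
  by_cases hj : j = i
  · subst hj
    have hio := u.PDF1_ne_o hi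
    refine ⟨Hom.inj_of_acyc _ (Obj.T_acyc _ ?_ fun j' k hadj => ?_), Hom.surj_of_acyc _ ?_⟩
    · exact simple_acyc fun h => hio h.1
    · refine simple_acyc fun h => ?_
      have h1 : u.adj j u.o k := h.1 ▸ hadj
      exact (u.adj_o s).1 ⟨j, k, hi, h1⟩ hs
    · exact simple_acyc fun h => hio h.1
  · exact u.E.epsH_bij_ne hj n

theorem PDF1_Tw {s : S} (hs : s ∈ Y) (l : List u.I) (hl : ∀ i ∈ l, u.typ i = some s) :
    cls (Obj.Tw l u.E) = cls u.E := by
  induction l with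
  | nil => rfl
  | cons i l ih =>
    rw [Obj.Tw_cons, ← ih fun j hj => hl j (List.mem_cons_of_mem _ hj)]
    exact (cls_Gw_iff _).2 (u.PDF1_T hs (hl i List.mem_cons_self))

theorem PDF1_fix {h : ArtinGroup M} (hh : h ∈ AZ M Y) : u.act h (cls u.E) = cls u.E := by
  refine Subgroup.closure_induction (p := fun g _ => u.act g (cls u.E) = cls u.E) ?_ ?_ ?_ ?_ hh
  · rintro _ ⟨s, hs, rfl⟩
    rw [u.act_gen s (u.fib s) (u.nodup_fib s) fun i => u.mem_fib]
    exact u.PDF1_Tw hs _ fun i hi => u.mem_fib.1 hi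
  · exact u.act_one _
  · intro x y _ _ hx hy
    rw [u.act_mul, hx, hy]
  · intro x _ hx
    have h1 := u.act_mul x x⁻¹ (cls u.E)
    rw [mul_inv_cancel, u.act_one, hx] at h1
    exact h1.symm

theorem v_left : ∀ h ∈ AZ M Y, ∀ c, u.vv (h * c) = u.vv c := by
  intro h hh c
  have h1 : u.Rep (h * c) (u.ob c) := by
    have h2 : cls (u.ob c) = u.act c (cls u.E) := u.rep_ob c
    change cls (u.ob c) = u.act (h * c) (cls u.E)
    rw [u.act_mul, u.PDF1_fix hh, h2]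
  funext n
  exact h1.vv_eq n

theorem v_one (n : ℤ) (t : S) : u.vv 1 n t = 0 := by
  have h1 : u.Rep 1 u.E := (u.act_one _).symm
  rw [h1.vv_eq n]
  refine u.ws_eq_zero.2 fun i hi => ?_
  have h2 : u.E.hd i n = if i = u.o ∧ n = 0 then 1 else 0 := simple_hd _ _ _
  rw [h2, if_neg fun h => u.PDF1_ne_o hi h.1]

theorem v_bdd (c : ArtinGroup M) : ∃ N : ℤ, ∀ t, Low M u.vv c N t := by
  obtain ⟨N, hN⟩ := (u.rep_ob c).good.above
  exact ⟨N, fun t => ((u.rep_ob c).low_iff N t).2 fun i _ n hn => hN i n hn⟩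

theorem v_up (c : ArtinGroup M) (d : ℤ) (s : S) (h : UU M Y u.vv {s} d c) :
    Low M u.vv (c * artinGen M s) d s ∧ pred M u.vv u.β d c s ≤ u.vv (c * artinGen M s) d s := by
  have hX := u.rep_ob c
  have h1 := (hX.uu_iff {s} d).1 h
  refine ⟨((hX.gen s).low_iff d s).2 fun i hi n hn => ?_, ?_⟩
  · have hK : i ∈ u.KK {s} := ⟨s, Finset.mem_singleton_self s, hi⟩
    rw [acyc_Tw_fib hi]
    exact Obj.T_acyc _ (h1 i (u.KK_sub_JJ _ hK) _ (by omega))
      fun j k hadj => h1 j (u.nb_JJ _ i hK j k hadj) n hn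
  · rw [hX.pred_eq, (hX.gen s).vv_eq d]
    exact u.wd_up hX.good.fin s d

theorem sub_supp (c : ArtinGroup M) (d : ℤ) (Z : Finset S) (n : S → ℝ) (h : n ∈ u.Sub c d Z) :
    ∀ t, t ∉ Z → n t = 0 := by
  obtain ⟨X, -, A, hA, rfl⟩ := h
  intro t ht
  refine u.ws_eq_zero.2 fun i hi => hA i ?_
  rintro ⟨s, hs, h1⟩
  rw [hi] at h1
  cases h1
  exact ht hs

theorem sub_kink (Z : Finset S) (d : ℤ) (c : ArtinGroup M) (s : S) (h : UU M Y u.vv Z d c)
    (hs : s ∈ Z) (hk : pred M u.vv u.β d c s < u.vv (c * artinGen M s) d s) :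
    ∃ ε : ℝ, 0 < ε ∧ ε • al s ∈ u.Sub c d Z := by
  have hX := u.rep_ob c
  have h1 := (hX.uu_iff Z d).1 h
  have h2 : ∃ i, u.typ i = some s ∧ ¬ (u.ob c).Soc 1 i d ≤ (u.ob c).Bd i d := by
    by_contra hne
    push Not at hne
    have h3 := u.wd_up_eq hX.good.fin s d
      (fun i hi => h1 i (u.KK_sub_JJ _ ⟨s, hs, hi⟩) _ (by omega)) hne
    rw [hX.pred_eq, (hX.gen s).vv_eq d] at hk
    exact absurd hk (not_lt.2 h3)
  obtain ⟨r, hr, hne⟩ := h2
  obtain ⟨A, hA, hAr⟩ := (u.ob c).exists_socle r d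
  have h0 : ∀ i, i ≠ r → rdim (A.A i) ((u.ob c).Bd i d) = 0 := fun i hi =>
    rdim_of_le (hA i hi).le
  have hpos : 0 < rdim (A.A r) ((u.ob c).Bd r d) := by
    refine Nat.pos_of_ne_zero fun e => hne ?_
    rw [← hAr]
    exact ((hX.good.fin r d).mono (A.hi r)).1.le_of_rdim e
  obtain ⟨ε, hε, he⟩ := u.ws_single (y := fun _ => 0)
    (y' := fun i => rdim (A.A i) ((u.ob c).Bd i d)) hr h0 hpos
  have hz : u.ws (fun _ => 0) = 0 := funext fun t => u.ws_eq_zero.2 fun _ _ => rfl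
  rw [hz, zero_add] at he
  refine ⟨ε, hε, u.ob c, hX, A, fun i hi => h0 i ?_, he.symm⟩
  rintro rfl
  exact hi ⟨s, hs, hr⟩

theorem sub_socle (Z : Finset S) (d : ℤ) (c : ArtinGroup M) (n : S → ℝ) (t : S)
    (hn : n ∈ u.Sub c d Z) (ht : n t ≠ 0) :
    ∃ n₀ ∈ u.Sub c d Z, ∃ ε : ℝ, 0 < ε ∧ n₀ + ε • al t ∈ u.Sub c d Z := by
  obtain ⟨X, hX, A, hA, rfl⟩ := hn
  have h2 : ∃ i, u.typ i = some t ∧ rdim (A.A i) (X.Bd i d) ≠ 0 := by
    by_contra hne
    push Not at hne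
    exact ht (u.ws_eq_zero.2 hne)
  obtain ⟨r, hr, hne⟩ := h2
  obtain ⟨B, C, hB, hC, hBC, hle, hlt⟩ :=
    (hX.good.nil d).exists_step A (r := r) fun h => hne (rdim_of_le h)
  have hfin : ∀ i, FinR (A.A i) (X.Bd i d) := fun i => ((hX.good.fin i d).mono (A.hi i)).1
  have hpure : ∀ D : X.SubM d, (∀ i, D.A i ≤ A.A i) → ∀ i, i ∉ u.KK Z →
      rdim (D.A i) (X.Bd i d) = 0 := fun D hD i hi => by
    have := ((hfin i).mono (hD i)).2
    rw [hA i hi] at this
    exact Nat.le_zero.1 this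
  obtain ⟨ε, hε, he⟩ := u.ws_single (y := fun i => rdim (B.A i) (X.Bd i d))
    (y' := fun i => rdim (C.A i) (X.Bd i d)) hr (fun i hi => by rw [hBC i hi])
    (((hfin r).mono (hC r)).1.lt (B.lo r) hle hlt)
  exact ⟨u.wA B, ⟨X, hX, B, hpure B hB, rfl⟩, ε, hε, X, hX, C, hpure C hC, he.symm⟩

theorem v_kill (Z : Finset S) (e : ℤ) (c : ArtinGroup M) (w : M.Group) (hw : Longest M Z w)
    (h : Frz M Y u.vv Z (e - 1) c) (h' : ∀ s ∈ Z, Low M u.vv c e s) :
    ∀ s ∈ Z, Low M u.vv (c * lft M w) (e - 1) s := by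
  have hX := u.rep_ob c
  obtain ⟨W, hWK, hact, hW⟩ := u.longest_Tw hw
  have h1 := (hX.frz_iff Z (e - 1)).1 h
  have hk := kill_core (u.KK_sub_JJ Z) (u.nb_JJ Z) W hWK hW (u.ob c) e (hX.good.nil e)
    (fun i hi n hn => by
      by_cases hK : i ∈ u.KK Z
      · obtain ⟨s, hs, hi'⟩ := hK
        exact (hX.low_iff e s).1 (h' s hs) i hi' n hn
      · exact h1 i hi hK n (by omega))
    (fun i hi hK => h1 i hi hK e (by omega))
  intro s hs
  refine ((hX.mul (hact _)).low_iff (e - 1) s).2 fun i hi n hn => ?_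
  exact hk i (u.KK_sub_JJ _ ⟨s, hs, hi⟩) n (by omega)

end Unfold

end Crest.Agent.R175
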