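import Crest.Agent.R175.PDU2

/-! Demazure inequality. -/

set_option autoImplicit false
set_option linter.unusedSectionVars false

open Crest.GroupTheory
open scoped Classical

noncomputable section

namespace Crest.Agent.R175

variable {S : Type} [Fintype S] [DecidableEq S] {M : CoxeterMatrix S} {Y : Finset S}

section PDF2aux

variable {I : Type} [Fintype I] [DecidableEq I] {G : Gph I}

/-- One more twist at a vertex without head increases the top cohomology after any twists. -/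
theorem PDF2_step {K J : Set I} (hKJ : K ⊆ J) (hnb : ∀ i ∈ K, ∀ j k, G.adj i j k → j ∈ J)
    {B : Obj G} (hB : B.Fin) {d : ℤ} (hac : ∀ i ∈ J, ∀ n, d + 1 ≤ n → B.Acyc i n) {i : I}
    (hi : i ∈ K) (hin : B.InSurj i d) (W : List I) (j : I) :
    (Obj.Tw W B).hd j d ≤ (Obj.Tw W (B.T i)).hd j d := by
  have h1 : ∀ r n, d ≤ n → (B.epsH i).Surj r n := by
    intro r n hn
    by_cases hr : r = i
    · subst hr
      rcases eq_or_lt_of_le hn with rfl | hn'
      · exact hin.epsH_surj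
      · exact Hom.surj_of_acyc _ (hac r (hKJ hi) n (by omega))
    · exact (B.epsH_bij_ne hr n).2
  have h2 : ∀ r n, d < n → (B.epsH i).Inj r n := by
    intro r n hn
    by_cases hr : r = i
    · subst hr
      exact Hom.inj_of_acyc _ (B.T_acyc (hac r (hKJ hi) _ (by omega))
        fun j k hj => hac j (hnb r hi j k hj) n (by omega))
    · exact (B.epsH_bij_ne hr n).1
  exact ((Hom.surj_Tw W (B.epsH i) h1 h2 j).hd_le (((hB.T i).Gw _) j d)).2

theorem PDF2_list {K J : Set I} (hKJ : K ⊆ J) (hnb : ∀ i ∈ K, ∀ j k, G.adj i j k → j ∈ J)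
    {d : ℤ} (W : List I) (j : I) : ∀ (l : List I) (B : Obj G), l.Nodup → (∀ i ∈ l, i ∈ K) →
    (∀ i ∈ l, ∀ i' ∈ l, ∀ k, ¬ G.adj i i' k) → B.Fin →
    (∀ i ∈ J, ∀ n, d + 1 ≤ n → B.Acyc i n) → (∀ i ∈ l, B.InSurj i d) →
    (Obj.Tw W B).hd j d ≤ (Obj.Tw W (Obj.Tw l B)).hd j d := by
  intro l
  induction l with
  | nil => intro B _ _ _ _ _ _; exact le_rfl
  | cons i l ih =>
    intro B hnd hK hna hB hac hin
    rw [List.nodup_cons] at hnd
    have hi : i ∈ K := hK i List.mem_cons_self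
    refine (PDF2_step hKJ hnb hB hac hi (hin i List.mem_cons_self) W j).trans ?_
    rw [Obj.Tw_cons]
    refine ih (B.T i) hnd.2 (fun r hr => hK r (List.mem_cons_of_mem _ hr))
      (fun r hr r' hr' => hna r (List.mem_cons_of_mem _ hr) r' (List.mem_cons_of_mem _ hr'))
      (hB.T i) ?_ ?_
    · exact B.Tw_acyc_ge hKJ hnb [i] (by simpa using hi) hac
    · intro r hr
      exact (hin r (List.mem_cons_of_mem _ hr)).T_ne (fun e => hnd.1 (e ▸ hr))
        (hna r (List.mem_cons_of_mem _ hr) i List.mem_cons_self)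

theorem PDF2_keep {d : ℤ} {i : I} : ∀ (l : List I) (B : Obj G), i ∉ l →
    (∀ i' ∈ l, ∀ k, ¬ G.adj i i' k) → B.InSurj i d → (Obj.Tw l B).InSurj i d := by
  intro l
  induction l with
  | nil => intro B _ _ h; exact h
  | cons r l ih =>
    intro B hi hna h
    rw [Obj.Tw_cons]
    exact ih _ (fun e => hi (List.mem_cons_of_mem _ e))
      (fun r' hr' => hna r' (List.mem_cons_of_mem _ hr'))
      (h.T_ne (fun e => hi (e ▸ List.mem_cons_self)) (hna r List.mem_cons_self))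

theorem PDF2_ins {K J : Set I} (hKJ : K ⊆ J) (hnb : ∀ i ∈ K, ∀ j k, G.adj i j k → j ∈ J)
    {d : ℤ} {l : List I} {B : Obj G} (hnd : l.Nodup) (hK : ∀ i ∈ l, i ∈ K)
    (hna : ∀ i ∈ l, ∀ i' ∈ l, ∀ k, ¬ G.adj i i' k)
    (hac : ∀ i ∈ J, ∀ n, d + 1 ≤ n → B.Acyc i n) : ∀ i ∈ l, (Obj.Tw l B).InSurj i d := by
  intro i hi
  obtain ⟨l1, l2, rfl⟩ := List.append_of_mem hi
  rw [Obj.Tw_append, Obj.Tw_cons]
  have h2 : i ∉ l2 := (List.nodup_cons.1 (List.Nodup.of_append_right hnd)).1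
  refine PDF2_keep l2 _ h2 (fun r hr => hna i hi r (by simp [hr])) ?_
  exact Obj.inSurj_T_self (B.Tw_acyc_ge hKJ hnb l1 (fun r hr => hK r (by simp [hr])) hac i
    (hKJ (hK i hi)) _ le_rfl)

end PDF2aux

namespace Unfold

variable (u : Unfold M Y)

theorem v_demazure (Z : Finset S) (d : ℤ) (c : ArtinGroup M) (s : S) (p : List S)
    (h : UU M Y u.vv Z d c) (hs : s ∈ Z) (t : S) :
    u.vv (c * artinGen M s * wordA M p) d t ≤
      u.vv (c * artinGen M s * artinGen M s * wordA M p) d t := by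
  have hX := u.rep_ob c
  have hac : ∀ i ∈ u.JJ Z, ∀ n, d + 1 ≤ n → (u.ob c).Acyc i n :=
    fun i hi n hn => (hX.uu_iff Z d).1 h i hi n (by omega)
  have hK : ∀ i ∈ u.fib s, i ∈ u.KK Z := fun i hi => ⟨s, hs, u.mem_fib.1 hi⟩
  have h1 := hX.gen s
  rw [(h1.word p).vv_eq, ((h1.gen s).word p).vv_eq]
  refine u.ws_mono fun j _ => ?_
  exact PDF2_list (u.KK_sub_JJ Z) (u.nb_JJ Z) _ j (u.fib s) _ (u.nodup_fib s) hK (u.fib_nadj s)
    h1.good.fin (Obj.Tw_acyc_ge _ (u.KK_sub_JJ Z) (u.nb_JJ Z) _ hK hac)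
    (PDF2_ins (u.KK_sub_JJ Z) (u.nb_JJ Z) (u.nodup_fib s) hK (u.fib_nadj s) hac)

end Unfold

end Crest.Agent.R175
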