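import Crest.Agent.R175.PDU2

/-! Without heads all reduced words can be inverted inside the aisle. -/

set_option autoImplicit false
set_option linter.unusedSectionVars false

open Crest.GroupTheory
open scoped Classical

noncomputable section

namespace Crest.Agent.R175

variable {S : Type} [Fintype S] [DecidableEq S] {M : CoxeterMatrix S} {Y : Finset S}

theorem pdf3_tail {s : S} {p : List S} (h : M.toCoxeterSystem.IsReduced (s :: p)) :
    M.toCoxeterSystem.IsReduced p := by
  simpa using h.drop 1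

theorem pdf3_pos {s : S} {p : List S} (h : M.toCoxeterSystem.IsReduced (s :: p)) :
    0 ≤ rho M (M.toCoxeterSystem.wordProd p)⁻¹ (al s) := by
  refine rho_pos M ?_
  have h1 := h.eq
  rw [CoxeterSystem.wordProd_cons] at h1
  rw [len_inv_mul_simple, len_inv]
  have h2 := (pdf3_tail h).eq
  show M.toCoxeterSystem.length _ < M.toCoxeterSystem.length (M.toCoxeterSystem.simple s * _)
  rw [h1, h2]
  simp

namespace Unfold

variable (u : Unfold M Y)

theorem pdf3_ne {s : S} {i : u.I} (h : u.typ i ≠ some s) (b : Bool) :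
    ∀ x ∈ (u.fib s).map fun j => (j, b), x.1 ≠ i := by
  intro x hx e
  obtain ⟨j, hj, rfl⟩ := List.mem_map.1 hx
  exact h (e ▸ u.mem_fib.1 hj)

theorem pdf3_o (s : S) : u.typ u.o ≠ some s := by
  rw [(u.typ_none u.o).2 rfl]
  simp

theorem pdf3_step {X : Obj u.gph} (h : X.Fin) {d : ℤ} (ho : X.hd u.o d = 0) (s : S) :
    ∃ a : ℝ, 0 ≤ a ∧ u.wd (Obj.Tw (u.fib s) X) d = rs M s (u.wd X d) + a • al s := by
  have h1 := u.wd_up h s d
  rw [ho, Nat.cast_zero, mul_zero, add_zero] at h1
  refine ⟨_, sub_nonneg.2 h1, funext fun t => ?_⟩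
  rw [rs_apply]
  by_cases ht : t = s
  · subst ht
    simp [al]
  · rw [u.wd_Tw_ne X ht]
    simp [al, ht]

theorem pdf3_grow (d : ℤ) (p : List S) (hp : M.toCoxeterSystem.IsReduced p) :
    ∀ X : Obj u.gph, X.Fin → X.hd u.o d = 0 →
      rho M (M.toCoxeterSystem.wordProd p)⁻¹ (u.wd X d) ≤ u.wd (Obj.Tw (u.fw p) X) d := by
  induction p with
  | nil =>
    intro X _ _
    rw [CoxeterSystem.wordProd_nil, inv_one, map_one]
    exact le_rfl
  | cons s p ih =>
    intro X hX ho
    obtain ⟨a, ha, e⟩ := u.pdf3_step hX ho s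
    have h1 := ih (pdf3_tail hp) (Obj.Tw (u.fib s) X) (hX.Gw _)
      (by rw [Obj.hd_Gw_ne X _ (u.pdf3_ne (u.pdf3_o s) true), ho])
    rw [u.fw_cons, Obj.Tw_append]
    refine le_trans ?_ h1
    rw [e, map_add, map_smul, CoxeterSystem.wordProd_cons, mul_inv_rev, CoxeterSystem.inv_simple,
      map_mul, Module.End.mul_apply]
    have h2 : rho M (M.toCoxeterSystem.simple s) = rs M s := rho_simple M s
    rw [h2]
    exact le_add_of_nonneg_right (smul_nonneg ha (pdf3_pos hp))

theorem v_nohead (Z : Finset S) (d : ℤ) (c : ArtinGroup M) (J : Finset S) (l : List S)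
    (h : UU M Y u.vv Z d c) (hJ : J ⊆ Z)
    (hs : ∀ s ∈ J, UU M Y u.vv Z d (c * (artinGen M s)⁻¹)) (hl : InZ J l)
    (hr : M.toCoxeterSystem.IsReduced l) : UU M Y u.vv Z d (c * (wordA M l)⁻¹) := by
  induction l with
  | nil => rwa [wordA_nil, inv_one, mul_one]
  | cons r p ih =>
    have hp : InZ J p := fun x hx => hl x (List.mem_cons_of_mem _ hx)
    have hrJ : r ∈ J := hl r List.mem_cons_self
    have hX := u.rep_ob (c * (wordA M p)⁻¹)
    have hU := (hX.uu_iff Z d).1 (ih hp (pdf3_tail hr))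
    generalize u.ob (c * (wordA M p)⁻¹) = X at hX hU
    rw [wordA_cons, mul_inv_rev, ← mul_assoc]
    by_cases hall : ∀ i, u.typ i = some r → X.InSurj i d
    · refine ((hX.gen_inv r).uu_iff Z d).2 fun i hi n hn => ?_
      by_cases hir : u.typ i = some r
      · have hiK : i ∈ u.KK Z := ⟨r, hJ hrJ, hir⟩
        rw [acyc_Uw_fib hir]
        rcases eq_or_lt_of_le (show d + 1 ≤ n by omega) with rfl | hn'
        · exact (hall i hir).U_acyc fun j k hj => hU j (u.nb_JJ Z i hiK j k hj) _ hn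
        · exact X.U_acyc (hU i hi _ (by omega)) fun j k hj => hU j (u.nb_JJ Z i hiK j k hj) _ hn
      · exact (X.Gw_acyc_ne _ (u.pdf3_ne hir false) n).2 (hU i hi n hn)
    · exfalso
      push Not at hall
      obtain ⟨i₀, hi₀, hhead⟩ := hall
      obtain ⟨A, hA1, hA2⟩ := Obj.exists_head hhead
      have hQ : A.quo.Fin := hX.good.fin.quo A
      have hQ1 : ∀ i, i ≠ i₀ → A.quo.Acyc i d := fun i hi => by
        unfold Obj.Acyc
        rw [A.Z_quo, A.Bd_quo, hA1 i hi]
      have hQ2 : A.quo.hd i₀ d ≠ 0 := fun e => hA2 (by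
        have := (hQ.acyc_iff i₀ d).2 e
        unfold Obj.Acyc at this
        rwa [A.Z_quo, A.Bd_quo] at this)
      obtain ⟨ε, hε, e⟩ := u.ws_single (y := fun _ => 0) (y' := fun i => A.quo.hd i d) hi₀
        (fun i hi => (hQ1 i hi).hd) (Nat.pos_of_ne_zero hQ2)
      have e0 : u.ws (fun _ => 0) = 0 := funext fun t => u.ws_eq_zero.2 fun _ _ => rfl
      rw [e0, zero_add] at e
      have hg := u.pdf3_grow d p (pdf3_tail hr) A.quo hQ
        (hQ1 u.o fun e => u.pdf3_o r (e ▸ hi₀)).hd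
      have hB : u.Rep c (Obj.Tw (u.fw p) X) := by
        have := hX.word p
        rwa [inv_mul_cancel_right] at this
      have hφ := Hom.surj_Tw (u.fw p) A.proj (d := d) (fun i n _ => A.proj_surj i n)
        (fun i n hn => A.proj_inj i hn)
      have hac : ∀ i, (Obj.Tw (u.fw p) A.quo).Acyc i d := by
        refine ((hB.good.nil d).of_surj _ hφ).acyc_of_inSurj fun i => ?_
        by_cases hi : i ∈ u.KK J
        · obtain ⟨s, hsJ, his⟩ := hi
          have h1 := ((hB.gen_inv s).uu_iff Z d).1 (hs s hsJ) i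
            (u.KK_sub_JJ Z ⟨s, hJ hsJ, his⟩) (d + 1) (by omega)
          exact (Obj.inSurj_of_U_acyc ((acyc_Uw_fib his _ _).1 h1)).of_surj _ (hφ i)
        · refine Obj.Acyc.inSurj ((A.quo.Gw_acyc_ne _ ?_ d).2 (hQ1 i fun e => hi ⟨r, hrJ, e ▸ hi₀⟩))
          intro x hx e
          obtain ⟨j, hj, rfl⟩ := List.mem_map.1 hx
          exact hi (e ▸ u.fw_mem_KK hp j hj)
      have h0 : u.wd (Obj.Tw (u.fw p) A.quo) d = 0 :=
        funext fun t => u.ws_eq_zero.2 fun i _ => (hac i).hd
      have e' : u.wd A.quo d = ε • al r := e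
      rw [h0, e', map_smul] at hg
      have h2 := le_antisymm hg (smul_nonneg hε.le (pdf3_pos hr))
      exact rho_al_ne_zero M _ r ((smul_eq_zero.1 h2).resolve_left hε.ne')

end Unfold

end Crest.Agent.R175
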