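import Crest.Agent.R175.PDU2

/-! Quotients by pure submodules and pull back of pure submodules. -/

set_option autoImplicit false
set_option linter.unusedSectionVars false

open Crest.GroupTheory
open scoped Classical

noncomputable section

namespace Crest.Agent.R175

variable {S : Type} [Fintype S] [DecidableEq S] {M : CoxeterMatrix S} {Y : Finset S}

namespace Unfold

variable (u : Unfold M Y)

theorem sub_quot (Z : Finset S) (d : ℤ) (c : ArtinGroup M) (n : S → ℝ) (hn : n ∈ u.Sub c d Z) :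
    ∃ q : ArtinGroup M → S → ℝ, (∀ t ∈ Z, q 1 t = u.vv c d t - n t) ∧
    ∀ p, InZ Z p → (∀ t ∈ Z, q (wordA M p) t ≤ u.vv (c * wordA M p) d t) ∧ ∀ s ∈ Z,
      (∀ t ∈ Z, t ≠ s → q (wordA M p * artinGen M s) t = q (wordA M p) t) ∧
      q (wordA M p) s + ∑ t ∈ Z, cc M s t * q (wordA M p) t + bd M u.vv u.β Z d c s
        ≤ q (wordA M p * artinGen M s) s := by
  obtain ⟨X, hX, A, hp, rfl⟩ := hn
  have hF := hX.good.fin
  obtain ⟨q, hq⟩ : ∃ q : ArtinGroup M → S → ℝ, ∀ g Q, u.act g (cls A.quo) = cls Q →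
      q g = u.wd Q d :=
    ⟨fun g => u.wd (Quot.out (u.act g (cls A.quo))) d, fun g Q h => wd_cls ((cls_out _).trans h) d⟩
  have h1 : ∀ p, q (wordA M p) = u.wd (Obj.Tw (u.fw p) A.quo) d := fun p =>
    hq _ _ (u.act_word _ _)
  have h2 : ∀ p s, q (wordA M p * artinGen M s) =
      u.wd (Obj.Tw (u.fib s) (Obj.Tw (u.fw p) A.quo)) d := fun p s => hq _ _ (by
    rw [act_mul, act_word, u.act_gen s _ (u.nodup_fib s) fun _ => u.mem_fib])
  refine ⟨q, fun t _ => ?_, fun p hZ => ⟨fun t _ => ?_, fun s _ => ⟨fun t _ ht => ?_, ?_⟩⟩⟩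
  · rw [hX.vv_eq, eq_sub_iff_add_eq, hq 1 _ (u.act_one _), wd, wA, ← ws_add]
    exact u.ws_congr fun i _ => hF.hd_quo A i
  · rw [h1, (hX.word p).vv_eq]
    exact u.ws_mono fun i _ => (Hom.surj_Tw (u.fw p) A.proj (fun i n _ => A.proj_surj i n)
      (fun i n h => A.proj_inj i h) i).hd_le (hF.Gw _ i d) |>.2
  · simp only [h1, h2]
    exact u.wd_Tw_ne _ ht d
  · have h3 : ∀ i, i ∉ u.KK Z → (Obj.Tw (u.fw p) A.quo).hd i d = X.hd i d := fun i hi => by
      rw [← hF.hd_quo A i, hp i hi, add_zero]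
      refine Obj.hd_Gw_ne _ _ (fun x hx e => hi ?_) d
      obtain ⟨j, hj, rfl⟩ := List.mem_map.1 hx
      exact e ▸ u.fw_mem_KK hZ j hj
    have h4 := u.wd_up ((hF.quo A).Gw ((u.fw p).map fun i => (i, true))) s d
    rw [flow_apply, ← Finset.sum_add_sum_compl Z, h3 _ (u.o_notMem_KK Z), hX.good.hd_o] at h4
    have h5 : ∑ t ∈ Zᶜ, cc M s t * u.vv c d t =
        ∑ t ∈ Zᶜ, cc M s t * u.wd (Obj.Tw (u.fw p) A.quo) d t :=
      Finset.sum_congr rfl fun t ht => by
        rw [hX.vv_eq]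
        refine congrArg _ (u.ws_congr fun i hi => (h3 i ?_).symm)
        rintro ⟨s', hs', e⟩
        rw [hi, Option.some.injEq] at e
        exact Finset.mem_compl.1 ht (e ▸ hs')
    simp only [h1, h2, bd, h5]
    refine le_trans (le_of_eq ?_) h4
    split_ifs <;> simp only [Nat.cast_one, Nat.cast_zero, mul_one, mul_zero, add_assoc]

theorem PDF4_pull {I : Type} [Fintype I] [DecidableEq I] {G : Gph I} {e : ℤ} (l : List I)
    (hl : l.Nodup) (hn : ∀ i ∈ l, ∀ j ∈ l, ∀ k, ¬ G.adj i j k) {X : Obj G} (hX : X.Fin)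
    (A : X.SubM e) : ∃ B : (Obj.Uw l X).SubM e,
      (∀ j, j ∉ l → rdim (B.A j) ((Obj.Uw l X).Bd j e) = rdim (A.A j) (X.Bd j e)) ∧
      ∀ i ∈ l, (∑ x : I × Bool, if G.adj i x.1 x.2 then rdim (A.A x.1) (X.Bd x.1 e) else 0) ≤
        rdim (B.A i) ((Obj.Uw l X).Bd i e) + rdim (A.A i) (X.Bd i e) := by
  induction l generalizing X with
  | nil => exact ⟨A, fun _ _ => rfl, fun _ h => absurd h List.not_mem_nil⟩
  | cons r l ih =>
    obtain ⟨hr, hl⟩ := List.nodup_cons.1 hl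
    obtain ⟨C, c1, c2⟩ := hX.pullU A r
    obtain ⟨B, b1, b2⟩ := ih hl (fun i hi j hj => hn i (List.mem_cons_of_mem _ hi) j
      (List.mem_cons_of_mem _ hj)) (hX.U r) C
    refine ⟨B, fun j hj => (b1 j fun h => hj (List.mem_cons_of_mem _ h)).trans
      (c1 j fun h => hj (h ▸ List.mem_cons_self)), fun i hi => ?_⟩
    rcases List.mem_cons.1 hi with rfl | hi'
    · exact c2.trans (Nat.add_le_add_right (b1 i hr).ge _)
    · refine le_trans (le_of_eq (Finset.sum_congr rfl fun x _ => ?_)) ((b2 i hi').trans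
        (Nat.add_le_add_left (c1 i fun h => hr (h ▸ hi')).le _))
      split_ifs with h
      · exact (c1 _ fun e => hn i hi r List.mem_cons_self x.2 (e ▸ h)).symm
      · rfl

theorem sub_pull (Z : Finset S) (d : ℤ) (c : ArtinGroup M) (s : S) (n : S → ℝ) (hs : s ∈ Z)
    (hn : n ∈ u.Sub (c * artinGen M s) d Z) :
    ∃ h : ℝ, 0 ≤ h ∧ rs M s n + h • al s ∈ u.Sub c d Z := by
  obtain ⟨X, hX, A, hp, rfl⟩ := hn
  obtain ⟨B, h1, h2⟩ := PDF4_pull (u.fib s) (u.nodup_fib s) (u.fib_nadj s) hX.good.fin A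
  have h3 := hX.gen_inv s
  rw [mul_inv_cancel_right] at h3
  refine ⟨u.wA B s - rs M s (u.wA A) s, ?_, _, h3, B, fun i hi => ?_, funext fun t => ?_⟩
  · have h4 := u.ws_mono (t := s) fun i hi => h2 i (u.mem_fib.2 hi)
    rw [u.ws_nbr fun i => rdim (A.A i) (X.Bd i d), ws_add, hp _ (u.o_notMem_KK Z)] at h4
    simp only [rs_apply, al, wA, Pi.add_apply, Pi.smul_apply, Pi.single_eq_same, smul_eq_mul]
    simp only [Nat.cast_zero] at h4
    linarith
  · rw [h1 i fun h => hi ⟨s, hs, u.mem_fib.1 h⟩, hp i hi]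
  · rcases eq_or_ne t s with rfl | ht
    · simp [al]
    · simp only [rs_apply, al, Pi.add_apply, Pi.smul_apply, Pi.single_eq_of_ne ht, smul_zero,
        add_zero]
      refine u.ws_congr fun i hi => (h1 i fun h => ht ?_).symm
      exact Option.some.inj (hi.symm.trans (u.mem_fib.1 h))

end Unfold

end Crest.Agent.R175
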