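import Crest.Agent.R175.PDU2
import Crest.Agent.R175.PD11

/-! Infinite descending chains. -/

set_option autoImplicit false
set_option linter.unusedSectionVars false

open Crest.GroupTheory
open scoped Classical

noncomputable section

namespace Crest.Agent.R175

variable {S : Type} [Fintype S] [DecidableEq S] {M : CoxeterMatrix S} {Y : Finset S}

namespace Unfold

variable (u : Unfold M Y)

theorem v_chain (Z : Finset S) (d : ℤ) (w : M.Group) (sq : ℕ → S) (cs : ℕ → ArtinGroup M)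
    (hw : Longest M Z w) (hsq : ∀ n, sq n ∈ Z) (hfr : ∀ s ∈ Z, ∀ N, ∃ n, N ≤ n ∧ sq n = s)
    (hcs : ∀ n, cs (n + 1) = cs n * (artinGen M (sq n))⁻¹) (hU : ∀ n, UU M Y u.vv Z d (cs n)) :
    ∀ s ∈ Z, ∀ n t, u.vv (cs 0 * artinGen M s * (cs 0)⁻¹) n t = 0 := by
  have hX := u.rep_ob (cs 0)
  generalize u.ob (cs 0) = X at hX
  have hq : ∀ n, ∀ i ∈ u.fib (sq n), i ∈ u.KK Z := fun n i hi => ⟨_, hsq n, u.mem_fib.1 hi⟩
  have hrep : ∀ n, u.Rep (cs n) (seqU (fun n => u.fib (sq n)) X n) := fun n => by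
    induction n with
    | zero => exact hX
    | succ n ih => rw [hcs]; exact ih.gen_inv _
  have hoff : ∀ i, i ∉ u.KK Z → ∀ n m,
      (seqU (fun n => u.fib (sq n)) X n).Acyc i m ↔ X.Acyc i m := fun i hi n m => by
    induction n with
    | zero => rfl
    | succ n ih =>
      refine (Obj.Gw_acyc_ne _ _ (fun x hx e => hi ?_) m).trans ih
      obtain ⟨j, hj, rfl⟩ := List.mem_map.1 hx
      exact e ▸ hq n j hj
  obtain ⟨N, hN⟩ := hX.good.above
  obtain ⟨e, he⟩ := hX.good.below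
  obtain ⟨W, hW1, hW2⟩ := u.longest_Uw hw
  have key := chain_core (u.o_notMem_KK Z) X hX.brick e he W hW1 hW2 _ hq
    (fun i ⟨s, hs, hi⟩ N => (hfr s hs N).imp fun n ⟨h1, h2⟩ => ⟨h1, u.mem_fib.2 (h2 ▸ hi)⟩)
    (max d N) fun n i m hm => by
      by_cases hi : i ∈ u.KK Z
      · exact ((hrep n).uu_iff Z d).1 (hU n) i (u.KK_sub_JJ Z hi) m ((le_max_left _ _).trans_lt hm)
      · exact (hoff i hi n m).2 (hN i m ((le_max_right _ _).trans_lt hm))
  have hT : ∀ l : List u.I, (∀ i ∈ l, i ∈ u.KK Z) → cls (Obj.Tw l X) = cls X := fun l hl => by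
    induction l with
    | nil => rfl
    | cons r l ih =>
      have h1 : cls (X.T r) = cls X :=
        (congrArg (Cls.T r) (key r (hl r List.mem_cons_self))).symm.trans (cls_U_T X r)
      exact ((cls_Gw_iff _).2 h1).trans (ih fun i hi => hl i (List.mem_cons_of_mem _ hi))
  intro s hs n t
  have h1 : u.Rep (cs 0 * artinGen M s) X :=
    (hX.gen s).of_cls (hT _ fun i hi => ⟨s, hs, u.mem_fib.1 hi⟩).symm
  have h2 : u.Rep (cs 0 * artinGen M s * (cs 0)⁻¹) u.E :=
    h1.mul (by rw [show cls X = _ from hX, ← act_mul, mul_inv_cancel, act_one])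
  rw [h2.vv_eq]
  refine u.ws_eq_zero.2 fun i hi => (simple_hd _ _ _).trans (if_neg fun h => ?_)
  rw [(u.typ_none i).2 h.1] at hi
  cases hi

end Unfold

end Crest.Agent.R175
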