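import Crest.Agent.R175.PCUnf
import Crest.Agent.R175.PDF1
import Crest.Agent.R175.PDF2
import Crest.Agent.R175.PDF3
import Crest.Agent.R175.PDF4
import Crest.Agent.R175.PDF5

/-! The height data exist. -/

set_option autoImplicit false

open Crest.GroupTheory
open scoped Classical

namespace Crest.Agent.R175

variable {S : Type} [Fintype S] [DecidableEq S]

theorem exists_heightData (M : CoxeterMatrix S) (Y : Finset S) : Nonempty (HeightData M Y) := by
  obtain ⟨u⟩ := exists_unfold M Y
  exact ⟨{
    v := u.vv
    β := u.β
    D := u.DD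
    Sub := u.Sub
    v_nonneg := fun c n t => u.ws_nonneg _ t
    v_mem := fun c n t => u.ws_mem _ t
    D_fin := u.DD_fin
    v_ne := u.v_ne
    v_left := u.v_left
    v_one := u.v_one
    bdd := u.v_bdd
    β_pos := u.β_pos
    β_zero := u.β_zero
    up := u.v_up
    demazure := fun Z d c s p h hs _ t _ => u.v_demazure Z d c s p h hs t
    nohead := u.v_nohead
    kill := u.v_kill
    sub_supp := u.sub_supp
    sub_quot := fun Z d c n _ hn => u.sub_quot Z d c n hn
    sub_kink := u.sub_kink
    sub_pull := fun Z d c s n _ hs hn => u.sub_pull Z d c s n hs hn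
    sub_socle := fun Z d c n t _ hn ht => u.sub_socle Z d c n t hn ht
    chain := u.v_chain }⟩

end Crest.Agent.R175
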