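import Crest.Agent.R175.PD9
import Crest.Agent.R175.PC3

/-! The action of the Artin group on the classes of representations of the unfolded graph and the
weighted dimensions of the framed object. -/

set_option autoImplicit false
set_option linter.unusedSectionVars false

open Crest.GroupTheory
open scoped Classical

noncomputable section

namespace Crest.Agent.R175

variable {S : Type} [Fintype S] [DecidableEq S] {M : CoxeterMatrix S} {Y : Finset S}

namespace Unfold

variable (u : Unfold M Y)

/-- The unfolded graph. -/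
def gph : Gph u.I := ⟨u.adj, u.adj_symm, fun i k h => u.adj_typ i i k h rfl⟩

/-- The vertices of type `s`. -/
def fib (s : S) : List u.I := (Finset.univ.filter fun i => u.typ i = some s).toList

/-- The unfolded word. -/
def fw (l : List S) : List u.I := l.flatMap u.fib

theorem mem_fib {s : S} {i : u.I} : i ∈ u.fib s ↔ u.typ i = some s := by simp [fib]

theorem nodup_fib (s : S) : (u.fib s).Nodup := Finset.nodup_toList _

theorem fw_nil : u.fw [] = [] := rfl
theorem fw_cons (s : S) (l : List S) : u.fw (s :: l) = u.fib s ++ u.fw l := rfl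
theorem fw_append (l l' : List S) : u.fw (l ++ l') = u.fw l ++ u.fw l' := List.flatMap_append

theorem exists_phi : ∃ φ : ArtinGroup M →* (Equiv.Perm (Cls u.gph))ᵐᵒᵖ,
    ∀ s (l : List u.I), l.Nodup → (∀ i, i ∈ l ↔ u.typ i = some s) →
      φ (artinGen M s) = (l.map fun i => MulOpposite.op (permT i)).prod :=
  u.braid _ (fun i => MulOpposite.op (permT i))
    (fun i j h => by
      rw [← MulOpposite.op_mul, ← MulOpposite.op_mul, permT_comm (G := u.gph) h])
    (fun i j k h h' => by
      simp only [← MulOpposite.op_mul, ← mul_assoc]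
      rw [permT_braid (G := u.gph) h h'])

/-- The right action of the Artin group on the classes. -/
def act (g : ArtinGroup M) (ω : Cls u.gph) : Cls u.gph := (Classical.choose u.exists_phi g).unop ω

theorem act_one (ω : Cls u.gph) : u.act 1 ω = ω := by simp [act]

theorem act_mul (g h : ArtinGroup M) (ω : Cls u.gph) : u.act (g * h) ω = u.act h (u.act g ω) := by
  simp [act]

theorem act_gen (s : S) (l : List u.I) (hl : l.Nodup) (h : ∀ i, i ∈ l ↔ u.typ i = some s)
    (X : Obj u.gph) : u.act (artinGen M s) (cls X) = cls (Obj.Tw l X) := by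
  rw [act, Classical.choose_spec u.exists_phi s l hl h, prod_permT]

/-- The framed object. -/
def E : Obj u.gph := simple u.gph u.o

/-- `X` represents the framed object seen from the chamber `c`. -/
def Rep (c : ArtinGroup M) (X : Obj u.gph) : Prop := cls X = u.act c (cls u.E)

/-- A chosen representative. -/
def ob (c : ArtinGroup M) : Obj u.gph := Quot.out (u.act c (cls u.E))

theorem rep_ob (c : ArtinGroup M) : u.Rep c (u.ob c) := cls_out _

/-- Weighted sum over the vertices of type `t`. -/
def ws (y : u.I → ℕ) (t : S) : ℝ := ∑ i, if u.typ i = some t then u.lam i * (y i : ℝ) else 0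

/-- Weighted dimension vector of the cohomology. -/
def wd (X : Obj u.gph) (n : ℤ) : S → ℝ := u.ws fun i => X.hd i n

/-- Weighted dimension vector of a submodule. -/
def wA {X : Obj u.gph} {d : ℤ} (A : X.SubM d) : S → ℝ := u.ws fun i => rdim (A.A i) (X.Bd i d)

/-- Weights of the edges to the framing vertex. -/
def β (s : S) : ℝ := ∑ i, ∑ k : Bool, if u.typ i = some s ∧ u.adj i u.o k then u.lam i else 0

/-- The heights. -/
def vv (c : ArtinGroup M) (n : ℤ) : S → ℝ := u.wd (u.ob c) n

/-- The possible values of the heights. -/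
def DD : Set ℝ := {x | ∃ y : u.I → ℕ, x = ∑ i, u.lam i * (y i : ℝ)}

/-- The vertices with type in `Z`. -/
def KK (Z : Finset S) : Set u.I := {i | ∃ s ∈ Z, u.typ i = some s}

/-- The vertices with type in `Z` and their neighbours. -/
def JJ (Z : Finset S) : Set u.I := {i | i ∈ u.KK Z ∨ ∃ j ∈ u.KK Z, ∃ k, u.adj j i k}

/-- Dimension vectors of the `Z`-pure submodules. -/
def Sub (c : ArtinGroup M) (d : ℤ) (Z : Finset S) : Set (S → ℝ) :=
  {n | ∃ X, u.Rep c X ∧ ∃ A : X.SubM d,
    (∀ i, i ∉ u.KK Z → rdim (A.A i) (X.Bd i d) = 0) ∧ n = u.wA A}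

/-- The finiteness properties shared by all objects of the orbit. -/
structure Good (X : Obj u.gph) : Prop where
  fin : X.Fin
  nil : ∀ n, X.NilAt n
  above : ∃ N : ℤ, ∀ i n, N < n → X.Acyc i n
  below : ∃ N : ℤ, ∀ i n, n < N → X.Acyc i n
  hd_o : ∀ n, X.hd u.o n = if n = 0 then 1 else 0

theorem KK_sub_JJ (Z : Finset S) : u.KK Z ⊆ u.JJ Z := fun _ h => Or.inl h

theorem nb_JJ (Z : Finset S) : ∀ i ∈ u.KK Z, ∀ j k, u.gph.adj i j k → j ∈ u.JJ Z :=
  fun i hi _ k h => Or.inr ⟨i, hi, k, h⟩

theorem o_notMem_KK (Z : Finset S) : u.o ∉ u.KK Z := by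
  rintro ⟨s, -, h⟩
  rw [(u.typ_none u.o).2 rfl] at h
  cases h

end Unfold

end Crest.Agent.R175
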