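import Crest.Agent.R175.PDU0

/-! Representatives along words. -/

set_option autoImplicit false
set_option linter.unusedSectionVars false

open Crest.GroupTheory
open scoped Classical

noncomputable section

namespace Crest.Agent.R175

variable {S : Type} [Fintype S] [DecidableEq S] {M : CoxeterMatrix S} {Y : Finset S}

namespace Unfold

variable (u : Unfold M Y)

theorem fib_nadj (s : S) : ∀ i ∈ u.fib s, ∀ j ∈ u.fib s, ∀ k, ¬ u.gph.adj i j k := by
  intro i hi j hj k h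
  exact u.adj_typ i j k h ((u.mem_fib.1 hi).trans (u.mem_fib.1 hj).symm)

theorem fw_mem_KK {Z : Finset S} {l : List S} (h : InZ Z l) : ∀ i ∈ u.fw l, i ∈ u.KK Z := by
  intro i hi
  obtain ⟨s, hs, h'⟩ := List.mem_flatMap.1 hi
  exact ⟨s, h s hs, u.mem_fib.1 h'⟩

theorem act_gen_inv (s : S) (l : List u.I) (hl : l.Nodup) (h : ∀ i, i ∈ l ↔ u.typ i = some s)
    (X : Obj u.gph) : u.act (artinGen M s)⁻¹ (cls X) = cls (Obj.Uw l X) := by
  have h1 := u.act_gen s l.reverse (List.nodup_reverse.2 hl)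
    (fun i => by rw [List.mem_reverse, h]) (Obj.Uw l X)
  have h2 := cls_Tw_Uw l.reverse X
  rw [List.reverse_reverse] at h2
  rw [← h2, ← h1, ← act_mul, mul_inv_cancel, act_one]

theorem act_word (l : List S) (X : Obj u.gph) :
    u.act (wordA M l) (cls X) = cls (Obj.Tw (u.fw l) X) := by
  induction l generalizing X with
  | nil => rw [wordA_nil, act_one, fw_nil, Obj.Tw_nil]
  | cons s l ih =>
    rw [wordA_cons, act_mul, u.act_gen s _ (u.nodup_fib s) (fun _ => u.mem_fib), ih, fw_cons,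
      Obj.Tw_append]

theorem act_word_inv (l : List S) (X : Obj u.gph) :
    u.act (wordA M l)⁻¹ (cls X) = cls (Obj.Uw (u.fw l.reverse) X) := by
  induction l with
  | nil => rw [wordA_nil, inv_one, act_one, List.reverse_nil, fw_nil, Obj.Uw_nil]
  | cons s l ih =>
    rw [wordA_cons, mul_inv_rev, act_mul, ih,
      u.act_gen_inv s _ (u.nodup_fib s) (fun _ => u.mem_fib), List.reverse_cons, fw_append, fw_cons,
      fw_nil, List.append_nil, Obj.Uw_append]

/-- A fibre can be enumerated starting with any of its vertices. -/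
theorem exists_fib_cons {s : S} {r : u.I} (h : u.typ r = some s) : ∃ l : List u.I,
    (r :: l).Nodup ∧ ∀ i, i ∈ r :: l ↔ u.typ i = some s := by
  have hp := List.perm_cons_erase (u.mem_fib.2 h)
  exact ⟨(u.fib s).erase r, hp.nodup_iff.1 (u.nodup_fib s),
    fun i => by rw [← hp.mem_iff, mem_fib]⟩

theorem PDU1_ne (s : S) (b : Bool) : ∀ x ∈ (u.fib s).map fun i => (i, b), x.1 ≠ u.o := by
  intro x hx h
  obtain ⟨i, hi, rfl⟩ := List.mem_map.1 hx
  have h1 := u.mem_fib.1 hi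
  rw [(u.typ_none i).2 h] at h1
  cases h1

theorem exists_Gw (g : ArtinGroup M) : ∃ l : List (u.I × Bool), (∀ x ∈ l, x.1 ≠ u.o) ∧
    ∀ X : Obj u.gph, u.act g (cls X) = cls (Obj.Gw l X) := by
  have hg : g ∈ Subgroup.closure (Set.range (PresentedGroup.of : S → ArtinGroup M)) := by
    rw [PresentedGroup.closure_range_of]
    exact Subgroup.mem_top g
  induction hg using Subgroup.closure_induction'' with
  | mem x hx =>
    obtain ⟨s, rfl⟩ := hx
    exact ⟨_, u.PDU1_ne s true, u.act_gen s _ (u.nodup_fib s) fun _ => u.mem_fib⟩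
  | inv_mem x hx =>
    obtain ⟨s, rfl⟩ := hx
    exact ⟨_, u.PDU1_ne s false, u.act_gen_inv s _ (u.nodup_fib s) fun _ => u.mem_fib⟩
  | one => exact ⟨[], by simp, fun X => u.act_one _⟩
  | mul x y _ _ hx hy =>
    obtain ⟨l, a1, a2⟩ := hx
    obtain ⟨l', b1, b2⟩ := hy
    refine ⟨l ++ l', fun z hz => (List.mem_append.1 hz).elim (a1 z) (b1 z), fun X => ?_⟩
    rw [act_mul, a2, b2, Obj.Gw_append]

variable {u}

theorem Rep.of_cls {c : ArtinGroup M} {X X' : Obj u.gph} (h : u.Rep c X) (h' : cls X' = cls X) :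
    u.Rep c X' := h'.trans h

theorem Rep.cls_eq {c : ArtinGroup M} {X X' : Obj u.gph} (h : u.Rep c X) (h' : u.Rep c X') :
    cls X = cls X' := h.trans h'.symm

theorem Rep.mul {c g : ArtinGroup M} {X X' : Obj u.gph} (h : u.Rep c X)
    (h' : u.act g (cls X) = cls X') : u.Rep (c * g) X' := by
  unfold Rep at h ⊢
  rw [act_mul, ← h, h']

theorem Rep.gen {c : ArtinGroup M} {X : Obj u.gph} (h : u.Rep c X) (s : S) :
    u.Rep (c * artinGen M s) (Obj.Tw (u.fib s) X) :=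
  h.mul (u.act_gen s _ (u.nodup_fib s) (fun _ => u.mem_fib) X)

theorem Rep.gen_inv {c : ArtinGroup M} {X : Obj u.gph} (h : u.Rep c X) (s : S) :
    u.Rep (c * (artinGen M s)⁻¹) (Obj.Uw (u.fib s) X) :=
  h.mul (u.act_gen_inv s _ (u.nodup_fib s) (fun _ => u.mem_fib) X)

theorem Rep.word {c : ArtinGroup M} {X : Obj u.gph} (h : u.Rep c X) (l : List S) :
    u.Rep (c * wordA M l) (Obj.Tw (u.fw l) X) :=
  h.mul (u.act_word l X)

theorem Good.of_cls {X X' : Obj u.gph} (h : u.Good X) (h' : cls X = cls X') : u.Good X' := by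
  obtain ⟨N, hN⟩ := h.above
  obtain ⟨N', hN'⟩ := h.below
  exact ⟨(cls_fin h').1 h.fin, fun n => (cls_nil h' n).1 (h.nil n),
    ⟨N, fun i n hn => (cls_acyc h' i n).1 (hN i n hn)⟩,
    ⟨N', fun i n hn => (cls_acyc h' i n).1 (hN' i n hn)⟩,
    fun n => (cls_hd h' _ n).symm.trans (h.hd_o n)⟩

theorem Rep.good {c : ArtinGroup M} {X : Obj u.gph} (h : u.Rep c X) : u.Good X := by
  obtain ⟨l, h1, h2⟩ := u.exists_Gw c
  have h3 : u.Good (Obj.Gw l u.E) := by
    refine ⟨(simple_fin u.o).Gw l, fun n => (simple_nil u.o n).Gw l,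
      Obj.Gw_bdd_above _ l ⟨0, fun i n hn => simple_acyc fun h0 => hn.ne' h0.2⟩,
      Obj.Gw_bdd_below _ l ⟨0, fun i n hn => simple_acyc fun h0 => hn.ne h0.2⟩, fun n => ?_⟩
    rw [Obj.hd_Gw_ne _ l h1, E, simple_hd]
    simp
  exact h3.of_cls ((h2 u.E).symm.trans h.symm)

/-- The object is carried back to the simple object by a word avoiding the framing vertex. -/
theorem Rep.brick {c : ArtinGroup M} {X : Obj u.gph} (h : u.Rep c X) :
    ∃ l : List (u.I × Bool), (∀ x ∈ l, x.1 ≠ u.o) ∧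
      ∀ i, i ≠ u.o → ∀ n, (Obj.Gw l X).Acyc i n := by
  obtain ⟨l, h1, h2⟩ := u.exists_Gw c⁻¹
  have h3 : cls (Obj.Gw l X) = cls u.E := by
    unfold Rep at h
    rw [← h2, h, ← act_mul, mul_inv_cancel, act_one]
  exact ⟨l, h1, fun i hi n => (cls_acyc h3 i n).2 (simple_acyc fun h0 => hi h0.1)⟩

theorem wd_cls {X X' : Obj u.gph} (h : cls X = cls X') (n : ℤ) : u.wd X n = u.wd X' n := by
  unfold wd
  simp only [cls_hd h]

theorem Rep.vv_eq {c : ArtinGroup M} {X : Obj u.gph} (h : u.Rep c X) (n : ℤ) :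
    u.vv c n = u.wd X n :=
  wd_cls ((u.rep_ob c).cls_eq h) n

theorem PDU1_fib {s : S} {i : u.I} (h : u.typ i = some s) : ∃ l : List u.I,
    (∀ b : Bool, ∀ x ∈ l.map fun j => (j, b), x.1 ≠ i) ∧
      (∀ X : Obj u.gph, cls (Obj.Tw (u.fib s) X) = cls (Obj.Tw l (X.T i))) ∧
      ∀ X : Obj u.gph, cls (Obj.Uw (u.fib s) X) = cls (Obj.Uw l (X.U i)) := by
  obtain ⟨l, h1, h2⟩ := u.exists_fib_cons h
  refine ⟨l, fun b x hx e => ?_, fun X => ?_, fun X => ?_⟩
  · obtain ⟨j, hj, rfl⟩ := List.mem_map.1 hx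
    exact (List.nodup_cons.1 h1).1 (e ▸ hj)
  · exact (u.act_gen s _ (u.nodup_fib s) (fun _ => u.mem_fib) X).symm.trans (u.act_gen s _ h1 h2 X)
  · exact (u.act_gen_inv s _ (u.nodup_fib s) (fun _ => u.mem_fib) X).symm.trans
      (u.act_gen_inv s _ h1 h2 X)

/-- Within a fibre the twists do not interact. -/
theorem hd_Tw_fib {s : S} {i : u.I} (h : u.typ i = some s) (X : Obj u.gph) (n : ℤ) :
    (Obj.Tw (u.fib s) X).hd i n = (X.T i).hd i n := by
  obtain ⟨l, h1, h2, -⟩ := PDU1_fib h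
  rw [cls_hd (h2 X), Obj.hd_Gw_ne _ _ (h1 true)]

theorem acyc_Tw_fib {s : S} {i : u.I} (h : u.typ i = some s) (X : Obj u.gph) (n : ℤ) :
    (Obj.Tw (u.fib s) X).Acyc i n ↔ (X.T i).Acyc i n := by
  obtain ⟨l, h1, h2, -⟩ := PDU1_fib h
  rw [cls_acyc (h2 X), Obj.Gw_acyc_ne _ _ (h1 true)]

theorem acyc_Uw_fib {s : S} {i : u.I} (h : u.typ i = some s) (X : Obj u.gph) (n : ℤ) :
    (Obj.Uw (u.fib s) X).Acyc i n ↔ (X.U i).Acyc i n := by
  obtain ⟨l, h1, -, h2⟩ := PDU1_fib h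
  rw [cls_acyc (h2 X), Obj.Gw_acyc_ne _ _ (h1 false)]

variable (u)

/-- The Garside word can be rewritten to begin with any vertex of the context. -/
theorem longest_Tw {Z : Finset S} {w : M.Group} (hw : Longest M Z w) : ∃ W : List u.I,
    (∀ i ∈ W, i ∈ u.KK Z) ∧ (∀ A : Obj u.gph, u.act (lft M w) (cls A) = cls (Obj.Tw W A)) ∧
    ∀ r ∈ u.KK Z, ∃ W' : List u.I, ∀ A : Obj u.gph,
      cls (Obj.Tw W A) = cls (Obj.Tw (r :: W') A) := by
  obtain ⟨l, -, h2, -, h4⟩ := exists_reduced_inZ M hw.1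
  have h5 : ∀ A : Obj u.gph, u.act (lft M w) (cls A) = cls (Obj.Tw (u.fw l) A) := fun A => by
    rw [h4, act_word]
  refine ⟨u.fw l, u.fw_mem_KK h2, h5, ?_⟩
  rintro r ⟨s, hs, hr⟩
  obtain ⟨l₀, a1, a2⟩ := u.exists_fib_cons hr
  obtain ⟨l', hl'⟩ : ∃ l', lft M (M.simple s * w) = wordA M l' := ⟨_, rfl⟩
  refine ⟨l₀ ++ u.fw l', fun A => ?_⟩
  rw [← h5, lft_eq_mul_of_left M (hw.2 s hs), hl', act_mul, u.act_gen s _ a1 a2, act_word,
    ← Obj.Tw_append, List.cons_append]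

theorem longest_Uw {Z : Finset S} {w : M.Group} (hw : Longest M Z w) : ∃ W : List u.I,
    (∀ i ∈ W, i ∈ u.KK Z) ∧ ∀ r ∈ u.KK Z, ∃ W' : List u.I, ∀ A : Obj u.gph,
      cls (Obj.Uw W A) = cls (Obj.Uw (r :: W') A) := by
  obtain ⟨l, -, h2, -, h4⟩ := exists_reduced_inZ M hw.1
  refine ⟨u.fw l.reverse, u.fw_mem_KK fun x hx => h2 x (List.mem_reverse.1 hx), ?_⟩
  rintro r ⟨s, hs, hr⟩
  obtain ⟨l₀, a1, a2⟩ := u.exists_fib_cons hr
  obtain ⟨l', hl'⟩ : ∃ l', lft M (w * M.simple s) = wordA M l' := ⟨_, rfl⟩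
  refine ⟨l₀ ++ u.fw l'.reverse, fun A => ?_⟩
  rw [← act_word_inv, ← h4, lft_eq_mul_of_right M (hw.right M hs), hl', mul_inv_rev, act_mul,
    u.act_gen_inv s _ a1 a2, act_word_inv, ← Obj.Uw_append, List.cons_append]

end Unfold

end Crest.Agent.R175
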