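import Crest.Agent.R175.PDU1

/-! Weighted dimensions. -/

set_option autoImplicit false
set_option linter.unusedSectionVars false

open Crest.GroupTheory
open scoped Classical

noncomputable section

namespace Crest.Agent.R175

variable {S : Type} [Fintype S] [DecidableEq S] {M : CoxeterMatrix S} {Y : Finset S}

namespace Unfold

variable (u : Unfold M Y)

theorem ws_nonneg (y : u.I → ℕ) (t : S) : 0 ≤ u.ws y t := by
  refine Finset.sum_nonneg fun i _ => ?_
  split_ifs
  · exact mul_nonneg (u.lam_pos i).le (Nat.cast_nonneg _)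
  · exact le_rfl

theorem ws_mono {y y' : u.I → ℕ} {t : S} (h : ∀ i, u.typ i = some t → y i ≤ y' i) :
    u.ws y t ≤ u.ws y' t := by
  refine Finset.sum_le_sum fun i _ => ?_
  split_ifs with hi
  · exact mul_le_mul_of_nonneg_left (Nat.cast_le.2 (h i hi)) (u.lam_pos i).le
  · exact le_rfl

theorem ws_congr {y y' : u.I → ℕ} {t : S} (h : ∀ i, u.typ i = some t → y i = y' i) :
    u.ws y t = u.ws y' t :=
  le_antisymm (u.ws_mono fun i hi => (h i hi).le) (u.ws_mono fun i hi => (h i hi).ge)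

theorem ws_add (y y' : u.I → ℕ) (t : S) : u.ws (fun i => y i + y' i) t = u.ws y t + u.ws y' t := by
  rw [ws, ws, ws, ← Finset.sum_add_distrib]
  refine Finset.sum_congr rfl fun i _ => ?_
  split_ifs
  · rw [Nat.cast_add, mul_add]
  · rw [add_zero]

theorem ws_eq_zero {y : u.I → ℕ} {t : S} : u.ws y t = 0 ↔ ∀ i, u.typ i = some t → y i = 0 := by
  rw [ws, Finset.sum_eq_zero_iff_of_nonneg]
  · refine ⟨fun h i hi => ?_, fun h i _ => ?_⟩
    · have h1 := h i (Finset.mem_univ i)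
      rw [if_pos hi] at h1
      exact_mod_cast (mul_eq_zero.1 h1).resolve_left (u.lam_pos i).ne'
    · split_ifs with hi
      · rw [h i hi, Nat.cast_zero, mul_zero]
      · rfl
  · intro i _
    split_ifs
    · exact mul_nonneg (u.lam_pos i).le (Nat.cast_nonneg _)
    · exact le_rfl

theorem ws_mem (y : u.I → ℕ) (t : S) : u.ws y t ∈ u.DD := by
  refine ⟨fun i => if u.typ i = some t then y i else 0, Finset.sum_congr rfl fun i _ => ?_⟩
  by_cases hi : u.typ i = some t <;> simp [hi]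

theorem DD_fin (R : ℝ) : (u.DD ∩ Set.Iic R).Finite := by
  have h : (Set.pi Set.univ fun i : u.I => Set.Iic ⌊R / u.lam i⌋₊).Finite :=
    Set.Finite.pi fun i => Set.finite_Iic _
  refine (h.image fun y : u.I → ℕ => ∑ i, u.lam i * (y i : ℝ)).subset ?_
  rintro x ⟨⟨y, rfl⟩, hx⟩
  refine ⟨y, fun i _ => Nat.le_floor ?_, rfl⟩
  rw [le_div_iff₀' (u.lam_pos i)]
  exact le_trans (Finset.single_le_sum (f := fun i => u.lam i * (y i : ℝ))
    (fun j _ => mul_nonneg (u.lam_pos j).le (Nat.cast_nonneg _)) (Finset.mem_univ i)) hx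

/-- Changing one coordinate. -/
theorem ws_single {y y' : u.I → ℕ} {r : u.I} {s : S} (hr : u.typ r = some s)
    (h : ∀ i, i ≠ r → y' i = y i) (h' : y r < y' r) :
    ∃ ε : ℝ, 0 < ε ∧ u.ws y' = u.ws y + ε • al s := by
  refine ⟨u.lam r * ((y' r : ℝ) - y r), mul_pos (u.lam_pos r) (sub_pos.2 (Nat.cast_lt.2 h')), ?_⟩
  funext t
  have e : u.ws y' t - u.ws y t = if u.typ r = some t then u.lam r * ((y' r : ℝ) - y r) else 0 := by
    rw [ws, ws, ← Finset.sum_sub_distrib, Finset.sum_eq_single_of_mem r (Finset.mem_univ r)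
      fun i _ hi => by rw [h i hi, sub_self]]
    split_ifs
    · ring
    · rw [sub_self]
  rw [Pi.add_apply, Pi.smul_apply, al, Pi.single_apply, smul_eq_mul, ← sub_eq_iff_eq_add', e, hr]
  by_cases ht : t = s
  · rw [if_pos ht, if_pos (by rw [ht]), mul_one]
  · rw [if_neg ht, if_neg fun hh => ht (Option.some.inj hh).symm, mul_zero]

/-- The weights are Perron-Frobenius vectors. -/
theorem ws_nbr (y : u.I → ℕ) (s : S) :
    u.ws (fun i => ∑ e : u.I × Bool, if u.gph.adj i e.1 e.2 then y e.1 else 0) s =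
      2 * u.ws y s + flow M s (u.ws y) + u.β s * y u.o := by
  have hL : u.ws (fun i => ∑ e : u.I × Bool, if u.gph.adj i e.1 e.2 then y e.1 else 0) s =
      ∑ j, (∑ i, ∑ k : Bool, if u.typ i = some s ∧ u.adj i j k then u.lam i else 0) * (y j : ℝ) := by
    simp only [Finset.sum_mul]
    rw [Finset.sum_comm, ws]
    refine Finset.sum_congr rfl fun i _ => ?_
    split_ifs with hi
    · rw [Fintype.sum_prod_type]
      push_cast
      simp only [Finset.mul_sum]
      refine Finset.sum_congr rfl fun j _ => Finset.sum_congr rfl fun k _ => ?_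
      by_cases ha : u.adj i j k
      · rw [if_pos (show u.gph.adj i j k from ha), if_pos ⟨hi, ha⟩]
      · rw [if_neg (show ¬ u.gph.adj i j k from ha), if_neg fun hh => ha hh.2, mul_zero, zero_mul]
    · refine (Finset.sum_eq_zero fun j _ => Finset.sum_eq_zero fun k _ => ?_).symm
      rw [if_neg fun hh => hi hh.1, zero_mul]
  have hO : u.β s * y u.o = ∑ j, if j = u.o then u.β s * (y j : ℝ) else 0 := by simp
  rw [hL, hO, flow_apply]
  simp only [ws, Finset.mul_sum]
  rw [Finset.sum_comm (s := (Finset.univ : Finset S)), ← Finset.sum_add_distrib,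
    ← Finset.sum_add_distrib]
  refine Finset.sum_congr rfl fun j _ => ?_
  rcases hj : u.typ j with _ | t
  · obtain rfl := (u.typ_none j).1 hj
    simp [β]
  · have hjo : j ≠ u.o := fun hh => by
      rw [(u.typ_none j).2 hh] at hj
      cases hj
    rw [if_neg hjo, add_zero, Finset.sum_eq_single_of_mem t (Finset.mem_univ t)
      fun t' _ ht => by rw [if_neg fun hh => ht (Option.some.inj hh).symm, mul_zero], if_pos rfl]
    by_cases ht : s = t
    · subst ht
      rw [if_pos rfl, cc_self, Finset.sum_eq_zero, zero_mul]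
      · ring
      · refine fun i _ => Finset.sum_eq_zero fun k _ => if_neg fun hh => ?_
        exact u.adj_typ i j k hh.2 (hh.1.trans hj.symm)
    · rw [if_neg fun hh => ht (Option.some.inj hh).symm, u.weight s t j ht hj]
      ring

theorem β_pos (s : S) (h : s ∉ Y) : 0 < u.β s := by
  obtain ⟨i, k, hi⟩ := (u.adj_o s).2 h
  have h0 : ∀ i k, 0 ≤ if u.typ i = some s ∧ u.adj i u.o k then u.lam i else 0 := by
    intro i k
    split_ifs
    exacts [(u.lam_pos i).le, le_rfl]
  refine Finset.sum_pos' (fun i _ => Finset.sum_nonneg fun k _ => h0 i k) ⟨i, Finset.mem_univ i,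
    Finset.sum_pos' (fun k _ => h0 i k) ⟨k, Finset.mem_univ k, ?_⟩⟩
  rw [if_pos hi]
  exact u.lam_pos i

theorem β_zero (s : S) (h : s ∈ Y) : u.β s = 0 :=
  Finset.sum_eq_zero fun i _ => Finset.sum_eq_zero fun k _ =>
    if_neg fun hh => (u.adj_o s).1 ⟨i, k, hh⟩ h

theorem wd_Tw_ne (X : Obj u.gph) {s t : S} (h : t ≠ s) (n : ℤ) :
    u.wd (Obj.Tw (u.fib s) X) n t = u.wd X n t := by
  refine u.ws_congr fun i hi => X.hd_Gw_ne _ (fun x hx => ?_) n
  obtain ⟨j, hj, rfl⟩ := List.mem_map.1 hx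
  rintro (rfl : j = i)
  exact h (Option.some.inj (hi.symm.trans (u.mem_fib.1 hj)))

theorem wd_up {X : Obj u.gph} (h : X.Fin) (s : S) (n : ℤ) :
    u.wd X n s + flow M s (u.wd X n) + u.β s * X.hd u.o n ≤ u.wd (Obj.Tw (u.fib s) X) n s := by
  have h1 := u.ws_nbr (fun i => X.hd i n) s
  have h2 := u.ws_add (fun i => (Obj.Tw (u.fib s) X).hd i n) (fun i => X.hd i n) s
  have h3 := u.ws_mono (t := s)
    (y := fun i => ∑ e : u.I × Bool, if u.gph.adj i e.1 e.2 then X.hd e.1 n else 0)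
    (y' := fun i => (Obj.Tw (u.fib s) X).hd i n + X.hd i n)
    (fun i hi => by rw [hd_Tw_fib hi]; exact h.T_up i n)
  unfold wd
  linarith

theorem wd_up_eq {X : Obj u.gph} (h : X.Fin) (s : S) (n : ℤ)
    (h1 : ∀ i, u.typ i = some s → X.Acyc i (n + 1))
    (h2 : ∀ i, u.typ i = some s → X.Soc 1 i n ≤ X.Bd i n) :
    u.wd (Obj.Tw (u.fib s) X) n s ≤ u.wd X n s + flow M s (u.wd X n) + u.β s * X.hd u.o n := by
  have h0 := u.ws_nbr (fun i => X.hd i n) s
  have h4 := u.ws_add (fun i => (Obj.Tw (u.fib s) X).hd i n) (fun i => X.hd i n) s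
  have h3 := u.ws_mono (t := s)
    (y' := fun i => ∑ e : u.I × Bool, if u.gph.adj i e.1 e.2 then X.hd e.1 n else 0)
    (y := fun i => (Obj.Tw (u.fib s) X).hd i n + X.hd i n)
    (fun i hi => by rw [hd_Tw_fib hi]; exact h.T_up_eq (h1 i hi) (h2 i hi))
  unfold wd
  linarith

variable {u}

theorem Rep.pred_eq {c : ArtinGroup M} {X : Obj u.gph} (h : u.Rep c X) (d : ℤ) (s : S) :
    pred M u.vv u.β d c s = u.wd X d s + flow M s (u.wd X d) + u.β s * X.hd u.o d := by
  unfold pred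
  rw [h.vv_eq, h.good.hd_o]
  split_ifs <;> simp

theorem Rep.low_iff {c : ArtinGroup M} {X : Obj u.gph} (h : u.Rep c X) (d : ℤ) (t : S) :
    Low M u.vv c d t ↔ ∀ i, u.typ i = some t → ∀ n, d < n → X.Acyc i n := by
  unfold Low
  simp only [h.vv_eq, wd, u.ws_eq_zero, h.good.fin.acyc_iff]
  exact ⟨fun H i hi n hn => H n hn i hi, fun H n hn i hi => H i hi n hn⟩

theorem PDU2_adj_iff {s t : S} (hst : s ≠ t) {i : u.I} (hi : u.typ i = some t) :
    Adj M s t ↔ ∃ j k, u.typ j = some s ∧ u.adj j i k := by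
  have hw := u.weight s t i hst hi
  constructor
  · intro ha
    by_contra hcon
    push Not at hcon
    rw [Finset.sum_eq_zero fun j _ => Finset.sum_eq_zero fun k _ =>
      if_neg fun hh => hcon j k hh.1 hh.2] at hw
    have := mul_pos (lt_of_lt_of_le one_pos (one_le_cc M ha)) (u.lam_pos i)
    linarith
  · rintro ⟨j, k, hj, hk⟩
    by_contra hna
    rw [cc_eq_zero M hst hna, zero_mul] at hw
    have hnn : ∀ (j : u.I) (k : Bool),
        0 ≤ if u.typ j = some s ∧ u.adj j i k then u.lam j else 0 := fun j k => by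
      split_ifs
      · exact (u.lam_pos j).le
      · exact le_rfl
    have h1 := (Finset.sum_eq_zero_iff_of_nonneg fun j _ =>
      Finset.sum_nonneg fun k _ => hnn j k).1 hw j (Finset.mem_univ _)
    have h2 := (Finset.sum_eq_zero_iff_of_nonneg fun k _ => hnn j k).1 h1 k (Finset.mem_univ _)
    rw [if_pos ⟨hj, hk⟩] at h2
    exact (u.lam_pos j).ne' h2

theorem Rep.frz_iff {c : ArtinGroup M} {X : Obj u.gph} (h : u.Rep c X) (Z : Finset S) (d : ℤ) :
    Frz M Y u.vv Z d c ↔ ∀ i ∈ u.JJ Z, i ∉ u.KK Z → ∀ n, d < n → X.Acyc i n := by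
  constructor
  · rintro ⟨h1, h2⟩ i hi hK n hn
    obtain ⟨j, ⟨s, hs, hj⟩, k, hk⟩ := hi.resolve_left hK
    cases ht : u.typ i with
    | none =>
      obtain rfl := (u.typ_none i).1 ht
      have h3 := h2 s hs ((u.adj_o s).1 ⟨j, k, hj, hk⟩)
      rw [h.good.fin.acyc_iff, h.good.hd_o, if_neg (by omega)]
    | some t =>
      have htZ : t ∉ Z := fun hh => hK ⟨t, hh, ht⟩
      have hst : s ≠ t := fun hh => htZ (hh ▸ hs)
      exact (h.low_iff d t).1 (h1 s hs t htZ ((PDU2_adj_iff hst ht).2 ⟨j, k, hj, hk⟩)) i ht n hn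
  · intro H
    refine ⟨fun s hs t ht ha => (h.low_iff d t).2 fun i hi => ?_, fun s hs hY => ?_⟩
    · obtain ⟨j, k, hj, hk⟩ := (PDU2_adj_iff ha.1 hi).1 ha
      refine H i (Or.inr ⟨j, ⟨s, hs, hj⟩, k, hk⟩) ?_
      rintro ⟨t', ht', hi'⟩
      exact ht (Option.some.inj (hi'.symm.trans hi) ▸ ht')
    · obtain ⟨j, k, hj, hk⟩ := (u.adj_o s).2 hY
      by_contra hd
      have h3 := H u.o (Or.inr ⟨j, ⟨s, hs, hj⟩, k, hk⟩) (u.o_notMem_KK Z) 0 (by omega)
      rw [h.good.fin.acyc_iff, h.good.hd_o, if_pos rfl] at h3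
      exact one_ne_zero h3

theorem Rep.uu_iff {c : ArtinGroup M} {X : Obj u.gph} (h : u.Rep c X) (Z : Finset S) (d : ℤ) :
    UU M Y u.vv Z d c ↔ ∀ i ∈ u.JJ Z, ∀ n, d < n → X.Acyc i n := by
  unfold UU
  rw [h.frz_iff]
  constructor
  · rintro ⟨h1, h2⟩ i hi
    by_cases hK : i ∈ u.KK Z
    · obtain ⟨s, hs, ht⟩ := hK
      exact (h.low_iff d s).1 (h2 s hs) i ht
    · exact h1 i hi hK
  · intro H
    exact ⟨fun i hi _ => H i hi, fun s hs => (h.low_iff d s).2 fun i hi =>
      H i (Or.inl ⟨s, hs, hi⟩)⟩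

end Unfold

end Crest.Agent.R175
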