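import Crest.Agent.R175.Anchor

/-! Definitions for the proof that the intersection of two parabolic subgroups of an Artin group is
parabolic: the geometric representation in coordinates, reduced lifts, the abstract height data of a
framed object seen from the chambers of the Artin group, and the unfolding of a Coxeter matrix to a
simply laced multigraph. -/

set_option autoImplicit false

open Crest.GroupTheory
open scoped Classical

namespace Crest.Agent.R175

variable {S : Type} [Fintype S] [DecidableEq S]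

/-- `2 cos (π / m)`; equal to `-2` on the diagonal, `0` for label two, `2` for label infinity. -/
noncomputable def cc (M : CoxeterMatrix S) (s t : S) : ℝ := 2 * Real.cos (Real.pi / (M s t : ℝ))

/-- Simple root. -/
def al (s : S) : S → ℝ := Pi.single s 1

/-- The functional `x ↦ -(α_s, x)`. -/
noncomputable def flow (M : CoxeterMatrix S) (s : S) : (S → ℝ) →ₗ[ℝ] ℝ :=
  ∑ t, cc M s t • (LinearMap.proj t : (S → ℝ) →ₗ[ℝ] ℝ)

/-- Simple reflection `x ↦ x - (α_s, x) α_s`. -/
noncomputable def rs (M : CoxeterMatrix S) (s : S) : Module.End ℝ (S → ℝ) :=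
  LinearMap.id + (flow M s).smulRight (al s)

/-- The geometric representation of the Coxeter group. -/
noncomputable def rho (M : CoxeterMatrix S) : M.Group →* Module.End ℝ (S → ℝ) :=
  if h : M.IsLiftable (rs M) then M.toCoxeterSystem.lift ⟨rs M, h⟩ else 1

/-- Length in the Coxeter group. -/
noncomputable abbrev len (M : CoxeterMatrix S) (w : M.Group) : ℕ := M.toCoxeterSystem.length w

/-- Positive word in the Artin group. -/
def wordA (M : CoxeterMatrix S) (l : List S) : ArtinGroup M := (l.map (artinGen M)).prod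

/-- The reduced lift of an element of the Coxeter group. -/
noncomputable def lft (M : CoxeterMatrix S) (w : M.Group) : ArtinGroup M :=
  wordA M (Classical.choose (M.toCoxeterSystem.exists_isReduced w))

/-- Standard parabolic subgroup of the Coxeter group. -/
def WZ (M : CoxeterMatrix S) (Z : Finset S) : Subgroup M.Group :=
  Subgroup.closure (M.simple '' (Z : Set S))

/-- Standard parabolic subgroup of the Artin group. -/
abbrev AZ (M : CoxeterMatrix S) (Z : Finset S) : Subgroup (ArtinGroup M) :=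
  stdParabolic M (Z : Set S)

/-- All letters lie in `Z`. -/
def InZ (Z : Finset S) (l : List S) : Prop := ∀ x ∈ l, x ∈ Z

/-- `w` is the longest element of `W_Z`. -/
def Longest (M : CoxeterMatrix S) (Z : Finset S) (w : M.Group) : Prop :=
  w ∈ WZ M Z ∧ ∀ s ∈ Z, len M (M.simple s * w) < len M w

/-- `W_Z` is finite. -/
def Sph (M : CoxeterMatrix S) (Z : Finset S) : Prop := (WZ M Z : Set M.Group).Finite

/-- Joined by an edge of the Coxeter diagram. -/
def Adj (M : CoxeterMatrix S) (s t : S) : Prop := s ≠ t ∧ M s t ≠ 2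

/-- `Z` is non-empty and does not split into two non-empty mutually commuting parts. -/
def Conn (M : CoxeterMatrix S) (Z : Finset S) : Prop :=
  Z.Nonempty ∧ ∀ J ⊆ Z, J.Nonempty → J ≠ Z → ∃ s ∈ J, ∃ t ∈ Z, t ∉ J ∧ Adj M s t

/-- The Cartan form is positive definite on vectors supported in `Z`. -/
def PosDef (M : CoxeterMatrix S) (Z : Finset S) : Prop :=
  ∀ x : S → ℝ, (∀ t, t ∉ Z → x t = 0) → x ≠ 0 → ∑ s, x s * flow M s x < 0

section Heights

variable (M : CoxeterMatrix S) (Y : Finset S) (v : ArtinGroup M → ℤ → S → ℝ) (β : S → ℝ)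

/-- No cohomology of type `t` above degree `d`. -/
def Low (c : ArtinGroup M) (d : ℤ) (t : S) : Prop := ∀ n, d < n → v c n t = 0

/-- The frozen neighbours of `Z` have no cohomology above degree `d`. -/
def Frz (Z : Finset S) (d : ℤ) (c : ArtinGroup M) : Prop :=
  (∀ s ∈ Z, ∀ t, t ∉ Z → Adj M s t → Low M v c d t) ∧ ∀ s ∈ Z, s ∉ Y → 0 ≤ d

/-- The chamber `c` lies in the aisle of level `d` for the context `Z`. -/
def UU (Z : Finset S) (d : ℤ) (c : ArtinGroup M) : Prop :=
  Frz M Y v Z d c ∧ ∀ s ∈ Z, Low M v c d s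

/-- Contribution of the frozen neighbours in degree `d`. -/
noncomputable def bd (Z : Finset S) (d : ℤ) (c : ArtinGroup M) (s : S) : ℝ :=
  ∑ t ∈ Zᶜ, cc M s t * v c d t + if d = 0 then β s else 0

/-- The linear prediction for the dimension at `s` after twisting at `s`. -/
noncomputable def pred (d : ℤ) (c : ArtinGroup M) (s : S) : ℝ :=
  v c d s + flow M s (v c d) + if d = 0 then β s else 0

end Heights

/-- Weighted dimensions of the cohomology of the framed object fixed by `A_Y`, seen from all chambers,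
with the properties used in the combinatorial part of the proof. `Sub c d Z` is the set of weighted
dimension vectors of the `Z`-pure submodules of the degree `d` cohomology at the chamber `c`. -/
structure HeightData (M : CoxeterMatrix S) (Y : Finset S) where
  v : ArtinGroup M → ℤ → S → ℝ
  β : S → ℝ
  D : Set ℝ
  Sub : ArtinGroup M → ℤ → Finset S → Set (S → ℝ)
  v_nonneg : ∀ c n t, 0 ≤ v c n t
  v_mem : ∀ c n t, v c n t ∈ D
  D_fin : ∀ R : ℝ, (D ∩ Set.Iic R).Finite
  v_ne : ∀ c s n t, t ≠ s → v (c * artinGen M s) n t = v c n t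
  v_left : ∀ h ∈ AZ M Y, ∀ c, v (h * c) = v c
  v_one : ∀ n t, v 1 n t = 0
  bdd : ∀ c, ∃ N : ℤ, ∀ t, Low M v c N t
  β_pos : ∀ s, s ∉ Y → 0 < β s
  β_zero : ∀ s ∈ Y, β s = 0
  up : ∀ c d s, UU M Y v {s} d c →
    Low M v (c * artinGen M s) d s ∧ pred M v β d c s ≤ v (c * artinGen M s) d s
  demazure : ∀ Z d c s p, UU M Y v Z d c → s ∈ Z → InZ Z p → ∀ t ∈ Z,
    v (c * artinGen M s * wordA M p) d t ≤ v (c * artinGen M s * artinGen M s * wordA M p) d t
  nohead : ∀ Z d c (J : Finset S) l, UU M Y v Z d c → J ⊆ Z →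
    (∀ s ∈ J, UU M Y v Z d (c * (artinGen M s)⁻¹)) → InZ J l → M.toCoxeterSystem.IsReduced l →
    UU M Y v Z d (c * (wordA M l)⁻¹)
  kill : ∀ Z e c w, Longest M Z w → Frz M Y v Z (e - 1) c → (∀ s ∈ Z, Low M v c e s) →
    ∀ s ∈ Z, Low M v (c * lft M w) (e - 1) s
  sub_supp : ∀ c d Z n, n ∈ Sub c d Z → ∀ t, t ∉ Z → n t = 0
  sub_quot : ∀ Z d c n, UU M Y v Z d c → n ∈ Sub c d Z → ∃ q : ArtinGroup M → S → ℝ,
    (∀ t ∈ Z, q 1 t = v c d t - n t) ∧
    ∀ p, InZ Z p → (∀ t ∈ Z, q (wordA M p) t ≤ v (c * wordA M p) d t) ∧ ∀ s ∈ Z,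
      (∀ t ∈ Z, t ≠ s → q (wordA M p * artinGen M s) t = q (wordA M p) t) ∧
      q (wordA M p) s + ∑ t ∈ Z, cc M s t * q (wordA M p) t + bd M v β Z d c s
        ≤ q (wordA M p * artinGen M s) s
  sub_kink : ∀ Z d c s, UU M Y v Z d c → s ∈ Z → pred M v β d c s < v (c * artinGen M s) d s →
    ∃ ε : ℝ, 0 < ε ∧ ε • al s ∈ Sub c d Z
  sub_pull : ∀ Z d c s n, UU M Y v Z d c → s ∈ Z → n ∈ Sub (c * artinGen M s) d Z →
    ∃ h : ℝ, 0 ≤ h ∧ rs M s n + h • al s ∈ Sub c d Z
  sub_socle : ∀ Z d c n t, UU M Y v Z d c → n ∈ Sub c d Z → n t ≠ 0 →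
    ∃ n₀ ∈ Sub c d Z, ∃ ε : ℝ, 0 < ε ∧ n₀ + ε • al t ∈ Sub c d Z
  chain : ∀ Z d w (sq : ℕ → S) (cs : ℕ → ArtinGroup M), Longest M Z w → (∀ n, sq n ∈ Z) →
    (∀ s ∈ Z, ∀ N, ∃ n, N ≤ n ∧ sq n = s) → (∀ n, cs (n + 1) = cs n * (artinGen M (sq n))⁻¹) →
    (∀ n, UU M Y v Z d (cs n)) →
    ∀ s ∈ Z, ∀ n t, v (cs 0 * artinGen M s * (cs 0)⁻¹) n t = 0

/-- A simply laced multigraph (edges carry a label in `Bool`, so at most double edges) unfolding the
Coxeter matrix `M`, with Perron-Frobenius weights and one framing vertex `o` joined to the fibres of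
the types outside `Y`. -/
structure Unfold (M : CoxeterMatrix S) (Y : Finset S) where
  I : Type
  [fin : Fintype I]
  [dec : DecidableEq I]
  typ : I → Option S
  adj : I → I → Bool → Prop
  lam : I → ℝ
  o : I
  adj_symm : ∀ i j k, adj i j k → adj j i k
  typ_none : ∀ i, typ i = none ↔ i = o
  adj_typ : ∀ i j k, adj i j k → typ i ≠ typ j
  fibre : ∀ s, ∃ i, typ i = some s
  lam_pos : ∀ i, 0 < lam i
  weight : ∀ s t j, s ≠ t → typ j = some t →
    ∑ i, ∑ k : Bool, (if typ i = some s ∧ adj i j k then lam i else 0) = cc M s t * lam j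
  adj_o : ∀ s, (∃ i k, typ i = some s ∧ adj i o k) ↔ s ∉ Y
  braid : ∀ (G : Type 1) [Group G] (x : I → G),
    (∀ i j, (∀ k, ¬ adj i j k) → x i * x j = x j * x i) →
    (∀ i j k, adj i j k → ¬ adj i j (!k) → x i * x j * x i = x j * x i * x j) →
    ∃ φ : ArtinGroup M →* G, ∀ s (l : List I), l.Nodup → (∀ i, i ∈ l ↔ typ i = some s) →
      φ (artinGen M s) = (l.map x).prod

attribute [instance] Unfold.fin Unfold.dec

end Crest.Agent.R175
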