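import Crest.Agent.R175.PGMain
import Crest.Agent.R175.PDMain

/-! Conjugation and universe reduction. -/

set_option autoImplicit false

open Crest.GroupTheory
open scoped Classical

namespace Crest.Agent.R175

section Transfer

variable {S S' : Type*} {M : CoxeterMatrix S} {M' : CoxeterMatrix S'}

theorem lift_artinAltWord (M' : CoxeterMatrix S') (f : S → S') (m : ℕ) : ∀ s t : S,
    FreeGroup.lift (fun s => artinGen M' (f s)) (artinAltWord s t m) =
      PresentedGroup.mk (artinRelators M') (artinAltWord (f s) (f t) m) := by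
  induction m with
  | zero => intro s t; simp [artinAltWord]
  | succ m ih =>
    intro s t
    rw [artinAltWord, artinAltWord, map_mul, map_mul, ih, FreeGroup.lift_apply_of]
    rfl

/-- The homomorphism of Artin groups induced by a label preserving map. -/
def artinMap (f : S → S') (hf : ∀ s t, M' (f s) (f t) = M s t) : ArtinGroup M →* ArtinGroup M' :=
  PresentedGroup.toGroup (f := fun s => artinGen M' (f s)) (by
    rintro _ ⟨⟨s, t⟩, rfl⟩
    simp only [map_mul, map_inv, lift_artinAltWord, mul_inv_eq_one]
    rw [← hf]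
    exact PresentedGroup.mk_eq_mk_of_mul_inv_mem ⟨(f s, f t), rfl⟩)

theorem artinMap_gen (f : S → S') (hf : ∀ s t, M' (f s) (f t) = M s t) (s : S) :
    artinMap f hf (artinGen M s) = artinGen M' (f s) :=
  PresentedGroup.toGroup.of _

theorem isParabolic_map (f : S → S') (hf : ∀ s t, M' (f s) (f t) = M s t)
    {P : Subgroup (ArtinGroup M)} (hP : IsParabolic M P) :
    IsParabolic M' (P.map (artinMap f hf)) := by
  obtain ⟨X, g, rfl⟩ := hP
  refine ⟨f '' X, artinMap f hf g, ?_⟩
  have h1 : stdParabolic M' (f '' X) = (stdParabolic M X).map (artinMap f hf) := by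
    rw [stdParabolic, stdParabolic, MonoidHom.map_closure, Set.image_image, Set.image_image]
    simp only [artinMap_gen]
  rw [h1, Subgroup.map_map, Subgroup.map_map]
  congr 1
  ext x
  simp

theorem isParabolic_conj {P : Subgroup (ArtinGroup M)} (hP : IsParabolic M P) (k : ArtinGroup M) :
    IsParabolic M (P.map (MulAut.conj k).toMonoidHom) := by
  obtain ⟨X, g, rfl⟩ := hP
  refine ⟨X, k * g, ?_⟩
  rw [Subgroup.map_map]
  congr 1
  ext x
  simp [mul_assoc]

end Transfer

theorem isParabolic_inf_small {S : Type} [Fintype S] [DecidableEq S] (M : CoxeterMatrix S)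
    (P Q : Subgroup (ArtinGroup M)) (hP : IsParabolic M P) (hQ : IsParabolic M Q) :
    IsParabolic M (P ⊓ Q) := by
  obtain ⟨X, g, rfl⟩ := hP
  obtain ⟨Y, k, rfl⟩ := hQ
  obtain ⟨H⟩ := exists_heightData M (Set.toFinite Y).toFinset
  have h := isParabolic_conj (isParabolic_of_heightData H (Set.toFinite X).toFinset (k⁻¹ * g)) k
  rw [Subgroup.map_inf _ _ _ (MulAut.conj k).injective, Subgroup.map_map, AZ, AZ,
    Set.Finite.coe_toFinset, Set.Finite.coe_toFinset] at h
  convert h using 3
  ext x
  simp [mul_assoc]

theorem isParabolic_inf (S : Type*) [Finite S] (M : CoxeterMatrix S) (P Q : Subgroup (ArtinGroup M))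
    (hP : IsParabolic M P) (hQ : IsParabolic M Q) : IsParabolic M (P ⊓ Q) := by
  obtain ⟨n, ⟨e⟩⟩ := Finite.exists_equiv_fin S
  have h1 : ∀ s t, (M.reindex e) (e s) (e t) = M s t := fun s t => by
    rw [CoxeterMatrix.reindex_apply, e.symm_apply_apply, e.symm_apply_apply]
  have h2 : ∀ s t, M (e.symm s) (e.symm t) = (M.reindex e) s t := fun s t => rfl
  have h3 : (artinMap e.symm h2).comp (artinMap e h1) = MonoidHom.id _ := by
    ext s
    change artinMap e.symm h2 (artinMap e h1 (artinGen M s)) = artinGen M s
    rw [artinMap_gen, artinMap_gen, e.symm_apply_apply]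
  have h4 : Function.Injective (artinMap e h1) :=
    Function.LeftInverse.injective (g := artinMap e.symm h2) fun x => DFunLike.congr_fun h3 x
  have h := isParabolic_map e.symm h2 (isParabolic_inf_small (M.reindex e) _ _
    (isParabolic_map e h1 hP) (isParabolic_map e h1 hQ))
  rwa [← Subgroup.map_inf _ _ _ h4, Subgroup.map_map, h3, Subgroup.map_id] at h

end Crest.Agent.R175
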