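import Crest.Agent.R175.PGDefs

/-! Residues, components and connectivity through marked vertices. -/

set_option autoImplicit false

open Crest.GroupTheory
open scoped Classical

namespace Crest.Agent.R175.G

variable {S : Type} [Fintype S] [DecidableEq S] {M : CoxeterMatrix S} {Z : Finset S}

theorem AZ_mono {J : Finset S} (h : J ⊆ Z) : AZ M J ≤ AZ M Z := by
  exact Subgroup.closure_mono (Set.image_mono (Finset.coe_subset.2 h))

/-- `PresentedGroup.closure_range_of`. -/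
theorem mem_AZ_univ (g : ArtinGroup M) : g ∈ AZ M Finset.univ := by
  rw [AZ, stdParabolic, Finset.coe_univ, Set.image_univ]
  exact (PresentedGroup.closure_range_of _).ge (Subgroup.mem_top g)

/-- Induction on an element of `A_Z` by right multiplication with generators and their inverses
(`Subgroup.closure_induction_right`). -/
theorem AZ_induction {P : ArtinGroup M → Prop} (h1 : P 1)
    (hs : ∀ k ∈ AZ M Z, ∀ s ∈ Z, P k → P (k * artinGen M s))
    (hi : ∀ k ∈ AZ M Z, ∀ s ∈ Z, P k → P (k * (artinGen M s)⁻¹)) {k : ArtinGroup M}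
    (hk : k ∈ AZ M Z) : P k := by
  refine Subgroup.closure_induction_right (p := fun x _ => P x) h1 ?_ ?_ hk
  · rintro x hx _ ⟨s, hs', rfl⟩ h
    exact hs x hx s hs' h
  · rintro x hx _ ⟨s, hs', rfl⟩ h
    exact hi x hx s hs' h

theorem Res.refl (c : ArtinGroup M) : Res M Z c c := by
  rw [Res, inv_mul_cancel]
  exact one_mem _

theorem Res.symm {c c' : ArtinGroup M} (h : Res M Z c c') : Res M Z c' c := by
  have := inv_mem h
  rwa [mul_inv_rev, inv_inv] at this

theorem Res.trans {c c' c'' : ArtinGroup M} (h : Res M Z c c') (h' : Res M Z c' c'') :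
    Res M Z c c'' := by
  have := mul_mem h h'
  rwa [mul_assoc, mul_inv_cancel_left] at this

theorem Res.mono {J : Finset S} (hJ : J ⊆ Z) {c c' : ArtinGroup M} (h : Res M J c c') :
    Res M Z c c' := by
  exact AZ_mono hJ h

theorem Res.mul (c : ArtinGroup M) {k : ArtinGroup M} (hk : k ∈ AZ M Z) : Res M Z c (c * k) := by
  rwa [Res, inv_mul_cancel_left]

/-- The two parts of a splitting commute elementwise (`artinGen_comm`, closure induction twice). -/
theorem Clo.commute {J : Finset S} (h : Clo M Z J) {a b : ArtinGroup M} (ha : a ∈ AZ M J)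
    (hb : b ∈ AZ M (Z \ J)) : a * b = b * a := by
  have h1 : ∀ s ∈ J, Commute (artinGen M s) b := fun s hs => by
    refine Subgroup.closure_induction (p := fun x _ => Commute (artinGen M s) x) ?_
      (Commute.one_right _) (fun _ _ _ _ h1 h2 => h1.mul_right h2) (fun _ _ h1 => h1.inv_right) hb
    rintro _ ⟨t, ht, rfl⟩
    obtain ⟨h2, h3⟩ := Finset.mem_sdiff.1 (Finset.mem_coe.1 ht)
    exact artinGen_comm M (h.2 s hs t h2 h3)
  refine Subgroup.closure_induction (p := fun x _ => Commute x b) ?_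
    (Commute.one_left _) (fun _ _ _ _ h1 h2 => h1.mul_left h2) (fun _ _ h1 => h1.inv_left) ha
  rintro _ ⟨s, hs, rfl⟩
  exact h1 s hs

theorem Clo.compl {J : Finset S} (h : Clo M Z J) : Clo M Z (Z \ J) := by
  refine ⟨Finset.sdiff_subset, fun s hs t ht ht' e => ?_⟩
  obtain ⟨h1, h2⟩ := Finset.mem_sdiff.1 hs
  refine h.2 t (by_contra fun h3 => ht' (Finset.mem_sdiff.2 ⟨ht, h3⟩)) s h1 h2 ⟨e.1.symm, ?_⟩
  rw [M.symmetric]; exact e.2

/-- `A_Z = A_J A_{Z \ J}` (`AZ_induction`, `Clo.commute`). -/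
theorem Clo.split {J : Finset S} (h : Clo M Z J) {k : ArtinGroup M} (hk : k ∈ AZ M Z) :
    ∃ a ∈ AZ M J, ∃ b ∈ AZ M (Z \ J), k = a * b := by
  have key : ∀ g, (g ∈ AZ M J ∨ g ∈ AZ M (Z \ J)) → ∀ k, (∃ a ∈ AZ M J, ∃ b ∈ AZ M (Z \ J), k = a * b) →
      ∃ a ∈ AZ M J, ∃ b ∈ AZ M (Z \ J), k * g = a * b := by
    rintro g (hg | hg) _ ⟨a, ha, b, hb, rfl⟩
    · exact ⟨a * g, mul_mem ha hg, b, hb, by rw [mul_assoc, ← h.commute hg hb, mul_assoc]⟩
    · exact ⟨a, ha, b * g, mul_mem hb hg, mul_assoc _ _ _⟩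
  have gen : ∀ s ∈ Z, artinGen M s ∈ AZ M J ∨ artinGen M s ∈ AZ M (Z \ J) := fun s hs => by
    by_cases h1 : s ∈ J
    · exact Or.inl (Subgroup.subset_closure ⟨s, h1, rfl⟩)
    · exact Or.inr (Subgroup.subset_closure ⟨s, Finset.mem_coe.2 (Finset.mem_sdiff.2 ⟨hs, h1⟩), rfl⟩)
  exact AZ_induction (P := fun k => ∃ a ∈ AZ M J, ∃ b ∈ AZ M (Z \ J), k = a * b)
    ⟨1, one_mem _, 1, one_mem _, (mul_one _).symm⟩ (fun k _ s hs => key _ (gen s hs) k)
    (fun k _ s hs => key _ ((gen s hs).imp inv_mem inv_mem) k) hk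

theorem exists_clo_of_not_conn (hne : Z.Nonempty) (h : ¬ Conn M Z) :
    ∃ J, Clo M Z J ∧ J.Nonempty ∧ J ≠ Z := by
  by_contra h1
  refine h ⟨hne, fun J hJ h2 h3 => by_contra fun h4 => h1 ⟨J, ⟨hJ, fun s hs t ht ht' e => ?_⟩, h2, h3⟩⟩
  exact h4 ⟨s, hs, t, ht, ht', e⟩

/-- The component of `s`: a closed subset containing `s` of minimal size. If `J' ⊂ J` is non-empty without edge to
`J \ J'`, then `J'` and `J \ J'` are closed in `Z` (`Adj` is symmetric) and one of them contains `s`. -/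
theorem exists_comp {s : S} (hs : s ∈ Z) : ∃ J, Clo M Z J ∧ s ∈ J ∧ Conn M J := by
  induction Z using Finset.strongInduction with
  | H Z ih =>
    by_cases hc : Conn M Z
    · exact ⟨Z, ⟨subset_rfl, fun _ _ _ h h' => absurd h h'⟩, hs, hc⟩
    obtain ⟨J, hJ, h1, h2⟩ := exists_clo_of_not_conn ⟨s, hs⟩ hc
    obtain ⟨J', hJ', h3, h4⟩ : ∃ J', Clo M Z J' ∧ s ∈ J' ∧ J' ≠ Z := by
      by_cases h : s ∈ J
      · exact ⟨J, hJ, h, h2⟩
      · obtain ⟨t, ht⟩ := h1
        exact ⟨_, hJ.compl, Finset.mem_sdiff.2 ⟨hs, h⟩,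
          fun e => (Finset.mem_sdiff.1 (e.ge (hJ.1 ht))).2 ht⟩
    obtain ⟨K, hK, h5, h6⟩ := ih J' (hJ'.1.ssubset_of_ne h4) h3
    refine ⟨K, ⟨hK.1.trans hJ'.1, fun a ha t ht ht' => ?_⟩, h5, h6⟩
    by_cases h : t ∈ J'
    · exact hK.2 a ha t h ht'
    · exact hJ'.2 a (hK.1 ha) t ht h

/-- In a connected diagram with two vertices every vertex has a neighbour (`Conn` with `J = {r}`). -/
theorem exists_adj (hc : Conn M Z) {r : S} (hr : r ∈ Z) (h2 : Z ≠ {r}) : ∃ u ∈ Z, Adj M r u := by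
  obtain ⟨s, hs, t, ht, -, h⟩ := hc.2 {r} (Finset.singleton_subset_iff.2 hr)
    (Finset.singleton_nonempty r) h2.symm
  exact ⟨t, ht, Finset.mem_singleton.1 hs ▸ h⟩

variable {P P' : ArtinGroup M → S → Prop}

theorem Lk.symm {x y : ArtinGroup M × S} (h : Lk M Z P x y) : Lk M Z P y x := by
  obtain ⟨h1, h2, h3, h4, h5⟩ := h
  refine ⟨h2, h1, h4, h3, h5.imp Eq.symm ?_⟩
  exact fun h6 => ⟨h6.1.symm, h6.1 ▸ h6.2.symm⟩

theorem Cn.refl (x : ArtinGroup M × S) : Cn M Z P x x := Relation.ReflTransGen.refl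

theorem Cn.trans {x y z : ArtinGroup M × S} (h : Cn M Z P x y) (h' : Cn M Z P y z) :
    Cn M Z P x z := Relation.ReflTransGen.trans h h'

theorem Cn.symm {x y : ArtinGroup M × S} (h : Cn M Z P x y) : Cn M Z P y x := by
  induction h with
  | refl => exact Cn.refl _
  | tail _ h2 ih => exact Relation.ReflTransGen.head h2.symm ih

theorem Cn.chamber {c : ArtinGroup M} {s t : S} (hs : s ∈ Z) (ht : t ∈ Z) (h : P c s)
    (h' : P c t) : Cn M Z P (c, s) (c, t) := by
  exact Relation.ReflTransGen.single ⟨hs, ht, h, h', Or.inl rfl⟩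

theorem Cn.vertex (hP : VInv M Z P) {c c' : ArtinGroup M} {s : S} (hs : s ∈ Z) (h : P c s)
    (hc : Res M (Z.erase s) c c') : Cn M Z P (c, s) (c', s) := by
  exact Relation.ReflTransGen.single ⟨hs, hs, h, hP c c' s hs hc h, Or.inr ⟨rfl, hc⟩⟩

theorem Cn.res {x y : ArtinGroup M × S} (h : Cn M Z P x y) : Res M Z x.1 y.1 := by
  induction h with
  | refl => exact Res.refl _
  | tail _ h2 ih =>
    rcases h2.2.2.2.2 with h3 | h3
    · exact h3 ▸ ih
    · exact ih.trans (h3.2.mono (Finset.erase_subset _ _))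

theorem Cn.mono {J : Finset S} (hJ : J ⊆ Z) (hP : ∀ c, ∀ s ∈ J, P c s → P' c s)
    {x y : ArtinGroup M × S} (h : Cn M J P x y) : Cn M Z P' x y := by
  refine Relation.ReflTransGen.mono (fun a b h => ?_) _ _ h
  obtain ⟨h1, h2, h3, h4, h5⟩ := h
  exact ⟨hJ h1, hJ h2, hP _ _ h1 h3, hP _ _ h2 h4,
    h5.imp_right fun h6 => ⟨h6.1, h6.2.mono (Finset.erase_subset_erase _ hJ)⟩⟩

/-- If only one type is marked in the residue, a path stays at one vertex. -/
theorem Cn.single {c c' : ArtinGroup M} {s s' : S}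
    (hP : ∀ c'', Res M Z c c'' → ∀ t ∈ Z, P c'' t → t = s) (h : Cn M Z P (c, s) (c', s')) :
    s' = s ∧ Res M (Z.erase s) c c' := by
  have key : ∀ y, Cn M Z P (c, s) y → y.2 = s ∧ Res M (Z.erase s) c y.1 := by
    intro y hy
    induction hy with
    | refl => exact ⟨rfl, Res.refl _⟩
    | tail h1 h2 ih =>
      refine ⟨hP _ (Cn.res (h1.tail h2)) _ h2.2.1 h2.2.2.2.1, ?_⟩
      rcases h2.2.2.2.2 with h3 | h3
      · exact h3 ▸ ih.2
      · exact ih.2.trans (ih.1 ▸ h3.2)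
  exact key _ h

theorem NM.refl (c : ArtinGroup M) : NM M Z P P c := by
  exact fun _ _ _ _ _ _ _ h => h

theorem NM.trans {P'' : ArtinGroup M → S → Prop} {c : ArtinGroup M} (hP : ∀ c s, P c s → P' c s)
    (h : NM M Z P P' c) (h' : NM M Z P' P'' c) : NM M Z P P'' c := by
  exact fun c₁ s₁ c₂ s₂ h1 h2 h3 h4 =>
    h c₁ s₁ c₂ s₂ h1 h2 h3 (h' c₁ s₁ c₂ s₂ h1 (hP _ _ h2) (hP _ _ h3) h4)

/-- No merging. Induct along the path from `x₀ = (c₁, s₁)` (`Relation.ReflTransGen` tail induction) with the invariant for the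
current vertex `(c', s')`: if it is a `P`-vertex it is `P`-connected to `x₀`; otherwise some `P`-vertex of its link
(`Res (Z.erase s') c' c''`, type in `Z.erase s'`) is `P`-connected to `x₀`. Use `hlink` and `Cn.mono` to move inside a link; for an edge between two new
vertices use `hedge`. -/
theorem nm_of_links (hP : VInv M Z P) {c : ArtinGroup M}
    (hlink : ∀ c' s, Res M Z c c' → s ∈ Z → P' c' s → ¬ P c' s → AllCn M (Z.erase s) P c')
    (hedge : ∀ c' s s', Res M Z c c' → s ∈ Z → s' ∈ Z → s ≠ s' → P' c' s → ¬ P c' s → P' c' s' →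
      ¬ P c' s' → Nbr M Z P c' s → Nbr M (Z.erase s) P c' s') :
    NM M Z P P' c := by
  intro c₁ s₁ c₂ s₂ r1 p1 p2 h
  have key : ∀ y, Cn M Z P' (c₁, s₁) y → (P y.1 y.2 → Cn M Z P (c₁, s₁) y) ∧ (¬ P y.1 y.2 →
      ∃ e u, Res M (Z.erase y.2) y.1 e ∧ u ∈ Z.erase y.2 ∧ P e u ∧ Cn M Z P (c₁, s₁) (e, u)) := by
    intro y hy
    induction hy with
    | refl => exact ⟨fun _ => Cn.refl _, fun h => absurd p1 h⟩
    | @tail x y h1 h2 ih =>
      obtain ⟨a, s⟩ := x
      obtain ⟨b, t⟩ := y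
      have ra : Res M Z c a := r1.trans (Cn.res h1)
      obtain ⟨hs, ht, ps, pt, h3 | ⟨h3, h4⟩⟩ := h2
      · obtain rfl : a = b := h3
        rcases eq_or_ne s t with rfl | hst
        · exact ih
        by_cases h4 : P a s
        · exact ⟨fun h5 => (ih.1 h4).trans (Cn.chamber hs ht h4 h5), fun _ =>
            ⟨a, s, Res.refl _, Finset.mem_erase.2 ⟨hst, hs⟩, h4, ih.1 h4⟩⟩
        obtain ⟨e, u, e1, e2, e3, e4⟩ := ih.2 h4
        have mv : ∀ e' u', Res M (Z.erase s) a e' → u' ∈ Z.erase s → P e' u' →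
            Cn M Z P (c₁, s₁) (e', u') := fun e' u' f1 f2 f3 =>
          e4.trans ((hlink a s ra hs ps h4 e u e' u' e1 f1 e2 f2 e3 f3).mono
            (Finset.erase_subset _ _) fun _ _ _ h => h)
        refine ⟨mv a t (Res.refl _) (Finset.mem_erase.2 ⟨hst.symm, ht⟩), fun h5 => ?_⟩
        obtain ⟨e', u', f1, f2, f3⟩ := hedge a s t ra hs ht hst ps h4 pt h5 ⟨e, u, e1, e2, e3⟩
        have hsub := Finset.erase_subset_erase t (Finset.erase_subset s Z)
        exact ⟨e', u', f1.mono hsub, hsub f2, f3, mv e' u' (f1.mono (Finset.erase_subset _ _))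
          (Finset.erase_subset _ _ f2) f3⟩
      · obtain rfl : s = t := h3
        by_cases h5 : P a s
        · exact ⟨fun _ => (ih.1 h5).trans (Cn.vertex hP hs h5 h4),
            fun h6 => absurd (hP a b s hs h4 h5) h6⟩
        · obtain ⟨e, u, e1, e2⟩ := ih.2 h5
          exact ⟨fun h6 => absurd (hP b a s hs h4.symm h6) h5, fun _ =>
            ⟨e, u, h4.symm.trans e1, e2⟩⟩
  exact (key _ h).1 p2

end Crest.Agent.R175.G
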