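import Crest.Agent.R175.PG0

/-! First properties of height data. -/

set_option autoImplicit false

open Crest.GroupTheory
open scoped Classical

namespace Crest.Agent.R175.G

variable {S : Type} [Fintype S] [DecidableEq S] {M : CoxeterMatrix S} {Y : Finset S}
  (H : HeightData M Y) {Z : Finset S}

/-- `AZ_induction` and `H.v_ne`. -/
theorem v_res {c c' : ArtinGroup M} (h : Res M Z c c') (n : ℤ) {t : S} (ht : t ∉ Z) :
    H.v c' n t = H.v c n t := by
  have key : H.v (c * (c⁻¹ * c')) n t = H.v c n t := by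
    refine AZ_induction (P := fun k => H.v (c * k) n t = H.v c n t) (by simp) ?_ ?_ h
    · intro k _ s hs hk
      rw [← mul_assoc, H.v_ne _ s n t (fun e => ht (e ▸ hs)), hk]
    · intro k _ s hs hk
      rw [← hk, ← H.v_ne (c * (k * (artinGen M s)⁻¹)) s n t (fun e => ht (e ▸ hs))]
      simp only [mul_assoc, inv_mul_cancel, mul_one]
  simpa only [mul_inv_cancel_left] using key

theorem low_res {c c' : ArtinGroup M} (h : Res M Z c c') {d : ℤ} {t : S} (ht : t ∉ Z)
    (hl : Low M H.v c d t) : Low M H.v c' d t := by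
  intro n hn
  rw [v_res H h n ht]
  exact hl n hn

theorem low_mono {c : ArtinGroup M} {d d' : ℤ} (hd : d ≤ d') {t : S} (hl : Low M H.v c d t) :
    Low M H.v c d' t := by
  exact fun n hn => hl n (lt_of_le_of_lt hd hn)

theorem low_pred {c : ArtinGroup M} {d : ℤ} {t : S} :
    Low M H.v c (d - 1) t ↔ Low M H.v c d t ∧ H.v c d t = 0 := by
  refine ⟨fun h => ⟨fun n hn => h n (by omega), h d (by omega)⟩, fun h n hn => ?_⟩
  rcases eq_or_lt_of_le (show d ≤ n by omega) with e | e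
  · exact e ▸ h.2
  · exact h.1 n e

theorem frz_mono {c : ArtinGroup M} {d d' : ℤ} (hd : d ≤ d') (h : Frz M Y H.v Z d c) :
    Frz M Y H.v Z d' c := by
  exact ⟨fun s hs t ht ha => low_mono H hd (h.1 s hs t ht ha),
    fun s hs hY => (h.2 s hs hY).trans hd⟩

theorem frz_res {c c' : ArtinGroup M} (h : Res M Z c c') {d : ℤ} (hf : Frz M Y H.v Z d c) :
    Frz M Y H.v Z d c' := by
  exact ⟨fun s hs t ht ha => low_res H h ht (hf.1 s hs t ht ha), hf.2⟩

theorem bd_res {c c' : ArtinGroup M} (h : Res M Z c c') (d : ℤ) :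
    bd M H.v H.β Z d c' = bd M H.v H.β Z d c := by
  funext s
  unfold bd
  congr 1
  exact Finset.sum_congr rfl fun t ht => by rw [v_res H h d (Finset.mem_compl.1 ht)]

theorem bd_nonneg (d : ℤ) (c : ArtinGroup M) : ∀ s ∈ Z, 0 ≤ bd M H.v H.β Z d c s := by
  intro s hs
  unfold bd
  refine add_nonneg (Finset.sum_nonneg fun t ht => mul_nonneg (cc_nonneg M ?_) (H.v_nonneg _ _ _)) ?_
  · rintro rfl
    exact Finset.mem_compl.1 ht hs
  · split_ifs
    · by_cases hY : s ∈ Y
      · exact (H.β_zero s hY).ge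
      · exact (H.β_pos s hY).le
    · exact le_rfl

theorem pred_eq (d : ℤ) (c : ArtinGroup M) (s : S) :
    pred M H.v H.β d c s =
      H.v c d s + ∑ t ∈ Z, cc M s t * H.v c d t + bd M H.v H.β Z d c s := by
  unfold pred bd
  rw [flow_apply, ← Finset.sum_add_sum_compl Z]
  ring

/-- Every chamber is in the aisle of some non-negative level (`H.bdd`). -/
theorem exists_uu (c : ArtinGroup M) : ∃ d : ℤ, 0 ≤ d ∧ UU M Y H.v Z d c := by
  obtain ⟨N, hN⟩ := H.bdd c
  have h : ∀ t, Low M H.v c (max N 0) t := fun t => low_mono H (le_max_left _ _) (hN t)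
  exact ⟨max N 0, le_max_right _ _, ⟨fun _ _ t _ _ => h t, fun _ _ _ => le_max_right _ _⟩,
    fun s _ => h s⟩

theorem uu_mono {c : ArtinGroup M} {d d' : ℤ} (hd : d ≤ d') (h : UU M Y H.v Z d c) :
    UU M Y H.v Z d' c := by
  exact ⟨frz_mono H hd h.1, fun s hs => low_mono H hd (h.2 s hs)⟩

theorem uu_sub {J : Finset S} (hJ : J ⊆ Z) {d : ℤ} {c : ArtinGroup M} (h : UU M Y H.v Z d c) :
    UU M Y H.v J d c := by
  refine ⟨⟨fun s hs t _ ha => ?_, fun s hs => h.1.2 s (hJ hs)⟩, fun s hs => h.2 s (hJ hs)⟩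
  by_cases ht : t ∈ Z
  · exact h.2 t ht
  · exact h.1.1 s (hJ hs) t ht ha

/-- The aisle is closed under upward moves (`H.up`, `uu_sub` with `J = {s}`, `H.v_ne`, `frz_res`). -/
theorem uu_up {d : ℤ} {c : ArtinGroup M} (h : UU M Y H.v Z d c) {s : S} (hs : s ∈ Z) :
    UU M Y H.v Z d (c * artinGen M s) := by
  refine ⟨frz_res H (Res.mul c (artinGen_mem_AZ M hs)) h.1, fun t ht => ?_⟩
  by_cases e : t = s
  · subst e
    exact (H.up c d t (uu_sub H (Finset.singleton_subset_iff.2 hs) h)).1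
  · intro n hn
    rw [H.v_ne c s n t e]
    exact h.2 t ht n hn

theorem uu_word {d : ℤ} {c : ArtinGroup M} (h : UU M Y H.v Z d c) {p : List S} (hp : InZ Z p) :
    UU M Y H.v Z d (c * wordA M p) := by
  induction p generalizing c with
  | nil => rwa [wordA_nil, mul_one]
  | cons s p ih =>
    rw [wordA_cons, ← mul_assoc]
    exact ih (uu_up H h (hp s List.mem_cons_self)) fun x hx => hp x (List.mem_cons_of_mem _ hx)

theorem uu_lft {d : ℤ} {c : ArtinGroup M} (h : UU M Y H.v Z d c) {w : M.Group} (hw : w ∈ WZ M Z) :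
    UU M Y H.v Z d (c * lft M w) := by
  obtain ⟨l, -, hl, -, e⟩ := exists_reduced_inZ M hw
  rw [e]
  exact uu_word H h hl

/-- The context of a simplex all of whose vertices are low. -/
theorem frz_sub {J : Finset S} (hJ : J ⊆ Z) {d : ℤ} {c : ArtinGroup M} (h : Frz M Y H.v Z d c)
    (hl : ∀ t ∈ Z, t ∉ J → Low M H.v c d t) : Frz M Y H.v J d c := by
  refine ⟨fun s hs t htJ ha => ?_, fun s hs => h.2 s (hJ hs)⟩
  by_cases ht : t ∈ Z
  · exact hl t ht htJ
  · exact h.1 s (hJ hs) t ht ha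

theorem frz_clo {J : Finset S} (hJ : Clo M Z J) {d : ℤ} {c : ArtinGroup M}
    (h : Frz M Y H.v Z d c) : Frz M Y H.v J d c := by
  refine ⟨fun s hs t htJ ha => ?_, fun s hs => h.2 s (hJ.1 hs)⟩
  by_cases ht : t ∈ Z
  · exact absurd ha (hJ.2 s hs t ht htJ)
  · exact h.1 s (hJ.1 hs) t ht ha

theorem bd_erase {s : S} (hs : s ∈ Z) (d : ℤ) (c : ArtinGroup M) (u : S) :
    bd M H.v H.β (Z.erase s) d c u = bd M H.v H.β Z d c u + cc M u s * H.v c d s := by
  unfold bd
  rw [Finset.compl_erase, Finset.sum_insert (by simpa using hs)]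
  ring

/-- The threshold stays subharmonic in the link of a vertex that is not below it. -/
theorem subH_erase {s : S} (hs : s ∈ Z) {d : ℤ} {c : ArtinGroup M} {θ : S → ℝ}
    (h : SubH M Z (bd M H.v H.β Z d c) θ) (hv : θ s ≤ H.v c d s) :
    SubH M (Z.erase s) (bd M H.v H.β (Z.erase s) d c) θ := by
  intro u hu
  obtain ⟨hus, huZ⟩ := Finset.mem_erase.1 hu
  have h1 := h u huZ
  rw [← Finset.add_sum_erase Z _ hs] at h1
  rw [bd_erase H hs]
  have h2 := mul_le_mul_of_nonneg_left hv (cc_nonneg M hus)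
  linarith

theorem harm_erase {s : S} (hs : s ∈ Z) {d : ℤ} {c : ArtinGroup M} {θ : S → ℝ}
    (h : Harm M Z (bd M H.v H.β Z d c) θ) (hv : H.v c d s = θ s) :
    Harm M (Z.erase s) (bd M H.v H.β (Z.erase s) d c) θ := by
  intro u hu
  have h1 := h u (Finset.mem_of_mem_erase hu)
  rw [← Finset.add_sum_erase Z _ hs] at h1
  rw [bd_erase H hs, hv]
  linarith

/-- The Laplacian in a closed part equals the Laplacian in `Z` (`cc_eq_zero`; split `Jᶜ = Zᶜ ∪ (Z \ J)`). -/
theorem lap_clo {J : Finset S} (hJ : Clo M Z J) (d : ℤ) (c : ArtinGroup M) (θ : S → ℝ) {s : S}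
    (hs : s ∈ J) : ∑ t ∈ J, cc M s t * θ t + bd M H.v H.β J d c s =
      ∑ t ∈ Z, cc M s t * θ t + bd M H.v H.β Z d c s := by
  have h0 : ∀ t ∈ Z, t ∉ J → cc M s t = 0 := fun t ht hn =>
    cc_eq_zero M (fun e => hn (e ▸ hs)) (hJ.2 s hs t ht hn)
  unfold bd
  rw [Finset.sum_subset hJ.1 (fun t ht hn => by rw [h0 t ht hn, zero_mul]),
    Finset.sum_subset (Finset.compl_subset_compl.2 hJ.1) (fun t ht hn => by
      rw [h0 t (by simpa using hn) (by simpa using ht), zero_mul])]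

theorem Harm.subH {b θ : S → ℝ} (h : Harm M Z b θ) : SubH M Z b θ := fun s hs => (h s hs).ge

/-- Without boundary term the frozen vertices are low one level down: every term of `bd` is non-negative, `one_le_cc`,
`H.β_pos`. -/
theorem frz_pred {d : ℤ} {c : ArtinGroup M} (h : Frz M Y H.v Z d c)
    (hb : ∀ s ∈ Z, bd M H.v H.β Z d c s = 0) : Frz M Y H.v Z (d - 1) c := by
  have h1 : ∀ s ∈ Z, ∀ t ∈ Zᶜ, 0 ≤ cc M s t * H.v c d t := fun s hs t ht =>
    mul_nonneg (cc_nonneg M fun e => Finset.mem_compl.1 ht (e ▸ hs)) (H.v_nonneg _ _ _)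
  have h2 : ∀ s, 0 ≤ if d = 0 then H.β s else 0 := fun s => by
    split_ifs
    · by_cases hY : s ∈ Y
      · exact (H.β_zero s hY).ge
      · exact (H.β_pos s hY).le
    · exact le_rfl
  refine ⟨fun s hs t ht ha => (low_pred H).2 ⟨h.1 s hs t ht ha, ?_⟩, fun s hs hY => ?_⟩
  · have h3 := hb s hs
    unfold bd at h3
    have h4 := Finset.single_le_sum (h1 s hs) (Finset.mem_compl.2 ht)
    have h5 := h2 s
    have h6 := one_le_cc M ha
    have h7 := H.v_nonneg c d t
    nlinarith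
  · have h3 := hb s hs
    unfold bd at h3
    have h4 := Finset.sum_nonneg (h1 s hs)
    have h5 := h.2 s hs hY
    have h6 : d ≠ 0 := fun e => by
      rw [if_pos e] at h3
      linarith [H.β_pos s hY]
    omega

theorem vinv_low (d : ℤ) : VInv M Z (LowP H d) := by
  intro c c' s _ h hl
  exact low_res H h (Finset.notMem_erase s Z) hl

theorem vinv_pos (d : ℤ) (θ : S → ℝ) : VInv M Z (Pos H d θ) := by
  intro c c' s _ h hl
  exact ⟨low_res H h (Finset.notMem_erase s Z) hl.1,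
    by rw [v_res H h d (Finset.notMem_erase s Z)]; exact hl.2⟩

theorem vinv_tie (d : ℤ) (θ : S → ℝ) : VInv M Z (Tie H d θ) := by
  intro c c' s _ h hl
  exact ⟨low_res H h (Finset.notMem_erase s Z) hl.1,
    by rw [v_res H h d (Finset.notMem_erase s Z)]; exact hl.2⟩

/-- A gap above zero in the set of values (`H.D_fin 1`). -/
theorem exists_eps : ∃ ε : ℝ, 0 < ε ∧ ∀ c n t, H.v c n t < ε → H.v c n t = 0 := by
  have hfin : (insert (1 : ℝ) {x | x ∈ H.D ∩ Set.Iic 1 ∧ 0 < x}).Finite :=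
    ((H.D_fin 1).subset fun x hx => hx.1).insert 1
  obtain ⟨ε, hε, hmin⟩ := Set.exists_min_image _ id hfin ⟨1, Set.mem_insert _ _⟩
  have h1 : ε ≤ 1 := hmin 1 (Set.mem_insert _ _)
  refine ⟨ε, ?_, fun c n t h => ?_⟩
  · rcases hε with rfl | hε
    · exact one_pos
    · exact hε.2
  · by_contra h0
    have h2 : ε ≤ H.v c n t := hmin _ (Set.mem_insert_of_mem _
      ⟨⟨H.v_mem c n t, (h.trans_le h1).le⟩, lt_of_le_of_ne (H.v_nonneg c n t) (Ne.symm h0)⟩)
    exact absurd h (not_lt.2 h2)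

/-- A path is finite, so it lies below every large threshold. -/
theorem cn_pos_of_low {d : ℤ} {x y : ArtinGroup M × S} (h : Cn M Z (LowP H d) x y) :
    ∃ K : ℝ, ∀ θ : S → ℝ, (∀ s ∈ Z, K ≤ θ s) → Cn M Z (Pos H d θ) x y := by
  induction h with
  | refl => exact ⟨0, fun _ _ => Cn.refl x⟩
  | @tail y z _ hl ih =>
    obtain ⟨K, hK⟩ := ih
    obtain ⟨a1, a2, a3, a4, a5⟩ := hl
    refine ⟨max K (max (H.v y.1 d y.2 + 1) (H.v z.1 d z.2 + 1)), fun θ hθ =>
      Relation.ReflTransGen.tail (hK θ fun s hs => (le_max_left _ _).trans (hθ s hs))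
        ⟨a1, a2, ⟨a3, ?_⟩, ⟨a4, ?_⟩, a5⟩⟩
    · have := ((le_max_left _ _).trans (le_max_right _ _)).trans (hθ _ a1)
      linarith
    · have := ((le_max_right _ _).trans (le_max_right _ _)).trans (hθ _ a2)
      linarith

/-- The whole complex is connected when `Z` has two elements. `AZ_induction` on `c⁻¹ c'` (for all `s'`): chambers `c'` and
`c' u^{±1}` share a vertex of a type `≠ u`; take `d` above the bounds `H.bdd` of all chambers met (`Cn.mono`, `low_mono`). -/
theorem cn_low_large (h2 : ∀ s, ∃ u ∈ Z, u ≠ s) {c c' : ArtinGroup M} (h : Res M Z c c') {s s' : S}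
    (hs : s ∈ Z) (hs' : s' ∈ Z) : ∃ d : ℤ, Cn M Z (LowP H d) (c, s) (c', s') := by
  have step : ∀ (x g : ArtinGroup M) (u : S), (∀ t, t ≠ u → g ∈ AZ M (Z.erase t)) →
      (∀ t ∈ Z, ∃ d : ℤ, Cn M Z (LowP H d) (c, s) (x, t)) →
      ∀ t ∈ Z, ∃ d : ℤ, Cn M Z (LowP H d) (c, s) (x * g, t) := by
    intro x g u hg ih t' ht'
    obtain ⟨t, ht, htu⟩ := h2 u
    obtain ⟨d, hd⟩ := ih t ht
    obtain ⟨N, hN⟩ := H.bdd x
    obtain ⟨N', hN'⟩ := H.bdd (x * g)
    have b1 : N ≤ max d (max N N') := (le_max_left _ _).trans (le_max_right _ _)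
    have b2 : N' ≤ max d (max N N') := (le_max_right _ _).trans (le_max_right _ _)
    refine ⟨max d (max N N'), Cn.trans (Cn.trans
      (Cn.mono (Finset.Subset.refl Z) (fun _ _ _ hl => low_mono H (le_max_left _ _) hl) hd)
      (Cn.vertex (vinv_low H _) ht (low_mono H b1 (hN t)) (Res.mul x (hg t htu))))
      (Cn.chamber ht ht' (low_mono H b2 (hN' t)) (low_mono H b2 (hN' t')))⟩
  have key : ∀ t ∈ Z, ∃ d : ℤ, Cn M Z (LowP H d) (c, s) (c * (c⁻¹ * c'), t) := by
    refine AZ_induction (P := fun k => ∀ t ∈ Z, ∃ d : ℤ, Cn M Z (LowP H d) (c, s) (c * k, t))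
      ?_ ?_ ?_ h
    · intro t ht
      obtain ⟨N, hN⟩ := H.bdd c
      rw [mul_one]
      exact ⟨N, Cn.chamber hs ht (hN s) (hN t)⟩
    · intro k _ u hu ih
      simp only [← mul_assoc]
      exact step _ _ u (fun t ht => artinGen_mem_AZ M (Finset.mem_erase.2 ⟨ht.symm, hu⟩)) ih
    · intro k _ u hu ih
      simp only [← mul_assoc]
      exact step _ _ u
        (fun t ht => inv_mem (artinGen_mem_AZ M (Finset.mem_erase.2 ⟨ht.symm, hu⟩))) ih
  rw [mul_inv_cancel_left] at key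
  exact key s' hs'

/-- Repeated use of `H.kill` with the longest element of `W_Z`: downward induction on the level from the bound `H.bdd`. -/
theorem kill_iter (hZ : Sph M Z) {d : ℤ} {c : ArtinGroup M} (h : Frz M Y H.v Z d c) :
    ∃ c', Res M Z c c' ∧ UU M Y H.v Z d c' := by
  obtain ⟨w, hw⟩ := exists_longest M hZ
  have hwA : lft M w ∈ AZ M Z := by
    obtain ⟨l, -, h1, -, h2⟩ := exists_reduced_inZ M hw.1
    rw [h2]
    exact wordA_mem M h1
  have key : ∀ n : ℕ, ∀ c', Res M Z c c' → (∀ s ∈ Z, Low M H.v c' (d + n) s) →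
      ∃ c'', Res M Z c c'' ∧ UU M Y H.v Z d c'' := by
    intro n
    induction n with
    | zero => exact fun c' hc hl => ⟨c', hc, frz_res H hc h, by simpa using hl⟩
    | succ n ih =>
      intro c' hc hl
      refine ih (c' * lft M w) (hc.trans (Res.mul c' hwA)) fun s hs => ?_
      have h1 := H.kill Z (d + (n + 1 : ℕ)) c' w hw
        (frz_mono H (by push_cast; omega) (frz_res H hc h)) hl s hs
      exact low_mono H (by push_cast; omega) h1
  obtain ⟨N, hN⟩ := H.bdd c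
  exact key (N - d).toNat c (Res.refl c) fun s _ => low_mono H (by omega) (hN s)

/-- In the spherical case a low simplex lies in a chamber of the aisle: `kill_iter` for `J`, with `frz_sub`. -/
theorem uu_of_simplex {J : Finset S} (hJ : J ⊆ Z) (hS : Sph M J) {d : ℤ} {c : ArtinGroup M}
    (h : Frz M Y H.v Z d c) (hl : ∀ t ∈ Z, t ∉ J → Low M H.v c d t) :
    ∃ c', Res M J c c' ∧ UU M Y H.v Z d c' := by
  obtain ⟨c', hc, hu⟩ := kill_iter H hS (frz_sub H hJ h hl)
  refine ⟨c', hc, frz_res H (hc.mono hJ) h, fun s hs => ?_⟩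
  by_cases hsJ : s ∈ J
  · exact hu.2 s hsJ
  · exact low_res H hc hsJ (hl s hs hsJ)

end Crest.Agent.R175.G
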