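import Crest.Agent.R175.PGDefs

/-! Concave families on a Coxeter complex: key inequality, dominant chambers. -/

set_option autoImplicit false
set_option linter.unusedSectionVars false

open Crest.GroupTheory
open scoped Classical

namespace Crest.Agent.R175.G

variable {S : Type} [Fintype S] [DecidableEq S] {M : CoxeterMatrix S} {Z : Finset S}

theorem WZ_mono {J : Finset S} (h : J ⊆ Z) : WZ M J ≤ WZ M Z := by
  exact Subgroup.closure_mono (Set.image_mono (by exact_mod_cast h))

theorem a1_rho_mul_apply (x y : M.Group) (z : S → ℝ) : rho M (x * y) z = rho M x (rho M y z) := by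
  rw [map_mul, Module.End.mul_apply]

theorem a1_rho_one_apply (z : S → ℝ) : rho M 1 z = z := by
  rw [map_one, Module.End.one_apply]

theorem a1_rs_rs (s : S) (z : S → ℝ) : rs M s (rs M s z) = z := by
  rw [← rho_simple, ← a1_rho_mul_apply, simple_mul_self, a1_rho_one_apply]

theorem a1_rs_apply_ne {s t : S} (h : t ≠ s) (z : S → ℝ) : rs M s z t = z t := by
  simp [rs_apply, al, h]

theorem a1_al_nonneg (s : S) : (0 : S → ℝ) ≤ al s := fun t => by
  by_cases h : t = s
  · subst h; simp [al]
  · simp [al, h]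

theorem a1_rho_mul_simple_al2 (w : M.Group) (s t : S) :
    rho M (w * M.simple s) (al t) = rho M w (al t) + cc M s t • rho M w (al s) := by
  rw [a1_rho_mul_apply, rho_simple, rs_apply, flow_al, map_add, map_smul]

theorem a1_wordProd_concat (l : List S) (s : S) :
    M.toCoxeterSystem.wordProd (l ++ [s]) = M.toCoxeterSystem.wordProd l * M.simple s := by
  simp [CoxeterSystem.wordProd_append]

theorem a1_wordProd_cons (s : S) (l : List S) :
    M.toCoxeterSystem.wordProd (s :: l) = M.simple s * M.toCoxeterSystem.wordProd l := by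
  simp [CoxeterSystem.wordProd_cons]

/-- `rho (w s) α_s = - rho w α_s` (use `flow s (al s) = -2`). -/
theorem rho_mul_simple_al (w : M.Group) (s : S) :
    rho M (w * M.simple s) (al s) = - rho M w (al s) := by
  rw [a1_rho_mul_simple_al2, cc_self]
  module

/-- A non-trivial element of `W_Z` has a right descent in `Z` (last letter of a reduced word). -/
theorem exists_descent {w : M.Group} (hw : w ∈ WZ M Z) (h1 : w ≠ 1) :
    ∃ u ∈ Z, len M (w * M.simple u) < len M w := by
  obtain ⟨l, hl, hZ, rfl, -⟩ := exists_reduced_inZ M hw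
  rcases List.eq_nil_or_concat l with rfl | ⟨l', u, rfl⟩
  · exact absurd (by simp) h1
  · rw [List.concat_eq_append] at hl hZ ⊢
    refine ⟨u, hZ u (by simp), ?_⟩
    have h2 : len M (M.toCoxeterSystem.wordProd l') ≤ l'.length :=
      M.toCoxeterSystem.length_wordProd_le l'
    have h3 : len M (M.toCoxeterSystem.wordProd (l' ++ [u])) = l'.length + 1 := by
      rw [len, hl.eq]; simp
    rw [h3, a1_wordProd_concat, mul_assoc, simple_mul_self, mul_one]
    omega

/-- Expansion of a vector supported on `Z` in simple roots. -/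
theorem pair_expand (ξ : (S → ℝ) →ₗ[ℝ] ℝ) (y : M.Group) {z : S → ℝ} (hz : ∀ t, t ∉ Z → z t = 0) :
    ξ (rho M y z) = ∑ t ∈ Z, z t * ξ (rho M y (al t)) := by
  conv_lhs => rw [sum_al z]
  simp only [map_sum, map_smul, smul_eq_mul]
  exact (Finset.sum_subset (Finset.subset_univ Z) fun t _ ht => by rw [hz t ht, zero_mul]).symm

theorem vtx_apply (w : M.Group) (s : S) (z : S → ℝ) : vtx M w s (rho M w z) = z s := by
  rw [vtx, LinearMap.comp_apply, ← a1_rho_mul_apply, inv_mul_cancel, a1_rho_one_apply]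
  rfl

theorem dom_vtx {w : M.Group} (hw : w ∈ WZ M Z) (s : S) : Dom M Z (vtx M w s) w := by
  exact ⟨hw, fun u _ => by rw [vtx_apply]; exact a1_al_nonneg u s⟩

/-- `F w = rho w (e w)` satisfies `F (x u) = F x + a • rho x α_u` with `a ≥ 0`. -/
theorem Fam.step {e : M.Group → S → ℝ} (he : Fam M Z e) {x : M.Group} (hx : x ∈ WZ M Z) {u : S}
    (hu : u ∈ Z) : ∃ a : ℝ, 0 ≤ a ∧
      rho M (x * M.simple u) (e (x * M.simple u)) = rho M x (e x) + a • rho M x (al u) := by
  obtain ⟨a, ha, h⟩ := he.2 x hx u hu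
  refine ⟨a, ha, ?_⟩
  rw [h, map_sub, map_smul, rho_mul_simple_al, a1_rho_mul_apply, rho_simple, a1_rs_rs]
  module

/-- Only the coordinate `u` changes when crossing a wall of type `u`. -/
theorem Fam.ne {e : M.Group → S → ℝ} (he : Fam M Z e) {x : M.Group} (hx : x ∈ WZ M Z) {u s : S}
    (hu : u ∈ Z) (hus : u ≠ s) : e (x * M.simple u) s = e x s := by
  obtain ⟨a, -, h⟩ := he.2 x hx u hu
  rw [h, Pi.sub_apply, a1_rs_apply_ne hus.symm]
  simp [al, hus.symm]

/-- If `y` is dominant for `ξ` and `u` is a right descent of `y⁻¹ x`, then `ξ (x α_u) ≤ 0`: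
`rho (y⁻¹ x) α_u ≤ 0` is supported on `Z` (`rho_supp`), expand with `pair_expand`. -/
theorem Dom.nonpos {ξ : (S → ℝ) →ₗ[ℝ] ℝ} {y x : M.Group} (hy : Dom M Z ξ y) (hx : x ∈ WZ M Z)
    {u : S} (hu : u ∈ Z) (h : len M (y⁻¹ * x * M.simple u) < len M (y⁻¹ * x)) :
    ξ (rho M x (al u)) ≤ 0 := by
  have hm : y⁻¹ * x ∈ WZ M Z := mul_mem (inv_mem hy.1) hx
  have e : rho M x (al u) = rho M y (rho M (y⁻¹ * x) (al u)) := by
    rw [← a1_rho_mul_apply, mul_inv_cancel_left]
  rw [e, pair_expand ξ y (rho_al_supp M hm hu)]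
  exact Finset.sum_nonpos fun t ht => mul_nonpos_of_nonpos_of_nonneg (rho_neg M h t) (hy.2 t ht)

/-- Key inequality. Induct on `len (y⁻¹ x)`: for `x ≠ y` take a descent `u` of `y⁻¹ x`; by
`Fam.step` and `Dom.nonpos`, `ξ (F (x u)) ≤ ξ (F x)`. -/
theorem Fam.key {e : M.Group → S → ℝ} (he : Fam M Z e) {ξ : (S → ℝ) →ₗ[ℝ] ℝ} {y x : M.Group}
    (hy : Dom M Z ξ y) (hx : x ∈ WZ M Z) : ξ (rho M y (e y)) ≤ ξ (rho M x (e x)) := by
  induction hn : len M (y⁻¹ * x) using Nat.strong_induction_on generalizing x with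
  | _ n ih =>
    by_cases h1 : y⁻¹ * x = 1
    · rw [inv_mul_eq_one.1 h1]
    · obtain ⟨u, hu, hlt⟩ := exists_descent (mul_mem (inv_mem hy.1) hx) h1
      have h2 := ih _ (by rw [← hn, ← mul_assoc]; exact hlt)
        (mul_mem hx (simple_mem_WZ M hu)) rfl
      obtain ⟨a, ha, h3⟩ := he.step hx hu
      have h4 := hy.nonpos hx hu hlt
      rw [h3, map_add, map_smul, smul_eq_mul] at h2
      nlinarith [mul_nonneg ha (neg_nonneg.2 h4)]

/-- Sign change. Induct on `l = r :: l'`: the root `rho (prod l' * w) α_u` is `≥ 0` or `≤ 0`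
(`rho_pos`, `rho_neg`). If `≤ 0` and `l' ≠ []` use the induction hypothesis (for `l' = []` it is both, hence zero,
impossible by `rho_al_ne_zero`). If `≥ 0` while its image under `rs r` is `≤ 0`, its coordinates other than `r` vanish,
so it is `c • al r` with `c > 0`. -/
theorem sign_change (l : List S) (w : M.Group) (u : S) (h0 : 0 ≤ rho M w (al u))
    (h1 : rho M (M.toCoxeterSystem.wordProd l * w) (al u) ≤ 0) :
    ∃ q r q', l = q ++ r :: q' ∧ ∃ c : ℝ, 0 < c ∧
      rho M (M.toCoxeterSystem.wordProd l * w) (al u) =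
        -(c • rho M (M.toCoxeterSystem.wordProd q) (al r)) := by
  induction l with
  | nil =>
    rw [CoxeterSystem.wordProd_nil, one_mul] at h1
    exact absurd (le_antisymm h1 h0) (rho_al_ne_zero M w u)
  | cons r l ih =>
    have e : rho M (M.toCoxeterSystem.wordProd (r :: l) * w) (al u) =
        rs M r (rho M (M.toCoxeterSystem.wordProd l * w) (al u)) := by
      rw [a1_wordProd_cons, mul_assoc, a1_rho_mul_apply, rho_simple]
    rcases len_mul_simple M (M.toCoxeterSystem.wordProd l * w) u with h | h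
    · have hp := rho_pos M (w := M.toCoxeterSystem.wordProd l * w) (s := u) (by omega)
      have hne := rho_al_ne_zero M (M.toCoxeterSystem.wordProd l * w) u
      rw [e] at h1 ⊢
      generalize rho M (M.toCoxeterSystem.wordProd l * w) (al u) = b at hp hne h1 ⊢
      have hb : b = b r • al r := by
        funext t
        by_cases ht : t = r
        · subst ht; simp [al]
        · have h2 := h1 t
          rw [a1_rs_apply_ne ht] at h2
          simpa [al, ht] using le_antisymm h2 (hp t)
      refine ⟨[], r, l, rfl, b r, lt_of_le_of_ne (hp r) fun h0 => hne ?_, ?_⟩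
      · rw [hb, ← h0, zero_smul]
      · have h2 := rho_mul_simple_al (M := M) 1 r
        rw [one_mul, rho_simple] at h2
        rw [CoxeterSystem.wordProd_nil]
        conv_lhs => rw [hb]
        rw [map_smul, h2, smul_neg]
    · obtain ⟨q, r', q', rfl, c, hc, h2⟩ :=
        ih (rho_neg M (w := M.toCoxeterSystem.wordProd l * w) (s := u) (by omega))
      refine ⟨r :: q, r', q', rfl, c, hc, ?_⟩
      rw [e, h2, a1_wordProd_cons, a1_rho_mul_apply, rho_simple, map_neg, map_smul]

/-- Greedy gallery to a dominant chamber. Among the reduced words in `Z` all of whose prefix roots are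
`ξ`-negative take one of maximal length (lengths are bounded since `W_Z` is finite). If `y = prod l` is not dominant,
`ξ (y α_u) < 0`. If `len (y u) > len y` then `l ++ [u]` is longer. Otherwise `rho y α_u ≤ 0` and `sign_change` (with
`w = 1`) gives `ξ (y α_u) > 0`. -/
theorem greedy (hZ : Sph M Z) (ξ : (S → ℝ) →ₗ[ℝ] ℝ) :
    ∃ l, M.toCoxeterSystem.IsReduced l ∧ InZ Z l ∧ Dom M Z ξ (M.toCoxeterSystem.wordProd l) ∧
      ∀ q r q', l = q ++ r :: q' → ξ (rho M (M.toCoxeterSystem.wordProd q) (al r)) < 0 := by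
  by_contra hno
  have key : ∀ n : ℕ, ∃ l : List S, l.length = n ∧ M.toCoxeterSystem.IsReduced l ∧ InZ Z l ∧
      ∀ q r q', l = q ++ r :: q' → ξ (rho M (M.toCoxeterSystem.wordProd q) (al r)) < 0 := by
    intro n
    induction n with
    | zero =>
      refine ⟨[], rfl, by simp [CoxeterSystem.IsReduced], by simp [InZ], fun q r q' h => ?_⟩
      simp at h
    | succ n ih =>
      obtain ⟨l, hn, hl, hlZ, hq⟩ := ih
      obtain ⟨u, hu, hneg⟩ : ∃ u ∈ Z, ξ (rho M (M.toCoxeterSystem.wordProd l) (al u)) < 0 := by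
        by_contra h
        exact hno ⟨l, hl, hlZ, ⟨wordProd_mem M hlZ, fun u hu => not_lt.1 fun h' => h ⟨u, hu, h'⟩⟩,
          hq⟩
      rcases len_mul_simple M (M.toCoxeterSystem.wordProd l) u with h | h
      · refine ⟨l ++ [u], by simp [hn], ?_, fun x hx => ?_, fun q r q' e => ?_⟩
        · rw [← a1_wordProd_concat, len, len, hl.eq] at h
          simpa [CoxeterSystem.IsReduced] using h
        · rcases List.mem_append.1 hx with hx | hx
          · exact hlZ x hx
          · rw [List.mem_singleton.1 hx]; exact hu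
        · rcases List.eq_nil_or_concat q' with rfl | ⟨q'', u', rfl⟩
          · obtain ⟨rfl, h2⟩ := List.append_inj' e rfl
            rw [← List.singleton_injective h2]
            exact hneg
          · rw [List.concat_eq_append, ← List.cons_append, ← List.append_assoc] at e
            exact hq q r q'' (List.append_inj' e rfl).1
      · obtain ⟨q, r, q', e, c, hc, h2⟩ := sign_change (M := M) l 1 u
          (by rw [a1_rho_one_apply]; exact a1_al_nonneg u)
          (by rw [mul_one]; exact rho_neg M (by omega))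
        rw [mul_one] at h2
        rw [h2, map_neg, map_smul, smul_eq_mul] at hneg
        have := mul_pos hc (neg_pos.2 (hq q r q' e))
        linarith
  obtain ⟨w, hw⟩ := exists_longest M hZ
  obtain ⟨l, hn, hl, hlZ, -⟩ := key (len M w + 1)
  have h1 := hw.len_left M (wordProd_mem M hlZ)
  have h2 : len M (M.toCoxeterSystem.wordProd l) = l.length := hl.eq
  omega

/-- Two dominant chambers differ by reflections in walls containing `ξ`. Induct on `len (y'⁻¹ y)`: a descent `u` of
`y'⁻¹ y` has `ξ (y α_u) ≤ 0` by `Dom.nonpos`, so `= 0`; then `y u` is dominant with the same values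
`ξ (y u α_t) = ξ (y α_t)` for all `t`. -/
theorem Dom.coset {ξ : (S → ℝ) →ₗ[ℝ] ℝ} {y y' : M.Group} (hy : Dom M Z ξ y) (hy' : Dom M Z ξ y')
    {t : S} (ht : 0 < ξ (rho M y (al t))) :
    y⁻¹ * y' ∈ WZ M (Z.erase t) ∧ ξ (rho M y' (al t)) = ξ (rho M y (al t)) := by
  induction hn : len M (y'⁻¹ * y) using Nat.strong_induction_on generalizing y with
  | _ n ih =>
    by_cases h1 : y'⁻¹ * y = 1
    · rw [inv_mul_eq_one.1 h1, inv_mul_cancel]
      exact ⟨one_mem _, rfl⟩
    · obtain ⟨u, hu, hlt⟩ := exists_descent (mul_mem (inv_mem hy'.1) hy.1) h1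
      have h0 : ξ (rho M y (al u)) = 0 := le_antisymm (hy'.nonpos hy.1 hu hlt) (hy.2 u hu)
      have h2 : ∀ t, ξ (rho M (y * M.simple u) (al t)) = ξ (rho M y (al t)) := fun t => by
        rw [a1_rho_mul_simple_al2, map_add, map_smul, h0, smul_zero, add_zero]
      have h3 : Dom M Z ξ (y * M.simple u) :=
        ⟨mul_mem hy.1 (simple_mem_WZ M hu), fun t ht => by rw [h2]; exact hy.2 t ht⟩
      obtain ⟨h4, h5⟩ := ih _ (by rw [← hn, ← mul_assoc]; exact hlt) h3 (by rw [h2]; exact ht) rfl
      refine ⟨?_, by rw [h5, h2]⟩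
      have hut : u ≠ t := fun h => by rw [← h, h0] at ht; exact lt_irrefl _ ht
      have e : y⁻¹ * y' = M.simple u * ((y * M.simple u)⁻¹ * y') := by group
      rw [e]
      exact mul_mem (simple_mem_WZ M (Finset.mem_erase.2 ⟨hut, hu⟩)) h4

end Crest.Agent.R175.G
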