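import Crest.Agent.R175.PGA1

/-! Connectivity along segments in a spherical Coxeter complex. -/

set_option autoImplicit false
set_option linter.unusedSectionVars false

open Crest.GroupTheory
open scoped Classical

namespace Crest.Agent.R175.G

variable {S : Type} [Fintype S] [DecidableEq S] {M : CoxeterMatrix S} {Z : Finset S}

theorem WLk.symm {P : M.Group → S → Prop} {x y : M.Group × S} (h : WLk M Z P x y) :
    WLk M Z P y x := by
  obtain ⟨h1, h2, h3, h4, h5, h6⟩ := h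
  rcases h6 with h6 | ⟨h6, u, hu, hne, h7⟩
  · exact ⟨h6 ▸ h1, h3, h2, h5, h4, Or.inl h6.symm⟩
  · refine ⟨h7 ▸ mul_mem h1 (simple_mem_WZ M hu), h3, h2, h5, h4,
      Or.inr ⟨h6.symm, u, hu, h6 ▸ hne, ?_⟩⟩
    rw [h7, mul_assoc, simple_mul_self, mul_one]

theorem WCn.symm {P : M.Group → S → Prop} {x y : M.Group × S} (h : WCn M Z P x y) :
    WCn M Z P y x := by
  induction h with
  | refl => exact Relation.ReflTransGen.refl
  | tail _ h2 ih => exact Relation.ReflTransGen.head h2.symm ih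

/-- Walking around a vertex: induct on a word for `y⁻¹ y'` in `Z.erase t` (`exists_reduced_inZ`). -/
theorem WCn.of_coset {P : M.Group → S → Prop} (hP : WInv M Z P) {y y' : M.Group}
    (hy : y ∈ WZ M Z) {t : S} (ht : t ∈ Z) (h : y⁻¹ * y' ∈ WZ M (Z.erase t)) (hp : P y t) :
    P y' t ∧ WCn M Z P (y, t) (y', t) := by
  obtain ⟨l, hl, e⟩ := exists_word_of_mem M h
  obtain rfl : y' = y * M.toCoxeterSystem.wordProd l := by rw [← e, mul_inv_cancel_left]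
  clear e h
  induction l generalizing y with
  | nil =>
    rw [CoxeterSystem.wordProd_nil, mul_one]
    exact ⟨hp, Relation.ReflTransGen.refl⟩
  | cons u l ih =>
    have hu := Finset.mem_erase.1 (hl u (by simp))
    have h1 := hP y hy t ht u hu.2 hu.1 hp
    obtain ⟨h2, h3⟩ := ih (mul_mem hy (simple_mem_WZ M hu.2)) h1 fun x hx => hl x (by simp [hx])
    rw [a1_wordProd_cons, ← mul_assoc]
    exact ⟨h2, Relation.ReflTransGen.head (b := (y * M.simple u, t))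
      ⟨hy, ht, ht, hp, h1, Or.inr ⟨rfl, u, hu.2, hu.1, rfl⟩⟩ h3⟩

/-- Segment lemma. For `τ ∈ [0,1]` put `ξ τ = (1-τ) • ξ₀ + τ • ξ₁`. Call a chamber `y` good if some marked `(y,t)` is
connected to `(y₀,s₀)` (then all marked `(y,t')` are). `A = {τ | ∃ good y dominant for ξ τ}` and
`B = {τ | ∃ non-good y dominant for ξ τ}` are finite unions (`Sph`) of closed sets, cover `[0,1]` (`greedy`), and are
disjoint on `[0,1]` (`Dom.coset`, `WCn.of_coset`, hypothesis `h`). `0 ∈ A`, so `1 ∉ B` by `isPreconnected_Icc`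
(`isPreconnected_closed_iff` or `IsPreconnected.subset_of_closure_inter_subset`). -/
theorem seg_conn (hZ : Sph M Z) {P : M.Group → S → Prop} (hP : WInv M Z P)
    {ξ₀ ξ₁ : (S → ℝ) →ₗ[ℝ] ℝ}
    (h : ∀ τ : ℝ, 0 ≤ τ → τ ≤ 1 → ∀ y, Dom M Z ((1 - τ) • ξ₀ + τ • ξ₁) y →
      ∃ t ∈ Z, 0 < ((1 - τ) • ξ₀ + τ • ξ₁) (rho M y (al t)) ∧ P y t)
    {y₀ y₁ : M.Group} {s₀ s₁ : S} (hy₀ : Dom M Z ξ₀ y₀) (hy₁ : Dom M Z ξ₁ y₁) (hs₀ : s₀ ∈ Z)
    (hs₁ : s₁ ∈ Z) (h₀ : P y₀ s₀) (h₁ : P y₁ s₁) : WCn M Z P (y₀, s₀) (y₁, s₁) := by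
  let G : M.Group → Prop := fun y => ∃ t ∈ Z, P y t ∧ WCn M Z P (y₀, s₀) (y, t)
  have hG : ∀ y ∈ WZ M Z, G y → ∀ t ∈ Z, P y t → WCn M Z P (y₀, s₀) (y, t) := by
    rintro y hy ⟨t', ht', h1, h2⟩ t ht h3
    exact h2.tail ⟨hy, ht', ht, h1, h3, Or.inl rfl⟩
  let D : M.Group → Set ℝ := fun y => {τ | Dom M Z ((1 - τ) • ξ₀ + τ • ξ₁) y}
  have hD : ∀ y ∈ WZ M Z, IsClosed (D y) := fun y hy => by
    have e : D y = ⋂ u ∈ Z, {τ : ℝ |
        0 ≤ (1 - τ) * ξ₀ (rho M y (al u)) + τ * ξ₁ (rho M y (al u))} := by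
      ext τ
      simp [D, Dom, hy]
    rw [e]
    exact isClosed_biInter fun u _ => isClosed_le continuous_const (by fun_prop)
  have hcl : ∀ Q : M.Group → Prop, IsClosed (⋃ y ∈ {y | y ∈ WZ M Z ∧ Q y}, D y) := fun Q =>
    (hZ.subset fun y hy => hy.1).isClosed_biUnion fun y hy => hD y hy.1
  refine hG y₁ hy₁.1 ?_ s₁ hs₁ h₁
  by_contra hng
  obtain ⟨τ, hτ, h1, h2⟩ := isPreconnected_closed_iff.1 (isPreconnected_Icc (a := (0 : ℝ)) (b := 1))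
    _ _ (hcl G) (hcl fun y => ¬ G y)
    (fun τ _ => by
      obtain ⟨l, -, -, hd, -⟩ := greedy hZ ((1 - τ) • ξ₀ + τ • ξ₁)
      by_cases hg : G (M.toCoxeterSystem.wordProd l)
      · exact Or.inl (Set.mem_biUnion (⟨hd.1, hg⟩ : _ ∈ {y | y ∈ WZ M Z ∧ G y}) hd)
      · exact Or.inr (Set.mem_biUnion (⟨hd.1, hg⟩ : _ ∈ {y | y ∈ WZ M Z ∧ ¬ G y}) hd))
    ⟨0, ⟨le_rfl, zero_le_one⟩, Set.mem_biUnion
      (⟨hy₀.1, s₀, hs₀, h₀, Relation.ReflTransGen.refl⟩ : _ ∈ {y | y ∈ WZ M Z ∧ G y})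
      (by simpa [D] using hy₀)⟩
    ⟨1, ⟨zero_le_one, le_rfl⟩, Set.mem_biUnion (⟨hy₁.1, hng⟩ : _ ∈ {y | y ∈ WZ M Z ∧ ¬ G y})
      (by simpa [D] using hy₁)⟩
  obtain ⟨y, ⟨hy, hg⟩, hd⟩ := Set.mem_iUnion₂.1 h1
  obtain ⟨y', ⟨-, hg'⟩, hd'⟩ := Set.mem_iUnion₂.1 h2
  obtain ⟨t, ht, h3, h4⟩ := h τ hτ.1 hτ.2 y hd
  obtain ⟨h5, h6⟩ := WCn.of_coset hP hy ht (Dom.coset hd hd' h3).1 h4
  exact hg' ⟨t, ht, h5, (hG y hy hg t ht h4).trans h6⟩

theorem Fam.a2_winv {e : M.Group → S → ℝ} (he : Fam M Z e) (Q : ℝ → Prop) :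
    WInv M Z fun w t => Q (e w t) := fun w hw s _ u hu hus h => by
  change Q (e (w * M.simple u) s)
  rw [he.ne hw hu hus]
  exact h

theorem Fam.a2_vtx {e : M.Group → S → ℝ} (he : Fam M Z e) {x : M.Group} (hx : x ∈ WZ M Z) (s : S)
    {w : M.Group} (hw : w ∈ WZ M Z) : e x s ≤ vtx M x s (rho M w (e w)) := by
  have := he.key (dom_vtx hx s) hw
  rwa [vtx_apply] at this

theorem Fam.a2_exists_pos {e : M.Group → S → ℝ} (he : Fam M Z e) {ξ : (S → ℝ) →ₗ[ℝ] ℝ}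
    {w : M.Group} (hw : Dom M Z ξ w) (h : 0 < ξ (rho M w (e w))) :
    ∃ t ∈ Z, 0 < ξ (rho M w (al t)) ∧ 0 < e w t := by
  rw [pair_expand ξ w (he.1 w)] at h
  obtain ⟨t, ht, h1⟩ := Finset.exists_lt_of_sum_lt (f := fun _ => (0 : ℝ)) (by simpa using h)
  rcases (pos_iff_pos_of_mul_pos h1), hw.2 t ht with ⟨h2, h3⟩
  have h4 : 0 < ξ (rho M w (al t)) := lt_of_le_of_ne h3 fun h0 => by
    rw [← h0, mul_zero] at h1
    exact lt_irrefl _ h1
  exact ⟨t, ht, h4, h2.2 h4⟩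

theorem a2_conv {τ a b : ℝ} (h0 : 0 ≤ τ) (h1 : τ ≤ 1) (ha : 0 < a) (hb : 0 < b) :
    0 < (1 - τ) * a + τ * b := by
  rcases h0.eq_or_lt with rfl | h0
  · simpa using ha
  · exact add_pos_of_nonneg_of_pos (mul_nonneg (by linarith) ha.le) (mul_pos h0 hb)

/-- The positive vertices of an apartment are connected. `seg_conn` with `ξ₀ = vtx x s`, `ξ₁ = vtx y u`: by `Fam.key`
both are positive on every `F w`, hence so is `ξ τ`; expand `ξ τ (F y')` with `pair_expand`. -/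
theorem Fam.pos_conn (hZ : Sph M Z) {e : M.Group → S → ℝ} (he : Fam M Z e) {x y : M.Group}
    (hx : x ∈ WZ M Z) (hy : y ∈ WZ M Z) {s u : S} (hs : s ∈ Z) (hu : u ∈ Z) (h₀ : 0 < e x s)
    (h₁ : 0 < e y u) : WCn M Z (fun w t => 0 < e w t) (x, s) (y, u) := by
  refine seg_conn hZ (he.a2_winv fun r => 0 < r) (fun τ h0 h1 w hw => ?_) (dom_vtx hx s)
    (dom_vtx hy u) hs hu h₀ h₁
  refine he.a2_exists_pos hw ?_
  have h2 := h₀.trans_le (he.a2_vtx hx s hw.1)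
  have h3 := h₁.trans_le (he.a2_vtx hy u hw.1)
  rw [LinearMap.add_apply, LinearMap.smul_apply, LinearMap.smul_apply, smul_eq_mul, smul_eq_mul]
  exact a2_conv h0 h1 h2 h3

/-- A zero vertex of an apartment with a positive vertex has a positive neighbour. With `ξ₀ = vtx x s`, `ξ₁ = vtx y u`,
`ξ τ` is positive on every `F w` for `τ ∈ (0,1]`. Some chamber `x'` is dominant for `ξ (1/(n+1))` for infinitely many `n`
(`Sph`, `greedy`, pigeonhole), so it is dominant for `ξ₀` in the limit (or: take `τ` so small that every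
`ξ₀ (w α_t) < 0` stays negative). `Dom.coset` gives the coset and `WCn.of_coset` gives `e x' s = 0`; expanding `ξ τ (F x') > 0` gives `u'`. -/
theorem Fam.tie_nbr (hZ : Sph M Z) {e : M.Group → S → ℝ} (he : Fam M Z e) {x y : M.Group}
    (hx : x ∈ WZ M Z) (hy : y ∈ WZ M Z) {s u : S} (hs : s ∈ Z) (hu : u ∈ Z) (h₀ : e x s = 0)
    (h₁ : 0 < e y u) :
    ∃ x' u', x⁻¹ * x' ∈ WZ M (Z.erase s) ∧ u' ∈ Z.erase s ∧ 0 < e x' u' := by
  have hev : ∀ᶠ τ : ℝ in nhds 0, ∀ w ∈ (WZ M Z : Set M.Group), ∀ t ∈ Z,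
      vtx M x s (rho M w (al t)) < 0 →
        (1 - τ) * vtx M x s (rho M w (al t)) + τ * vtx M y u (rho M w (al t)) < 0 := by
    rw [Filter.eventually_all_finite hZ]
    intro w _
    rw [Filter.eventually_all_finset]
    intro t _
    by_cases h : vtx M x s (rho M w (al t)) < 0
    · have hc : Continuous fun τ : ℝ =>
          (1 - τ) * vtx M x s (rho M w (al t)) + τ * vtx M y u (rho M w (al t)) := by fun_prop
      filter_upwards [hc.continuousAt.eventually_lt continuousAt_const (by simpa using h)]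
        with τ hτ _ using hτ
    · exact Filter.Eventually.of_forall fun τ h' => absurd h' h
  obtain ⟨τ, hτ, h0, h1⟩ := ((hev.filter_mono nhdsWithin_le_nhds).and
    (Ioo_mem_nhdsGT (zero_lt_one (α := ℝ)))).exists
  obtain ⟨l, -, -, hd, -⟩ := greedy hZ ((1 - τ) • vtx M x s + τ • vtx M y u)
  generalize M.toCoxeterSystem.wordProd l = x' at hd
  have hd0 : Dom M Z (vtx M x s) x' := ⟨hd.1, fun t ht => not_lt.1 fun h => by
    have h2 := hτ x' hd.1 t ht h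
    have h3 := hd.2 t ht
    rw [LinearMap.add_apply, LinearMap.smul_apply, LinearMap.smul_apply, smul_eq_mul,
      smul_eq_mul] at h3
    linarith⟩
  have h2 := (Dom.coset (dom_vtx hx s) hd0 (t := s) (by rw [vtx_apply]; simp [al])).1
  have h3 := (WCn.of_coset (he.a2_winv fun r => r = 0) hx hs h2 h₀).1
  obtain ⟨t, ht, -, h4⟩ := he.a2_exists_pos hd (by
    have h5 := h₀.symm.trans_le (he.a2_vtx hx s hd.1)
    have h6 := h₁.trans_le (he.a2_vtx hy u hd.1)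
    rw [LinearMap.add_apply, LinearMap.smul_apply, LinearMap.smul_apply, smul_eq_mul, smul_eq_mul]
    exact add_pos_of_nonneg_of_pos (mul_nonneg (by linarith) h5) (mul_pos h0 h6))
  refine ⟨x', t, h2, Finset.mem_erase.2 ⟨fun h => ?_, ht⟩, h4⟩
  rw [h, h3] at h4
  exact lt_irrefl _ h4

/-- The zero set of a non-positive family is convex. `seg_conn`: for `y` dominant for `ξ τ`,
`0 ≤ ξ τ (F y) = ∑ e y t * ξ τ (y α_t)` has all terms `≤ 0`, so all vanish; not all `ξ τ (y α_t)` vanish, since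
otherwise `ξ τ (al u) = ξ τ (rho y (rho y⁻¹ (al u))) = 0` by `pair_expand` and `rho_supp`. -/
theorem Fam.zero_conn (hZ : Sph M Z) {e : M.Group → S → ℝ} (he : Fam M Z e)
    (hle : ∀ w ∈ WZ M Z, ∀ t, e w t ≤ 0) {ξ₀ ξ₁ : (S → ℝ) →ₗ[ℝ] ℝ}
    (hξ₀ : ∀ w ∈ WZ M Z, 0 ≤ ξ₀ (rho M w (e w))) (hξ₁ : ∀ w ∈ WZ M Z, 0 ≤ ξ₁ (rho M w (e w)))
    (hne : ∀ τ : ℝ, 0 ≤ τ → τ ≤ 1 → ∃ u ∈ Z, ((1 - τ) • ξ₀ + τ • ξ₁) (al u) ≠ 0)
    {y₀ y₁ : M.Group} {s₀ s₁ : S} (hy₀ : Dom M Z ξ₀ y₀) (hy₁ : Dom M Z ξ₁ y₁) (hs₀ : s₀ ∈ Z)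
    (hs₁ : s₁ ∈ Z) (h₀ : e y₀ s₀ = 0) (h₁ : e y₁ s₁ = 0) :
    WCn M Z (fun w t => e w t = 0) (y₀, s₀) (y₁, s₁) := by
  refine seg_conn hZ (he.a2_winv fun r => r = 0) (fun τ h0 h1 w hw => ?_) hy₀ hy₁ hs₀ hs₁ h₀ h₁
  obtain ⟨u, hu, hne'⟩ := hne τ h0 h1
  have h2 : 0 ≤ ((1 - τ) • ξ₀ + τ • ξ₁) (rho M w (e w)) := by
    rw [LinearMap.add_apply, LinearMap.smul_apply, LinearMap.smul_apply, smul_eq_mul, smul_eq_mul]
    exact add_nonneg (mul_nonneg (by linarith) (hξ₀ w hw.1)) (mul_nonneg h0 (hξ₁ w hw.1))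
  generalize (1 - τ) • ξ₀ + τ • ξ₁ = ξ at hw hne' h2 ⊢
  have h3 : ∀ t ∈ Z, e w t * ξ (rho M w (al t)) ≤ 0 := fun t ht =>
    mul_nonpos_of_nonpos_of_nonneg (hle w hw.1 t) (hw.2 t ht)
  rw [pair_expand ξ w (he.1 w)] at h2
  have h4 := (Finset.sum_eq_zero_iff_of_nonpos h3).1 (le_antisymm (Finset.sum_nonpos h3) h2)
  obtain ⟨t, ht, h5⟩ : ∃ t ∈ Z, ξ (rho M w (al t)) ≠ 0 := by
    by_contra hall
    apply hne'
    have e1 : al u = rho M w (rho M w⁻¹ (al u)) := by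
      rw [← a1_rho_mul_apply, mul_inv_cancel, a1_rho_one_apply]
    rw [e1, pair_expand ξ w (rho_al_supp M (inv_mem hw.1) hu)]
    refine Finset.sum_eq_zero fun t ht => ?_
    rw [not_not.1 fun h => hall ⟨t, ht, h⟩, mul_zero]
  exact ⟨t, ht, lt_of_le_of_ne (hw.2 t ht) h5.symm, (mul_eq_zero.1 (h4 t ht)).resolve_right h5⟩

end Crest.Agent.R175.G
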