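import Crest.Agent.R175.PGA2

/-! A zero vertex and its mirror image are connected through zero vertices. -/

set_option autoImplicit false
set_option linter.unusedSectionVars false

open Crest.GroupTheory
open scoped Classical

namespace Crest.Agent.R175.G

variable {S : Type} [Fintype S] [DecidableEq S] {M : CoxeterMatrix S} {Z : Finset S}

/-- Put `ξ' = vtx w s`, `ξ = vtx (r w) s = ξ' ∘ rs r`, so `ξ z = ξ' z + flow r z * κ` with `κ = ξ' (al r) ≥ 0`
(`rho_pos` for `w⁻¹`). Both are `≥ 0` on every `F x` (`Fam.key`, `vtx_apply`). No vertex functional vanishes on all `al u`,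
`u ∈ Z` (evaluate at `rho w (al s)`, supported on `Z`, value `1`). If the segment from `ξ` to `ξ'` avoids zero use
`Fam.zero_conn`. Otherwise `ξ' = -c * flow r` and `ξ = c * flow r` on vectors supported on `Z`, with `c > 0`; then
`flow r (F x) = 0` for all `x`, so `e 1 r = 0` by `hanti`. Connect both vertices with `(1, r)`, functional
`η = vtx 1 r = proj r`, by `Fam.zero_conn`: `ξ' (al r) = 2c > 0` and `η (al r) = 1`; `ξ (al u) = c * cc r u > 0` and
`η (al u) = 0` for the neighbour `u` of `r`, while `η (al r) ≠ 0` settles the end point. -/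
theorem Fam.mirror_conn (hZ : Sph M Z) {e : M.Group → S → ℝ} (he : Fam M Z e)
    (hle : ∀ w ∈ WZ M Z, ∀ t, e w t ≤ 0) {r : S} (hr : r ∈ Z) (hadj : ∃ u ∈ Z, Adj M r u)
    (hanti : (∀ x ∈ WZ M Z, flow M r (rho M x (e x)) = 0) → e 1 r = 0)
    {w : M.Group} (hw : w ∈ WZ M Z) (hlen : len M w < len M (M.simple r * w)) {s : S} (hs : s ∈ Z)
    (h₀ : e w s = 0) (h₁ : e (M.simple r * w) s = 0) :
    WCn M Z (fun x t => e x t = 0) (M.simple r * w, s) (w, s) := by
  have hrw : M.simple r * w ∈ WZ M Z := mul_mem (simple_mem_WZ M hr) hw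
  have hξ : ∀ z, vtx M (M.simple r * w) s z = vtx M w s z + flow M r z * vtx M w s (al r) := by
    intro z
    have : vtx M (M.simple r * w) s z = vtx M w s (rs M r z) := by
      simp only [vtx, LinearMap.comp_apply, mul_inv_rev, simple_inv, a1_rho_mul_apply, rho_simple]
    rw [this, rs_apply, map_add, map_smul, smul_eq_mul]
  have hκ : 0 ≤ vtx M w s (al r) :=
    rho_pos M (w := w⁻¹) (s := r) (by rw [len_inv, len_inv_mul_simple]; exact hlen) s
  have p0 : ∀ x ∈ WZ M Z, 0 ≤ vtx M (M.simple r * w) s (rho M x (e x)) := fun x hx =>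
    h₁.symm.trans_le (he.a2_vtx hrw s hx)
  have p1 : ∀ x ∈ WZ M Z, 0 ≤ vtx M w s (rho M x (e x)) := fun x hx =>
    h₀.symm.trans_le (he.a2_vtx hw s hx)
  by_cases hne : ∀ τ : ℝ, 0 ≤ τ → τ ≤ 1 →
      ∃ u ∈ Z, ((1 - τ) • vtx M (M.simple r * w) s + τ • vtx M w s) (al u) ≠ 0
  · exact he.zero_conn hZ hle p0 p1 hne (dom_vtx hrw s) (dom_vtx hw s) hs hs h₁ h₀
  obtain ⟨c, hc0, hc⟩ : ∃ c : ℝ, 0 ≤ c ∧ ∀ u ∈ Z, vtx M w s (al u) = -(c * cc M r u) := by
    push Not at hne
    obtain ⟨τ, -, h1, h2⟩ := hne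
    refine ⟨(1 - τ) * vtx M w s (al r), mul_nonneg (by linarith) hκ, fun u hu => ?_⟩
    have h3 := h2 u hu
    rw [LinearMap.add_apply, LinearMap.smul_apply, LinearMap.smul_apply, smul_eq_mul, smul_eq_mul,
      hξ, flow_al] at h3
    linarith
  have q1 : ∀ z : S → ℝ, (∀ t, t ∉ Z → z t = 0) → vtx M w s z = -(c * flow M r z) := by
    intro z hz
    have := pair_expand (M := M) (vtx M w s) 1 hz
    rw [a1_rho_one_apply] at this
    rw [this, flow_eq_sum M hz, Finset.mul_sum, ← Finset.sum_neg_distrib]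
    refine Finset.sum_congr rfl fun t ht => ?_
    rw [a1_rho_one_apply, hc t ht]
    ring
  have hκ2 : vtx M w s (al r) = 2 * c := by rw [hc r hr, cc_self]; ring
  have q0 : ∀ z : S → ℝ, (∀ t, t ∉ Z → z t = 0) →
      vtx M (M.simple r * w) s z = c * flow M r z := by
    intro z hz
    rw [hξ, q1 z hz, hκ2]
    ring
  have hcpos : 0 < c := lt_of_le_of_ne hc0 fun h => by
    have h2 := q1 _ (rho_al_supp M hw hs)
    rw [vtx_apply, ← h] at h2
    simp [al] at h2
  have hr0 : e 1 r = 0 := hanti fun x hx => by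
    have hs' : ∀ t, t ∉ Z → rho M x (e x) t = 0 := fun t ht => by
      rw [rho_supp M hx _ ht, he.1 x t ht]
    have h2 := p0 x hx
    have h3 := p1 x hx
    rw [q0 _ hs'] at h2
    rw [q1 _ hs'] at h3
    exact (mul_eq_zero.1 (le_antisymm (by linarith) h2)).resolve_left hcpos.ne'
  have p2 : ∀ x ∈ WZ M Z, 0 ≤ vtx M 1 r (rho M x (e x)) := fun x hx =>
    hr0.symm.trans_le (he.a2_vtx (one_mem _) r hx)
  have hη : ∀ z, vtx M 1 r z = z r := fun z => by
    have := vtx_apply (M := M) 1 r z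
    rwa [a1_rho_one_apply] at this
  have hal : ∀ u ∈ Z, ∀ t, t ∉ Z → al u t = 0 := fun u hu t ht => by
    have : t ≠ u := fun h => ht (h ▸ hu)
    simp [al, this]
  refine (he.zero_conn hZ hle p0 p2 (fun τ h0 h1 => ?_) (dom_vtx hrw s) (dom_vtx (one_mem _) r)
    hs hr h₁ hr0).trans (he.zero_conn hZ hle p2 p1 (fun τ h0 h1 => ⟨r, hr, ?_⟩)
    (dom_vtx (one_mem _) r) (dom_vtx hw s) hr hs hr0 h₀)
  · rcases h1.eq_or_lt with rfl | h1
    · refine ⟨r, hr, ?_⟩
      rw [LinearMap.add_apply, LinearMap.smul_apply, LinearMap.smul_apply, hη]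
      simp [al]
    · obtain ⟨u, hu, hru⟩ := hadj
      refine ⟨u, hu, ?_⟩
      rw [LinearMap.add_apply, LinearMap.smul_apply, LinearMap.smul_apply, hη, q0 _ (hal u hu),
        flow_al, smul_eq_mul, smul_eq_mul]
      have h2 : al u r = (0 : ℝ) := by simp [al, hru.1]
      rw [h2, mul_zero, add_zero]
      exact (mul_pos (by linarith) (mul_pos hcpos (lt_of_lt_of_le one_pos (one_le_cc M hru)))).ne'
  · rw [LinearMap.add_apply, LinearMap.smul_apply, LinearMap.smul_apply, hη, hκ2, smul_eq_mul,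
      smul_eq_mul]
    exact (a2_conv h0 h1 (by simp [al]) (by linarith)).ne'

end Crest.Agent.R175.G
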