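import Crest.Agent.R175.PG1
import Crest.Agent.R175.PGA2

/-! Apartments above a chamber of the aisle; folding. -/

set_option autoImplicit false

open Crest.GroupTheory
open scoped Classical

namespace Crest.Agent.R175.G

variable {S : Type} [Fintype S] [DecidableEq S] {M : CoxeterMatrix S} {Y : Finset S}
  (H : HeightData M Y) {Z : Finset S}

theorem b1_up {w : M.Group} {u : S} (h : len M w < len M (w * M.simple u)) :
    lft M (w * M.simple u) = lft M w * artinGen M u := by
  have e : w * M.simple u * M.simple u = w := by rw [mul_assoc, simple_mul_self, mul_one]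
  rw [lft_eq_mul_of_right M (s := u) (by rwa [e]), e]

theorem b1_left {w : M.Group} {u : S} (h : len M w < len M (M.simple u * w)) :
    lft M (M.simple u * w) = artinGen M u * lft M w := by
  have e : M.simple u * (M.simple u * w) = w := by rw [← mul_assoc, simple_mul_self, one_mul]
  rw [lft_eq_mul_of_left M (s := u) (by rwa [e]), e]

theorem b1_step {J : Finset S} {u : S} (hu : u ∈ J) (T : ArtinGroup M) (w : M.Group) :
    Res M J (T * lft M w) (T * lft M (w * M.simple u)) := by
  rcases len_mul_simple M w u with h | h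
  · rw [b1_up (by omega), ← mul_assoc]
    exact Res.mul _ (artinGen_mem_AZ M hu)
  · rw [lft_eq_mul_of_right M (w := w) (s := u) (by omega), ← mul_assoc]
    exact (Res.mul _ (artinGen_mem_AZ M hu)).symm

/-- Induct on a word for `x⁻¹ x'` in `J`; `lft (w u) = lft w * (gen u)^{±1}` (`lft_mul`, `lft_eq_mul_of_right`). -/
theorem lft_coset {J : Finset S} {x x' : M.Group} (h : x⁻¹ * x' ∈ WZ M J) (T : ArtinGroup M) :
    Res M J (T * lft M x) (T * lft M x') := by
  obtain ⟨l, hl, e⟩ := exists_word_of_mem M h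
  rw [inv_mul_eq_iff_eq_mul] at e
  subst e
  clear h
  induction l generalizing x with
  | nil => simpa using Res.refl _
  | cons r l ih =>
    rw [a1_wordProd_cons, ← mul_assoc]
    exact (b1_step (hl r List.mem_cons_self) T x).trans
      (ih fun y hy => hl y (List.mem_cons_of_mem _ hy))

theorem res_lft {w : M.Group} (hw : w ∈ WZ M Z) (T : ArtinGroup M) : Res M Z T (T * lft M w) := by
  have := lft_coset (x := 1) (x' := w) (by simpa using hw) T
  rwa [lft_one, mul_one] at this

/-- Transfer of paths from the Coxeter complex to the apartment above `T`. -/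
theorem cn_of_wcn {P : M.Group → S → Prop} {Q : ArtinGroup M → S → Prop} (T : ArtinGroup M)
    (hPQ : ∀ w ∈ WZ M Z, ∀ s ∈ Z, P w s → Q (T * lft M w) s) {x y : M.Group × S}
    (h : WCn M Z P x y) : Cn M Z Q (T * lft M x.1, x.2) (T * lft M y.1, y.2) := by
  induction h with
  | refl => exact Cn.refl _
  | tail _ hk ih =>
    obtain ⟨h1, h2, h3, h4, h5, h6⟩ := hk
    refine Relation.ReflTransGen.tail ih ?_
    rcases h6 with h6 | ⟨h6, u, hu, hne, h7⟩
    · exact ⟨h2, h3, hPQ _ h1 _ h2 h4, hPQ _ (h6 ▸ h1) _ h3 h5, Or.inl (by rw [h6])⟩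
    · refine ⟨h2, h3, hPQ _ h1 _ h2 h4, hPQ _ (h7 ▸ mul_mem h1 (simple_mem_WZ M hu)) _ h3 h5,
        Or.inr ⟨h6, ?_⟩⟩
      simp only [h7]
      exact b1_step (Finset.mem_erase.2 ⟨hne, hu⟩) T _

/-- A family satisfying the recursion for upward moves satisfies it for all moves: if `len (w u) < len w` apply the
hypothesis to `w u` and apply `rs u` to the equation (`rs u * rs u = 1`, `rs u (al u) = - al u`). -/
theorem fam_of_up {e : M.Group → S → ℝ} (h0 : ∀ w t, t ∉ Z → e w t = 0)
    (h : ∀ w ∈ WZ M Z, ∀ u ∈ Z, len M w < len M (w * M.simple u) →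
      (∀ t, t ≠ u → e (w * M.simple u) t = e w t) ∧
        e (w * M.simple u) u ≤ e w u + ∑ t ∈ Z, cc M u t * e w t) : Fam M Z e := by
  have key : ∀ w ∈ WZ M Z, ∀ u ∈ Z, len M w < len M (w * M.simple u) →
      ∃ a : ℝ, 0 ≤ a ∧ e (w * M.simple u) = rs M u (e w) - a • al u := by
    intro w hw u hu hl
    obtain ⟨h1, h2⟩ := h w hw u hu hl
    refine ⟨_, sub_nonneg.2 h2, ?_⟩
    funext t
    rw [rs_apply, flow_eq_sum M (h0 w)]
    by_cases ht : t = u
    · subst ht
      simp [al]
    · simp [al, ht, h1 t ht]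
  refine ⟨h0, fun w hw u hu => ?_⟩
  rcases len_mul_simple M w u with hl | hl
  · exact key w hw u hu (by omega)
  · have e1 : w * M.simple u * M.simple u = w := by rw [mul_assoc, simple_mul_self, mul_one]
    obtain ⟨a, ha, h1⟩ := key _ (mul_mem hw (simple_mem_WZ M hu)) u hu (by rw [e1]; omega)
    refine ⟨a, ha, ?_⟩
    rw [e1] at h1
    rw [h1, map_sub, map_smul, a1_rs_rs, rs_apply, flow_al, cc_self]
    module

/-- `fam_of_up` with `H.up` (`uu_lft`, `uu_sub`), `pred_eq`, `bd_res` and subharmonicity. -/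
theorem fam_ev {d : ℤ} {T : ArtinGroup M} {θ : S → ℝ} (hT : UU M Y H.v Z d T)
    (hθ : SubH M Z (bd M H.v H.β Z d T) θ) : Fam M Z (ev H Z d θ T) := by
  refine fam_of_up (fun w t ht => if_neg ht) fun w hw u hu hl => ?_
  have e1 : T * lft M (w * M.simple u) = T * lft M w * artinGen M u := by
    rw [b1_up hl, mul_assoc]
  refine ⟨fun t ht => by simp only [ev, e1, H.v_ne _ _ _ _ ht], ?_⟩
  have h1 := (H.up _ d u (uu_sub H (Finset.singleton_subset_iff.2 hu) (uu_lft H hT hw))).2
  rw [pred_eq H (Z := Z), bd_res H (res_lft hw T)] at h1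
  have h2 := hθ u hu
  have h3 : ∑ t ∈ Z, cc M u t * ev H Z d θ T w t =
      ∑ t ∈ Z, cc M u t * θ t - ∑ t ∈ Z, cc M u t * H.v (T * lft M w) d t := by
    rw [← Finset.sum_sub_distrib]
    exact Finset.sum_congr rfl fun t ht => by simp only [ev, if_pos ht, mul_sub]
  rw [h3]
  simp only [ev, if_pos hu, e1]
  linarith

theorem pos_iff_ev {d : ℤ} {T : ArtinGroup M} {θ : S → ℝ} (hT : UU M Y H.v Z d T) {w : M.Group}
    (hw : w ∈ WZ M Z) {s : S} (hs : s ∈ Z) :
    Pos H d θ (T * lft M w) s ↔ 0 < ev H Z d θ T w s := by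
  simp only [Pos, ev, if_pos hs, sub_pos, (uu_lft H hT hw).2 s hs, true_and]

theorem tie_iff_ev {d : ℤ} {T : ArtinGroup M} {θ : S → ℝ} (hT : UU M Y H.v Z d T) {w : M.Group}
    (hw : w ∈ WZ M Z) {s : S} (hs : s ∈ Z) :
    Tie H d θ (T * lft M w) s ↔ ev H Z d θ T w s = 0 := by
  simp only [Tie, ev, if_pos hs, sub_eq_zero, (uu_lft H hT hw).2 s hs, true_and]
  exact eq_comm

/-- The half of the apartment above `T r` shared with the apartment above `T`. -/
theorem lft_shared (T : ArtinGroup M) {r : S} {w : M.Group}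
    (h : len M w < len M (M.simple r * w)) :
    T * artinGen M r * lft M w = T * lft M (M.simple r * w) := by
  rw [b1_left h, mul_assoc]

/-- Mirror inequality: `H.demazure` with a reduced word of `w`. -/
theorem ev_mirror {d : ℤ} {T : ArtinGroup M} (θ : S → ℝ) (hT : UU M Y H.v Z d T) {r : S}
    (hr : r ∈ Z) {w : M.Group} (hw : w ∈ WZ M Z) (h : len M w < len M (M.simple r * w)) (s : S) :
    ev H Z d θ (T * artinGen M r) (M.simple r * w) s ≤ ev H Z d θ (T * artinGen M r) w s := by
  obtain ⟨l, -, hl, -, e⟩ := exists_reduced_inZ M hw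
  unfold ev
  split_ifs with hs
  · rw [b1_left h, e, ← mul_assoc]
    linarith [H.demazure Z d T r l hT hr hl s hs]
  · exact le_rfl

/-- The low vertices of one apartment are connected: `Fam.pos_conn`, `cn_of_wcn`. -/
theorem cn_apartment (hZ : Sph M Z) {d : ℤ} {T : ArtinGroup M} {θ : S → ℝ}
    (hT : UU M Y H.v Z d T) (hθ : SubH M Z (bd M H.v H.β Z d T) θ) {x y : M.Group}
    (hx : x ∈ WZ M Z) (hy : y ∈ WZ M Z) {s u : S} (hs : s ∈ Z) (hu : u ∈ Z)
    (h₀ : Pos H d θ (T * lft M x) s) (h₁ : Pos H d θ (T * lft M y) u) :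
    Cn M Z (Pos H d θ) (T * lft M x, s) (T * lft M y, u) := by
  exact cn_of_wcn T (fun w hw t ht h => (pos_iff_ev H hT hw ht).2 h)
    ((fam_ev H hT hθ).pos_conn hZ hx hy hs hu ((pos_iff_ev H hT hx hs).1 h₀)
      ((pos_iff_ev H hT hy hu).1 h₁))

/-- Folding. Induct on `p = r :: p'` (generalising `T`): the induction hypothesis at `T r` gives `(T r lft w, s')`. If
`len w < len (r w)` use `lft_shared`. Otherwise `w = r w'` with `len w' < len (r w')`; by `ev_mirror` the vertex `(T r lft w', s')` is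
low, it is connected to `(T r lft w, s')` by `cn_apartment` at `T r`, and it lies in the shared half. -/
theorem fold_pos (hZ : Sph M Z) {d : ℤ} {θ : S → ℝ} {p : List S} (hp : InZ Z p) {T : ArtinGroup M}
    (hT : UU M Y H.v Z d T) (hθ : SubH M Z (bd M H.v H.β Z d T) θ) {s : S} (hs : s ∈ Z)
    (h : Pos H d θ (T * wordA M p) s) :
    ∃ w ∈ WZ M Z, ∃ s' ∈ Z, Pos H d θ (T * lft M w) s' ∧
      Cn M Z (Pos H d θ) (T * wordA M p, s) (T * lft M w, s') := by
  induction p generalizing T with
  | nil =>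
    rw [wordA_nil, ← lft_one] at h ⊢
    exact ⟨1, one_mem _, s, hs, h, Cn.refl _⟩
  | cons r p ih =>
    have hr : r ∈ Z := hp r List.mem_cons_self
    rw [wordA_cons, ← mul_assoc] at h ⊢
    have hT' := uu_up H hT hr
    have hθ' : SubH M Z (bd M H.v H.β Z d (T * artinGen M r)) θ := by
      rwa [bd_res H (Res.mul T (artinGen_mem_AZ M hr))]
    obtain ⟨w, hw, s', hs', h1, h2⟩ := ih (fun y hy => hp y (List.mem_cons_of_mem _ hy)) hT' hθ' h
    have hw' := mul_mem (simple_mem_WZ M hr) hw
    rcases len_simple_mul M w r with hl | hl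
    · rw [lft_shared T (by omega)] at h1 h2
      exact ⟨_, hw', s', hs', h1, h2⟩
    · have e1 : M.simple r * (M.simple r * w) = w := by rw [← mul_assoc, simple_mul_self, one_mul]
      have hl' : len M (M.simple r * w) < len M (M.simple r * (M.simple r * w)) := by
        rw [e1]
        omega
      have h3 := ev_mirror H θ hT hr hw' hl' s'
      rw [e1] at h3
      have h4 := (pos_iff_ev H hT' hw' hs').2 (((pos_iff_ev H hT' hw hs').1 h1).trans_le h3)
      have h5 := h2.trans (cn_apartment H hZ hT' hθ' hw hw' hs' hs' h1 h4)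
      rw [lft_shared T hl', e1] at h4 h5
      exact ⟨w, hw, s', hs', h4, h5⟩

end Crest.Agent.R175.G
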