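import Crest.Agent.R175.PG1
import Crest.Agent.R175.PGA1

/-! The aisle of a spherical residue is directed downwards. -/

set_option autoImplicit false

open Crest.GroupTheory
open scoped Classical

namespace Crest.Agent.R175.G

variable {S : Type} [Fintype S] [DecidableEq S] {M : CoxeterMatrix S} {Y : Finset S}
  (H : HeightData M Y) {Z : Finset S}

theorem Suf.refl (x : M.Group) : Suf M x x := by
  simp [Suf]

theorem Suf.one (x : M.Group) : Suf M 1 x := by
  simp [Suf]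

/-- Triangle inequalities for `len`. -/
theorem Suf.trans {x y z : M.Group} (h : Suf M x y) (h' : Suf M y z) : Suf M x z := by
  have h1 : len M (z * y⁻¹ * (y * x⁻¹)) ≤ len M (z * y⁻¹) + len M (y * x⁻¹) :=
    M.toCoxeterSystem.length_mul_le _ _
  have h2 : len M (z * x⁻¹ * x) ≤ len M (z * x⁻¹) + len M x := M.toCoxeterSystem.length_mul_le _ _
  rw [mul_assoc, inv_mul_cancel_left] at h1
  rw [inv_mul_cancel_right] at h2
  unfold Suf at *
  omega

theorem Suf.lft_eq {x m : M.Group} (h : Suf M x m) : lft M m = lft M (m * x⁻¹) * lft M x := by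
  rw [← lft_mul M (by rw [inv_mul_cancel_right]; exact h.symm), inv_mul_cancel_right]

/-- Take the last letter `s` of a reduced word of `m z⁻¹`. -/
theorem Suf.exists_step {z m : M.Group} (hz : z ∈ WZ M Z) (hm : m ∈ WZ M Z) (h : Suf M z m)
    (hne : z ≠ m) : ∃ s ∈ Z, len M z < len M (M.simple s * z) ∧ Suf M (M.simple s * z) m := by
  obtain ⟨u, hu, hl⟩ := exists_descent (mul_mem hm (inv_mem hz))
    fun h1 => hne (mul_inv_eq_one.1 h1).symm
  have e : m * (M.simple u * z)⁻¹ = m * z⁻¹ * M.simple u := by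
    rw [mul_inv_rev, simple_inv, mul_assoc]
  have h1 : len M (m * (M.simple u * z)⁻¹ * (M.simple u * z)) ≤
      len M (m * (M.simple u * z)⁻¹) + len M (M.simple u * z) :=
    M.toCoxeterSystem.length_mul_le _ _
  rw [inv_mul_cancel_right, e] at h1
  have h2 := len_simple_mul M z u
  refine ⟨u, hu, ?_⟩
  unfold Suf at *
  rw [e]
  omega

/-- Suffixes of admissible elements are admissible (`uu_lft`). -/
theorem uu_suf {d : ℤ} {T : ArtinGroup M} {x m : M.Group} (hx : x ∈ WZ M Z) (hm : m ∈ WZ M Z)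
    (h : Suf M x m) (hT : UU M Y H.v Z d (T * (lft M m)⁻¹)) : UU M Y H.v Z d (T * (lft M x)⁻¹) := by
  have := uu_lft H hT (mul_mem hm (inv_mem hx))
  rwa [h.lft_eq, mul_inv_rev, mul_assoc, inv_mul_cancel_right] at this

/-- Local confluence: `w` longest in `W_{s,t}`, `m = w z`; `len_mul_of_min`, `Longest.len_add`, and `H.nohead` at the
chamber `T (lft z)⁻¹` with `J = {s, t}` and a reduced word of `w`. -/
theorem uu_join (hZ : Sph M Z) {d : ℤ} {T : ArtinGroup M} {z : M.Group} (hz : z ∈ WZ M Z)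
    {s t : S} (hs : s ∈ Z) (ht : t ∈ Z) (hls : len M z < len M (M.simple s * z))
    (hlt : len M z < len M (M.simple t * z))
    (h₁ : UU M Y H.v Z d (T * (lft M (M.simple s * z))⁻¹))
    (h₂ : UU M Y H.v Z d (T * (lft M (M.simple t * z))⁻¹)) :
    ∃ m ∈ WZ M Z, Suf M (M.simple s * z) m ∧ Suf M (M.simple t * z) m ∧
      UU M Y H.v Z d (T * (lft M m)⁻¹) := by
  have hJ : ({s, t} : Finset S) ⊆ Z := by
    intro u hu
    rcases Finset.mem_insert.1 hu with rfl | hu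
    · exact hs
    · rwa [Finset.mem_singleton.1 hu]
  have hu : ∀ u ∈ ({s, t} : Finset S), len M z < len M (M.simple u * z) ∧
      UU M Y H.v Z d (T * (lft M (M.simple u * z))⁻¹) := by
    intro u hu
    rcases Finset.mem_insert.1 hu with rfl | hu
    · exact ⟨hls, h₁⟩
    · rw [Finset.mem_singleton.1 hu]
      exact ⟨hlt, h₂⟩
  obtain ⟨w, hw⟩ := exists_longest M (hZ.mono M hJ)
  have hmin := fun x => len_mul_of_min M (fun u h => (hu u h).1) (w := x)
  have hsuf : ∀ u ∈ ({s, t} : Finset S), Suf M (M.simple u * z) (w * z) := by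
    intro u h
    have a1 := (hw.len_add M (simple_mem_WZ M h)).2
    have a2 := hmin _ (simple_mem_WZ M h)
    have a3 := hmin _ hw.1
    unfold Suf
    rw [mul_inv_rev, mul_assoc, mul_inv_cancel_left]
    omega
  obtain ⟨l, hl, hlJ, -, hlw⟩ := exists_reduced_inZ M hw.1
  have hc : UU M Y H.v Z d (T * (lft M z)⁻¹) := by
    refine uu_suf H hz (mul_mem (simple_mem_WZ M hs) hz) ?_ h₁
    unfold Suf
    rw [mul_inv_cancel_right, hmin _ (simple_mem_WZ M (Finset.mem_insert_self s {t}))]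
  have key := H.nohead Z d _ {s, t} l hc hJ (fun u h => by
    have := (hu u h).2
    rwa [lft_mul M (hmin _ (simple_mem_WZ M h)), lft_simple, mul_inv_rev, ← mul_assoc] at this)
    hlJ hl
  refine ⟨w * z, mul_mem (WZ_mono hJ hw.1) hz, hsuf s (by simp), hsuf t (by simp), ?_⟩
  rwa [lft_mul M (hmin _ hw.1), hlw, mul_inv_rev, ← mul_assoc]

/-- Diamond lemma (Newman). Prove for all `z` with `Suf z x`, `Suf z x'` by downward induction on `len z` (bounded by the length of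
the longest element), then take `z = 1`. If `z = x` or `z = x'` the claim is trivial. Otherwise `Suf.exists_step` gives `s z`, `t z`,
`uu_join` gives `m₀`; the induction hypothesis at `s z` joins `x, m₀` to `m₁`, and at `t z` joins `m₁, x'`. -/
theorem diamond (hZ : Sph M Z) {d : ℤ} {T : ArtinGroup M} {x x' : M.Group} (hx : x ∈ WZ M Z)
    (hx' : x' ∈ WZ M Z) (h : UU M Y H.v Z d (T * (lft M x)⁻¹))
    (h' : UU M Y H.v Z d (T * (lft M x')⁻¹)) :
    ∃ m ∈ WZ M Z, Suf M x m ∧ Suf M x' m ∧ UU M Y H.v Z d (T * (lft M m)⁻¹) := by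
  obtain ⟨w, hw⟩ := exists_longest M hZ
  have hN : ∀ y ∈ WZ M Z, len M y ≤ len M w := fun y hy => by
    have := hw.len_left M hy
    omega
  have key : ∀ n : ℕ, ∀ z ∈ WZ M Z, len M w ≤ len M z + n → ∀ x ∈ WZ M Z, ∀ x' ∈ WZ M Z,
      Suf M z x → Suf M z x' → UU M Y H.v Z d (T * (lft M x)⁻¹) →
      UU M Y H.v Z d (T * (lft M x')⁻¹) →
      ∃ m ∈ WZ M Z, Suf M x m ∧ Suf M x' m ∧ UU M Y H.v Z d (T * (lft M m)⁻¹) := by
    intro n
    induction n using Nat.strong_induction_on with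
    | _ n ih =>
    intro z hz hn x hx x' hx' a a' h h'
    by_cases e : z = x
    · exact ⟨x', hx', e ▸ a', Suf.refl _, h'⟩
    by_cases e' : z = x'
    · exact ⟨x, hx, Suf.refl _, e' ▸ a, h⟩
    obtain ⟨s, hs, ls, as⟩ := a.exists_step hz hx e
    obtain ⟨t, ht, lt, at'⟩ := a'.exists_step hz hx' e'
    have hsz := mul_mem (simple_mem_WZ M hs) hz
    have htz := mul_mem (simple_mem_WZ M ht) hz
    have b := hN _ hsz
    obtain ⟨m₀, hm₀, b1, b2, b3⟩ :=
      uu_join H hZ hz hs ht ls lt (uu_suf H hsz hx as h) (uu_suf H htz hx' at' h')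
    obtain ⟨m₁, hm₁, c1, c2, c3⟩ :=
      ih (n - 1) (by omega) _ hsz (by omega) x hx m₀ hm₀ as b1 h b3
    obtain ⟨m, hm, d1, d2, d3⟩ :=
      ih (n - 1) (by omega) _ htz (by omega) m₁ hm₁ x' hx' (b2.trans c2) at' c3 h'
    exact ⟨m, hm, c1.trans d1, d2, d3⟩
  exact key (len M w) 1 (one_mem _) (Nat.le_add_left _ _) x hx x' hx' (Suf.one _) (Suf.one _) h h'

/-- `Relation.church_rosser` for `r a b := UU b ∧ ∃ x ∈ W_Z, b = a (lft x)⁻¹` (`diamond`, `Suf.lft_eq`), starting from an upper bound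
`T₁ p₁ = T₂ p₂` (`exists_upper` for `1` and `T₁⁻¹ T₂`), from which `T₁` and `T₂` are reached letter by letter (`uu_word`, `lft_simple`). -/
theorem directed (hZ : Sph M Z) {d : ℤ} {T₁ T₂ : ArtinGroup M} (h : Res M Z T₁ T₂)
    (h₁ : UU M Y H.v Z d T₁) (h₂ : UU M Y H.v Z d T₂) :
    ∃ T p₁ p₂, UU M Y H.v Z d T ∧ InZ Z p₁ ∧ InZ Z p₂ ∧ T * wordA M p₁ = T₁ ∧
      T * wordA M p₂ = T₂ := by
  obtain ⟨r, hr⟩ : ∃ r : ArtinGroup M → ArtinGroup M → Prop, ∀ a b, r a b ↔
    UU M Y H.v Z d b ∧ ∃ x ∈ WZ M Z, b = a * (lft M x)⁻¹ := ⟨_, fun _ _ => Iff.rfl⟩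
  have step : ∀ {a x m}, x ∈ WZ M Z → m ∈ WZ M Z → Suf M x m →
      UU M Y H.v Z d (a * (lft M m)⁻¹) → r (a * (lft M x)⁻¹) (a * (lft M m)⁻¹) :=
    fun hx hm hs hu => (hr _ _).2 ⟨hu, _, mul_mem hm (inv_mem hx), by
      rw [hs.lft_eq, mul_inv_rev, mul_assoc]⟩
  have down : ∀ (p : List S) (T : ArtinGroup M), InZ Z p → UU M Y H.v Z d T →
      Relation.ReflTransGen r (T * wordA M p) T := by
    intro p
    induction p with
    | nil =>
      intro T _ _
      rw [wordA_nil, mul_one]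
    | cons s p ih =>
      intro T hp hT
      have hs : s ∈ Z := hp s List.mem_cons_self
      rw [wordA_cons, ← mul_assoc]
      exact (ih _ (fun x hx => hp x (List.mem_cons_of_mem _ hx)) (uu_up H hT hs)).tail
        ((hr _ _).2 ⟨hT, _, simple_mem_WZ M hs, by rw [lft_simple, mul_inv_cancel_right]⟩)
  have up : ∀ {a b}, UU M Y H.v Z d a → Relation.ReflTransGen r a b →
      UU M Y H.v Z d b ∧ ∃ k, IsPos M Z k ∧ b * k = a := by
    intro a b ha hab
    induction hab with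
    | refl => exact ⟨ha, 1, IsPos.one M Z, mul_one _⟩
    | tail _ hbc ih =>
      obtain ⟨h1, x, hx, rfl⟩ := (hr _ _).1 hbc
      obtain ⟨-, k, hk, rfl⟩ := ih
      exact ⟨h1, _, IsPos.mul M (IsPos.lft M hx) hk, by rw [← mul_assoc, inv_mul_cancel_right]⟩
  obtain ⟨p, p', hp, hp', e⟩ := exists_upper M hZ (one_mem _) h
  have e' : T₁ * wordA M p = T₂ * wordA M p' := by
    rw [← one_mul (wordA M p), e, mul_assoc, mul_inv_cancel_left]
  obtain ⟨T, a1, a2⟩ := Relation.church_rosser (r := r) (fun a b c hb hc => by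
    obtain ⟨b1, x, hx, rfl⟩ := (hr _ _).1 hb
    obtain ⟨c1, x', hx', rfl⟩ := (hr _ _).1 hc
    obtain ⟨m, hm, s1, s2, hu⟩ := diamond H hZ hx hx' b1 c1
    exact ⟨_, .single (step hx hm s1 hu), .single (step hx' hm s2 hu)⟩)
    (down p T₁ hp h₁) (e' ▸ down p' T₂ hp' h₂)
  obtain ⟨hT, _, ⟨p₁, q1, rfl⟩, e1⟩ := up h₁ a1
  obtain ⟨-, _, ⟨p₂, q2, rfl⟩, e2⟩ := up h₂ a2
  exact ⟨T, p₁, p₂, hT, q1, q2, e1, e2⟩

/-- Two low vertices of a spherical residue lie above one chamber of the aisle: `uu_of_simplex` with `J = Z.erase s`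
(`Sph.mono`) for both vertices, then `directed`. -/
theorem common_base (hZ : Sph M Z) {d : ℤ} {c₁ c₂ : ArtinGroup M} (hf : Frz M Y H.v Z d c₁)
    (h : Res M Z c₁ c₂) {s₁ s₂ : S} (hs₁ : s₁ ∈ Z) (hs₂ : s₂ ∈ Z) (h₁ : Low M H.v c₁ d s₁)
    (h₂ : Low M H.v c₂ d s₂) :
    ∃ T p₁ p₂, UU M Y H.v Z d T ∧ InZ Z p₁ ∧ InZ Z p₂ ∧ Res M Z c₁ T ∧
      Res M (Z.erase s₁) c₁ (T * wordA M p₁) ∧ Res M (Z.erase s₂) c₂ (T * wordA M p₂) := by
  have key : ∀ {c s}, Frz M Y H.v Z d c → Low M H.v c d s →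
      ∃ c', Res M (Z.erase s) c c' ∧ UU M Y H.v Z d c' := fun {c s} hc hl =>
    uu_of_simplex H (Finset.erase_subset s Z) (Sph.mono M hZ (Finset.erase_subset s Z)) hc
      fun t ht hn => by
        obtain rfl : t = s := not_not.1 fun h => hn (Finset.mem_erase.2 ⟨h, ht⟩)
        exact hl
  obtain ⟨T₁, a1, u1⟩ := key hf h₁
  obtain ⟨T₂, a2, u2⟩ := key (frz_res H h hf) h₂
  have b1 := a1.mono (Finset.erase_subset _ _)
  obtain ⟨T, p₁, p₂, hT, q1, q2, rfl, rfl⟩ :=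
    directed H hZ (b1.symm.trans (h.trans (a2.mono (Finset.erase_subset _ _)))) u1 u2
  exact ⟨T, p₁, p₂, hT, q1, q2, b1.trans (Res.mul T (wordA_mem M q1)).symm, a1, a2⟩

end Crest.Agent.R175.G
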