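import Crest.Agent.R175.PC3

/-! Definitions for the combinatorial layer: thresholds, low vertices, connectivity in the coset
complex of a standard parabolic subgroup, and concave families on a Coxeter complex. -/

set_option autoImplicit false

open Crest.GroupTheory
open scoped Classical

namespace Crest.Agent.R175.G

variable {S : Type} [Fintype S] [DecidableEq S]

/-- `θ` is subharmonic on `Z` with boundary term `b`. -/
def SubH (M : CoxeterMatrix S) (Z : Finset S) (b θ : S → ℝ) : Prop :=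
  ∀ s ∈ Z, 0 ≤ ∑ t ∈ Z, cc M s t * θ t + b s

/-- `θ` is harmonic on `Z` with boundary term `b`. -/
def Harm (M : CoxeterMatrix S) (Z : Finset S) (b θ : S → ℝ) : Prop :=
  ∀ s ∈ Z, ∑ t ∈ Z, cc M s t * θ t + b s = 0

/-- No edge of the diagram joins `J` to the rest of `Z`. -/
def Clo (M : CoxeterMatrix S) (Z J : Finset S) : Prop :=
  J ⊆ Z ∧ ∀ s ∈ J, ∀ t ∈ Z, t ∉ J → ¬ Adj M s t

/-- The chamber `c'` lies in the `Z`-residue of the chamber `c`. -/
def Res (M : CoxeterMatrix S) (Z : Finset S) (c c' : ArtinGroup M) : Prop := c⁻¹ * c' ∈ AZ M Z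

/-- A property of pairs (chamber, type) that only depends on the vertex. -/
def VInv (M : CoxeterMatrix S) (Z : Finset S) (P : ArtinGroup M → S → Prop) : Prop :=
  ∀ c c' s, s ∈ Z → Res M (Z.erase s) c c' → P c s → P c' s

/-- One step between marked vertices: same chamber or same vertex. -/
def Lk (M : CoxeterMatrix S) (Z : Finset S) (P : ArtinGroup M → S → Prop)
    (x y : ArtinGroup M × S) : Prop :=
  x.2 ∈ Z ∧ y.2 ∈ Z ∧ P x.1 x.2 ∧ P y.1 y.2 ∧
    (x.1 = y.1 ∨ (x.2 = y.2 ∧ Res M (Z.erase x.2) x.1 y.1))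

/-- Connected through marked vertices. -/
def Cn (M : CoxeterMatrix S) (Z : Finset S) (P : ArtinGroup M → S → Prop) :
    ArtinGroup M × S → ArtinGroup M × S → Prop :=
  Relation.ReflTransGen (Lk M Z P)

/-- All marked vertices of the residue of `c` are connected through marked vertices. -/
def AllCn (M : CoxeterMatrix S) (Z : Finset S) (P : ArtinGroup M → S → Prop) (c : ArtinGroup M) :
    Prop :=
  ∀ c₁ s₁ c₂ s₂, Res M Z c c₁ → Res M Z c c₂ → s₁ ∈ Z → s₂ ∈ Z → P c₁ s₁ → P c₂ s₂ →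
    Cn M Z P (c₁, s₁) (c₂, s₂)

/-- No merging: `P`-vertices of the residue of `c` connected through `P'` are connected through `P`. -/
def NM (M : CoxeterMatrix S) (Z : Finset S) (P P' : ArtinGroup M → S → Prop) (c : ArtinGroup M) :
    Prop :=
  ∀ c₁ s₁ c₂ s₂, Res M Z c c₁ → P c₁ s₁ → P c₂ s₂ → Cn M Z P' (c₁, s₁) (c₂, s₂) →
    Cn M Z P (c₁, s₁) (c₂, s₂)

/-- The vertex `(c, s)` has a marked neighbour. -/
def Nbr (M : CoxeterMatrix S) (Z : Finset S) (P : ArtinGroup M → S → Prop) (c : ArtinGroup M)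
    (s : S) : Prop :=
  ∃ c' u, Res M (Z.erase s) c c' ∧ u ∈ Z.erase s ∧ P c' u

/-- Some vertex of the residue of `c` is marked. -/
def Inh (M : CoxeterMatrix S) (Z : Finset S) (P : ArtinGroup M → S → Prop) (c : ArtinGroup M) :
    Prop :=
  ∃ c' u, Res M Z c c' ∧ u ∈ Z ∧ P c' u

section Heights

variable {M : CoxeterMatrix S} {Y : Finset S} (H : HeightData M Y)

/-- Vertices without cohomology above degree `d`. -/
def LowP (d : ℤ) (c : ArtinGroup M) (s : S) : Prop := Low M H.v c d s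

/-- Vertices strictly below the threshold `θ` in degree `d`. -/
def Pos (d : ℤ) (θ : S → ℝ) (c : ArtinGroup M) (s : S) : Prop :=
  Low M H.v c d s ∧ H.v c d s < θ s

/-- Vertices exactly at the threshold `θ` in degree `d`. -/
def Tie (d : ℤ) (θ : S → ℝ) (c : ArtinGroup M) (s : S) : Prop :=
  Low M H.v c d s ∧ H.v c d s = θ s

/-- The excess vector `θ - v` on `Z` at the chamber `T w` of the apartment above `T`. -/
noncomputable def ev (Z : Finset S) (d : ℤ) (θ : S → ℝ) (T : ArtinGroup M) (w : M.Group) :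
    S → ℝ :=
  fun t => if t ∈ Z then θ t - H.v (T * lft M w) d t else 0

/-- Left multiplication by `g` preserves the `Z`-residue of `c` and the heights of types in `Z`. -/
def Pres (Z : Finset S) (c g : ArtinGroup M) : Prop :=
  c⁻¹ * g * c ∈ AZ M Z ∧ ∀ x, Res M Z c x → ∀ n, ∀ t ∈ Z, H.v (g * x) n t = H.v x n t

/-- Either the stabiliser of the residue lies in `A_Y`, or the elements preserving the heights fix
a vertex of the residue. -/
def FixAlt (Z : Finset S) (c : ArtinGroup M) : Prop :=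
  (∀ s ∈ Z, c * artinGen M s * c⁻¹ ∈ AZ M Y) ∨
    ∃ T s, Res M Z c T ∧ s ∈ Z ∧ ∀ g, Pres H Z c g → T⁻¹ * g * T ∈ AZ M (Z.erase s)

/-- Connectivity of the vertices below a subharmonic threshold, in the context `Z`. -/
def H0 (Z : Finset S) : Prop :=
  ∀ d c θ, Frz M Y H.v Z d c → SubH M Z (bd M H.v H.β Z d c) θ → AllCn M Z (Pos H d θ) c

/-- Every vertex at a harmonic threshold has a neighbour below it, if some vertex is below it. -/
def TT (Z : Finset S) : Prop :=
  ∀ d c θ s, Frz M Y H.v Z d c → Harm M Z (bd M H.v H.β Z d c) θ → Inh M Z (Pos H d θ) c →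
    s ∈ Z → Tie H d θ c s → Nbr M Z (Pos H d θ) c s

end Heights

/-- A concave family on the Coxeter complex of `W_Z`. -/
def Fam (M : CoxeterMatrix S) (Z : Finset S) (e : M.Group → S → ℝ) : Prop :=
  (∀ w t, t ∉ Z → e w t = 0) ∧
    ∀ w ∈ WZ M Z, ∀ u ∈ Z, ∃ a : ℝ, 0 ≤ a ∧ e (w * M.simple u) = rs M u (e w) - a • al u

/-- The functional `ξ` lies in the closed chamber `y` of the Coxeter complex of `W_Z`. -/
def Dom (M : CoxeterMatrix S) (Z : Finset S) (ξ : (S → ℝ) →ₗ[ℝ] ℝ) (y : M.Group) : Prop :=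
  y ∈ WZ M Z ∧ ∀ u ∈ Z, 0 ≤ ξ (rho M y (al u))

/-- The vertex of type `s` of the chamber `w`, as a functional. -/
noncomputable def vtx (M : CoxeterMatrix S) (w : M.Group) (s : S) : (S → ℝ) →ₗ[ℝ] ℝ :=
  (LinearMap.proj s : (S → ℝ) →ₗ[ℝ] ℝ) ∘ₗ rho M w⁻¹

/-- A property of pairs (chamber, type) of the Coxeter complex that only depends on the vertex. -/
def WInv (M : CoxeterMatrix S) (Z : Finset S) (P : M.Group → S → Prop) : Prop :=
  ∀ w ∈ WZ M Z, ∀ s ∈ Z, ∀ u ∈ Z, u ≠ s → P w s → P (w * M.simple u) s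

/-- One step between marked vertices of the Coxeter complex. -/
def WLk (M : CoxeterMatrix S) (Z : Finset S) (P : M.Group → S → Prop) (x y : M.Group × S) : Prop :=
  x.1 ∈ WZ M Z ∧ x.2 ∈ Z ∧ y.2 ∈ Z ∧ P x.1 x.2 ∧ P y.1 y.2 ∧
    (x.1 = y.1 ∨ (x.2 = y.2 ∧ ∃ u ∈ Z, u ≠ x.2 ∧ y.1 = x.1 * M.simple u))

/-- Connected through marked vertices of the Coxeter complex. -/
def WCn (M : CoxeterMatrix S) (Z : Finset S) (P : M.Group → S → Prop) :
    M.Group × S → M.Group × S → Prop :=
  Relation.ReflTransGen (WLk M Z P)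

/-- `x` is a suffix of `m`. -/
def Suf (M : CoxeterMatrix S) (x m : M.Group) : Prop := len M (m * x⁻¹) + len M x = len M m

end Crest.Agent.R175.G
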