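import Crest.Agent.R175.PGH2

/-! Fixed vertices in spherical residues. -/

set_option autoImplicit false

open Crest.GroupTheory
open scoped Classical

namespace Crest.Agent.R175.G

variable {S : Type} [Fintype S] [DecidableEq S] {M : CoxeterMatrix S} {Y : Finset S}
  (H : HeightData M Y) {Z : Finset S}

theorem ec_up {U : ArtinGroup M → Prop} (hup : ∀ T, U T → ∀ s ∈ Z, U (T * artinGen M s))
    (p : List S) : ∀ T, InZ Z p → U T → U (T * wordA M p) := by
  induction p with
  | nil => intro T _ h; simpa [wordA_nil] using h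
  | cons a p ih =>
    intro T hp h
    rw [wordA_cons, ← mul_assoc]
    exact ih _ (fun x hx => hp x (List.mem_cons_of_mem _ hx)) (hup T h a (hp a List.mem_cons_self))

theorem ec_all {U : ArtinGroup M → Prop}
    (hdown : ∀ T, U T → ∀ s ∈ Z, ∃ p, InZ Z p ∧ s ∈ p ∧ U (T * (wordA M p)⁻¹))
    (J : Finset S) : J ⊆ Z → ∀ T, U T →
      ∃ p, InZ Z p ∧ (∀ s ∈ J, s ∈ p) ∧ U (T * (wordA M p)⁻¹) := by
  induction J using Finset.induction_on with
  | empty =>
    intro _ T hT
    exact ⟨[], by simp [InZ], by simp, by simpa [wordA_nil] using hT⟩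
  | insert s J _ ih =>
    intro hJ T hT
    obtain ⟨p, hp, hJp, hU⟩ := ih (fun x hx => hJ (Finset.mem_insert_of_mem hx)) T hT
    obtain ⟨q, hq, hsq, hU'⟩ := hdown _ hU s (hJ (Finset.mem_insert_self _ _))
    refine ⟨q ++ p, ?_, ?_, ?_⟩
    · intro x hx
      rcases List.mem_append.1 hx with h | h
      · exact hq x h
      · exact hp x h
    · intro x hx
      rcases Finset.mem_insert.1 hx with rfl | h
      · exact List.mem_append_left _ hsq
      · exact List.mem_append_right _ (hJp x h)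
    · rw [wordA_append, mul_inv_rev, ← mul_assoc]
      exact hU'

theorem ec_step (hne : Z.Nonempty) {U : ArtinGroup M → Prop}
    (hup : ∀ T, U T → ∀ s ∈ Z, U (T * artinGen M s))
    (hdown : ∀ T, U T → ∀ s ∈ Z, ∃ p, InZ Z p ∧ s ∈ p ∧ U (T * (wordA M p)⁻¹))
    (x : {x : ArtinGroup M × List S // InZ Z x.2 ∧ U (x.1 * (wordA M x.2.reverse)⁻¹)}) :
    ∃ y : {x : ArtinGroup M × List S // InZ Z x.2 ∧ U (x.1 * (wordA M x.2.reverse)⁻¹)},
      ∃ a, a ∈ Z ∧ y.1.1 = x.1.1 * (artinGen M a)⁻¹ ∧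
        (x.1.2 = a :: y.1.2 ∨ (x.1.2 = [] ∧ ∀ s ∈ Z, s ∈ a :: y.1.2)) := by
  have key : ∀ (T : ArtinGroup M) (a : S) (l : List S), InZ Z (a :: l) →
      U (T * (wordA M (a :: l).reverse)⁻¹) →
      InZ Z l ∧ U (T * (artinGen M a)⁻¹ * (wordA M l.reverse)⁻¹) := by
    intro T a l h1 h2
    refine ⟨fun x hx => h1 x (List.mem_cons_of_mem _ hx), ?_⟩
    rw [List.reverse_cons, wordA_append, wordA_cons, wordA_nil, mul_one, mul_inv_rev,
      ← mul_assoc] at h2
    exact h2
  obtain ⟨⟨T, l⟩, h1, h2⟩ := x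
  cases l with
  | cons a l =>
    exact ⟨⟨(T * (artinGen M a)⁻¹, l), key T a l h1 h2⟩, a, h1 a List.mem_cons_self, rfl,
      Or.inl rfl⟩
  | nil =>
    have hT : U T := by simpa [wordA_nil] using h2
    obtain ⟨p, hp, hall, hU⟩ := ec_all hdown Z (Finset.Subset.refl _) T hT
    obtain ⟨s₀, hs₀⟩ := hne
    have hr : InZ Z p.reverse := fun x hx => hp x (List.mem_reverse.1 hx)
    have hall' : ∀ s ∈ Z, s ∈ p.reverse := fun s hs => List.mem_reverse.2 (hall s hs)
    have hU' : U (T * (wordA M p.reverse.reverse)⁻¹) := by rwa [List.reverse_reverse]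
    generalize p.reverse = l at hr hall' hU'
    cases l with
    | nil => exact absurd (hall' s₀ hs₀) (by simp)
    | cons a l =>
      exact ⟨⟨(T * (artinGen M a)⁻¹, l), key T a l hr hU'⟩, a, hr a List.mem_cons_self, rfl,
        Or.inr ⟨rfl, hall'⟩⟩

/-- An infinite descending gallery using every letter infinitely often. First concatenate to get, for every `T` with `U T`, a word `B T` in `Z` containing
all letters of `Z` with `U (T * (wordA (B T))⁻¹)` (`Finset.induction_on`, choice). Then iterate on states `(T, l)`, `l` the list of letters still to be removed (in the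
order of removal, that is the reverse of the word), with invariant `U (T * (wordA l.reverse)⁻¹)`, refilling with `(B T).reverse` when `l` is empty. -/
theorem exists_chain (hne : Z.Nonempty) {U : ArtinGroup M → Prop}
    (hup : ∀ T, U T → ∀ s ∈ Z, U (T * artinGen M s))
    (hdown : ∀ T, U T → ∀ s ∈ Z, ∃ p, InZ Z p ∧ s ∈ p ∧ U (T * (wordA M p)⁻¹))
    {T : ArtinGroup M} (hT : U T) :
    ∃ (sq : ℕ → S) (cs : ℕ → ArtinGroup M), cs 0 = T ∧ (∀ n, sq n ∈ Z) ∧
      (∀ s ∈ Z, ∀ N, ∃ n, N ≤ n ∧ sq n = s) ∧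
      (∀ n, cs (n + 1) = cs n * (artinGen M (sq n))⁻¹) ∧ ∀ n, U (cs n) := by
  choose f a ha hf hl using ec_step hne hup hdown
  let x₀ : {x : ArtinGroup M × List S // InZ Z x.2 ∧ U (x.1 * (wordA M x.2.reverse)⁻¹)} :=
    ⟨(T, []), by simp [InZ], by simpa [wordA_nil] using hT⟩
  let x := fun n : ℕ => f^[n] x₀
  have hx : ∀ n, x (n + 1) = f (x n) := fun n => Function.iterate_succ_apply' f n x₀
  refine ⟨fun n => a (x n), fun n => (x n).1.1, rfl, fun n => ha _, ?_, ?_, ?_⟩
  · intro s hs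
    have hA : ∀ k n, (x n).1.2.length = k → s ∈ (x n).1.2 → ∃ m, n ≤ m ∧ a (x m) = s := by
      intro k
      induction k with
      | zero =>
        intro n h1 h2
        rw [List.length_eq_zero_iff.1 h1] at h2
        exact absurd h2 (by simp)
      | succ k ih =>
        intro n h1 h2
        rcases hl (x n) with h | ⟨h, _⟩
        · rw [h] at h1 h2
          rcases List.mem_cons.1 h2 with h3 | h3
          · exact ⟨n, le_rfl, h3.symm⟩
          · obtain ⟨m, hm, hm'⟩ := ih (n + 1) (by rw [hx]; simpa using h1) (by rw [hx]; exact h3)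
            exact ⟨m, by omega, hm'⟩
        · rw [h] at h2
          exact absurd h2 (by simp)
    have hB : ∀ k n, (x n).1.2.length = k → ∃ m, n ≤ m ∧ a (x m) = s := by
      intro k
      induction k with
      | zero =>
        intro n h1
        rcases hl (x n) with h | ⟨_, h⟩
        · rw [h] at h1
          exact absurd h1 (by simp)
        · rcases List.mem_cons.1 (h s hs) with h3 | h3
          · exact ⟨n, le_rfl, h3.symm⟩
          · obtain ⟨m, hm, hm'⟩ := hA _ (n + 1) rfl (by rw [hx]; exact h3)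
            exact ⟨m, by omega, hm'⟩
      | succ k ih =>
        intro n h1
        rcases hl (x n) with h | ⟨h, _⟩
        · rw [h] at h1
          obtain ⟨m, hm, hm'⟩ := ih (n + 1) (by rw [hx]; simpa using h1)
          exact ⟨m, by omega, hm'⟩
        · rw [h] at h1
          exact absurd h1 (by simp)
    intro N
    exact hB _ N rfl
  · intro n
    show (x (n + 1)).1.1 = _
    rw [hx]
    exact hf _
  · intro n
    have h := ec_up hup (x n).1.2.reverse _
      (fun y hy => (x n).2.1 y (List.mem_reverse.1 hy)) (x n).2.2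
    simpa using h

theorem Pres.res {c g x : ArtinGroup M} (hg : Pres H Z c g) (hx : Res M Z c x) :
    Res M Z c (g * x) := by
  have h := (AZ M Z).mul_mem hg.1 hx
  unfold Res
  rwa [show c⁻¹ * g * c * (c⁻¹ * x) = c⁻¹ * (g * x) by group] at h

theorem Pres.uu {c g x : ArtinGroup M} (hg : Pres H Z c g) (hx : Res M Z c x) {d : ℤ} :
    UU M Y H.v Z d (g * x) ↔ UU M Y H.v Z d x := by
  have hr : Res M Z x (g * x) := hx.symm.trans (Pres.res H hg hx)
  constructor
  · intro h
    exact ⟨frz_res H hr.symm h.1, fun s hs n hn => by rw [← hg.2 x hx n s hs]; exact h.2 s hs n hn⟩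
  · intro h
    exact ⟨frz_res H hr h.1, fun s hs n hn => by rw [hg.2 x hx n s hs]; exact h.2 s hs n hn⟩

theorem Pres.pos {c g x : ArtinGroup M} (hg : Pres H Z c g) (hx : Res M Z c x) {d : ℤ}
    {θ : S → ℝ} {s : S} (hs : s ∈ Z) (h : Pos H d θ x s) : Pos H d θ (g * x) s := by
  exact ⟨fun n hn => by rw [hg.2 x hx n s hs]; exact h.1 n hn,
    by rw [hg.2 x hx d s hs]; exact h.2⟩

/-- Take `d` from `exists_uu`, `U T := Res Z c T ∧ UU Z d T`. If `hdown` of `exists_chain` holds (start at `T = c`), `H.chain` and `mem_of_low` give the first alternative (for `Z = ∅` it is vacuous).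
Otherwise there are `T` and `s` such that every word `p` in `Z` with `UU (T p⁻¹)` avoids `s`. For `g` with `Pres`, `directed` gives `T' p₁ = T`, `T' p₂ = g T`; both words avoid `s`
(`Pres.uu` for `x = T p₂⁻¹`), so `T⁻¹ g T = p₁⁻¹ p₂ ∈ A_{Z - s}`. -/
theorem fixAlt_sph (hZ : Sph M Z) (c : ArtinGroup M) : FixAlt H Z c := by
  rcases Z.eq_empty_or_nonempty with he | hne
  · exact Or.inl fun s hs => absurd hs (by simp [he])
  obtain ⟨d, -, hd⟩ := exists_uu H (Z := Z) c
  by_cases hdown : ∀ T, (Res M Z c T ∧ UU M Y H.v Z d T) → ∀ s ∈ Z, ∃ p, InZ Z p ∧ s ∈ p ∧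
      (Res M Z c (T * (wordA M p)⁻¹) ∧ UU M Y H.v Z d (T * (wordA M p)⁻¹))
  · left
    have hgen : ∀ s ∈ Z, artinGen M s ∈ AZ M Z := by
      intro s hs
      have h := wordA_mem (M := M) (Z := Z) (l := [s]) (by simpa [InZ] using hs)
      rwa [wordA_cons, wordA_nil, mul_one] at h
    obtain ⟨sq, cs, h0, h1, h2, h3, h4⟩ := exists_chain
      (U := fun T => Res M Z c T ∧ UU M Y H.v Z d T) hne
      (fun T hT s hs => ⟨hT.1.trans (Res.mul T (hgen s hs)), uu_up H hT.2 hs⟩) hdown
      ⟨Res.refl c, hd⟩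
    obtain ⟨w, hw⟩ := exists_longest M hZ
    intro s hs
    have h5 := H.chain Z d w sq cs hw h1 h2 h3 (fun n => (h4 n).2) s hs
    rw [h0] at h5
    exact mem_of_low H fun t _ n _ => h5 n t
  · right
    push Not at hdown
    obtain ⟨T, ⟨hT, hU⟩, s, hs, hno⟩ := hdown
    refine ⟨T, s, hT, hs, fun g hg => ?_⟩
    have hgT : Res M Z c (g * T) := Pres.res H hg hT
    obtain ⟨T', p₁, p₂, hU', hp₁, hp₂, e₁, e₂⟩ :=
      directed H hZ (hT.symm.trans hgT) hU ((Pres.uu H hg hT).2 hU)
    have hres : ∀ p, InZ Z p → Res M Z c (T * (wordA M p)⁻¹) := fun p hp =>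
      hT.trans (Res.mul T ((AZ M Z).inv_mem (wordA_mem M hp)))
    have n₁ : s ∉ p₁ := fun hm => hno p₁ hp₁ hm (hres p₁ hp₁) (by
      rw [← e₁, mul_inv_cancel_right]; exact hU')
    have n₂ : s ∉ p₂ := fun hm => hno p₂ hp₂ hm (hres p₂ hp₂) (by
      refine (Pres.uu H hg (hres p₂ hp₂)).1 ?_
      rw [← mul_assoc, ← e₂, mul_inv_cancel_right]; exact hU')
    have i₁ : InZ (Z.erase s) p₁ := fun x hx =>
      Finset.mem_erase.2 ⟨fun h => n₁ (h ▸ hx), hp₁ x hx⟩
    have i₂ : InZ (Z.erase s) p₂ := fun x hx =>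
      Finset.mem_erase.2 ⟨fun h => n₂ (h ▸ hx), hp₂ x hx⟩
    have e : T⁻¹ * g * T = (wordA M p₁)⁻¹ * wordA M p₂ := by
      rw [mul_assoc, ← e₂, ← e₁]; group
    rw [e]
    exact (AZ M _).mul_mem ((AZ M _).inv_mem (wordA_mem M i₁)) (wordA_mem M i₂)

end Crest.Agent.R175.G
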