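import Crest.Agent.R175.PGH2

/-! Low simplices lie in low chambers. -/

set_option autoImplicit false

open Crest.GroupTheory
open scoped Classical

namespace Crest.Agent.R175.G

variable {S : Type} [Fintype S] [DecidableEq S] {M : CoxeterMatrix S} {Y : Finset S}
  (H : HeightData M Y) {Z : Finset S}

/-- Purity in the context `Z`: if some chamber of the residue is low at level `d - 1`, every low simplex lies in such a chamber. -/
def Pure (Z : Finset S) : Prop :=
  ∀ d c c₀ (J : Finset S), Frz M Y H.v Z d c → Res M Z c c₀ → (∀ s ∈ Z, Low M H.v c₀ (d - 1) s) →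
    J ⊆ Z → (∀ t ∈ Z, t ∉ J → Low M H.v c (d - 1) t) →
    ∃ c', Res M J c c' ∧ ∀ s ∈ Z, Low M H.v c' (d - 1) s

/-- Purity for vertices. -/
def PureV (Z : Finset S) : Prop :=
  ∀ d c c₀ t, Frz M Y H.v Z d c → Res M Z c c₀ → (∀ s ∈ Z, Low M H.v c₀ (d - 1) s) → t ∈ Z →
    Low M H.v c (d - 1) t → ∃ c', Res M (Z.erase t) c c' ∧ ∀ s ∈ Z, Low M H.v c' (d - 1) s

/-- If `J = Z` take `c₀`. Otherwise take `t ∈ Z \ J`, use `PureV` and then `Pure (Z.erase t)` at `c` (`frz_sub`, `low_mono`, `low_res`). -/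
theorem pure_of_pureV (hI : ∀ s ∈ Z, Pure H (Z.erase s)) (h : PureV H Z) : Pure H Z := by
  intro d c c₀ J hf hc hl hJ hlow
  by_cases hJZ : J = Z
  · subst hJZ
    exact ⟨c₀, hc, hl⟩
  · obtain ⟨t, ht, htJ⟩ : ∃ t ∈ Z, t ∉ J := by
      by_contra h'
      push Not at h'
      exact hJZ (Finset.Subset.antisymm hJ h')
    obtain ⟨c₁, hc₁, hl₁⟩ := h d c c₀ t hf hc hl ht (hlow t ht htJ)
    have hf' : Frz M Y H.v (Z.erase t) d c := frz_sub H (Finset.erase_subset _ _) hf fun u hu hu' => by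
      have : u = t := by
        by_contra h'
        exact hu' (Finset.mem_erase.2 ⟨h', hu⟩)
      subst this
      exact low_mono H (by omega) (hlow u ht htJ)
    obtain ⟨c', hc', hl'⟩ := hI t ht d c c₁ J hf' hc₁ (fun s hs => hl₁ s (Finset.mem_of_mem_erase hs))
      (fun s hs => Finset.mem_erase.2 ⟨fun e => htJ (e ▸ hs), hJ hs⟩)
      (fun u hu huJ => hlow u (Finset.mem_of_mem_erase hu) huJ)
    refine ⟨c', hc', fun s hs => ?_⟩
    by_cases hst : s = t
    · subst hst
      exact low_res H hc' htJ (hlow s ht htJ)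
    · exact hl' s (Finset.mem_erase.2 ⟨hst, hs⟩)

/-- Products. Let `t ∈ J` and `c₀ = c a b`. Then `c a` is low on `J`; `Pure J` (with `J.erase t`) gives `c a'` low on `J`, and `c a' b = c b a'` is low on
`Z`. -/
theorem pureV_clo {J : Finset S} (hJ : Clo M Z J) (h₁ : Pure H J) (h₂ : Pure H (Z \ J)) :
    PureV H Z := by
  have key : ∀ J, Clo M Z J → Pure H J → ∀ d c c₀ t, Frz M Y H.v Z d c → Res M Z c c₀ →
      (∀ s ∈ Z, Low M H.v c₀ (d - 1) s) → t ∈ J → Low M H.v c (d - 1) t →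
      ∃ c', Res M (Z.erase t) c c' ∧ ∀ s ∈ Z, Low M H.v c' (d - 1) s := by
    intro J hJ h₁ d c c₀ t hf hc hl ht hlt
    obtain ⟨a, ha, b, hb, e⟩ := hJ.split hc
    have e' : c₀ = c * a * b := by rw [mul_assoc, ← e, mul_inv_cancel_left]
    have hla : ∀ s ∈ J, Low M H.v (c * a) (d - 1) s := fun s hs =>
      low_res H (Z := Z \ J) (c := c₀) (by rw [e']; exact (Res.mul _ hb).symm)
        (fun h => (Finset.mem_sdiff.1 h).2 hs) (hl s (hJ.1 hs))
    obtain ⟨c₁, hc₁, hl₁⟩ := h₁ d c (c * a) (J.erase t) (frz_clo H hJ hf) (Res.mul _ ha) hla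
      (Finset.erase_subset _ _) (fun u hu hu' => by
        have : u = t := by
          by_contra h'
          exact hu' (Finset.mem_erase.2 ⟨h', hu⟩)
        rw [this]; exact hlt)
    have hb' : b ∈ AZ M (Z.erase t) := AZ_mono (fun u hu =>
      Finset.mem_erase.2 ⟨fun e => (Finset.mem_sdiff.1 hu).2 (e ▸ ht), (Finset.mem_sdiff.1 hu).1⟩) hb
    refine ⟨c₁ * b, (hc₁.mono (Finset.erase_subset_erase _ hJ.1)).trans (Res.mul _ hb'), fun s hs => ?_⟩
    by_cases hsJ : s ∈ J
    · exact low_res H (Res.mul _ hb) (fun h => (Finset.mem_sdiff.1 h).2 hsJ) (hl₁ s hsJ)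
    · refine low_res H (Z := J) (c := c₀) ?_ hsJ (hl s hs)
      have ha' : c⁻¹ * c₁ ∈ AZ M J := AZ_mono (Finset.erase_subset _ _) hc₁
      have h1 := hJ.commute (mul_mem (inv_mem ha) ha') hb
      have h2 : c₀⁻¹ * (c₁ * b) = a⁻¹ * (c⁻¹ * c₁) := by
        rw [e']
        calc (c * a * b)⁻¹ * (c₁ * b) = b⁻¹ * (a⁻¹ * (c⁻¹ * c₁) * b) := by group
          _ = a⁻¹ * (c⁻¹ * c₁) := by rw [h1]; group
      show c₀⁻¹ * (c₁ * b) ∈ AZ M J
      rw [h2]
      exact mul_mem (inv_mem ha) ha'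
  intro d c c₀ t hf hc hl ht hlt
  by_cases htJ : t ∈ J
  · exact key J hJ h₁ d c c₀ t hf hc hl htJ hlt
  · exact key (Z \ J) hJ.compl h₂ d c c₀ t hf hc hl (Finset.mem_sdiff.2 ⟨ht, htJ⟩) hlt

/-- Connected case. If `Z` is spherical and `bd = 0` on `Z`, use `frz_pred` and `uu_of_simplex` at level `d - 1`. Otherwise `exists_tiny_pos` and
`h0_all` connect `(c₀, t)` with `(c, t)` through vertices low at level `d - 1`. Along the path every vertex lies in a low chamber: for an edge `(c', s), (c', s')` use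
`Pure (Z.erase s)` at `c'` with `J = (Z.erase s).erase s'`. -/
theorem pureV_conn (hc : Conn M Z) (hI : ∀ s ∈ Z, Pure H (Z.erase s)) : PureV H Z := by
  intro d c c₀ t hf hc' hl ht hlt
  by_cases h : ¬ Sph M Z ∨ ∃ s ∈ Z, bd M H.v H.β Z d c s ≠ 0
  · obtain ⟨θ, hθ, hiff⟩ := exists_tiny_pos H hc h
    have hcn := h0_all H Z d c θ hf hθ c₀ t c t hc' (Res.refl _) ht ht
      ((hiff _ _ ht).2 (hl t ht)) ((hiff _ _ ht).2 hlt)
    have key : ∀ y, Cn M Z (Pos H d θ) (c₀, t) y →
        ∃ c', Res M (Z.erase y.2) y.1 c' ∧ ∀ s ∈ Z, Low M H.v c' (d - 1) s := by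
      intro y hy
      induction hy with
      | refl => exact ⟨c₀, Res.refl _, hl⟩
      | @tail x y hx hxy ih =>
        obtain ⟨c₁, hc₁, hl₁⟩ := ih
        obtain ⟨hs, hs', hp, hp', h' | h'⟩ := hxy
        · by_cases hss : x.2 = y.2
          · exact ⟨c₁, by rw [← h', ← hss]; exact hc₁, hl₁⟩
          have hlx : Low M H.v x.1 (d - 1) x.2 := (hiff _ _ hs).1 hp
          have hly : Low M H.v x.1 (d - 1) y.2 := h' ▸ (hiff _ _ hs').1 hp'
          have hfx : Frz M Y H.v (Z.erase x.2) d x.1 :=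
            frz_sub H (Finset.erase_subset _ _) (frz_res H (hc'.trans (Cn.res hx)) hf)
              fun u hu hu' => by
                have : u = x.2 := by
                  by_contra h''
                  exact hu' (Finset.mem_erase.2 ⟨h'', hu⟩)
                rw [this]
                exact low_mono H (by omega) hlx
          obtain ⟨c₂, hc₂, hl₂⟩ := hI x.2 hs d x.1 c₁ ((Z.erase x.2).erase y.2) hfx hc₁
            (fun s hs => hl₁ s (Finset.mem_of_mem_erase hs)) (Finset.erase_subset _ _)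
            (fun u hu hu' => by
              have : u = y.2 := by
                by_contra h''
                exact hu' (Finset.mem_erase.2 ⟨h'', hu⟩)
              rw [this]; exact hly)
          refine ⟨c₂, ?_, fun s hsZ => ?_⟩
          · rw [← h']
            exact hc₂.mono (Finset.erase_subset_erase _ (Finset.erase_subset _ _))
          · by_cases hsx : s = x.2
            · rw [hsx]
              exact low_res H hc₂ (fun h => by simp at h) hlx
            · exact hl₂ s (Finset.mem_erase.2 ⟨hsx, hsZ⟩)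
        · exact ⟨c₁, by rw [← h'.1]; exact Res.trans (Res.symm h'.2) hc₁, hl₁⟩
    have h1 := key _ hcn
    dsimp only at h1
    exact h1
  · push Not at h
    obtain ⟨c', h1, h2⟩ := uu_of_simplex H (Finset.erase_subset t Z)
      (h.1.mono M (Finset.erase_subset _ _)) (frz_pred H hf h.2) (fun u hu hu' => by
        have : u = t := by
          by_contra h''
          exact hu' (Finset.mem_erase.2 ⟨h'', hu⟩)
        rw [this]; exact hlt)
    exact ⟨c', h1, h2.2⟩

/-- Strong induction on `Z.card`. -/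
theorem pure_all (Z : Finset S) : Pure H Z := by
  induction' hn : Z.card using Nat.strong_induction_on with n ih generalizing Z
  subst hn
  have hI : ∀ s ∈ Z, Pure H (Z.erase s) := fun s hs => ih _ (Finset.card_erase_lt_of_mem hs) _ rfl
  refine pure_of_pureV H hI ?_
  by_cases hne : Z.Nonempty
  · by_cases hc : Conn M Z
    · exact pureV_conn H hc hI
    · obtain ⟨J, hJ, hJne, hJZ⟩ := exists_clo_of_not_conn hne hc
      refine pureV_clo H hJ (ih _ (Finset.card_lt_card (lt_of_le_of_ne hJ.1 hJZ)) _ rfl)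
        (ih _ (Finset.card_lt_card (Finset.sdiff_ssubset hJ.1 hJne)) _ rfl)
  · intro d c c₀ t _ _ _ ht
    exact absurd ⟨t, ht⟩ hne

/-- Move the neighbours of `Z`: `pure_all univ` at level `d + 1` with `c₀ = 1` and `J = Z ∪ R`, `R` the set of `t ∉ Z` not adjacent to `Z`;
`Frz univ (d + 1)` holds since `0 ≤ d + 1`, and `Clo (Z ∪ R) Z`, so `Clo.split` applies. -/
theorem exists_low_chamber {d : ℤ} (hd : -1 ≤ d) {c : ArtinGroup M} (hf : Frz M Y H.v Z d c) :
    ∃ a ∈ AZ M Z, ∃ b ∈ AZ M Zᶜ, (∀ k ∈ AZ M Z, k * b = b * k) ∧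
      ∀ s, Low M H.v (c * a * b) d s := by
  set R : Finset S := Finset.univ.filter fun t => t ∉ Z ∧ ∀ s ∈ Z, ¬ Adj M s t with hR
  have hclo : Clo M (Z ∪ R) Z := ⟨Finset.subset_union_left, fun s hs t ht htZ => by
    rcases Finset.mem_union.1 ht with h | h
    · exact absurd h htZ
    · exact (Finset.mem_filter.1 h).2.2 s hs⟩
  obtain ⟨c', hc', hl⟩ := pure_all H Finset.univ (d + 1) c 1 (Z ∪ R)
    ⟨fun s _ t ht => absurd (Finset.mem_univ t) ht, fun _ _ _ => by omega⟩ (mem_AZ_univ _)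
    (fun s _ n _ => H.v_one n s) (Finset.subset_univ _) (fun t _ ht => by
      have h1 : t ∉ Z := fun h => ht (Finset.mem_union_left _ h)
      have h2 : ∃ s ∈ Z, Adj M s t := by
        by_contra h
        push Not at h
        exact ht (Finset.mem_union_right _ (Finset.mem_filter.2 ⟨Finset.mem_univ _, h1, h⟩))
      obtain ⟨s, hs, hst⟩ := h2
      simpa using hf.1 s hs t h1 hst)
  obtain ⟨a, ha, b, hb, e⟩ := hclo.split hc'
  refine ⟨a, ha, b, AZ_mono (fun t ht => Finset.mem_compl.2 (Finset.mem_sdiff.1 ht).2) hb,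
    fun k hk => hclo.commute hk hb, fun s => ?_⟩
  have e' : c * a * b = c' := by rw [mul_assoc, ← e, mul_inv_cancel_left]
  rw [e']
  simpa using hl s (Finset.mem_univ s)

/-- `exists_low_chamber` with `d = -1` and `mem_of_low` give `g = c a b ∈ A_Y`; `Z ⊆ Y` by `Frz`; and
`c s c⁻¹ = g (a⁻¹ s a) g⁻¹`. -/
theorem conj_mem_of_frz {c : ArtinGroup M} (hf : Frz M Y H.v Z (-1) c) :
    ∀ s ∈ Z, c * artinGen M s * c⁻¹ ∈ AZ M Y := by
  intro s hs
  obtain ⟨a, ha, b, -, hb, hl⟩ := exists_low_chamber H le_rfl hf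
  have hg : c * a * b ∈ AZ M Y := mem_of_low H fun s _ => hl s
  have hZ : Z ⊆ Y := fun t ht => by
    by_contra h
    have := hf.2 t ht h
    omega
  have hk : a⁻¹ * artinGen M s * a ∈ AZ M Z :=
    mul_mem (mul_mem (inv_mem ha) (artinGen_mem_AZ M hs)) ha
  have e : c * artinGen M s * c⁻¹ = (c * a * b) * (a⁻¹ * artinGen M s * a) * (c * a * b)⁻¹ := by
    rw [mul_assoc (c * a) b, ← hb _ hk]
    group
  rw [e]
  exact mul_mem (mul_mem hg (AZ_mono hZ hk)) (inv_mem hg)

end Crest.Agent.R175.G
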