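import Crest.Agent.R175.PGF1
import Crest.Agent.R175.PGP

/-! Fixed vertices in non-spherical residues and the induction step. -/

set_option autoImplicit false

open Crest.GroupTheory
open scoped Classical

namespace Crest.Agent.R175.G

variable {S : Type} [Fintype S] [DecidableEq S] {M : CoxeterMatrix S} {Y : Finset S}
  (H : HeightData M Y) {Z : Finset S}

/-- The lowest level at which the neighbours are frozen (`exists_uu`, `Int.exists_least_of_bdd`, `frz_mono`, `frz_pred`). -/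
theorem exists_level {c : ArtinGroup M} (h : ¬ Frz M Y H.v Z (-1) c) :
    ∃ d : ℤ, 0 ≤ d ∧ Frz M Y H.v Z d c ∧ ∃ s ∈ Z, bd M H.v H.β Z d c s ≠ 0 := by
  have hb : ∀ z : ℤ, Frz M Y H.v Z z c → 0 ≤ z := fun z hz => by
    by_contra h0
    exact h (frz_mono H (by omega) hz)
  obtain ⟨d₀, -, h₀⟩ := exists_uu H (Z := Z) c
  obtain ⟨d, hd, hmin⟩ := Int.exists_least_of_bdd (P := fun z => Frz M Y H.v Z z c) ⟨0, hb⟩
    ⟨d₀, h₀.1⟩
  refine ⟨d, hb d hd, hd, ?_⟩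
  by_contra hne
  push Not at hne
  have := hmin _ (frz_pred H hd hne)
  omega

/-- First birth. By contradiction: `stair` from `θ₀ = 0` with `R θ := ¬ Inh Z (Pos d θ) c` (if `R θ₁` holds and `R θ₂` fails then all low vertices for `θ₂` have type `s`).
For large `θ` the chamber `c a` of `exists_low_chamber` has low vertices (`v_res` for `b`). -/
theorem exists_birth (hc : Conn M Z) (hn : ¬ Sph M Z) {d : ℤ} (hd : 0 ≤ d) {c : ArtinGroup M}
    (hf : Frz M Y H.v Z d c) (hb : ∃ s ∈ Z, bd M H.v H.β Z d c s ≠ 0) :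
    ∃ (θ : S → ℝ) (s : S) (T : ArtinGroup M), SubH M Z (bd M H.v H.β Z d c) θ ∧ s ∈ Z ∧
      Res M Z c T ∧ Pos H d θ T s ∧ ∀ c', Res M Z c c' → ∀ t ∈ Z, Pos H d θ c' t → t = s := by
  by_contra hcon
  obtain ⟨a, ha, b, hb', -, hlow⟩ := exists_low_chamber H (by omega : -1 ≤ d) hf
  obtain ⟨s₀, hs₀⟩ := hc.1
  obtain ⟨θ, hR, hK⟩ := stair (θ₀ := fun _ => 0) hc hn (bd_nonneg H d c) (fun _ _ => le_rfl)
    (fun s hs => by simpa using bd_nonneg H d c s hs)
    (fun hh => by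
      obtain ⟨s, hs, h0⟩ := hb
      exact h0 (by simpa using hh s hs))
    (R := fun θ => ¬ Inh M Z (Pos H d θ) c)
    (by
      rintro ⟨c', u, -, -, -, h0⟩
      exact absurd h0 (not_lt.2 (H.v_nonneg _ _ _)))
    (by
      rintro θ₁ θ₂ s - - - h₂ hs hne h₁ ⟨c', u, hc', hu, hp⟩
      have key : ∀ c'', Res M Z c c'' → ∀ t ∈ Z, Pos H d θ₂ c'' t → t = s := by
        intro c'' h'' t ht hp'
        by_contra hts
        exact h₁ ⟨c'', t, h'', ht, hp'.1, by rw [hne t hts]; exact hp'.2⟩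
      obtain rfl := key c' hc' u hu hp
      exact hcon ⟨θ₂, u, c', h₂, hs, hc', hp, key⟩)
    (H.v (c * a) d s₀ + 1)
  refine hR ⟨c * a, s₀, Res.mul c ha, hs₀,
    low_res H (Res.mul (c * a) hb').symm (by simpa using hs₀) (hlow s₀), ?_⟩
  have := hK s₀ hs₀
  linarith

/-- `fixAlt_sph`, or `conj_mem_of_frz`, or `exists_level`, `exists_birth`, `Pres.pos`, `res_of_single`. -/
theorem fixAlt_conn (hc : Conn M Z) (c : ArtinGroup M) : FixAlt H Z c := by
  by_cases hn : Sph M Z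
  · exact fixAlt_sph H hn c
  by_cases hf : Frz M Y H.v Z (-1) c
  · exact Or.inl (conj_mem_of_frz H hf)
  obtain ⟨d, hd, hf', hb⟩ := exists_level H hf
  obtain ⟨θ, s, T, hθ, hs, hT, hp, h⟩ := exists_birth H hc hn hd hf' hb
  refine Or.inr ⟨T, s, hT, hs, fun g hg => ?_⟩
  rw [mul_assoc]
  exact res_of_single H hf' hθ hs h hT (hg.res H hT) hp (hg.pos H hT hs hp)

include H in
/-- Let `s₀ ∈ Z` with `c s₀ c⁻¹ ∉ A_Y`, `J` its component (`exists_comp`), and `T, s` from `fixAlt_conn` for `J`. For `h ∈ A_Y` with `c⁻¹ h c = a b` (`Clo.split`) the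
element `g = c a c⁻¹` satisfies `Pres J c g`: for `x = c y`, `h x = g x b`, `H.v_left`, `v_res`. With `T = c y₀`, `T⁻¹ h T = (T⁻¹ g T) b`. -/
theorem fix_vertex {c : ArtinGroup M} (h : ¬ ∀ s ∈ Z, c * artinGen M s * c⁻¹ ∈ AZ M Y) :
    ∃ T s, Res M Z c T ∧ s ∈ Z ∧
      ∀ h ∈ AZ M Y, c⁻¹ * h * c ∈ AZ M Z → T⁻¹ * h * T ∈ AZ M (Z.erase s) := by
  push Not at h
  obtain ⟨s₀, hs₀, h₀⟩ := h
  obtain ⟨J, hJ, hsJ, hc⟩ := exists_comp (M := M) hs₀
  rcases fixAlt_conn H hc c with h1 | ⟨T, s, hT, hs, hfix⟩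
  · exact absurd (h1 s₀ hsJ) h₀
  refine ⟨T, s, hT.mono hJ.1, hJ.1 hs, fun k hk hk' => ?_⟩
  obtain ⟨a, ha, b, hb, e⟩ := hJ.split hk'
  have key : ∀ x, Res M J c x → k * x = c * a * c⁻¹ * x * b := by
    intro x hx
    have h1 := hJ.commute hx hb
    calc k * x = c * (c⁻¹ * k * c) * (c⁻¹ * x) := by group
      _ = c * a * (b * (c⁻¹ * x)) := by rw [e]; group
      _ = c * a * c⁻¹ * x * b := by rw [← h1]; group
  have hg : Pres H J c (c * a * c⁻¹) := by
    refine ⟨by simpa [mul_assoc] using ha, fun x hx n t ht => ?_⟩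
    rw [← v_res H (Res.mul (c * a * c⁻¹ * x) hb) n (by simp [ht]), ← key x hx, H.v_left k hk]
  have e2 : T⁻¹ * k * T = T⁻¹ * (c * a * c⁻¹) * T * b := by
    rw [mul_assoc, key T hT]
    group
  rw [e2]
  refine mul_mem (AZ_mono (Finset.erase_subset_erase s hJ.1) (hfix _ hg)) (AZ_mono ?_ hb)
  intro t ht
  obtain ⟨h1, h2⟩ := Finset.mem_sdiff.1 ht
  exact Finset.mem_erase.2 ⟨fun e => h2 (e ▸ hs), h1⟩

end Crest.Agent.R175.G
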