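import Crest.Agent.R175.PGDefs

/-! Raising subharmonic thresholds one coordinate at a time. -/

set_option autoImplicit false

open Crest.GroupTheory
open scoped Classical

namespace Crest.Agent.R175.G

variable {S : Type} [Fintype S] [DecidableEq S] {M : CoxeterMatrix S} {Z : Finset S}

theorem s1a_split (θ : S → ℝ) {s : S} (hs : s ∈ Z) :
    ∑ t ∈ Z, cc M s t * θ t = -2 * θ s + ∑ t ∈ Z.erase s, cc M s t * θ t := by
  rw [← Finset.add_sum_erase Z _ hs, cc_self]

theorem s1a_update (θ : S → ℝ) {s : S} (hs : s ∈ Z) (δ : ℝ) (u : S) :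
    ∑ t ∈ Z, cc M u t * Function.update θ s (θ s + δ) t =
      ∑ t ∈ Z, cc M u t * θ t + cc M u s * δ := by
  rw [← Finset.add_sum_erase Z _ hs, ← Finset.add_sum_erase Z (fun t => cc M u t * θ t) hs,
    Function.update_self]
  have : ∑ t ∈ Z.erase s, cc M u t * Function.update θ s (θ s + δ) t =
      ∑ t ∈ Z.erase s, cc M u t * θ t :=
    Finset.sum_congr rfl fun t ht => by
      rw [Function.update_of_ne (Finset.ne_of_mem_erase ht)]
  rw [this]; ring

/-- a vanishing coordinate with a positive neighbour has positive flow -/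
theorem s1a_pos {θ : S → ℝ} (h0 : ∀ s ∈ Z, 0 ≤ θ s) {s t : S} (hs : s ∈ Z) (ht : t ∈ Z)
    (hst : Adj M s t) (hz : θ t = 0) (hp : 0 < θ s) : 0 < ∑ u ∈ Z, cc M t u * θ u := by
  rw [s1a_split θ ht, hz, mul_zero, zero_add]
  have h1 : 1 ≤ cc M t s := by rw [cc_symm]; exact one_le_cc M hst
  refine Finset.sum_pos' (fun u hu => ?_) ⟨s, Finset.mem_erase.2 ⟨hst.1, hs⟩, by positivity⟩
  exact mul_nonneg (cc_nonneg M (Finset.ne_of_mem_erase hu).symm)
    (h0 u (Finset.mem_of_mem_erase hu))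

/-- The positive part of a subharmonic vector is subharmonic. -/
theorem SubH.posPart {b θ : S → ℝ} (hb : ∀ s ∈ Z, 0 ≤ b s) (h : SubH M Z b θ) :
    SubH M Z b (fun t => max (θ t) 0) := by
  intro s hs
  have h1 := h s hs
  rw [s1a_split θ hs] at h1
  rw [s1a_split _ hs]
  have h2 : ∑ t ∈ Z.erase s, cc M s t * θ t ≤ ∑ t ∈ Z.erase s, cc M s t * max (θ t) 0 :=
    Finset.sum_le_sum fun t ht =>
      mul_le_mul_of_nonneg_left (le_max_left _ _) (cc_nonneg M (Finset.ne_of_mem_erase ht).symm)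
  have h3 : 0 ≤ ∑ t ∈ Z.erase s, cc M s t * max (θ t) 0 :=
    Finset.sum_nonneg fun t ht =>
      mul_nonneg (cc_nonneg M (Finset.ne_of_mem_erase ht).symm) (le_max_right _ _)
  have h4 := hb s hs
  rcases le_total (θ s) 0 with h5 | h5
  · rw [max_eq_right h5]; linarith
  · rw [max_eq_left h5]; linarith

/-- Raising the coordinate `s` by at most half of the defect keeps subharmonicity. -/
theorem SubH.raise {b θ : S → ℝ} (h : SubH M Z b θ) {s : S} (hs : s ∈ Z) {δ : ℝ} (h0 : 0 ≤ δ)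
    (hδ : 2 * δ ≤ ∑ t ∈ Z, cc M s t * θ t + b s) :
    SubH M Z b (Function.update θ s (θ s + δ)) := by
  intro u hu
  rw [s1a_update θ hs]
  by_cases hus : u = s
  · subst hus
    rw [cc_self]; linarith
  · have := mul_nonneg (cc_nonneg M hus) h0
    have := h u hu
    linarith

/-- A connected non-spherical diagram has at least two vertices (`exists_subharmonic`, `cc_self`). -/
theorem exists_ne_of_not_sph (hc : Conn M Z) (hn : ¬ Sph M Z) (s : S) : ∃ u ∈ Z, u ≠ s := by
  by_contra hcon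
  push Not at hcon
  obtain ⟨lam, h1, h2⟩ := exists_subharmonic M hc hn
  obtain ⟨u, hu⟩ := hc.1
  have h3 := h2 u hu
  rw [s1a_split lam hu] at h3
  have h4 : Z.erase u = ∅ := by
    rw [Finset.eq_empty_iff_forall_notMem]
    intro t ht
    exact Finset.ne_of_mem_erase ht ((hcon t (Finset.mem_of_mem_erase ht)).trans (hcon u hu).symm)
  rw [h4, Finset.sum_empty] at h3
  have := h1 u hu
  linarith

/-- Pair the equation with the vector of `exists_subharmonic` (symmetry of `cc`): `b = 0`. If `θ` vanishes somewhere but not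
everywhere, `Conn` gives adjacent `s, t` with `θ s = 0 < θ t`, contradicting harmonicity at `s`. -/
theorem Harm.cases (hc : Conn M Z) (hn : ¬ Sph M Z) {b θ : S → ℝ} (hb : ∀ s ∈ Z, 0 ≤ b s)
    (h0 : ∀ s ∈ Z, 0 ≤ θ s) (h : Harm M Z b θ) :
    (∀ s ∈ Z, b s = 0) ∧ ((∀ s ∈ Z, θ s = 0) ∨ ∀ s ∈ Z, 0 < θ s) := by
  obtain ⟨lam, h1, h2⟩ := exists_subharmonic M hc hn
  have hsum : ∑ s ∈ Z, lam s * (∑ t ∈ Z, cc M s t * θ t + b s) = 0 :=
    Finset.sum_eq_zero fun s hs => by rw [h s hs, mul_zero]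
  have hsw : ∑ s ∈ Z, lam s * (∑ t ∈ Z, cc M s t * θ t + b s) =
      ∑ t ∈ Z, θ t * (∑ s ∈ Z, cc M t s * lam s) + ∑ s ∈ Z, lam s * b s := by
    simp only [mul_add, Finset.sum_add_distrib, Finset.mul_sum]
    congr 1
    rw [Finset.sum_comm]
    refine Finset.sum_congr rfl fun t _ => Finset.sum_congr rfl fun s _ => ?_
    rw [cc_symm M t s]; ring
  have hA : 0 ≤ ∑ t ∈ Z, θ t * (∑ s ∈ Z, cc M t s * lam s) :=
    Finset.sum_nonneg fun t ht => mul_nonneg (h0 t ht) (h2 t ht)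
  have hBn : ∀ s ∈ Z, 0 ≤ lam s * b s := fun s hs => mul_nonneg (h1 s hs).le (hb s hs)
  have hB : ∑ s ∈ Z, lam s * b s = 0 := by
    have := Finset.sum_nonneg hBn
    linarith
  have hb0 : ∀ s ∈ Z, b s = 0 := fun s hs => by
    have := (Finset.sum_eq_zero_iff_of_nonneg hBn).1 hB s hs
    exact (mul_eq_zero.1 this).resolve_left (h1 s hs).ne'
  refine ⟨hb0, ?_⟩
  by_contra hcon
  push Not at hcon
  obtain ⟨⟨s₁, hs₁, hp⟩, s₂, hs₂, hz⟩ := hcon
  obtain ⟨s, hs, t, ht, htJ, hst⟩ := hc.2 (Z.filter fun s => 0 < θ s) (Finset.filter_subset _ _)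
    ⟨s₁, Finset.mem_filter.2 ⟨hs₁, lt_of_le_of_ne (h0 s₁ hs₁) (Ne.symm hp)⟩⟩ (by
      intro he
      rw [← he] at hs₂
      exact absurd (Finset.mem_filter.1 hs₂).2 (not_lt.2 hz))
  have hθt : θ t = 0 := by
    refine le_antisymm (not_lt.1 fun hlt => htJ (Finset.mem_filter.2 ⟨ht, hlt⟩)) (h0 t ht)
  have h5 := s1a_pos h0 (Finset.mem_filter.1 hs).1 ht hst hθt (Finset.mem_filter.1 hs).2
  have h6 := h t ht
  rw [hb0 t ht] at h6
  linarith

/-- Small positive subharmonic vectors. Non-spherical: a small multiple of the vector of `exists_subharmonic`.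
Otherwise induct on the size of the support `J`: start with `θ = min ε (b s₀ / 2)` at `s₀` and `0` elsewhere; if `J ≠ Z`,
`Conn` gives `s ∈ J`, `t ∉ J` adjacent, the defect at `t` is positive, raise `t` (`SubH.raise`). -/
theorem exists_tiny (hc : Conn M Z) {b : S → ℝ} (hb : ∀ s ∈ Z, 0 ≤ b s)
    (h : ¬ Sph M Z ∨ ∃ s ∈ Z, b s ≠ 0) {ε : ℝ} (hε : 0 < ε) :
    ∃ θ : S → ℝ, SubH M Z b θ ∧ ∀ s ∈ Z, 0 < θ s ∧ θ s ≤ ε := by
  rcases h with hn | ⟨s₀, hs₀, hb₀⟩
  · obtain ⟨lam, h1, h2⟩ := exists_subharmonic M hc hn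
    have hL : 0 < ∑ s ∈ Z, lam s := Finset.sum_pos h1 hc.1
    refine ⟨fun t => ε / (∑ s ∈ Z, lam s) * lam t, fun s hs => ?_, fun s hs => ⟨?_, ?_⟩⟩
    · have e : ∑ t ∈ Z, cc M s t * (ε / (∑ s ∈ Z, lam s) * lam t) =
          ε / (∑ s ∈ Z, lam s) * ∑ t ∈ Z, cc M s t * lam t := by
        rw [Finset.mul_sum]
        exact Finset.sum_congr rfl fun t _ => by ring
      rw [e]
      have := mul_nonneg (div_pos hε hL).le (h2 s hs)
      have := hb s hs
      linarith
    · exact mul_pos (div_pos hε hL) (h1 s hs)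
    · have h3 : lam s ≤ ∑ s ∈ Z, lam s :=
        Finset.single_le_sum (fun t ht => (h1 t ht).le) hs
      show ε / (∑ s ∈ Z, lam s) * lam s ≤ ε
      rw [div_mul_eq_mul_div, div_le_iff₀ hL]
      exact mul_le_mul_of_nonneg_left h3 hε.le
  · have hb₁ : 0 < b s₀ := lt_of_le_of_ne (hb s₀ hs₀) (Ne.symm hb₀)
    have key : ∀ k : ℕ, k + 1 ≤ Z.card → ∃ θ : S → ℝ, SubH M Z b θ ∧
        (∀ s ∈ Z, 0 ≤ θ s ∧ θ s ≤ ε) ∧ k + 1 ≤ (Z.filter fun s => 0 < θ s).card := by
      intro k
      induction k with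
      | zero =>
        intro _
        have h0 : SubH M Z b (fun _ => 0) := fun s hs => by simpa using hb s hs
        have hδ : 0 < min ε (b s₀ / 2) := lt_min hε (by linarith)
        refine ⟨_, h0.raise hs₀ hδ.le (by
          have := min_le_right ε (b s₀ / 2)
          simp only [mul_zero, Finset.sum_const_zero, zero_add]; linarith), ?_, ?_⟩
        · intro s hs
          by_cases h : s = s₀
          · subst h
            simp only [Function.update_self, zero_add]
            exact ⟨hδ.le, min_le_left _ _⟩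
          · rw [Function.update_of_ne h]; exact ⟨le_rfl, hε.le⟩
        · refine Finset.card_pos.2 ⟨s₀, Finset.mem_filter.2 ⟨hs₀, ?_⟩⟩
          simpa only [Function.update_self, zero_add] using hδ
      | succ k ih =>
        intro hk
        obtain ⟨θ, h1, h2, h3⟩ := ih (by omega)
        by_cases h4 : k + 1 + 1 ≤ (Z.filter fun s => 0 < θ s).card
        · exact ⟨θ, h1, h2, h4⟩
        obtain ⟨s, hs, t, ht, htJ, hst⟩ := hc.2 (Z.filter fun s => 0 < θ s)
          (Finset.filter_subset _ _) (Finset.card_pos.1 (by omega)) (by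
            intro he
            rw [he] at h4
            exact h4 hk)
        have hθt : θ t = 0 :=
          le_antisymm (not_lt.1 fun hlt => htJ (Finset.mem_filter.2 ⟨ht, hlt⟩)) (h2 t ht).1
        have h5 := s1a_pos (fun s hs => (h2 s hs).1) (Finset.mem_filter.1 hs).1 ht hst hθt
          (Finset.mem_filter.1 hs).2
        have h6 := hb t ht
        set δ := min ε ((∑ u ∈ Z, cc M t u * θ u + b t) / 2) with hδ_def
        have hδ : 0 < δ := lt_min hε (by linarith)
        refine ⟨_, h1.raise ht hδ.le (by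
          have := min_le_right ε ((∑ u ∈ Z, cc M t u * θ u + b t) / 2)
          linarith), ?_, ?_⟩
        · intro u hu
          by_cases h : u = t
          · subst h
            rw [Function.update_self, hθt, zero_add]
            exact ⟨hδ.le, min_le_left _ _⟩
          · rw [Function.update_of_ne h]; exact h2 u hu
        · have hsub : insert t (Z.filter fun s => 0 < θ s) ⊆
              Z.filter fun u => 0 < Function.update θ t (θ t + δ) u := by
            intro u hu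
            rcases Finset.mem_insert.1 hu with h | h
            · subst h
              refine Finset.mem_filter.2 ⟨ht, ?_⟩
              rw [Function.update_self, hθt, zero_add]; exact hδ
            · have hne : u ≠ t := fun e => htJ (e ▸ h)
              refine Finset.mem_filter.2 ⟨(Finset.mem_filter.1 h).1, ?_⟩
              rw [Function.update_of_ne hne]; exact (Finset.mem_filter.1 h).2
          have := Finset.card_le_card hsub
          rw [Finset.card_insert_of_notMem htJ] at this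
          omega
    have hpos : 0 < Z.card := Finset.card_pos.2 ⟨s₀, hs₀⟩
    obtain ⟨θ, h1, h2, h3⟩ := key (Z.card - 1) (by omega)
    have he : (Z.filter fun s => 0 < θ s) = Z :=
      Finset.eq_of_subset_of_card_le (Finset.filter_subset _ _) (by omega)
    refine ⟨θ, h1, fun s hs => ⟨?_, (h2 s hs).2⟩⟩
    rw [← he] at hs
    exact (Finset.mem_filter.1 hs).2

/-- Staircase. Let `lam` come from `exists_subharmonic` and `Φ θ = ∑ s ∈ Z, lam s * (∑ t ∈ Z, cc s t * θ t + b s)`.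
`Φ θ₀ > 0`, and `Φ` does not decrease under raises. So every reachable vector has a coordinate with defect at least
`2 δ₀ = Φ θ₀ / ∑ lam`; raising it by `δ₀` shows that `∑ s ∈ Z, θ s` is unbounded, so some coordinate is at least `K * 2 ^ card Z`.
Then spread: if the set `J` of coordinates `≥ L` is non-empty and `≠ Z`, take `s ∈ J`, `t ∉ J` adjacent and raise `t` until it
is harmonic: `2 θ t ≥ cc t s * θ s ≥ L`; so the set of coordinates `≥ L / 2` is larger. -/
theorem stair (hc : Conn M Z) (hn : ¬ Sph M Z) {b θ₀ : S → ℝ} (hb : ∀ s ∈ Z, 0 ≤ b s)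
    (h0 : ∀ s ∈ Z, 0 ≤ θ₀ s) (hs : SubH M Z b θ₀) (hh : ¬ Harm M Z b θ₀) {R : (S → ℝ) → Prop}
    (hR₀ : R θ₀)
    (hR : ∀ θ₁ θ₂ s, θ₀ ≤ θ₁ → θ₁ ≤ θ₂ → SubH M Z b θ₁ → SubH M Z b θ₂ → s ∈ Z →
      (∀ t, t ≠ s → θ₁ t = θ₂ t) → R θ₁ → R θ₂) (K : ℝ) :
    ∃ θ, R θ ∧ ∀ s ∈ Z, K ≤ θ s := by
  obtain ⟨lam, hl0, hl1⟩ := exists_subharmonic M hc hn
  let df : (S → ℝ) → S → ℝ := fun θ s => ∑ t ∈ Z, cc M s t * θ t + b s
  let Gd : (S → ℝ) → Prop := fun θ => θ₀ ≤ θ ∧ SubH M Z b θ ∧ R θ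
  have step : ∀ θ s δ, Gd θ → s ∈ Z → 0 ≤ δ → 2 * δ ≤ df θ s →
      Gd (Function.update θ s (θ s + δ)) := by
    intro θ s δ hG hsZ hδ0 hδ
    have hle : θ ≤ Function.update θ s (θ s + δ) := by
      intro t
      by_cases hts : t = s
      · subst hts
        simp [hδ0]
      · simp [hts]
    have hsub := hG.2.1.raise hsZ hδ0 hδ
    exact ⟨hG.1.trans hle, hsub, hR θ _ s hG.1 hle hG.2.1 hsub hsZ
      (fun t ht => by simp [ht]) hG.2.2⟩
  have hΦ : ∀ θ : S → ℝ, ∑ s ∈ Z, lam s * df θ s =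
      ∑ t ∈ Z, (∑ s ∈ Z, cc M t s * lam s) * θ t + ∑ s ∈ Z, lam s * b s := by
    intro θ
    simp only [df, mul_add, Finset.sum_add_distrib, Finset.mul_sum, Finset.sum_mul]
    congr 1
    rw [Finset.sum_comm]
    refine Finset.sum_congr rfl fun t _ => Finset.sum_congr rfl fun s _ => ?_
    rw [cc_symm M s t]
    ring
  have hΦmono : ∀ θ : S → ℝ, θ₀ ≤ θ → ∑ s ∈ Z, lam s * df θ₀ s ≤ ∑ s ∈ Z, lam s * df θ s := by
    intro θ hθ
    rw [hΦ, hΦ]
    refine add_le_add_left (Finset.sum_le_sum fun t ht => ?_) _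
    exact mul_le_mul_of_nonneg_left (hθ t) (hl1 t ht)
  have hΦ0 : 0 < ∑ s ∈ Z, lam s * df θ₀ s := by
    unfold Harm at hh
    push Not at hh
    obtain ⟨s, hsZ, hne⟩ := hh
    exact Finset.sum_pos' (fun t ht => mul_nonneg (hl0 t ht).le (hs t ht))
      ⟨s, hsZ, mul_pos (hl0 s hsZ) (lt_of_le_of_ne (hs s hsZ) (Ne.symm hne))⟩
  have hΛ : 0 < ∑ s ∈ Z, lam s := Finset.sum_pos hl0 hc.1
  set δ₀ : ℝ := (∑ s ∈ Z, lam s * df θ₀ s) / (∑ s ∈ Z, lam s) / 2 with hδ₀
  have hδ0 : 0 < δ₀ := by positivity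
  have hbig : ∀ θ, Gd θ → ∃ s ∈ Z, 2 * δ₀ ≤ df θ s := by
    intro θ hG
    by_contra hcon
    push Not at hcon
    have h1 : ∑ s ∈ Z, lam s * df θ s < ∑ s ∈ Z, lam s * (2 * δ₀) :=
      Finset.sum_lt_sum_of_nonempty hc.1 fun s hsZ =>
        mul_lt_mul_of_pos_left (hcon s hsZ) (hl0 s hsZ)
    have h2 : ∑ s ∈ Z, lam s * (2 * δ₀) = ∑ s ∈ Z, lam s * df θ₀ s := by
      rw [← Finset.sum_mul, hδ₀]
      field_simp
    linarith [hΦmono θ hG.1]
  have hsum : ∀ n : ℕ, ∃ θ, Gd θ ∧ n * δ₀ ≤ ∑ s ∈ Z, θ s := by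
    intro n
    induction n with
    | zero => exact ⟨θ₀, ⟨le_rfl, hs, hR₀⟩, by simpa using Finset.sum_nonneg h0⟩
    | succ n ih =>
      obtain ⟨θ, hG, hn'⟩ := ih
      obtain ⟨s, hsZ, hd⟩ := hbig θ hG
      refine ⟨_, step θ s δ₀ hG hsZ hδ0.le hd, ?_⟩
      rw [Finset.sum_update_of_mem hsZ]
      rw [← Finset.add_sum_erase Z θ hsZ, ← Finset.sdiff_singleton_eq_erase] at hn'
      push_cast
      linarith
  have hone : ∀ L : ℝ, ∃ θ, Gd θ ∧ ∃ s ∈ Z, L ≤ θ s := by
    intro L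
    obtain ⟨n, hn'⟩ := exists_nat_ge ((∑ _s ∈ Z, L) / δ₀)
    rw [div_le_iff₀ hδ0] at hn'
    obtain ⟨θ, hG, h2⟩ := hsum n
    exact ⟨θ, hG, Finset.exists_le_of_sum_le hc.1 (hn'.trans h2)⟩
  have hspread : ∀ k : ℕ, ∀ L : ℝ, 0 ≤ L → ∃ θ, Gd θ ∧
      (k + 1 ≤ (Z.filter fun s => L ≤ θ s).card ∨ ∀ s ∈ Z, L ≤ θ s) := by
    intro k
    induction k with
    | zero =>
      intro L _
      obtain ⟨θ, hG, s, hsZ, hL⟩ := hone L
      exact ⟨θ, hG, Or.inl (Finset.card_pos.2 ⟨s, Finset.mem_filter.2 ⟨hsZ, hL⟩⟩)⟩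
    | succ k ih =>
      intro L hL
      obtain ⟨θ, hG, hor⟩ := ih (2 * L) (by linarith)
      by_cases hJ : (Z.filter fun s => 2 * L ≤ θ s) = Z
      · refine ⟨θ, hG, Or.inr fun s hsZ => ?_⟩
        rw [← hJ] at hsZ
        linarith [(Finset.mem_filter.1 hsZ).2]
      rcases hor with hcard | hall
      swap
      · exact absurd (Finset.filter_true_of_mem hall) hJ
      obtain ⟨s, hsJ, t, htZ, htJ, hadj⟩ := hc.2 _ (Finset.filter_subset _ _)
        (Finset.card_pos.1 (by omega)) hJ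
      obtain ⟨hsZ, hsL⟩ := Finset.mem_filter.1 hsJ
      have hd0 : 0 ≤ df θ t := hG.2.1 t htZ
      refine ⟨_, step θ t (df θ t / 2) hG htZ (by linarith) (by linarith), Or.inl ?_⟩
      have hθ0 : ∀ u ∈ Z, 0 ≤ θ u := fun u hu => (h0 u hu).trans (hG.1 u)
      have hts : t ≠ s := hadj.1.symm
      have h1 : cc M t s * θ s ≤ ∑ u ∈ Z.erase t, cc M t u * θ u :=
        Finset.single_le_sum (f := fun u => cc M t u * θ u)
          (fun u hu => mul_nonneg (cc_nonneg M (Finset.ne_of_mem_erase hu).symm)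
            (hθ0 u (Finset.mem_of_mem_erase hu)))
          (Finset.mem_erase.2 ⟨hadj.1, hsZ⟩)
      have h2 : 1 ≤ cc M t s := by rw [cc_symm M t s]; exact one_le_cc M hadj
      have h3 : df θ t = -2 * θ t + ∑ u ∈ Z.erase t, cc M t u * θ u + b t := by
        simp only [df]
        rw [← Finset.add_sum_erase Z _ htZ, cc_self]
      have h4 : L ≤ θ t + df θ t / 2 := by
        have := hb t htZ
        have := hθ0 s hsZ
        nlinarith
      have hsub : insert t (Z.filter fun s => 2 * L ≤ θ s) ⊆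
          Z.filter fun u => L ≤ Function.update θ t (θ t + df θ t / 2) u := by
        intro u hu
        rcases Finset.mem_insert.1 hu with rfl | hu
        · exact Finset.mem_filter.2 ⟨htZ, by simpa using h4⟩
        · obtain ⟨huZ, huL⟩ := Finset.mem_filter.1 hu
          have hut : u ≠ t := fun h => htJ (h ▸ hu)
          refine Finset.mem_filter.2 ⟨huZ, ?_⟩
          rw [Function.update_of_ne hut]
          linarith
      have := Finset.card_le_card hsub
      rw [Finset.card_insert_of_notMem htJ] at this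
      omega
  obtain ⟨θ, hG, hor⟩ := hspread Z.card (max K 0) (le_max_right _ _)
  rcases hor with hcard | hall
  · have := Finset.card_filter_le Z fun s => max K 0 ≤ θ s
    omega
  · exact ⟨θ, hG.2.2, fun s hsZ => (le_max_left _ _).trans (hall s hsZ)⟩

/-- Passing the critical values one at a time. The set `C` of ratios `x / θ s` (`x ∈ D`, `s ∈ Z`) below `K` is finite.
Induct on the number of elements of `C` in `(τ, K)`: go to the smallest one, or to `K` if there is none. -/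
theorem crit {D : Set ℝ} (hD : ∀ K : ℝ, (D ∩ Set.Iic K).Finite) {θ : S → ℝ}
    (hθ : ∀ s ∈ Z, 0 < θ s) {R : ℝ → Prop} (h1 : R 1)
    (hR : ∀ τ τ' : ℝ, 1 ≤ τ → τ < τ' → (∀ s ∈ Z, ∀ x ∈ D, x < τ' * θ s → x ≤ τ * θ s) →
      R τ → R τ') {K : ℝ} (hK : 1 ≤ K) : R K := by
  set C : Finset ℝ := Z.biUnion fun s => (hD (K * θ s)).toFinset.image fun x => x / θ s with hC
  have hmem : ∀ s ∈ Z, ∀ x ∈ D, x < K * θ s → x / θ s ∈ C := by
    intro s hs x hx hlt
    refine Finset.mem_biUnion.2 ⟨s, hs, Finset.mem_image.2 ⟨x, ?_, rfl⟩⟩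
    exact (Set.Finite.mem_toFinset _).2 ⟨hx, hlt.le⟩
  have key : ∀ n : ℕ, ∀ τ : ℝ, 1 ≤ τ → τ ≤ K → (C.filter fun c => τ < c ∧ c < K).card ≤ n →
      R τ → R K := by
    intro n
    induction n with
    | zero =>
      intro τ h1τ hτK hcard hτ
      rcases hτK.eq_or_lt with h | h
      · exact h ▸ hτ
      refine hR τ K h1τ h (fun s hs x hx hlt => ?_) hτ
      by_contra hcon
      have h2 : x / θ s ∈ C.filter fun c => τ < c ∧ c < K :=
        Finset.mem_filter.2 ⟨hmem s hs x hx hlt, (lt_div_iff₀ (hθ s hs)).2 (not_le.1 hcon),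
          (div_lt_iff₀ (hθ s hs)).2 hlt⟩
      have := Finset.card_pos.2 ⟨_, h2⟩
      omega
    | succ n ih =>
      intro τ h1τ hτK hcard hτ
      by_cases hc : (C.filter fun c => τ < c ∧ c < K).card ≤ n
      · exact ih τ h1τ hτK hc hτ
      have hne : (C.filter fun c => τ < c ∧ c < K).Nonempty := Finset.card_pos.1 (by omega)
      obtain ⟨c, hcm, hmin⟩ := Finset.exists_min_image _ id hne
      obtain ⟨hcC, hτc, hcK⟩ := Finset.mem_filter.1 hcm
      have hRc : R c := by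
        refine hR τ c h1τ hτc (fun s hs x hx hlt => ?_) hτ
        by_contra hcon
        have hlt' : x < K * θ s := hlt.trans (mul_lt_mul_of_pos_right hcK (hθ s hs))
        have h2 : x / θ s ∈ C.filter fun c => τ < c ∧ c < K :=
          Finset.mem_filter.2 ⟨hmem s hs x hx hlt', (lt_div_iff₀ (hθ s hs)).2 (not_le.1 hcon),
            (div_lt_iff₀ (hθ s hs)).2 hlt'⟩
        have h3 : c ≤ x / θ s := hmin _ h2
        exact absurd ((div_lt_iff₀ (hθ s hs)).2 hlt) (not_lt.2 h3)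
      refine ih c (by linarith) hcK.le ?_ hRc
      have hsub : (C.filter fun c' => c < c' ∧ c' < K) ⊆
          (C.filter fun c => τ < c ∧ c < K).erase c := by
        intro c' hc'
        obtain ⟨h2, h3, h4⟩ := Finset.mem_filter.1 hc'
        exact Finset.mem_erase.2 ⟨h3.ne', Finset.mem_filter.2 ⟨h2, hτc.trans h3, h4⟩⟩
      have := Finset.card_le_card hsub
      rw [Finset.card_erase_of_mem hcm] at this
      omega
  exact key _ 1 le_rfl hK le_rfl h1

end Crest.Agent.R175.G
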