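import Crest.Agent.R175.PGT3
import Crest.Agent.R175.PGS1

/-! No merging of components while the threshold is raised. -/

set_option autoImplicit false

open Crest.GroupTheory
open scoped Classical

namespace Crest.Agent.R175.G

variable {S : Type} [Fintype S] [DecidableEq S] {M : CoxeterMatrix S} {Y : Finset S}
  (H : HeightData M Y) {Z : Finset S}

theorem h1_frz_erase {d : ℤ} {c c' : ArtinGroup M} (hf : Frz M Y H.v Z d c) (hr : Res M Z c c')
    {s : S} (hl : Low M H.v c' d s) : Frz M Y H.v (Z.erase s) d c' :=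
  frz_sub H (Finset.erase_subset s Z) (frz_res H hr hf) fun t ht hnt => by
    have : t = s := by
      by_contra h
      exact hnt (Finset.mem_erase.2 ⟨h, ht⟩)
    rw [this]; exact hl

theorem h1_link {d : ℤ} {c c' : ArtinGroup M} {θ₁ θ₂ : S → ℝ} {s : S} (hI : H0 H (Z.erase s))
    (hf : Frz M Y H.v Z d c) (hθ : SubH M Z (bd M H.v H.β Z d c) θ₁) (hr : Res M Z c c')
    (hs : s ∈ Z) (h₂ : Pos H d θ₂ c' s) (h₁ : ¬ Pos H d θ₁ c' s) :
    AllCn M (Z.erase s) (Pos H d θ₁) c' :=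
  hI d c' θ₁ (h1_frz_erase H hf hr h₂.1)
    (subH_erase H hs (by rw [bd_res H hr]; exact hθ) (not_lt.1 fun h => h₁ ⟨h₂.1, h⟩))

/-- Raising one coordinate. `nm_of_links`: a new vertex has type `s`, is low and has `θ₁ s ≤ v`, so its link is connected by
`H0 (Z.erase s)` (`frz_sub`, `subH_erase`, `frz_res`, `bd_res`); there are no edges between new vertices. -/
theorem nm_raise (hI : ∀ s ∈ Z, H0 H (Z.erase s)) {d : ℤ} {c : ArtinGroup M} {θ₁ θ₂ : S → ℝ}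
    (hf : Frz M Y H.v Z d c) (hθ : SubH M Z (bd M H.v H.β Z d c) θ₁) {s : S}
    (hne : ∀ t, t ≠ s → θ₁ t = θ₂ t) : NM M Z (Pos H d θ₁) (Pos H d θ₂) c := by
  have key : ∀ c' t, Pos H d θ₂ c' t → ¬ Pos H d θ₁ c' t → t = s := by
    intro c' t h₂ h₁
    by_contra h
    exact h₁ ⟨h₂.1, by rw [hne t h]; exact h₂.2⟩
  refine nm_of_links (vinv_pos H d θ₁) ?_ ?_
  · intro c' t hr ht h₂ h₁
    exact h1_link H (hI t ht) hf hθ hr ht h₂ h₁
  · intro c' t t' _ _ _ htt h₂ h₁ h₂' h₁' _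
    exact absurd ((key c' t h₂ h₁).trans (key c' t' h₂' h₁').symm) htt

/-- Passing a critical value in the affine case. `nm_of_links`: new vertices are ties for `θ₁`, proper subsets of `Z` are spherical;
use `h0_sph` for links and `nbr_edge` with `tt_sph` for edges. -/
theorem nm_tie (hS : ∀ s ∈ Z, Sph M (Z.erase s)) {d : ℤ} {c : ArtinGroup M} {θ₁ θ₂ : S → ℝ}
    (hf : Frz M Y H.v Z d c) (hθ : Harm M Z (bd M H.v H.β Z d c) θ₁)
    (hgap : ∀ s ∈ Z, ∀ x ∈ H.D, x < θ₂ s → x ≤ θ₁ s) : NM M Z (Pos H d θ₁) (Pos H d θ₂) c := by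
  have key : ∀ c', ∀ t ∈ Z, Pos H d θ₂ c' t → ¬ Pos H d θ₁ c' t → Tie H d θ₁ c' t := by
    intro c' t ht h₂ h₁
    exact ⟨h₂.1, le_antisymm (hgap t ht _ (H.v_mem _ _ _) h₂.2)
      (not_lt.1 fun h => h₁ ⟨h₂.1, h⟩)⟩
  refine nm_of_links (vinv_pos H d θ₁) ?_ ?_
  · intro c' t hr ht h₂ h₁
    exact h1_link H (h0_sph H (hS t ht)) hf hθ.subH hr ht h₂ h₁
  · intro c' t t' hr ht ht' htt h₂ h₁ h₂' h₁' hn
    exact nbr_edge H ht ht' htt (tt_sph H (hS t ht)) (frz_res H hr hf)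
      (by rw [bd_res H hr]; exact hθ) (key c' t ht h₂ h₁) (key c' t' ht' h₂' h₁') hn

/-- Arbitrarily large thresholds are reached without merging, non-harmonic case: `stair` with
`R θ' := NM (Pos θ) (Pos θ')`, `nm_raise`, `NM.trans`. -/
theorem nm_large_of_not_harm (hc : Conn M Z) (hn : ¬ Sph M Z) (hI : ∀ s ∈ Z, H0 H (Z.erase s))
    {d : ℤ} {c : ArtinGroup M} {θ : S → ℝ} (hf : Frz M Y H.v Z d c) (h0 : ∀ s ∈ Z, 0 ≤ θ s)
    (hθ : SubH M Z (bd M H.v H.β Z d c) θ) (hh : ¬ Harm M Z (bd M H.v H.β Z d c) θ) (K : ℝ) :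
    ∃ θ' : S → ℝ, NM M Z (Pos H d θ) (Pos H d θ') c ∧ ∀ s ∈ Z, K ≤ θ' s := by
  refine stair hc hn (bd_nonneg H d c) h0 hθ hh
    (R := fun θ' => NM M Z (Pos H d θ) (Pos H d θ') c) (NM.refl c) ?_ K
  intro θ₁ θ₂ s h₁ _ hs₁ _ _ hne hR
  exact NM.trans (fun c' t h => ⟨h.1, h.2.trans_le (h₁ t)⟩) hR (nm_raise H hI hf hs₁ hne)

/-- Affine case: `crit` with `R τ := NM (Pos θ) (Pos (τ • θ))`, `nm_tie`, `sph_of_superharmonic`. The comparison `Pos θ → Pos (τ • θ)` needs `0 ≤ θ t` for all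
`t`, which is a hypothesis here. -/
theorem nm_large_of_harm (hc : Conn M Z) {d : ℤ} {c : ArtinGroup M} {θ : S → ℝ}
    (hf : Frz M Y H.v Z d c) (h0 : ∀ t, 0 ≤ θ t) (hpos : ∀ s ∈ Z, 0 < θ s)
    (hb : ∀ s ∈ Z, bd M H.v H.β Z d c s = 0) (hθ : Harm M Z (bd M H.v H.β Z d c) θ) (K : ℝ) :
    ∃ θ' : S → ℝ, NM M Z (Pos H d θ) (Pos H d θ') c ∧ ∀ s ∈ Z, K ≤ θ' s := by
  have hsum : ∀ s ∈ Z, ∑ t ∈ Z, cc M s t * θ t = 0 := fun s hs => by
    have := hθ s hs
    rwa [hb s hs, add_zero] at this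
  have hS : ∀ s ∈ Z, Sph M (Z.erase s) := fun s hs =>
    sph_of_superharmonic M hc hpos (fun t ht => (hsum t ht).le) (Finset.erase_ssubset hs)
  have hR : ∀ {τ : ℝ}, 1 ≤ τ → NM M Z (Pos H d θ) (Pos H d (fun t => τ * θ t)) c := by
    intro τ hτ
    refine crit H.D_fin hpos (R := fun τ => NM M Z (Pos H d θ) (Pos H d (fun t => τ * θ t)) c)
      ?_ ?_ hτ
    · simp only [one_mul]
      exact NM.refl c
    · intro τ₁ τ₂ h₁ _ hgap hR
      refine NM.trans (fun c' t h => ⟨h.1, h.2.trans_le (le_mul_of_one_le_left (h0 t) h₁)⟩) hR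
        (nm_tie H hS hf (fun s hs => ?_) hgap)
      have : ∑ t ∈ Z, cc M s t * (τ₁ * θ t) = τ₁ * ∑ t ∈ Z, cc M s t * θ t := by
        rw [Finset.mul_sum]
        exact Finset.sum_congr rfl fun t _ => by ring
      rw [this, hsum s hs, hb s hs, mul_zero, add_zero]
  refine ⟨_, hR (le_max_left 1 (∑ t ∈ Z, |K| / θ t)), fun s hs => ?_⟩
  have h1 : |K| / θ s ≤ ∑ t ∈ Z, |K| / θ t :=
    Finset.single_le_sum (f := fun t => |K| / θ t)
      (fun t _ => div_nonneg (abs_nonneg K) (h0 t)) hs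
  have h2 : |K| / θ s ≤ max 1 (∑ t ∈ Z, |K| / θ t) := h1.trans (le_max_right _ _)
  exact (le_abs_self K).trans ((div_le_iff₀ (hpos s hs)).1 h2)

/-- Replace `θ` by its positive part (`SubH.posPart`; the predicate `Pos` is the same since `v ≥ 0`). If it is harmonic use `Harm.cases`: when
it vanishes on `Z` there is no low vertex of a type in `Z`, and a path either is trivial or starts at a type in `Z`. In all other cases use `cn_pos_of_low` and the two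
previous lemmas. -/
theorem nm_low (hc : Conn M Z) (hn : ¬ Sph M Z) (hI : ∀ s ∈ Z, H0 H (Z.erase s)) {d : ℤ}
    {c : ArtinGroup M} {θ : S → ℝ} (hf : Frz M Y H.v Z d c)
    (hθ : SubH M Z (bd M H.v H.β Z d c) θ) : NM M Z (Pos H d θ) (LowP H d) c := by
  have hpp : Pos H d θ = Pos H d (fun t => max (θ t) 0) := by
    funext c' t
    apply propext
    refine and_congr Iff.rfl ⟨fun h => lt_max_of_lt_left h, fun h => ?_⟩
    rcases lt_max_iff.1 h with h | h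
    · exact h
    · exact absurd h (not_lt.2 (H.v_nonneg _ _ _))
  have hθ' := hθ.posPart (bd_nonneg H d c)
  rw [hpp]
  have h0 : ∀ t, 0 ≤ max (θ t) 0 := fun t => le_max_right _ _
  have fin : (∀ K : ℝ, ∃ θ' : S → ℝ, NM M Z (Pos H d (fun t => max (θ t) 0)) (Pos H d θ') c ∧
      ∀ s ∈ Z, K ≤ θ' s) → NM M Z (Pos H d (fun t => max (θ t) 0)) (LowP H d) c := by
    intro h c₁ s₁ c₂ s₂ hr h₁ h₂ hcn
    obtain ⟨K, hK⟩ := cn_pos_of_low H hcn
    obtain ⟨θ', hnm, hθK⟩ := h K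
    exact hnm c₁ s₁ c₂ s₂ hr h₁ h₂ (hK θ' hθK)
  by_cases hh : Harm M Z (bd M H.v H.β Z d c) (fun t => max (θ t) 0)
  · obtain ⟨hb, hz | hpos⟩ := Harm.cases hc hn (bd_nonneg H d c) (fun s _ => h0 s) hh
    · intro c₁ s₁ c₂ s₂ _ h₁ _ hcn
      rcases Relation.ReflTransGen.cases_head hcn with h | ⟨y, hy, _⟩
      · rw [h]; exact Cn.refl _
      · have h3 : H.v c₁ d s₁ < max (θ s₁) 0 := h₁.2
        rw [hz s₁ hy.1] at h3
        exact absurd h3 (not_lt.2 (H.v_nonneg _ _ _))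
    · exact fin (nm_large_of_harm H hc hf h0 hpos hb hh)
  · exact fin (nm_large_of_not_harm H hc hn hI hf (fun s _ => h0 s) hθ' hh)

end Crest.Agent.R175.G
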