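import Crest.Agent.R175.PGH1

/-! Connectivity below a subharmonic threshold. -/

set_option autoImplicit false

open Crest.GroupTheory
open scoped Classical

namespace Crest.Agent.R175.G

variable {S : Type} [Fintype S] [DecidableEq S] {M : CoxeterMatrix S} {Y : Finset S}
  (H : HeightData M Y) {Z : Finset S}

/-- A small positive threshold cuts out the vertices that are low one level down (`exists_eps`, `exists_tiny`, `low_pred`). -/
theorem exists_tiny_pos (hc : Conn M Z) {d : ℤ} {c : ArtinGroup M}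
    (h : ¬ Sph M Z ∨ ∃ s ∈ Z, bd M H.v H.β Z d c s ≠ 0) :
    ∃ θ : S → ℝ, SubH M Z (bd M H.v H.β Z d c) θ ∧
      ∀ c', ∀ s ∈ Z, (Pos H d θ c' s ↔ LowP H (d - 1) c' s) := by
  obtain ⟨ε, hε, hv⟩ := exists_eps H
  obtain ⟨θ, hθ, hθ'⟩ := exists_tiny hc (bd_nonneg H d c) h hε
  refine ⟨θ, hθ, fun c' s hs => ⟨fun hp => ?_, fun hl => ?_⟩⟩
  · exact (low_pred H).2 ⟨hp.1, hv _ _ _ (hp.2.trans_le (hθ' s hs).2)⟩
  · obtain ⟨h1, h2⟩ := (low_pred H).1 hl
    exact ⟨h1, h2.trans_lt (hθ' s hs).1⟩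

/-- One level down: `exists_tiny_pos` and `nm_low` at level `d + 1` (`frz_mono`, `Cn.mono`). -/
theorem cn_low_pred (hc : Conn M Z) (hn : ¬ Sph M Z) (hI : ∀ s ∈ Z, H0 H (Z.erase s)) {d : ℤ}
    {c c' : ArtinGroup M} (hf : Frz M Y H.v Z d c) {s s' : S} (hs : s ∈ Z) (hs' : s' ∈ Z)
    (h₁ : LowP H d c s) (h₂ : LowP H d c' s') (h : Cn M Z (LowP H (d + 1)) (c, s) (c', s')) :
    Cn M Z (LowP H d) (c, s) (c', s') := by
  obtain ⟨θ, hθ, hP⟩ := exists_tiny_pos H hc (d := d + 1) (c := c) (Or.inl hn)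
  simp only [add_sub_cancel_right] at hP
  have h1 := nm_low H hc hn hI (frz_mono H (by omega) hf) hθ c s c' s' (Res.refl c)
    ((hP c s hs).2 h₁) ((hP c' s' hs').2 h₂) h
  exact Cn.mono Finset.Subset.rfl (fun x t ht hp => (hP x t ht).1 hp) h1

/-- `cn_low_large` (with `exists_ne_of_not_sph`), downward induction on the level by `cn_low_pred`, then `nm_low`. -/
theorem h0_conn (hc : Conn M Z) (hn : ¬ Sph M Z) (hI : ∀ s ∈ Z, H0 H (Z.erase s)) : H0 H Z := by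
  intro d c θ hf hθ c₁ s₁ c₂ s₂ hc₁ hc₂ hs₁ hs₂ h₁ h₂
  obtain ⟨e, he⟩ := cn_low_large H (exists_ne_of_not_sph hc hn) (hc₁.symm.trans hc₂) hs₁ hs₂
  have key : ∀ n : ℕ, Cn M Z (LowP H (d + n)) (c₁, s₁) (c₂, s₂) →
      Cn M Z (LowP H d) (c₁, s₁) (c₂, s₂) := by
    intro n
    induction n with
    | zero => simp
    | succ n ih =>
      intro h
      have hd : d ≤ d + n := by omega
      refine ih (cn_low_pred H hc hn hI (frz_mono H hd (frz_res H hc₁ hf)) hs₁ hs₂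
        (low_mono H hd h₁.1) (low_mono H hd h₂.1) ?_)
      rwa [Nat.cast_succ, ← add_assoc] at h
  refine nm_low H hc hn hI hf hθ c₁ s₁ c₂ s₂ hc₁ h₁ h₂ (key (e - d).toNat ?_)
  exact Cn.mono Finset.Subset.rfl (fun x t _ hp => low_mono H (by omega) hp) he

theorem gh2_clo {J : Finset S} (hJ : Clo M Z J) (hH : H0 H J) {d : ℤ} {θ : S → ℝ}
    {c₁ c₂ : ArtinGroup M} (hf : Frz M Y H.v Z d c₁) (hθ : SubH M Z (bd M H.v H.β Z d c₁) θ)
    (hc : Res M Z c₁ c₂) {s₁ s₂ : S} (hs₁ : s₁ ∈ J) (hs₂ : s₂ ∈ Z) (h₁ : Pos H d θ c₁ s₁)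
    (h₂ : Pos H d θ c₂ s₂) : Cn M Z (Pos H d θ) (c₁, s₁) (c₂, s₂) := by
  obtain ⟨a, ha, b, hb, e⟩ := hJ.split hc
  have e' : c₂ = c₁ * a * b := by rw [mul_assoc, ← e, mul_inv_cancel_left]
  have hsub : ∀ s ∈ J, Z \ J ⊆ Z.erase s := fun s hs t ht =>
    Finset.mem_erase.2 ⟨fun h => (Finset.mem_sdiff.1 ht).2 (h ▸ hs), (Finset.mem_sdiff.1 ht).1⟩
  by_cases hs : s₂ ∈ J
  · have r : Res M (Z.erase s₂) c₂ (c₁ * a) := by
      rw [e']
      exact ((Res.mul (c₁ * a) hb).mono (hsub s₂ hs)).symm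
    have h3 := hH d c₁ θ (frz_clo H hJ hf)
      (fun s hs => by rw [lap_clo H hJ d c₁ θ hs]; exact hθ s (hJ.1 hs)) c₁ s₁ (c₁ * a) s₂
      (Res.refl _) (Res.mul c₁ ha) hs₁ hs h₁ (vinv_pos H d θ _ _ _ hs₂ r h₂)
    exact (Cn.mono hJ.1 (fun _ _ _ hp => hp) h3).trans
      (Cn.vertex (vinv_pos H d θ) hs₂ h₂ r).symm
  · have r₁ : Res M (Z.erase s₁) c₁ (c₁ * b) := (Res.mul c₁ hb).mono (hsub s₁ hs₁)
    have r₂ : Res M (Z.erase s₂) c₂ (c₁ * b) := by
      rw [e', mul_assoc, hJ.commute ha hb, ← mul_assoc]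
      exact ((Res.mul (c₁ * b) ha).mono fun t ht =>
        Finset.mem_erase.2 ⟨fun (h : t = s₂) => hs (h ▸ ht), hJ.1 ht⟩).symm
    exact ((Cn.vertex (vinv_pos H d θ) (hJ.1 hs₁) h₁ r₁).trans (Cn.chamber (hJ.1 hs₁) hs₂
      (vinv_pos H d θ _ _ _ (hJ.1 hs₁) r₁ h₁) (vinv_pos H d θ _ _ _ hs₂ r₂ h₂))).trans
      (Cn.vertex (vinv_pos H d θ) hs₂ h₂ r₂).symm

/-- Products. Write `c₂ = c₁ a b` (`Clo.split`). Types in different parts: both vertices lie in the chamber `c₁ b` or `c₁ a`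
(`Clo.commute`, `Cn.vertex`, `Cn.chamber`). Types in the same part: use `H0` of that part at `c₁` (`frz_clo`, `lap_clo`, `Cn.mono`). -/
theorem h0_clo {J : Finset S} (hJ : Clo M Z J) (h₁ : H0 H J) (h₂ : H0 H (Z \ J)) : H0 H Z := by
  intro d c θ hf hθ c₁ s₁ c₂ s₂ hc₁ hc₂ hs₁ hs₂ p₁ p₂
  rw [← bd_res H hc₁] at hθ
  by_cases hs : s₁ ∈ J
  · exact gh2_clo H hJ h₁ (frz_res H hc₁ hf) hθ (hc₁.symm.trans hc₂) hs hs₂ p₁ p₂
  · exact gh2_clo H hJ.compl h₂ (frz_res H hc₁ hf) hθ (hc₁.symm.trans hc₂)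
      (Finset.mem_sdiff.2 ⟨hs₁, hs⟩) hs₂ p₁ p₂

/-- Strong induction on `Z.card`: `h0_sph`, `h0_conn`, `h0_clo` (the empty set is vacuous). -/
theorem h0_all (Z : Finset S) : H0 H Z := by
  induction Z using Finset.strongInduction with
  | H Z ih =>
    rcases Z.eq_empty_or_nonempty with rfl | hne
    · intro d c θ _ _ c₁ s₁ c₂ s₂ _ _ hs₁
      exact absurd hs₁ (Finset.notMem_empty _)
    by_cases hS : Sph M Z
    · exact h0_sph H hS
    by_cases hc : Conn M Z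
    · exact h0_conn H hc hS fun s hs => ih _ (Finset.erase_ssubset hs)
    · obtain ⟨J, hJ, hJn, hJZ⟩ := exists_clo_of_not_conn hne hc
      exact h0_clo H hJ (ih _ (Finset.ssubset_iff_subset_ne.2 ⟨hJ.1, hJZ⟩))
        (ih _ (Finset.sdiff_ssubset hJ.1 hJn))

/-- If all low vertices of the residue have type `s`, they are one vertex (`h0_all`, `Cn.single`). -/
theorem res_of_single {d : ℤ} {c : ArtinGroup M} {θ : S → ℝ} (hf : Frz M Y H.v Z d c)
    (hθ : SubH M Z (bd M H.v H.β Z d c) θ) {s : S} (hs : s ∈ Z)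
    (h : ∀ c', Res M Z c c' → ∀ t ∈ Z, Pos H d θ c' t → t = s) {c₁ c₂ : ArtinGroup M}
    (hc₁ : Res M Z c c₁) (hc₂ : Res M Z c c₂) (h₁ : Pos H d θ c₁ s) (h₂ : Pos H d θ c₂ s) :
    Res M (Z.erase s) c₁ c₂ :=
  (Cn.single (fun c' hc' => h c' (hc₁.trans hc'))
    (h0_all H Z d c θ hf hθ c₁ s c₂ s hc₁ hc₂ hs hs h₁ h₂)).2

theorem gh2_step {g : ArtinGroup M} {s : S} (hs : s ∈ Z) (hY : s ∉ Y) (h : Low M H.v g (-1) s)
    (hg : g ∈ AZ M Z) : g ∈ AZ M (Z.erase s) := by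
  have hβ := H.β_pos s hY
  have hβ0 : ∀ u, 0 ≤ H.β u := fun u => by
    by_cases hu : u ∈ Y
    · exact (H.β_zero u hu).ge
    · exact (H.β_pos u hu).le
  have hl : ∀ t, Low M H.v 1 0 t := fun t n _ => H.v_one n t
  have hθs : (Pi.single s (H.β s / 2) : S → ℝ) s = H.β s / 2 := Pi.single_eq_same _ _
  obtain ⟨g1, g2⟩ := (low_pred H (d := 0)).1 h
  have key := res_of_single H (Z := Z) (d := 0) (c := 1) (θ := Pi.single s (H.β s / 2))
    ⟨fun _ _ t _ _ => hl t, fun _ _ _ => le_rfl⟩ (fun u _ => ?_) hs (fun c' _ t _ hp => ?_)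
    (c₁ := 1) (c₂ := g) (Res.refl 1) (by simpa [Res] using hg)
    ⟨hl s, by rw [H.v_one, hθs]; linarith⟩ ⟨g1, by rw [g2, hθs]; linarith⟩
  · simpa [Res] using key
  · have e1 : bd M H.v H.β Z 0 1 u = H.β u := by simp [bd, H.v_one]
    rw [e1, Finset.sum_eq_single s (fun t _ ht => by rw [Pi.single_eq_of_ne ht, mul_zero])
      (fun h => absurd hs h), hθs]
    by_cases hu : u = s
    · rw [hu, cc_self]
      linarith
    · exact add_nonneg (mul_nonneg (cc_nonneg M hu) (by linarith)) (hβ0 u)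
  · by_contra ht
    have h1 := hp.2
    rw [Pi.single_eq_of_ne ht] at h1
    exact absurd h1 (not_lt.2 (H.v_nonneg _ _ _))

/-- The stabiliser. Show `g ∈ A_Z` for all `Z ⊇ Y` by downward induction from `univ` (`mem_AZ_univ`): for `s ∈ Z \ Y` use `res_of_single` in the context
`(Z, 0, 1)` with `θ = Pi.single s (β s / 2)`; `bd Z 0 1 = β` since `v 1 = 0`; `(1, s)` and `(g, s)` are low. -/
theorem mem_of_low {g : ArtinGroup M} (h : ∀ s, s ∉ Y → Low M H.v g (-1) s) : g ∈ AZ M Y := by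
  have key : ∀ T : Finset S, Disjoint T Y → g ∈ AZ M Tᶜ := by
    intro T
    induction T using Finset.induction_on with
    | empty => intro _; rw [Finset.compl_empty]; exact mem_AZ_univ g
    | insert s T hs ih =>
      intro hd
      rw [Finset.disjoint_insert_left] at hd
      rw [Finset.compl_insert]
      exact gh2_step H (Finset.mem_compl.2 hs) hd.1 (h s hd.1) (ih hd.2)
  simpa using key Yᶜ disjoint_compl_left

end Crest.Agent.R175.G
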