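import Crest.Agent.R175.PGF2

/-! From the height data to the intersection theorem. -/

set_option autoImplicit false

open Crest.GroupTheory
open scoped Classical

namespace Crest.Agent.R175

variable {S : Type} [Fintype S] [DecidableEq S]

theorem G.mem_conj_iff {M : CoxeterMatrix S} (P : Subgroup (ArtinGroup M)) (c h : ArtinGroup M) :
    h ∈ P.map (MulAut.conj c).toMonoidHom ↔ c⁻¹ * h * c ∈ P := by
  constructor
  · rintro ⟨k, hk, rfl⟩
    simpa [mul_assoc] using hk
  · intro hk
    exact ⟨_, hk, by simp [mul_assoc]⟩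

theorem isParabolic_of_heightData {M : CoxeterMatrix S} {Y : Finset S} (H : HeightData M Y)
    (Z : Finset S) (c : ArtinGroup M) :
    IsParabolic M ((AZ M Z).map (MulAut.conj c).toMonoidHom ⊓ AZ M Y) := by
  induction Z using Finset.strongInduction generalizing c with
  | H Z ih =>
    by_cases h : ∀ s ∈ Z, c * artinGen M s * c⁻¹ ∈ AZ M Y
    · refine ⟨(Z : Set S), c, inf_eq_left.2 ?_⟩
      rw [Subgroup.map_le_iff_le_comap]
      refine (Subgroup.closure_le _).2 ?_
      rintro _ ⟨s, hs, rfl⟩
      simpa using h s hs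
    · obtain ⟨T, s, hT, hs, hfix⟩ := G.fix_vertex H h
      have key : (AZ M Z).map (MulAut.conj c).toMonoidHom ⊓ AZ M Y =
          (AZ M (Z.erase s)).map (MulAut.conj T).toMonoidHom ⊓ AZ M Y := by
        ext g
        simp only [Subgroup.mem_inf, G.mem_conj_iff]
        constructor
        · rintro ⟨h1, h2⟩
          exact ⟨hfix g h2 h1, h2⟩
        · rintro ⟨h1, h2⟩
          refine ⟨?_, h2⟩
          have h3 := G.AZ_mono (Finset.erase_subset s Z) h1
          have h4 : c⁻¹ * g * c = (c⁻¹ * T) * (T⁻¹ * g * T) * (c⁻¹ * T)⁻¹ := by group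
          rw [h4]
          exact (AZ M Z).mul_mem ((AZ M Z).mul_mem hT h3) ((AZ M Z).inv_mem hT)
      rw [key]
      exact ih _ (Finset.erase_ssubset hs) T

end Crest.Agent.R175
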