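import Crest.Agent.R175.PGB1

/-! The antipodal case: no pure submodule contains the type of the mirror. -/

set_option autoImplicit false
set_option linter.unusedSectionVars false

open Crest.GroupTheory
open scoped Classical

namespace Crest.Agent.R175.G

variable {S : Type} [Fintype S] [DecidableEq S] {M : CoxeterMatrix S} {Y : Finset S}
  (H : HeightData M Y) {Z : Finset S}

/-- Take `q` from `H.sub_quot` and `e' w t = if t ∈ Z then θ t - q (lft w) t else 0`. It is a family (`fam_of_up`, `exists_reduced_inZ`,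
`lft_mul`), `e' w ≥ ev w`, `e' 1 = ev 1 + n` (`H.sub_supp`). For `η = ± flow r` and `y` dominant for `η` (`greedy`):
`0 = η (F y) ≤ η (F' y) ≤ η (F' 1) = η n` by `pair_expand` and `Fam.key`. -/
theorem flow_sub_eq_zero (hZ : Sph M Z) {d : ℤ} {T : ArtinGroup M} {θ : S → ℝ}
    (hT : UU M Y H.v Z d T) (hθ : SubH M Z (bd M H.v H.β Z d T) θ) {r : S}
    (h : ∀ x ∈ WZ M Z, flow M r (rho M x (ev H Z d θ T x)) = 0) {n : S → ℝ}
    (hn : n ∈ H.Sub T d Z) : flow M r n = 0 := by
  obtain ⟨q, hq1, hq⟩ := H.sub_quot Z d T n hT hn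
  let e' : M.Group → S → ℝ := fun w t => if t ∈ Z then θ t - q (lft M w) t else 0
  have h0 : ∀ w t, t ∉ Z → e' w t = 0 := fun w t ht => if_neg ht
  have h0' : ∀ w t, t ∈ Z → e' w t = θ t - q (lft M w) t := fun w t ht => if_pos ht
  have he' : Fam M Z e' := by
    refine fam_of_up h0 fun w hw u hu hl => ?_
    obtain ⟨l, -, hlZ, -, hl'⟩ := exists_reduced_inZ M hw
    have e1 : lft M (w * M.simple u) = wordA M l * artinGen M u := by
      rw [lft_mul, lft_simple, hl']
      rw [len_simple]
      rcases len_mul_simple M w u with h1 | h1 <;> omega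
    obtain ⟨h1, h2⟩ := (hq l hlZ).2 u hu
    refine ⟨fun t ht => ?_, ?_⟩
    · by_cases htZ : t ∈ Z
      · rw [h0' _ t htZ, h0' _ t htZ, e1, hl', h1 t htZ ht]
      · rw [h0 _ t htZ, h0 _ t htZ]
    · have h3 : ∑ t ∈ Z, cc M u t * e' w t =
          ∑ t ∈ Z, cc M u t * θ t - ∑ t ∈ Z, cc M u t * q (wordA M l) t := by
        rw [← Finset.sum_sub_distrib]
        refine Finset.sum_congr rfl fun t ht => ?_
        rw [h0' _ t ht, hl', mul_sub]
      have h4 := hθ u hu
      rw [h3, h0' _ u hu, h0' _ u hu, e1, hl']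
      linarith
  have hge : ∀ w ∈ WZ M Z, ∀ t ∈ Z, ev H Z d θ T w t ≤ e' w t := fun w hw t ht => by
    obtain ⟨l, -, hlZ, -, hl'⟩ := exists_reduced_inZ M hw
    have h1 := (hq l hlZ).1 t ht
    rw [h0' _ t ht, ev, if_pos ht, hl']
    linarith
  have hone : e' 1 = ev H Z d θ T 1 + n := by
    funext t
    by_cases ht : t ∈ Z
    · rw [h0' _ t ht, Pi.add_apply, ev, if_pos ht, lft_one, mul_one, hq1 t ht]
      ring
    · rw [h0 _ t ht, Pi.add_apply, ev, if_neg ht, H.sub_supp T d Z n hn t ht, add_zero]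
  have key : ∀ η : (S → ℝ) →ₗ[ℝ] ℝ, (∀ x ∈ WZ M Z, η (rho M x (ev H Z d θ T x)) = 0) →
      0 ≤ η n := fun η hη => by
    obtain ⟨l, -, -, hd, -⟩ := greedy hZ η
    generalize M.toCoxeterSystem.wordProd l = y at hd
    have h1 := he'.key hd (one_mem _)
    have h2 := hη 1 (one_mem _)
    have h3 := hη y hd.1
    rw [a1_rho_one_apply] at h1 h2
    rw [hone, map_add, h2, zero_add, pair_expand η y (h0 y)] at h1
    rw [pair_expand η y (z := ev H Z d θ T y) fun t ht => if_neg ht] at h3
    refine le_trans (h3.symm.trans_le (Finset.sum_le_sum fun t ht => ?_)) h1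
    exact mul_le_mul_of_nonneg_right (hge y hd.1 t ht) (hd.2 t ht)
  have k1 := key (flow M r) h
  have k2 := key (-flow M r) fun x hx => by rw [LinearMap.neg_apply, h x hx, neg_zero]
  rw [LinearMap.neg_apply] at k2
  linarith

theorem t1_wordA_concat (l : List S) (s : S) :
    wordA M (l ++ [s]) = wordA M l * artinGen M s := by
  rw [wordA_append, wordA_cons, wordA_nil, mul_one]

/-- Pull a submodule back along a word all of whose prefix roots have positive `r`-coordinate. Induct on `q` from the right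
(`List.reverseRecOn`, generalising `n`) with `H.sub_pull`: `rho q (rs s n + h • al s) = rho (q s) n + h • rho q (al s)`. -/
theorem sub_pull_word {d : ℤ} {T : ArtinGroup M} (hT : UU M Y H.v Z d T) {r : S} {q : List S}
    (hq : InZ Z q)
    (hpos : ∀ q₁ s q₂, q = q₁ ++ s :: q₂ → 0 ≤ rho M (M.toCoxeterSystem.wordProd q₁) (al s) r)
    {n : S → ℝ} (hn : n ∈ H.Sub (T * wordA M q) d Z) :
    ∃ n' ∈ H.Sub T d Z, rho M (M.toCoxeterSystem.wordProd q) n r ≤ n' r := by
  induction q using List.reverseRecOn generalizing n with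
  | nil =>
    rw [wordA_nil, mul_one] at hn
    exact ⟨n, hn, by rw [CoxeterSystem.wordProd_nil, a1_rho_one_apply]⟩
  | append_singleton q s ih =>
    have hq' : InZ Z q := fun x hx => hq x (by simp [hx])
    rw [t1_wordA_concat, ← mul_assoc] at hn
    obtain ⟨a, ha, h1⟩ := H.sub_pull Z d _ s n (uu_word H hT hq') (hq s (by simp)) hn
    obtain ⟨n', hn', h2⟩ := ih hq' (fun q₁ s' q₂ e => hpos q₁ s' (q₂ ++ [s]) (by simp [e])) h1
    refine ⟨n', hn', le_trans ?_ h2⟩
    rw [a1_wordProd_concat, a1_rho_mul_apply, rho_simple, map_add, map_smul, Pi.add_apply,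
      Pi.smul_apply, smul_eq_mul]
    exact le_add_of_nonneg_right (mul_nonneg ha (hpos q s [] rfl))

/-- Along a reduced word without kinks `F` is constant. Induct on `l` from the right: for a harmonic threshold and
`v (c s) d s = pred`, `ev (w s) = rs s (ev w)` (`pred_eq`, `bd_res`, `H.v_ne`, `lft_wordProd`). -/
theorem ev_const {d : ℤ} {T : ArtinGroup M} {θ : S → ℝ}
    (hθ : Harm M Z (bd M H.v H.β Z d T) θ) {l : List S} (hl : InZ Z l)
    (hred : M.toCoxeterSystem.IsReduced l)
    (hk : ∀ q s q', l = q ++ s :: q' →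
      H.v (T * wordA M q * artinGen M s) d s = pred M H.v H.β d (T * wordA M q) s) :
    rho M (M.toCoxeterSystem.wordProd l) (ev H Z d θ T (M.toCoxeterSystem.wordProd l)) =
      ev H Z d θ T 1 := by
  induction l using List.reverseRecOn with
  | nil => rw [CoxeterSystem.wordProd_nil, a1_rho_one_apply]
  | append_singleton l s ih =>
    have hl' : InZ Z l := fun x hx => hl x (by simp [hx])
    have hs : s ∈ Z := hl s (by simp)
    have hred' : M.toCoxeterSystem.IsReduced l := by simpa using hred.take l.length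
    have h1 := ih hl' hred' fun q s' q' e => hk q s' (q' ++ [s]) (by simp [e])
    have h2 : ev H Z d θ T (M.toCoxeterSystem.wordProd (l ++ [s])) =
        rs M s (ev H Z d θ T (M.toCoxeterSystem.wordProd l)) := by
      funext t
      by_cases ht : t = s
      · subst ht
        have h3 : ∑ u ∈ Z, cc M t u * ev H Z d θ T (M.toCoxeterSystem.wordProd l) u =
            ∑ u ∈ Z, cc M t u * θ u - ∑ u ∈ Z, cc M t u * H.v (T * wordA M l) d u := by
          rw [← Finset.sum_sub_distrib]
          refine Finset.sum_congr rfl fun u hu => ?_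
          rw [ev, if_pos hu, lft_wordProd M hred', mul_sub]
        have h4 := hθ t hs
        rw [rs_apply, flow_eq_sum M (Z := Z) (y := ev H Z d θ T (M.toCoxeterSystem.wordProd l))
          (fun u hu => if_neg hu), h3, Pi.add_apply,
          Pi.smul_apply, ev, ev, if_pos hs, if_pos hs, lft_wordProd M hred', lft_wordProd M hred,
          t1_wordA_concat, ← mul_assoc, hk l t [] rfl, pred_eq H (Z := Z),
          bd_res H (Res.mul T (wordA_mem M hl'))]
        simp only [al, Pi.single_eq_same, smul_eq_mul, mul_one]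
        linarith
      · rw [a1_rs_apply_ne ht, ev, ev, lft_wordProd M hred', lft_wordProd M hred,
          t1_wordA_concat, ← mul_assoc, H.v_ne _ s d t ht]
    rw [h2, a1_wordProd_concat, a1_rho_mul_apply, rho_simple, a1_rs_rs, h1]

/-- By `flow_sub_eq_zero` and `H.sub_socle` (`flow r (al r) = -2`) every `n ∈ Sub T d Z` has `n r = 0`. Take the greedy word `l` for
`η = - proj r`. A kink at `l = q ++ s :: q'` (`H.up` gives `≤`) gives `ε • al s ∈ Sub (T q)` (`H.sub_kink`), and `sub_pull_word` gives `n'` with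
`n' r > 0`. So there is no kink, `ev_const` applies, and `- ev 1 r = η (F y) = ∑ ev y t * η (y α_t) ≤ 0`. -/
theorem antipodal (hZ : Sph M Z) {d : ℤ} {T : ArtinGroup M} {θ : S → ℝ}
    (hT : UU M Y H.v Z d T) (hθ : Harm M Z (bd M H.v H.β Z d T) θ) {r : S} (hr : r ∈ Z)
    (hle : ∀ w ∈ WZ M Z, ∀ t, ev H Z d θ T w t ≤ 0)
    (h : ∀ x ∈ WZ M Z, flow M r (rho M x (ev H Z d θ T x)) = 0) : ev H Z d θ T 1 r = 0 := by
  have hz : ∀ n ∈ H.Sub T d Z, n r = 0 := fun n hn => by
    by_contra hne
    obtain ⟨n₀, h0, ε, hε, h1⟩ := H.sub_socle Z d T n r hT hn hne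
    have h2 := flow_sub_eq_zero H hZ hT hθ.subH h h0
    have h3 := flow_sub_eq_zero H hZ hT hθ.subH h h1
    rw [map_add, map_smul, h2, flow_al, cc_self, smul_eq_mul] at h3
    linarith
  obtain ⟨l, hred, hl, hd, hneg⟩ := greedy hZ (-(LinearMap.proj r : (S → ℝ) →ₗ[ℝ] ℝ))
  have hpos : ∀ q s q', l = q ++ s :: q' →
      0 < rho M (M.toCoxeterSystem.wordProd q) (al s) r := fun q s q' e => by
    simpa using hneg q s q' e
  have h1 := ev_const H hθ hl hred fun q s q' e => by
    have hq : InZ Z q := fun x hx => hl x (by simp [e, hx])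
    have hs : s ∈ Z := hl s (by simp [e])
    have hu := uu_word H hT hq
    refine (le_antisymm (H.up _ d s (uu_sub H (by simpa using hs) hu)).2 (not_lt.1 fun hlt => ?_)).symm
    obtain ⟨ε, hε, h2⟩ := H.sub_kink Z d _ s hu hs hlt
    obtain ⟨n', hn', h3⟩ := sub_pull_word H hT (r := r) hq
      (fun q₁ s' q₂ e' => (hpos q₁ s' (q₂ ++ s :: q') (by simp [e, e'])).le) h2
    rw [hz n' hn', map_smul, Pi.smul_apply, smul_eq_mul] at h3
    exact absurd (mul_pos hε (hpos q s q' e)) (not_lt.2 h3)
  have h2 := pair_expand (-(LinearMap.proj r : (S → ℝ) →ₗ[ℝ] ℝ)) (M.toCoxeterSystem.wordProd l)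
    (z := ev H Z d θ T (M.toCoxeterSystem.wordProd l)) (Z := Z) fun t ht => if_neg ht
  rw [h1] at h2
  have h3 := h2.trans_le (Finset.sum_nonpos fun t ht =>
    mul_nonpos_of_nonpos_of_nonneg (hle _ hd.1 t) (hd.2 t ht))
  exact le_antisymm (hle 1 (one_mem _) r) (by simpa using h3)

end Crest.Agent.R175.G
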