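import Crest.Agent.R175.PGB2

/-! Ties: rank one, products and propagation along edges. -/

set_option autoImplicit false
set_option linter.unusedSectionVars false

open Crest.GroupTheory
open scoped Classical

namespace Crest.Agent.R175.G

variable {S : Type} [Fintype S] [DecidableEq S] {M : CoxeterMatrix S} {Y : Finset S}
  (H : HeightData M Y) {Z : Finset S}

/-- Rank one, along an upward ray. Put `e k = θ r - v (T r^k) d r`. `H.up` with `pred_eq` gives `e (k+1) ≤ - e k`, and `H.demazure`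
(empty word) gives `e (k+2) ≤ e (k+1)`. So `e i > 0` forces `e j < 0` for all `j ≠ i`. -/
theorem rank_one_ray {r : S} {d : ℤ} {T : ArtinGroup M} {θ : S → ℝ}
    (hT : UU M Y H.v {r} d T) (hθ : Harm M {r} (bd M H.v H.β {r} d T) θ) {i j : ℕ}
    (hi : H.v (T * artinGen M r ^ i) d r < θ r) : H.v (T * artinGen M r ^ j) d r ≠ θ r := by
  have hr : r ∈ ({r} : Finset S) := Finset.mem_singleton_self r
  have hu : ∀ k : ℕ, UU M Y H.v {r} d (T * artinGen M r ^ k) := fun k => by
    induction k with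
    | zero => simpa using hT
    | succ k ih => rw [pow_succ, ← mul_assoc]; exact uu_up H ih hr
  have h1 : ∀ k : ℕ, 2 * θ r ≤
      H.v (T * artinGen M r ^ k) d r + H.v (T * artinGen M r ^ (k + 1)) d r := fun k => by
    have h2 := (H.up _ d r (hu k)).2
    have h3 := hθ r hr
    rw [pred_eq H (Z := {r}), bd_res H (Res.mul T (pow_mem (artinGen_mem_AZ M hr) k)),
      Finset.sum_singleton, cc_self] at h2
    rw [Finset.sum_singleton, cc_self] at h3
    rw [pow_succ, ← mul_assoc]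
    linarith
  have h2 : ∀ a b : ℕ, a ≤ b →
      H.v (T * artinGen M r ^ (a + 1)) d r ≤ H.v (T * artinGen M r ^ (b + 1)) d r := by
    intro a b hab
    induction hab with
    | refl => exact le_rfl
    | @step b _ ih =>
      have h3 := H.demazure {r} d _ r [] (hu b) hr (by simp [InZ]) r hr
      rw [wordA_nil, mul_one, mul_one] at h3
      refine ih.trans ?_
      rw [Nat.succ_eq_add_one, pow_succ _ (b + 1), pow_succ, ← mul_assoc, ← mul_assoc, ← mul_assoc]
      exact h3
  intro hj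
  rcases lt_trichotomy i j with h | rfl | h
  · obtain ⟨j, rfl⟩ : ∃ k, j = k + 1 := ⟨j - 1, by omega⟩
    have h3 := h2 i j (by omega)
    have h4 := h1 i
    linarith
  · exact hi.ne hj
  · obtain ⟨i, rfl⟩ : ∃ k, i = k + 1 := ⟨i - 1, by omega⟩
    have h3 := h2 j i (by omega)
    have h4 := h1 j
    linarith

/-- There are no ties in rank one. Elements of `A_{r}` are powers `r^k`, `k : ℤ` (`Subgroup.mem_closure_singleton`); both
chambers are in the aisle, the lower one is `T` in `rank_one_ray`. -/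
theorem tt_singleton (r : S) : TT H {r} := by
  rintro d c θ s hf hθ ⟨c', u, hres, hu, hpos⟩ hs htie
  obtain rfl := Finset.mem_singleton.1 hs
  obtain rfl := Finset.mem_singleton.1 hu
  exfalso
  have h1 : c⁻¹ * c' ∈ Subgroup.closure {artinGen M u} := by
    simpa [Res, AZ, stdParabolic] using hres
  obtain ⟨k, hk⟩ := Subgroup.mem_closure_singleton.1 h1
  obtain ⟨n, rfl | rfl⟩ := k.eq_nat_or_neg
  · have e : c' = c * artinGen M u ^ n := by rw [← zpow_natCast, hk, mul_inv_cancel_left]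
    refine rank_one_ray H (T := c) ⟨hf, fun s hs => ?_⟩ hθ (i := n) (j := 0) (e ▸ hpos.2) ?_
    · rw [Finset.mem_singleton.1 hs]; exact htie.1
    · simpa using htie.2
  · have e : c = c' * artinGen M u ^ n := by
      rw [zpow_neg, zpow_natCast, inv_eq_iff_eq_inv] at hk
      rw [hk]; group
    refine rank_one_ray H (T := c') (θ := θ) ⟨frz_res H hres hf, fun s hs => ?_⟩
      (by rw [bd_res H hres]; exact hθ) (i := 0) (j := n) (by simpa using hpos.2) (e ▸ htie.2)
    rw [Finset.mem_singleton.1 hs]; exact hpos.1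

theorem t2_nbr_mono {P : ArtinGroup M → S → Prop} {J : Finset S} (hJ : J ⊆ Z) {c : ArtinGroup M}
    {s : S} (h : Nbr M J P c s) : Nbr M Z P c s := by
  obtain ⟨c', u, h1, h2, h3⟩ := h
  exact ⟨c', u, h1.mono (Finset.erase_subset_erase s hJ), Finset.erase_subset_erase s hJ h2, h3⟩

theorem t2_clo {J : Finset S} (hJ : Clo M Z J) (h₁ : TT H J) {d : ℤ} {c : ArtinGroup M}
    {θ : S → ℝ} {s : S} (hf : Frz M Y H.v Z d c) (hθ : Harm M Z (bd M H.v H.β Z d c) θ)
    (hi : Inh M Z (Pos H d θ) c) (hs : s ∈ J) (htie : Tie H d θ c s) :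
    Nbr M Z (Pos H d θ) c s := by
  obtain ⟨c', u, hres, hu, hpos⟩ := hi
  obtain ⟨a, ha, b, hb, e⟩ := hJ.split hres
  have e' : c' = c * (a * b) := by rw [← e, mul_inv_cancel_left]
  by_cases huJ : u ∈ J
  · have h1 : Res M (Z.erase u) c' (c * a) := by
      have : c'⁻¹ * (c * a) = b⁻¹ := by rw [e']; group
      rw [Res, this]
      refine AZ_mono (fun t ht => ?_) (inv_mem hb)
      rw [Finset.mem_sdiff] at ht
      exact Finset.mem_erase.2 ⟨fun h => ht.2 (h ▸ huJ), ht.1⟩
    refine t2_nbr_mono hJ.1 (h₁ d c θ s (frz_clo H hJ hf) (fun t ht => ?_)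
      ⟨c * a, u, Res.mul c ha, huJ, vinv_pos H d θ c' _ u hu h1 hpos⟩ hs htie)
    rw [lap_clo H hJ d c θ ht]
    exact hθ t (hJ.1 ht)
  · have h1 : Res M (Z.erase u) c' (c * b) := by
      have : c'⁻¹ * (c * b) = a⁻¹ := by rw [e', hJ.commute ha hb]; group
      rw [Res, this]
      refine AZ_mono (fun t ht => ?_) (inv_mem ha)
      exact Finset.mem_erase.2 ⟨fun h => huJ (h ▸ ht), hJ.1 ht⟩
    refine ⟨c * b, u, (Res.mul c hb).mono fun t ht => ?_,
      Finset.mem_erase.2 ⟨fun h => huJ (h ▸ hs), hu⟩, vinv_pos H d θ c' _ u hu h1 hpos⟩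
    rw [Finset.mem_sdiff] at ht
    exact Finset.mem_erase.2 ⟨fun h => ht.2 (h ▸ hs), ht.1⟩

/-- Products. Let `(c, s)` be the tie, `s ∈ J` after replacing `J` by `Z \ J` (`Clo.compl`), and `(c a b, u)` the low vertex (`Clo.split`). If `u ∉ J`
then `(c b, u)` is low (`c a b = c b a`) and is a neighbour. If `u ∈ J` then `(c a, u)` is low; use `TT J` with `frz_clo`, `lap_clo`. -/
theorem tt_clo {J : Finset S} (hJ : Clo M Z J) (h₁ : TT H J) (h₂ : TT H (Z \ J)) : TT H Z := by
  intro d c θ s hf hθ hi hs htie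
  by_cases hsJ : s ∈ J
  · exact t2_clo H hJ h₁ hf hθ hi hsJ htie
  · exact t2_clo H hJ.compl h₂ hf hθ hi (Finset.mem_sdiff.2 ⟨hs, hsJ⟩) htie

/-- Across an edge of ties: `TT (Z.erase s)` with `frz_sub`, `harm_erase`. -/
theorem nbr_edge {s s' : S} (hs : s ∈ Z) (hs' : s' ∈ Z) (hne : s ≠ s') (hT : TT H (Z.erase s))
    {d : ℤ} {c : ArtinGroup M} {θ : S → ℝ} (hf : Frz M Y H.v Z d c)
    (hθ : Harm M Z (bd M H.v H.β Z d c) θ) (h : Tie H d θ c s) (h' : Tie H d θ c s')
    (hn : Nbr M Z (Pos H d θ) c s) : Nbr M (Z.erase s) (Pos H d θ) c s' := by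
  refine hT d c θ s' (frz_sub H (Finset.erase_subset s Z) hf fun t ht ht' => ?_)
    (harm_erase H hs hθ h.2) hn (Finset.mem_erase.2 ⟨hne.symm, hs'⟩) h'
  obtain rfl : t = s := by
    by_contra h1
    exact ht' (Finset.mem_erase.2 ⟨h1, ht⟩)
  exact h.1

theorem nbr_vertex {P : ArtinGroup M → S → Prop} {c c' : ArtinGroup M} {s : S}
    (h : Res M (Z.erase s) c c') (hn : Nbr M Z P c s) : Nbr M Z P c' s := by
  obtain ⟨c'', u, h1, h2, h3⟩ := hn
  exact ⟨c'', u, h.symm.trans h1, h2, h3⟩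

/-- Having a low neighbour propagates along paths of ties (`nbr_edge`, `nbr_vertex`, `Cn.res`, `frz_res`, `bd_res`). -/
theorem nbr_of_cn (hT : ∀ s ∈ Z, TT H (Z.erase s)) {d : ℤ} {θ : S → ℝ} {x y : ArtinGroup M × S}
    (hf : Frz M Y H.v Z d x.1) (hθ : Harm M Z (bd M H.v H.β Z d x.1) θ)
    (h : Cn M Z (Tie H d θ) x y) (hn : Nbr M Z (Pos H d θ) x.1 x.2) :
    Nbr M Z (Pos H d θ) y.1 y.2 := by
  induction h with
  | refl => exact hn
  | @tail z y hz hl ih =>
    have hres : Res M Z x.1 z.1 := Cn.res hz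
    obtain ⟨h1, h2, h3, h4, h5 | ⟨h5, h6⟩⟩ := hl
    · by_cases h6 : z.2 = y.2
      · rw [← h5, ← h6]; exact ih
      · rw [← h5] at h4 ⊢
        exact t2_nbr_mono (Finset.erase_subset _ Z) (nbr_edge H h1 h2 h6 (hT _ h1)
          (frz_res H hres hf) (by rw [bd_res H hres]; exact hθ) h3 h4 ih)
    · rw [← h5]
      exact nbr_vertex h6 ih

end Crest.Agent.R175.G
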