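import Crest.Agent.R175.PGT1
import Crest.Agent.R175.PGT2
import Crest.Agent.R175.PGA3

/-! Spherical contexts: connectivity and ties. -/

set_option autoImplicit false
set_option linter.unusedSectionVars false

open Crest.GroupTheory
open scoped Classical

namespace Crest.Agent.R175.G

variable {S : Type} [Fintype S] [DecidableEq S] {M : CoxeterMatrix S} {Y : Finset S}
  (H : HeightData M Y) {Z : Finset S}

/-- `common_base`, `Cn.vertex`, `fold_pos` twice and `cn_apartment`. -/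
theorem h0_sph (hZ : Sph M Z) : H0 H Z := by
  intro d c θ hf hθ c₁ s₁ c₂ s₂ r1 r2 hs₁ hs₂ h₁ h₂
  obtain ⟨T, p₁, p₂, hT, hp₁, hp₂, r3, r4, r5⟩ :=
    common_base H hZ (frz_res H r1 hf) (r1.symm.trans r2) hs₁ hs₂ h₁.1 h₂.1
  have hθ' : SubH M Z (bd M H.v H.β Z d T) θ := by rw [bd_res H (r1.trans r3)]; exact hθ
  obtain ⟨w₁, hw₁, t₁, ht₁, a1, a2⟩ :=
    fold_pos H hZ hp₁ hT hθ' hs₁ (vinv_pos H d θ _ _ s₁ hs₁ r4 h₁)
  obtain ⟨w₂, hw₂, t₂, ht₂, b1, b2⟩ :=
    fold_pos H hZ hp₂ hT hθ' hs₂ (vinv_pos H d θ _ _ s₂ hs₂ r5 h₂)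
  exact (((Cn.vertex (vinv_pos H d θ) hs₁ h₁ r4).trans a2).trans
    (cn_apartment H hZ hT hθ' hw₁ hw₂ ht₁ ht₂ a1 b1)).trans
    ((Cn.vertex (vinv_pos H d θ) hs₂ h₂ r5).trans b2).symm

/-- A tie in an apartment with a low vertex has a low neighbour: `Fam.tie_nbr`, `lft_coset`. -/
theorem nbr_apartment (hZ : Sph M Z) {d : ℤ} {T : ArtinGroup M} {θ : S → ℝ}
    (hT : UU M Y H.v Z d T) (hθ : SubH M Z (bd M H.v H.β Z d T) θ) {x y : M.Group}
    (hx : x ∈ WZ M Z) (hy : y ∈ WZ M Z) {s u : S} (hs : s ∈ Z) (hu : u ∈ Z)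
    (h₀ : Tie H d θ (T * lft M x) s) (h₁ : Pos H d θ (T * lft M y) u) :
    Nbr M Z (Pos H d θ) (T * lft M x) s := by
  obtain ⟨x', u', h1, h2, h3⟩ := (fam_ev H hT hθ).tie_nbr hZ hx hy hs hu
    ((tie_iff_ev H hT hx hs).1 h₀) ((pos_iff_ev H hT hy hu).1 h₁)
  have hx' : x' ∈ WZ M Z := by
    simpa using mul_mem hx (WZ_mono (Finset.erase_subset s Z) h1)
  exact ⟨T * lft M x', u', lft_coset h1 T, h2,
    (pos_iff_ev H hT hx' (Finset.mem_of_mem_erase h2)).2 h3⟩

theorem t3_nbr (hT : ∀ s ∈ Z, TT H (Z.erase s)) {d : ℤ} {θ : S → ℝ} {c c' : ArtinGroup M} {s s' : S}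
    (hf : Frz M Y H.v Z d c) (hθ : Harm M Z (bd M H.v H.β Z d c) θ)
    (h : Cn M Z (Tie H d θ) (c', s') (c, s)) (hn : Nbr M Z (Pos H d θ) c s) :
    Nbr M Z (Pos H d θ) c' s' :=
  nbr_of_cn H hT (x := (c, s)) (y := (c', s')) hf hθ h.symm hn

/-- Folding of ties. Induct on `p = r :: p'` (generalising `T`). The induction hypothesis at `T r` gives a neighbour or a tie
`y = (T r lft w, s')`. If the apartment above `T r` has a low vertex, `nbr_apartment` and `nbr_of_cn` (along the reversed path) give a neighbour. Otherwise `ev ≤ 0`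
there. If `len w < len (r w)` use `lft_shared`. Otherwise `w = r w'`, the mirror vertex `(T r lft w', s')` is a tie by `ev_mirror`, and
`Fam.mirror_conn` (with `antipodal`) and `cn_of_wcn` connect the two; then `lft_shared`. -/
theorem fold_tie (hZ : Sph M Z) (hadj : ∀ r ∈ Z, ∃ u ∈ Z, Adj M r u)
    (hT' : ∀ s ∈ Z, TT H (Z.erase s)) {d : ℤ} {θ : S → ℝ} {p : List S} (hp : InZ Z p)
    {T : ArtinGroup M} (hT : UU M Y H.v Z d T) (hθ : Harm M Z (bd M H.v H.β Z d T) θ) {s : S}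
    (hs : s ∈ Z) (h : Tie H d θ (T * wordA M p) s) :
    Nbr M Z (Pos H d θ) (T * wordA M p) s ∨ ∃ w ∈ WZ M Z, ∃ s' ∈ Z, Tie H d θ (T * lft M w) s' ∧
      Cn M Z (Tie H d θ) (T * wordA M p, s) (T * lft M w, s') := by
  induction p generalizing T with
  | nil =>
    rw [wordA_nil, ← lft_one] at h ⊢
    exact Or.inr ⟨1, one_mem _, s, hs, h, Cn.refl _⟩
  | cons r p ih =>
    have hr : r ∈ Z := hp r (by simp)
    have hrW := simple_mem_WZ M hr
    have hT₁ := uu_up H hT hr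
    have hθ₁ : Harm M Z (bd M H.v H.β Z d (T * artinGen M r)) θ := by
      rw [bd_res H (Res.mul T (artinGen_mem_AZ M hr))]; exact hθ
    rw [wordA_cons, ← mul_assoc] at h ⊢
    rcases ih (fun x hx => hp x (by simp [hx])) hT₁ hθ₁ h with h1 | ⟨w, hw, s', hs', h1, h2⟩
    · exact Or.inl h1
    by_cases hex : ∃ y ∈ WZ M Z, ∃ u ∈ Z, Pos H d θ (T * artinGen M r * lft M y) u
    · obtain ⟨y, hy, u, hu, h3⟩ := hex
      exact Or.inl (t3_nbr H hT' (uu_lft H hT₁ hw).1
        (by rw [bd_res H (res_lft hw _)]; exact hθ₁) h2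
        (nbr_apartment H hZ hT₁ hθ₁.subH hw hy hs' hu h1 h3))
    have hle : ∀ y ∈ WZ M Z, ∀ t, ev H Z d θ (T * artinGen M r) y t ≤ 0 := fun y hy t => by
      by_cases ht : t ∈ Z
      · exact not_lt.1 fun h3 => hex ⟨y, hy, t, ht, (pos_iff_ev H hT₁ hy ht).2 h3⟩
      · exact (if_neg ht).le
    right
    rcases len_simple_mul M w r with hl | hl
    · rw [lft_shared T (by omega)] at h1 h2
      exact ⟨_, mul_mem hrW hw, s', hs', h1, h2⟩
    · obtain ⟨w', rfl⟩ : ∃ w', w = M.simple r * w' :=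
        ⟨M.simple r * w, by rw [← mul_assoc, simple_mul_self, one_mul]⟩
      rw [← mul_assoc, simple_mul_self, one_mul] at hl
      have hw' : w' ∈ WZ M Z := (mul_mem_cancel_left hrW).1 hw
      have hlt : len M w' < len M (M.simple r * w') := by omega
      have e1 := (tie_iff_ev H hT₁ hw hs').1 h1
      have e0 : ev H Z d θ (T * artinGen M r) w' s' = 0 :=
        le_antisymm (hle w' hw' s') (e1.symm.trans_le (ev_mirror H θ hT hr hw' hlt s'))
      have h3 := cn_of_wcn (Q := Tie H d θ) (T * artinGen M r)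
        (fun y hy t ht h4 => (tie_iff_ev H hT₁ hy ht).2 h4)
        ((fam_ev H hT₁ hθ₁.subH).mirror_conn hZ hle hr (hadj r hr)
          (antipodal H hZ hT₁ hθ₁ hr hle) hw' hlt hs' e0 e1)
      have h4 := (tie_iff_ev H hT₁ hw' hs').2 e0
      have h5 := h2.trans h3
      rw [lft_shared T hlt] at h4 h5
      exact ⟨_, hw, s', hs', h4, h5⟩

/-- Strong induction on `Z.card`. Empty: vacuous. Not connected: `tt_clo`. Singleton: `tt_singleton`. Otherwise `exists_adj`;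
`common_base` puts the tie and a low vertex above one `T`, `fold_pos` gives a low vertex in the apartment above `T`, and `fold_tie`,
`nbr_apartment`, `nbr_of_cn`, `nbr_vertex` finish. -/
theorem tt_sph (hZ : Sph M Z) : TT H Z := by
  induction hn : Z.card using Nat.strong_induction_on generalizing Z with
  | _ n ih =>
    have ih' : ∀ J, J ⊂ Z → TT H J := fun J hJ =>
      ih _ (hn ▸ Finset.card_lt_card hJ) (hZ.mono M hJ.1) rfl
    rcases Z.eq_empty_or_nonempty with rfl | hne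
    · intro d c θ s _ _ _ hs
      exact absurd hs (Finset.notMem_empty s)
    by_cases hc : Conn M Z
    swap
    · obtain ⟨J, hJ, ⟨t, ht⟩, h2⟩ := exists_clo_of_not_conn hne hc
      exact tt_clo H hJ (ih' J (Finset.ssubset_iff_subset_ne.2 ⟨hJ.1, h2⟩))
        (ih' _ (Finset.sdiff_ssubset hJ.1 ⟨t, ht⟩))
    by_cases h1 : ∃ r, Z = {r}
    · obtain ⟨r, rfl⟩ := h1
      exact tt_singleton H r
    have hadj : ∀ r ∈ Z, ∃ u ∈ Z, Adj M r u := fun r hr => exists_adj hc hr fun h => h1 ⟨r, h⟩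
    have hT' : ∀ s ∈ Z, TT H (Z.erase s) := fun s hs => ih' _ (Finset.erase_ssubset hs)
    rintro d c θ s hf hθ ⟨c', u, hres, hu, hpos⟩ hs htie
    obtain ⟨T, p₁, p₂, hT, hp₁, hp₂, r3, r4, r5⟩ := common_base H hZ hf hres hs hu htie.1 hpos.1
    have hθ' : Harm M Z (bd M H.v H.β Z d T) θ := by rw [bd_res H r3]; exact hθ
    obtain ⟨y, hy, u', hu', a1, -⟩ :=
      fold_pos H hZ hp₂ hT hθ'.subH hu (vinv_pos H d θ _ _ u hu r5 hpos)
    refine nbr_vertex r4.symm ?_
    rcases fold_tie H hZ hadj hT' hp₁ hT hθ' hs (vinv_tie H d θ _ _ s hs r4 htie) with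
      h2 | ⟨w, hw, s', hs', h2, h3⟩
    · exact h2
    · exact t3_nbr H hT' (uu_lft H hT hw).1
        (by rw [bd_res H (res_lft hw _)]; exact hθ') h3
        (nbr_apartment H hZ hT hθ'.subH hw hy hs' hu' h2 a1)

end Crest.Agent.R175.G
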